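import Vale.Agent.P237.Petty.Cor.Grid.N11.LowCert

/-!
# P237: a cell in dimension 11, subdivisions
-/

namespace Vale.Agent.P237.Petty.Cor.Grid.N11.Low

def covers0 : cell.Covers table row0.1 :=
  ⟨(.cut .d 0 (.cut .v 16777216 (.cut .v 8388608 (.cut .v 4194304 (.pos 4 .mm ⟨0, 0, 25728585, 0, 0, 0, 0, 0, 0, ⟨0, 0⟩, 0⟩ 0 0) (.pos 5 .mm ⟨0, 0, 0, 0, 0, 0, 0, 0, 0, ⟨0, 0⟩, 0⟩ 0 0)) (.cut .d (-8388608) (.cut .v 12582912 (.pos 6 .mm ⟨0, 0, 0, 0, 0, 0, 0, 0, 0, ⟨0, 0⟩, 0⟩ 0 0) (.pos 7 .mm ⟨0, 0, 0, 0, 0, 0, 0, 0, 0, ⟨0, 0⟩, 0⟩ 0 0)) (.cut .v 12582912 (.cut .d (-4194304) (.pos 6 .mm ⟨0, 0, 0, 0, 0, 0, 0, 0, 0, ⟨0, 0⟩, 0⟩ 0 0) (.pos 6 .mm ⟨0, 0, 0, 0, 71453, 0, 0, 0, 0,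 ⟨0, 0⟩, 0⟩ 0 0)) (.cut .d (-4194304) (.cut .v 14680064 (.pos 10 .mm ⟨0, 0, 0, 0, 0, 0, 0, 0, 0, ⟨0, 0⟩, 0⟩ 0 0) (.pos 11 .mm ⟨0, 0, 0, 0, 0, 0, 0, 0, 0, ⟨0, 0⟩, 0⟩ 0 0)) (.cut .d (-2097152) (.cut .v 14680064 (.cut .d (-3145728) (.pos 10 .mm ⟨0, 0, 0, 0, 0, 0, 0, 0, 0, ⟨0, 0⟩, 0⟩ 0 0) (.pos 10 .mm ⟨0, 0, 0, 0, 0, 0, 0, 0, 0, ⟨0, 0⟩, 0⟩ 0 0)) (.cut .v 15728640 (.pos 14 .mm ⟨0, 0, 0, 0, 0, 0, 0, 0, 0, ⟨0, 0⟩, 0⟩ 0 0) (.pos 15 .mm ⟨0, 0, 0, 0, 0, 0, 0, 0, 0, ⟨0, 0⟩, 0⟩ 0 0))) (.cut .v 14680064 (.pos 10 .mm ⟨0, 0, 0, 0, 492085, 0, 0, 0, 0, ⟨0, 0⟩, 0⟩ 0 0) (.cut .d (-1048576) (.cut .v 15728640 (.cut .d (-1572864) (.pos 14 .mm ⟨0, 0, 0, 0, 0, 0, 0, 0, 0, ⟨0, 0⟩, 0⟩ 0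 0) (.cut .v 15204352 (.pos 16 .mm ⟨0, 0, 0, 0, 0, 0, 0, 0, 0, ⟨0, 0⟩, 0⟩ 0 0) (.cut .d (-1310720) (.pos 17 .mm ⟨0, 0, 0, 0, 0, 0, 0, 0, 0, ⟨0, 0⟩, 0⟩ 0 0) (.pos 17 .mm ⟨0, 0, 0, 0, 0, 0, 0, 0, 0, ⟨0, 0⟩, 0⟩ 0 0)))) (.pos 15 .mm ⟨0, 0, 0, 0, 0, 0, 0, 0, 0, ⟨0, 0⟩, 0⟩ 0 0)) (.cut .v 15728640 (.pos 14 .mm ⟨0, 0, 0, 0, 0, 0, 0, 0, 0, ⟨0, 0⟩, 0⟩ 0 0) (.cut .l 1159153 (.cut .d (-524288) (.cut .v 16252928 (.cut .d (-786432) (.pos 20 .mm ⟨0, 0, 0, 0, 0, 0, 0, 0, 0, ⟨0, 0⟩, 0⟩ 0 0) (.pos 20 .mm ⟨0, 0, 0, 0, 0, 0, 0, 0, 0, ⟨0, 0⟩, 0⟩ 0 0)) (.pos 21 .mm ⟨0, 0, 0, 0, 0, 0, 0, 0, 0, ⟨0, 0⟩, 0⟩ 0 0)) (.cut .v 16252928 (.pos 20 .mm ⟨0, 0, 0, 0, 0, 0, 0, 0, 0, ⟨0, 0⟩, 0⟩ 0 0)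 (.cut .d (-262144) (.pos 21 .mm ⟨0, 0, 0, 0, 0, 0, 0, 0, 0, ⟨0, 0⟩, 0⟩ 0 0) (.pos 21 .mm ⟨0, 0, 0, 0, 0, 0, 0, 0, 0, ⟨0, 0⟩, 0⟩ 0 0)))) (.pos 15 .mm ⟨0, 0, 0, 0, 0, 0, 0, 0, 0, ⟨0, 0⟩, 0⟩ 0 0)))))))))) (.cut .v 25165824 (.cut .v 20971520 (.cut .v 18874368 (.pos 31 .mp ⟨0, 0, 0, 0, 0, 0, 125538, 0, 0, ⟨0, 0⟩, 0⟩ 0 0) (.pos 32 .mp ⟨1924429, 0, 0, 0, 0, 0, 0, 0, 0, ⟨0, 0⟩, 0⟩ 0 0)) (.void 30 ⟨0, 0, 0, 0, 0, 0, 100000, 0, 0, ⟨0, 0⟩, 0⟩ 0 0)) (.void 28 ⟨0, 0, 0, 0, 0, 0, 100000, 0, 0, ⟨0, 0⟩, 0⟩ 0 0))) (.cut .v 16777216 (.cut .v 8388608 (.cut .v 4194304 (.pos 4 .pm ⟨0, 0, 26639459, 0, 0, 0, 0, 0, 0, ⟨0, 0⟩, 0⟩ 0 0) (.pos 5 .pm ⟨0, 0, 0, 0, 1290411, 0, 0, 0, 0, ⟨0, 0⟩,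 0⟩ 0 0)) (.cut .s 851968 (.pos 3 .pm ⟨0, 0, 0, 0, 369967, 0, 0, 0, 0, ⟨0, 0⟩, 0⟩ 0 0) (.cut .s 1277952 (.pos 3 .pm ⟨0, 0, 0, 0, 646569, 0, 0, 8487, 0, ⟨17709, 16356454⟩, 0⟩ 13 23) (.cut .d 1269869 (.cut .d 634934 (.cut .d 317467 (.cut .d 158733 (.cut .d 79366 (.cut .v 12582912 (.void 6 ⟨0, 0, 0, 0, 100000, 0, 0, 0, 0, ⟨0, 0⟩, 0⟩ 0 0) (.cut .v 14680064 (.void 10 ⟨0, 0, 0, 0, 100000, 0, 0, 0, 0, ⟨0, 0⟩, 0⟩ 0 0) (.cut .v 15728640 (.void 14 ⟨0, 0, 0, 0, 100000, 0, 0, 0, 0, ⟨0, 0⟩, 0⟩ 0 0) (.pos 15 .pm ⟨0, 0, 0, 0, 0, 0, 0, 0, 0, ⟨0, 0⟩, 0⟩ 0 0)))) (.pos 3 .pm ⟨0, 0, 0, 0, 161556, 0, 0, 0, 0, ⟨0, 0⟩, 0⟩ 0 0)) (.pos 3 .pm ⟨0, 0, 0, 0, 0, 0, 0, 0, 0, ⟨0, 0⟩, 0⟩ 0 0))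 (.pos 3 .pm ⟨0, 0, 0, 0, 0, 0, 0, 0, 0, ⟨0, 0⟩, 0⟩ 0 0)) (.pos 3 .pm ⟨0, 0, 0, 0, 0, 0, 0, 3030355, 0, ⟨43840, 16046528⟩, 0⟩ 20 28)) (.void 3 ⟨0, 0, 0, 0, 100000, 0, 0, 0, 0, ⟨0, 0⟩, 0⟩ 0 0))))) (.cut .v 25165824 (.cut .v 20971520 (.cut .v 18874368 (.cut .d 1269869 (.cut .v 17825792 (.cut .d 634934 (.cut .v 17301504 (.cut .d 317467 (.pos 35 .pp ⟨0, 0, 0, 0, 0, 0, 0, 0, 0, ⟨0, 0⟩, 0⟩ 0 0) (.pos 35 .pp ⟨0, 0, 0, 0, 0, 0, 0, 742367, 0, ⟨(-1), 16470186⟩, 0⟩ 0 27)) (.pos 36 .pp ⟨1683307, 0, 0, 0, 0, 0, 0, 0, 0, ⟨0, 0⟩, 0⟩ 0 0)) (.pos 33 .pp ⟨929049, 0, 0, 0, 0, 0, 0, 1360139, 0, ⟨(-1), 16447360⟩, 0⟩ 0 28)) (.pos 34 .pp ⟨1796857, 0, 0, 0, 0, 0, 0, 0, 0, ⟨0, 0⟩, 0⟩ 0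 0)) (.cut .d 1904803 (.pos 31 .pp ⟨1561281, 0, 0, 0, 0, 0, 0, 0, 244128, ⟨0, 0⟩, 17278579⟩ 0 0) (.pos 31 .pp ⟨1924429, 0, 0, 0, 0, 0, 0, 0, 0, ⟨0, 0⟩, 0⟩ 0 0))) (.cut .d 1269869 (.pos 32 .pp ⟨1924429, 0, 0, 0, 0, 0, 0, 0, 0, ⟨0, 0⟩, 0⟩ 0 0) (.cut .d 1904803 (.pos 32 .pp ⟨2590382, 0, 0, 0, 0, 0, 0, 0, 0, ⟨0, 0⟩, 0⟩ 0 0) (.pos 32 .pp ⟨4354108, 0, 0, 0, 0, 0, 0, 162973, 0, ⟨(-1), 16399368⟩, 0⟩ 0 30)))) (.void 30 ⟨0, 0, 0, 0, 0, 0, 100000, 0, 0, ⟨0, 0⟩, 0⟩ 0 0)) (.void 28 ⟨0, 0, 0, 0, 0, 0, 100000, 0, 0, ⟨0, 0⟩, 0⟩ 0 0)))),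
    by decide +kernel⟩

def covers1 : cell.Covers table row1.1 :=
  ⟨(.cut .d 0 (.cut .v 16777216 (.cut .v 8388608 (.void 2 ⟨0, 0, 0, 0, 50000, 50000, 0, 0, 0, ⟨0, 0⟩, 0⟩ 0 0) (.cut .d (-8388608) (.void 3 ⟨0, 0, 0, 0, 0, 100000, 0, 0, 0, ⟨0, 0⟩, 0⟩ 0 0) (.cut .v 12582912 (.cut .d (-4194304) (.pos 6 .mm ⟨0, 0, 0, 0, 0, 799265, 0, 0, 0, ⟨0, 0⟩, 0⟩ 0 0) (.pos 6 .mm ⟨0, 0, 0, 0, 3622111, 687587, 0, 0, 0, ⟨0, 0⟩, 0⟩ 0 0)) (.cut .d (-4194304) (.pos 7 .mm ⟨0, 0, 0, 0, 0, 888072, 0, 0, 0, ⟨0, 0⟩, 0⟩ 0 0) (.cut .d (-2097152) (.cut .v 14680064 (.pos 10 .mm ⟨0, 0, 0, 0, 0, 888072, 0, 0, 0, ⟨0, 0⟩, 0⟩ 0 0) (.pos 11 .mm ⟨0, 0, 0, 0, 0, 976879, 0, 0, 0, ⟨0, 0⟩, 0⟩ 0 0)) (.cut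 .v 14680064 (.pos 10 .mm ⟨0, 0, 0, 0, 201041, 784032, 0, 0, 0, ⟨0, 0⟩, 0⟩ 0 0) (.cut .d (-1048576) (.cut .v 15728640 (.pos 14 .mm ⟨0, 0, 0, 0, 0, 976879, 0, 0, 0, ⟨0, 0⟩, 0⟩ 0 0) (.pos 15 .mm ⟨0, 0, 0, 0, 0, 1001585, 0, 0, 0, ⟨0, 0⟩, 0⟩ 0 0)) (.cut .v 15728640 (.cut .d (-524288) (.pos 14 .mm ⟨0, 0, 0, 0, 0, 0, 0, 0, 0, ⟨0, 0⟩, 0⟩ 0 0) (.pos 14 .mm ⟨0, 0, 0, 0, 0, 526817, 0, 0, 0, ⟨0, 0⟩, 0⟩ 0 0)) (.cut .l 1159153 (.cut .d (-524288) (.cut .v 16252928 (.pos 20 .mm ⟨0, 0, 0, 0, 0, 0, 0, 0, 0, ⟨0, 0⟩, 0⟩ 0 0) (.pos 21 .mm ⟨0, 0, 0, 0, 0, 0, 0, 0, 0, ⟨0, 0⟩, 0⟩ 0 0)) (.cut .v 16252928 (.pos 20 .mm ⟨0, 0, 0, 0, 0, 0, 0, 0, 0, ⟨0, 0⟩, 0⟩ 0 0) (.cut .d (-262144) (.pos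 21 .mm ⟨0, 0, 0, 0, 0, 0, 0, 0, 0, ⟨0, 0⟩, 0⟩ 0 0) (.pos 21 .mm ⟨0, 0, 0, 0, 0, 0, 0, 0, 0, ⟨0, 0⟩, 0⟩ 0 0)))) (.pos 15 .mm ⟨0, 0, 0, 0, 0, 0, 0, 0, 0, ⟨0, 0⟩, 0⟩ 0 0)))))))))) (.cut .v 25165824 (.cut .v 20971520 (.cut .v 18874368 (.pos 31 .mp ⟨0, 0, 0, 0, 0, 0, 0, 0, 0, ⟨0, 0⟩, 0⟩ 0 0) (.pos 32 .mp ⟨1862081, 0, 0, 0, 0, 0, 0, 0, 0, ⟨0, 0⟩, 0⟩ 0 0)) (.void 30 ⟨100000, 0, 0, 0, 0, 0, 0, 0, 0, ⟨0, 0⟩, 0⟩ 0 0)) (.void 28 ⟨0, 0, 0, 0, 0, 0, 100000, 0, 0, ⟨0, 0⟩, 0⟩ 0 0))) (.cut .v 16777216 (.cut .v 8388608 (.void 2 ⟨0, 0, 0, 0, 100000, 0, 0, 0, 0, ⟨0, 0⟩, 0⟩ 0 0) (.cut .v 12582912 (.void 6 ⟨0, 0, 0, 0, 100000, 0, 0, 0, 0, ⟨0, 0⟩, 0⟩ 0 0) (.cut .v 14680064 (.void 10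 ⟨0, 0, 0, 0, 100000, 0, 0, 0, 0, ⟨0, 0⟩, 0⟩ 0 0) (.cut .d 1739866 (.cut .v 15728640 (.pos 14 .pm ⟨0, 0, 0, 0, 0, 0, 0, 0, 0, ⟨0, 0⟩, 0⟩ 0 0) (.cut .d 869933 (.cut .d 434966 (.cut .v 16252928 (.pos 20 .pm ⟨0, 0, 0, 0, 0, 0, 0, 0, 0, ⟨0, 0⟩, 0⟩ 0 0) (.pos 21 .pm ⟨0, 0, 0, 0, 0, 0, 0, 0, 0, ⟨0, 0⟩, 0⟩ 0 0)) (.pos 15 .pm ⟨0, 0, 0, 0, 0, 0, 0, 851593, 0, ⟨150525, 15010125⟩, 0⟩ 26 49)) (.pos 15 .pm ⟨0, 0, 0, 0, 0, 0, 0, 0, 1195130, ⟨0, 0⟩, 16508694⟩ 0 0))) (.void 11 ⟨0, 0, 0, 0, 0, 0, 0, 0, 100000, ⟨0, 0⟩, 16226390⟩ 0 0))))) (.cut .v 25165824 (.cut .v 20971520 (.cut .d 1739866 (.cut .v 18874368 (.cut .d 869933 (.cut .v 17825792 (.cut .l 1159153 (.cut .l 747348 (.cut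 .d 434966 (.cut .v 17301504 (.cut .d 217483 (.pos 35 .pp ⟨0, 0, 0, 0, 0, 0, 0, 0, 0, ⟨0, 0⟩, 0⟩ 0 0) (.pos 35 .pp ⟨0, 0, 0, 0, 0, 0, 0, 0, 0, ⟨0, 0⟩, 0⟩ 0 0)) (.pos 36 .pp ⟨1532885, 0, 0, 0, 0, 0, 0, 0, 0, ⟨0, 0⟩, 0⟩ 0 0)) (.cut .v 17301504 (.pos 35 .pp ⟨19605, 0, 0, 0, 0, 0, 0, 518065, 0, ⟨150525, 15010125⟩, 0⟩ 26 49) (.pos 36 .pp ⟨1002901, 0, 0, 0, 0, 0, 0, 266881, 0, ⟨150525, 15010125⟩, 0⟩ 26 49))) (.pos 33 .pp ⟨0, 0, 0, 0, 0, 0, 0, 0, 0, ⟨0, 0⟩, 0⟩ 0 0)) (.pos 33 .pp ⟨0, 0, 0, 0, 0, 0, 0, 0, 0, ⟨0, 0⟩, 0⟩ 0 0)) (.pos 34 .pp ⟨1391285, 0, 0, 0, 0, 0, 0, 0, 0, ⟨0, 0⟩, 0⟩ 0 0)) (.cut .v 17825792 (.pos 33 .pp ⟨302041, 0, 0, 0, 0, 0, 0, 726030, 259673, ⟨168419, 14873312⟩,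 17033431⟩ 27 51) (.pos 34 .pp ⟨1287704, 0, 0, 0, 0, 0, 0, 0, 0, ⟨0, 0⟩, 0⟩ 0 0))) (.pos 32 .pp ⟨1751526, 0, 0, 0, 0, 0, 0, 0, 0, ⟨0, 0⟩, 0⟩ 0 0)) (.cut .v 18874368 (.pos 31 .pp ⟨0, 0, 0, 0, 0, 0, 0, 2696587, 0, ⟨204319, 14579291⟩, 0⟩ 28 56) (.cut .l 1159153 (.pos 32 .pp ⟨113523543576, 0, 0, 0, 0, 0, 0, 54248616424, 0, ⟨204319, 14579291⟩, 0⟩ 28 56) (.cut .d 2609799 (.cut .v 19922944 (.cut .s 2359296 (.pos 39 .pp ⟨2183322, 0, 0, 0, 0, 0, 0, 1515312, 0, ⟨130939, 15250194⟩, 0⟩ 28 42) (.pos 39 .pp ⟨1162210, 0, 0, 0, 0, 0, 0, 1562944, 0, ⟨300883, 14170880⟩, 0⟩ 39 54)) (.void 40 ⟨68311, 0, 0, 0, 0, 0, 0, 31689, 0, ⟨193103, 14681836⟩, 0⟩ 28 54)) (.cut .s 2359296 (.void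 32 ⟨0, 0, 0, 0, 0, 0, 0, 100000, 0, ⟨154549, 15080539⟩, 0⟩ 30 44) (.void 32 ⟨0, 0, 0, 0, 0, 0, 0, 100000, 0, ⟨339747, 13960192⟩, 0⟩ 41 56)))))) (.void 30 ⟨68786, 0, 0, 0, 0, 0, 0, 31214, 0, ⟨185582, 14664942⟩, 0⟩ 26 56)) (.void 28 ⟨0, 0, 0, 0, 0, 0, 100000, 0, 0, ⟨0, 0⟩, 0⟩ 0 0)))),
    by decide +kernel⟩

def covers2 : cell.Covers table row2.1 :=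
  ⟨(.cut .d 0 (.cut .v 16777216 (.cut .v 8388608 (.void 2 ⟨0, 0, 0, 0, 50000, 50000, 0, 0, 0, ⟨0, 0⟩, 0⟩ 0 0) (.cut .v 12582912 (.pos 6 .mm ⟨0, 0, 0, 0, 0, 12145680, 0, 0, 0, ⟨0, 0⟩, 0⟩ 0 0) (.cut .d (-8388608) (.void 7 ⟨0, 0, 0, 0, 0, 100000, 0, 0, 0, ⟨0, 0⟩, 0⟩ 0 0) (.cut .d (-4194304) (.void 7 ⟨0, 0, 0, 0, 0, 100000, 0, 0, 0, ⟨0, 0⟩, 0⟩ 0 0) (.cut .d (-2097152) (.cut .v 14680064 (.pos 10 .mm ⟨0, 0, 0, 0, 0, 968433, 0, 0, 0, ⟨0, 0⟩, 0⟩ 0 0) (.pos 11 .mm ⟨0, 0, 0, 0, 0, 828431, 0, 0, 0, ⟨0, 0⟩, 0⟩ 0 0)) (.cut .v 14680064 (.pos 10 .mm ⟨0, 0, 0, 0, 0, 346949, 0, 0, 0, ⟨0, 0⟩, 0⟩ 0 0) (.cut .d (-1048576) (.cut .v 15728640 (.pos 14 .mm ⟨0, 0, 0, 0, 0, 459620, 0, 0,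 0, ⟨0, 0⟩, 0⟩ 0 0) (.pos 15 .mm ⟨0, 0, 0, 0, 0, 545558, 0, 0, 0, ⟨0, 0⟩, 0⟩ 0 0)) (.cut .v 15728640 (.cut .d (-524288) (.pos 14 .mm ⟨0, 0, 0, 0, 0, 390284, 0, 0, 0, ⟨0, 0⟩, 0⟩ 0 0) (.pos 14 .mm ⟨0, 0, 0, 0, 0, 0, 0, 0, 0, ⟨0, 0⟩, 0⟩ 0 0)) (.cut .d (-524288) (.pos 15 .mm ⟨0, 0, 0, 0, 0, 475910, 0, 0, 0, ⟨0, 0⟩, 0⟩ 0 0) (.cut .v 16252928 (.cut .d (-262144) (.pos 20 .mm ⟨0, 0, 0, 0, 0, 0, 0, 0, 0, ⟨0, 0⟩, 0⟩ 0 0) (.pos 20 .mm ⟨0, 0, 0, 0, 0, 0, 0, 0, 0, ⟨0, 0⟩, 0⟩ 0 0)) (.pos 21 .mm ⟨0, 0, 0, 0, 0, 0, 0, 0, 0, ⟨0, 0⟩, 0⟩ 0 0))))))))))) (.cut .v 25165824 (.cut .v 20971520 (.pos 29 .mp ⟨0, 0, 0, 0, 0, 0, 0, 0, 0, ⟨0, 0⟩, 0⟩ 0 0) (.void 30 ⟨100000, 0, 0, 0, 0, 0, 0,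 0, 0, ⟨0, 0⟩, 0⟩ 0 0)) (.void 28 ⟨100000, 0, 0, 0, 0, 0, 0, 0, 0, ⟨0, 0⟩, 0⟩ 0 0))) (.cut .v 16777216 (.cut .v 8388608 (.void 2 ⟨0, 0, 0, 0, 100000, 0, 0, 0, 0, ⟨0, 0⟩, 0⟩ 0 0) (.cut .v 12582912 (.void 6 ⟨0, 0, 0, 0, 100000, 0, 0, 0, 0, ⟨0, 0⟩, 0⟩ 0 0) (.cut .d 2196999 (.cut .v 14680064 (.pos 10 .pm ⟨0, 0, 0, 0, 0, 0, 0, 0, 376159, ⟨0, 0⟩, 15100357⟩ 0 0) (.cut .d 1098499 (.cut .v 15728640 (.pos 14 .pm ⟨0, 0, 0, 0, 0, 0, 0, 0, 0, ⟨0, 0⟩, 0⟩ 0 0) (.cut .d 549249 (.cut .v 16252928 (.pos 20 .pm ⟨0, 0, 0, 0, 0, 0, 0, 0, 0, ⟨0, 0⟩, 0⟩ 0 0) (.cut .d 274624 (.pos 21 .pm ⟨0, 0, 0, 0, 0, 0, 0, 0, 0, ⟨0, 0⟩, 0⟩ 0 0) (.pos 21 .pm ⟨0, 0, 0, 0, 0, 0, 0, 0, 0, ⟨0, 0⟩, 0⟩ 0 0)))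 (.pos 15 .pm ⟨0, 0, 0, 0, 0, 0, 0, 399090, 0, ⟨473605, 13292168⟩, 0⟩ 47 62))) (.pos 11 .pm ⟨0, 0, 0, 0, 0, 0, 0, 399090, 0, ⟨547391, 12936704⟩, 0⟩ 49 66))) (.void 7 ⟨0, 0, 0, 0, 0, 0, 0, 0, 100000, ⟨0, 0⟩, 15612959⟩ 0 0)))) (.cut .v 25165824 (.cut .v 20971520 (.cut .d 2196999 (.cut .v 18874368 (.cut .d 1098499 (.cut .v 17825792 (.cut .d 549249 (.cut .v 17301504 (.pos 35 .pp ⟨0, 0, 0, 0, 0, 0, 0, 0, 0, ⟨0, 0⟩, 0⟩ 0 0) (.pos 36 .pp ⟨0, 0, 0, 0, 0, 0, 0, 563733, 0, ⟨438950, 13465600⟩, 0⟩ 46 60)) (.pos 33 .pp ⟨0, 0, 0, 0, 0, 0, 0, 444724, 0, ⟨473605, 13292168⟩, 0⟩ 47 62)) (.pos 34 .pp ⟨0, 0, 0, 0, 0, 0, 0, 664091, 0, ⟨460075, 13348032⟩, 0⟩ 46 62)) (.cut .v 17825792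 (.pos 33 .pp ⟨0, 0, 0, 0, 0, 0, 0, 465357, 0, ⟨547391, 12936704⟩, 0⟩ 49 66) (.pos 34 .pp ⟨0, 0, 0, 0, 0, 0, 0, 725742, 0, ⟨547391, 12936704⟩, 0⟩ 49 66))) (.pos 32 .pp ⟨425401, 0, 0, 0, 0, 0, 0, 892203, 0, ⟨503154, 13108288⟩, 0⟩ 46 66)) (.cut .v 18874368 (.pos 31 .pp ⟨0, 0, 0, 0, 0, 0, 0, 819389, 0, ⟨695160, 12256523⟩, 0⟩ 52 74) (.cut .d 3295498 (.cut .d 2746248 (.pos 32 .pp ⟨0, 0, 0, 0, 0, 0, 0, 1944390, 0, ⟨617946, 12636656⟩, 0⟩ 52 68) (.void 32 ⟨0, 0, 0, 0, 0, 0, 0, 100000, 0, ⟨659902, 12450921⟩, 0⟩ 53 70)) (.void 32 ⟨0, 0, 0, 0, 0, 0, 0, 100000, 0, ⟨748229, 12072933⟩, 0⟩ 55 74)))) (.void 30 ⟨59465, 0, 0, 0, 0, 0, 0, 40535, 0, ⟨592208, 12612681⟩, 0⟩ 46 74)) (.void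 28 ⟨0, 0, 0, 0, 0, 0, 100000, 0, 0, ⟨0, 0⟩, 0⟩ 0 0)))),
    by decide +kernel⟩

def covers3 : cell.Covers table row3.1 :=
  ⟨(.cut .d 0 (.cut .v 16777216 (.cut .v 8388608 (.void 2 ⟨0, 0, 0, 0, 50000, 50000, 0, 0, 0, ⟨0, 0⟩, 0⟩ 0 0) (.cut .v 12582912 (.pos 6 .mm ⟨0, 0, 0, 0, 0, 8343376, 0, 0, 0, ⟨0, 0⟩, 0⟩ 0 0) (.cut .d (-8388608) (.void 7 ⟨0, 0, 0, 0, 0, 100000, 0, 0, 0, ⟨0, 0⟩, 0⟩ 0 0) (.cut .d (-4194304) (.void 7 ⟨0, 0, 0, 0, 0, 100000, 0, 0, 0, ⟨0, 0⟩, 0⟩ 0 0) (.cut .d (-2097152) (.void 7 ⟨0, 0, 0, 0, 0, 100000, 0, 0, 0, ⟨0, 0⟩, 0⟩ 0 0) (.cut .v 14680064 (.pos 10 .mm ⟨0, 0, 0, 0, 0, 333110, 0, 0, 0, ⟨0, 0⟩, 0⟩ 0 0) (.cut .d (-1048576) (.cut .v 15728640 (.pos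 14 .mm ⟨0, 0, 0, 0, 0, 363452, 0, 0, 0, ⟨0, 0⟩, 0⟩ 0 0) (.pos 15 .mm ⟨0, 0, 0, 0, 0, 371713, 0, 0, 0, ⟨0, 0⟩, 0⟩ 0 0)) (.cut .v 15728640 (.cut .d (-524288) (.pos 14 .mm ⟨0, 0, 0, 0, 0, 355708, 0, 0, 0, ⟨0, 0⟩, 0⟩ 0 0) (.pos 14 .mm ⟨0, 0, 0, 0, 0, 362403, 0, 0, 0, ⟨0, 0⟩, 0⟩ 0 0)) (.cut .d (-524288) (.pos 15 .mm ⟨0, 0, 0, 0, 0, 379973, 0, 0, 0, ⟨0, 0⟩, 0⟩ 0 0) (.cut .v 16252928 (.cut .d (-262144) (.pos 20 .mm ⟨0, 0, 0, 0, 0, 0, 0, 0, 0, ⟨0, 0⟩, 0⟩ 0 0) (.pos 20 .mm ⟨0, 0, 0, 0, 0, 0, 0, 0, 0, ⟨0, 0⟩, 0⟩ 0 0)) (.pos 21 .mm ⟨0, 0, 0, 0, 0, 0, 0, 0, 0, ⟨0, 0⟩, 0⟩ 0 0))))))))))) (.cut .v 25165824 (.cut .v 20971520 (.pos 29 .mp ⟨0, 0, 0, 0, 0, 0, 0, 0, 0, ⟨0, 0⟩, 0⟩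 0 0) (.void 30 ⟨100000, 0, 0, 0, 0, 0, 0, 0, 0, ⟨0, 0⟩, 0⟩ 0 0)) (.void 28 ⟨100000, 0, 0, 0, 0, 0, 0, 0, 0, ⟨0, 0⟩, 0⟩ 0 0))) (.cut .v 16777216 (.cut .v 8388608 (.void 2 ⟨0, 0, 0, 0, 100000, 0, 0, 0, 0, ⟨0, 0⟩, 0⟩ 0 0) (.cut .v 12582912 (.void 6 ⟨0, 0, 0, 0, 100000, 0, 0, 0, 0, ⟨0, 0⟩, 0⟩ 0 0) (.cut .d 2737195 (.cut .v 14680064 (.pos 10 .pm ⟨0, 0, 0, 0, 0, 0, 0, 0, 0, ⟨0, 0⟩, 0⟩ 0 0) (.cut .d 1368597 (.cut .v 15728640 (.pos 14 .pm ⟨0, 0, 0, 0, 0, 0, 0, 0, 0, ⟨0, 0⟩, 0⟩ 0 0) (.cut .d 684298 (.cut .v 16252928 (.pos 20 .pm ⟨0, 0, 0, 0, 0, 0, 0, 0, 0, ⟨0, 0⟩, 0⟩ 0 0) (.cut .d 342149 (.pos 21 .pm ⟨0, 0, 0, 0, 0, 0, 0, 0, 0, ⟨0, 0⟩, 0⟩ 0 0) (.pos 21 .pm ⟨0, 0, 0, 0,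 0, 0, 0, 0, 0, ⟨0, 0⟩, 0⟩ 0 0))) (.pos 15 .pm ⟨0, 0, 0, 0, 0, 0, 0, 335752, 0, ⟨854090, 11694336⟩, 0⟩ 60 75))) (.pos 11 .pm ⟨0, 0, 0, 0, 0, 0, 0, 371910, 0, ⟨987872, 11168741⟩, 0⟩ 62 81))) (.void 7 ⟨0, 0, 0, 0, 0, 0, 0, 0, 100000, ⟨0, 0⟩, 15612959⟩ 0 0)))) (.cut .v 25165824 (.cut .v 20971520 (.cut .d 2737195 (.cut .v 18874368 (.cut .d 1368597 (.cut .v 17825792 (.cut .d 684298 (.cut .d 342149 (.pos 33 .pp ⟨0, 0, 0, 0, 0, 0, 0, 0, 0, ⟨0, 0⟩, 0⟩ 0 0) (.pos 33 .pp ⟨0, 0, 0, 0, 0, 0, 0, 341777, 0, ⟨790512, 11952994⟩, 0⟩ 59 72)) (.pos 33 .pp ⟨0, 0, 0, 0, 0, 0, 0, 342747, 0, ⟨854090, 11694336⟩, 0⟩ 60 75)) (.pos 34 .pp ⟨229030, 0, 0, 0, 0, 0, 0, 213908, 0, ⟨817013, 11820890⟩,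 0⟩ 58 75)) (.cut .v 17825792 (.pos 33 .pp ⟨0, 0, 0, 0, 0, 0, 0, 349742, 0, ⟨987872, 11168741⟩, 0⟩ 62 81) (.pos 34 .pp ⟨0, 0, 0, 0, 0, 0, 0, 440641, 0, ⟨987872, 11168741⟩, 0⟩ 62 81))) (.cut .d 1368597 (.pos 32 .pp ⟨533609, 0, 0, 0, 0, 0, 0, 0, 0, ⟨0, 0⟩, 0⟩ 0 0) (.pos 32 .pp ⟨0, 0, 0, 0, 0, 0, 0, 465583, 0, ⟨987872, 11168741⟩, 0⟩ 62 81))) (.cut .v 18874368 (.pos 31 .pp ⟨0, 0, 0, 0, 0, 0, 0, 377721, 0, ⟨1286103, 10097653⟩, 0⟩ 67 92) (.cut .d 4105792 (.cut .s 4161536 (.pos 32 .pp ⟨0, 0, 0, 0, 0, 0, 0, 5276454, 0, ⟨1073907, 10908435⟩, 0⟩ 67 80) (.pos 32 .pp ⟨0, 0, 0, 0, 0, 0, 0, 3979376, 0, ⟨1314671, 10102409⟩, 0⟩ 73 86)) (.void 32 ⟨0, 0, 0, 0, 0, 0, 0, 100000, 0,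 ⟨1406730, 9761996⟩, 0⟩ 72 92)))) (.cut .d 2737195 (.pos 30 .pp ⟨4305073, 0, 0, 0, 0, 0, 0, 0, 0, ⟨0, 0⟩, 0⟩ 0 0) (.cut .d 4105792 (.pos 30 .pp ⟨461228, 0, 0, 0, 0, 0, 0, 11386476, 0, ⟨1179729, 10504097⟩, 0⟩ 67 86) (.void 30 ⟨0, 0, 0, 0, 0, 0, 0, 100000, 0, ⟨1406730, 9761996⟩, 0⟩ 72 92)))) (.void 28 ⟨0, 0, 0, 0, 0, 0, 100000, 0, 0, ⟨0, 0⟩, 0⟩ 0 0)))),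
    by decide +kernel⟩

def covers4 : cell.Covers table row4.1 :=
  ⟨(.cut .d 0 (.cut .v 16777216 (.cut .v 8388608 (.void 2 ⟨0, 0, 0, 0, 50000, 50000, 0, 0, 0, ⟨0, 0⟩, 0⟩ 0 0) (.cut .v 12582912 (.pos 6 .mm ⟨0, 0, 0, 0, 0, 5932028, 0, 0, 0, ⟨0, 0⟩, 0⟩ 0 0) (.cut .d (-8388608) (.void 7 ⟨0, 0, 0, 0, 0, 100000, 0, 0, 0, ⟨0, 0⟩, 0⟩ 0 0) (.cut .d (-4194304) (.void 7 ⟨0, 0, 0, 0, 0, 100000, 0, 0, 0, ⟨0, 0⟩, 0⟩ 0 0) (.cut .d (-2097152) (.void 7 ⟨0, 0, 0, 0, 0, 100000, 0, 0, 0, ⟨0, 0⟩, 0⟩ 0 0) (.cut .v 14680064 (.pos 10 .mm ⟨0, 0, 0, 0, 0, 337243, 0, 0, 0, ⟨0, 0⟩, 0⟩ 0 0) (.cut .v 15728640 (.cut .d (-1048576) (.pos 14 .mm ⟨0, 0, 0, 0, 0, 397430, 0, 0, 0, ⟨0, 0⟩, 0⟩ 0 0)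 (.pos 14 .mm ⟨0, 0, 0, 0, 0, 364800, 0, 0, 0, ⟨0, 0⟩, 0⟩ 0 0)) (.cut .d (-1048576) (.pos 15 .mm ⟨0, 0, 0, 0, 0, 420577, 0, 0, 0, ⟨0, 0⟩, 0⟩ 0 0) (.cut .v 16252928 (.cut .d (-524288) (.pos 20 .mm ⟨0, 0, 0, 0, 0, 365347, 0, 0, 0, ⟨0, 0⟩, 0⟩ 0 0) (.pos 20 .mm ⟨0, 0, 0, 0, 0, 130240, 0, 0, 0, ⟨0, 0⟩, 0⟩ 0 0)) (.pos 21 .mm ⟨0, 0, 0, 0, 0, 0, 0, 0, 0, ⟨0, 0⟩, 0⟩ 0 0)))))))))) (.cut .v 25165824 (.cut .v 20971520 (.pos 29 .mp ⟨0, 0, 0, 0, 0, 0, 0, 0, 0, ⟨0, 0⟩, 0⟩ 0 0) (.void 30 ⟨100000, 0, 0, 0, 0, 0, 0, 0, 0, ⟨0, 0⟩, 0⟩ 0 0)) (.void 28 ⟨100000, 0, 0, 0, 0, 0, 0, 0, 0, ⟨0, 0⟩, 0⟩ 0 0))) (.cut .v 16777216 (.cut .v 8388608 (.void 2 ⟨0, 0, 0, 0, 100000, 0, 0, 0, 0, ⟨0, 0⟩,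 0⟩ 0 0) (.cut .v 12582912 (.pos 6 .pm ⟨0, 0, 0, 0, 0, 0, 0, 0, 292036, ⟨0, 0⟩, 13128881⟩ 0 0) (.cut .d 3443093 (.cut .v 14680064 (.pos 10 .pm ⟨0, 0, 0, 0, 0, 0, 0, 0, 0, ⟨0, 0⟩, 0⟩ 0 0) (.cut .d 1721546 (.cut .d 860773 (.cut .v 15728640 (.pos 14 .pm ⟨0, 0, 0, 0, 0, 0, 0, 0, 0, ⟨0, 0⟩, 0⟩ 0 0) (.cut .d 430386 (.cut .v 16252928 (.pos 20 .pm ⟨0, 0, 0, 0, 0, 0, 0, 0, 0, ⟨0, 0⟩, 0⟩ 0 0) (.pos 21 .pm ⟨0, 0, 0, 0, 0, 0, 0, 0, 0, ⟨0, 0⟩, 0⟩ 0 0)) (.cut .v 16252928 (.pos 20 .pm ⟨0, 0, 0, 0, 0, 0, 0, 0, 0, ⟨0, 0⟩, 0⟩ 0 0) (.pos 21 .pm ⟨0, 0, 0, 0, 0, 0, 0, 0, 0, ⟨0, 0⟩, 0⟩ 0 0)))) (.pos 11 .pm ⟨0, 0, 0, 0, 0, 0, 0, 285713, 0, ⟨1349382, 9965899⟩, 0⟩ 72 89)) (.pos 11 .pm ⟨0,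 0, 0, 0, 0, 0, 0, 331209, 0, ⟨1604798, 9151817⟩, 0⟩ 76 97))) (.void 7 ⟨0, 0, 0, 0, 0, 0, 0, 0, 100000, ⟨0, 0⟩, 15612959⟩ 0 0)))) (.cut .v 25165824 (.cut .d 3443093 (.cut .v 20971520 (.cut .v 18874368 (.cut .d 1721546 (.cut .v 17825792 (.cut .d 860773 (.pos 33 .pp ⟨0, 0, 0, 0, 0, 0, 0, 0, 0, ⟨0, 0⟩, 0⟩ 0 0) (.pos 33 .pp ⟨0, 0, 0, 0, 0, 0, 0, 277937, 0, ⟨1349382, 9965899⟩, 0⟩ 72 89)) (.pos 34 .pp ⟨0, 0, 0, 0, 0, 0, 0, 394698, 0, ⟨1279321, 10167424⟩, 0⟩ 69 89)) (.cut .s 4882432 (.pos 31 .pp ⟨0, 0, 0, 0, 0, 0, 0, 324150, 0, ⟨1463622, 9627355⟩, 0⟩ 76 90) (.pos 31 .pp ⟨0, 0, 0, 0, 0, 0, 0, 319616, 0, ⟨1759353, 8743918⟩, 0⟩ 82 97))) (.cut .d 1721546 (.pos 32 .pp ⟨0, 0,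 0, 0, 0, 0, 0, 417915, 0, ⟨1279321, 10167424⟩, 0⟩ 69 89) (.pos 32 .pp ⟨0, 0, 0, 0, 0, 0, 0, 443002, 0, ⟨1604798, 9151817⟩, 0⟩ 76 97))) (.pos 30 .pp ⟨0, 0, 0, 0, 0, 0, 0, 6533277, 0, ⟨1425559, 9624859⟩, 0⟩ 69 97)) (.cut .d 5164639 (.cut .v 20971520 (.cut .v 18874368 (.pos 31 .pp ⟨0, 0, 0, 0, 0, 0, 0, 372610, 0, ⟨1958982, 8139671⟩, 0⟩ 83 105) (.pos 32 .pp ⟨0, 0, 0, 0, 0, 0, 0, 5538374, 0, ⟨1958982, 8139671⟩, 0⟩ 83 105)) (.pos 30 .pp ⟨0, 0, 0, 0, 0, 0, 0, 15167155, 0, ⟨1958982, 8139671⟩, 0⟩ 83 105)) (.void 27 ⟨0, 0, 0, 0, 0, 0, 0, 100000, 0, ⟨2335287, 7147954⟩, 0⟩ 90 113))) (.void 28 ⟨0, 0, 0, 0, 0, 0, 100000, 0, 0, ⟨0, 0⟩, 0⟩ 0 0)))),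
    by decide +kernel⟩

def covers5 : cell.Covers table row5.1 :=
  ⟨(.cut .d 0 (.cut .v 16777216 (.cut .v 8388608 (.void 2 ⟨0, 0, 0, 0, 50000, 50000, 0, 0, 0, ⟨0, 0⟩, 0⟩ 0 0) (.cut .v 12582912 (.pos 6 .mm ⟨0, 0, 0, 0, 0, 4278060, 0, 0, 0, ⟨0, 0⟩, 0⟩ 0 0) (.cut .d (-8388608) (.void 7 ⟨0, 0, 0, 0, 0, 100000, 0, 0, 0, ⟨0, 0⟩, 0⟩ 0 0) (.cut .d (-4194304) (.void 7 ⟨0, 0, 0, 0, 0, 100000, 0, 0, 0, ⟨0, 0⟩, 0⟩ 0 0) (.cut .v 14680064 (.pos 10 .mm ⟨0, 0, 0, 0, 0, 1849580, 0, 0, 0, ⟨0, 0⟩, 0⟩ 0 0) (.cut .d (-2097152) (.void 11 ⟨0, 0, 0, 0, 0, 100000, 0, 0, 0, ⟨0, 0⟩, 0⟩ 0 0) (.cut .v 15728640 (.cut .d (-1048576) (.pos 14 .mm ⟨0, 0, 0, 0, 0, 1630597, 0, 0, 0, ⟨0, 0⟩, 0⟩ 0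 0) (.pos 14 .mm ⟨0, 0, 0, 0, 0, 433840, 0, 0, 0, ⟨0, 0⟩, 0⟩ 0 0)) (.cut .d (-1048576) (.pos 15 .mm ⟨0, 0, 0, 0, 0, 1776868, 0, 0, 0, ⟨0, 0⟩, 0⟩ 0 0) (.cut .v 16252928 (.cut .s 5636096 (.pos 20 .mm ⟨0, 0, 0, 0, 0, 255942, 0, 0, 0, ⟨0, 0⟩, 0⟩ 0 0) (.pos 20 .mm ⟨0, 0, 0, 0, 0, 362094, 0, 0, 0, ⟨0, 0⟩, 0⟩ 0 0)) (.pos 21 .mm ⟨0, 0, 0, 0, 0, 5572, 0, 0, 0, ⟨0, 0⟩, 0⟩ 0 0)))))))))) (.cut .v 25165824 (.cut .v 20971520 (.pos 29 .mp ⟨0, 0, 0, 0, 0, 0, 0, 0, 0, ⟨0, 0⟩, 0⟩ 0 0) (.void 30 ⟨100000, 0, 0, 0, 0, 0, 0, 0, 0, ⟨0, 0⟩, 0⟩ 0 0)) (.void 28 ⟨100000, 0, 0, 0, 0, 0, 0, 0, 0, ⟨0, 0⟩, 0⟩ 0 0))) (.cut .v 16777216 (.cut .v 8388608 (.void 2 ⟨0, 0, 0, 0, 100000, 0, 0, 0, 0,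 ⟨0, 0⟩, 0⟩ 0 0) (.cut .v 12582912 (.pos 6 .pm ⟨0, 0, 0, 0, 0, 0, 0, 0, 0, ⟨0, 0⟩, 0⟩ 0 0) (.cut .d 4469186 (.cut .d 2234593 (.cut .v 14680064 (.pos 10 .pm ⟨0, 0, 0, 0, 0, 0, 0, 0, 0, ⟨0, 0⟩, 0⟩ 0 0) (.cut .d 1117296 (.cut .v 15728640 (.pos 14 .pm ⟨0, 0, 0, 0, 0, 0, 0, 0, 0, ⟨0, 0⟩, 0⟩ 0 0) (.cut .d 558648 (.cut .v 16252928 (.pos 20 .pm ⟨0, 0, 0, 0, 0, 0, 0, 0, 0, ⟨0, 0⟩, 0⟩ 0 0) (.pos 21 .pm ⟨0, 0, 0, 0, 0, 0, 0, 0, 0, ⟨0, 0⟩, 0⟩ 0 0)) (.pos 15 .pm ⟨0, 0, 0, 0, 0, 0, 0, 0, 0, ⟨0, 0⟩, 0⟩ 0 0))) (.pos 11 .pm ⟨0, 0, 0, 0, 0, 0, 0, 260234, 0, ⟨2014442, 8004454⟩, 0⟩ 85 105))) (.pos 7 .pm ⟨0, 0, 0, 0, 0, 0, 0, 271548, 0, ⟨2424420, 6894421⟩, 0⟩ 90 117)) (.void 7 ⟨0, 0,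 0, 0, 0, 0, 0, 0, 100000, ⟨0, 0⟩, 15612959⟩ 0 0)))) (.cut .v 25165824 (.cut .d 4469186 (.cut .v 20971520 (.cut .d 2234593 (.cut .v 18874368 (.cut .d 1117296 (.pos 31 .pp ⟨0, 0, 0, 0, 0, 0, 0, 296098, 0, ⟨1750018, 8744879⟩, 0⟩ 80 99) (.cut .v 17825792 (.pos 33 .pp ⟨0, 0, 0, 0, 0, 0, 0, 277205, 0, ⟨2014442, 8004454⟩, 0⟩ 85 105) (.pos 34 .pp ⟨0, 0, 0, 0, 0, 0, 0, 339821, 0, ⟨2014442, 8004454⟩, 0⟩ 85 105))) (.pos 32 .pp ⟨0, 0, 0, 0, 0, 0, 0, 371364, 0, ⟨1875669, 8342794⟩, 0⟩ 80 105)) (.cut .v 18874368 (.cut .d 3351889 (.pos 31 .pp ⟨0, 0, 0, 0, 0, 0, 0, 282863, 0, ⟨2290131, 7276397⟩, 0⟩ 90 111) (.pos 31 .pp ⟨0, 0, 0, 0, 0, 0, 0, 305492, 0, ⟨2574107, 6566900⟩, 0⟩ 95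 117)) (.cut .d 3351889 (.pos 32 .pp ⟨0, 0, 0, 0, 0, 0, 0, 331611, 0, ⟨2290131, 7276397⟩, 0⟩ 90 111) (.cut .s 5636096 (.cut .s 5439488 (.pos 32 .pp ⟨0, 0, 0, 0, 0, 0, 0, 3763990, 0, ⟨2313768, 7268445⟩, 0⟩ 95 106) (.pos 32 .pp ⟨0, 0, 0, 0, 0, 0, 0, 3709090, 0, ⟨2497754, 6811340⟩, 0⟩ 99 109)) (.pos 32 .pp ⟨0, 0, 0, 0, 0, 0, 0, 3720017, 0, ⟨2808687, 6053632⟩, 0⟩ 103 117))))) (.cut .d 2234593 (.pos 30 .pp ⟨0, 0, 0, 0, 0, 0, 0, 412626, 0, ⟨1875669, 8342794⟩, 0⟩ 80 105) (.cut .s 5636096 (.pos 30 .pp ⟨0, 0, 0, 0, 0, 0, 0, 8503660, 0, ⟨2244611, 7405877⟩, 0⟩ 90 109) (.pos 30 .pp ⟨0, 0, 0, 0, 0, 0, 0, 8843073, 0, ⟨2633380, 6437209⟩, 0⟩ 97 117)))) (.cut .d 6703779 (.cut .s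 5636096 (.void 27 ⟨0, 0, 0, 0, 0, 0, 0, 100000, 0, ⟨2846414, 5937907⟩, 0⟩ 101 121) (.void 27 ⟨0, 0, 0, 0, 0, 0, 0, 100000, 0, ⟨3244982, 5045479⟩, 0⟩ 108 129)) (.void 27 ⟨0, 0, 0, 0, 0, 0, 0, 100000, 0, ⟨3628019, 4190819⟩, 0⟩ 111 142))) (.cut .d 4469186 (.pos 28 .pp ⟨0, 0, 0, 0, 0, 0, 623982, 25292341, 0, ⟨2120429, 7559562⟩, 0⟩ 80 117) (.cut .d 6703779 (.pos 28 .pp ⟨0, 0, 0, 0, 0, 0, 0, 62152471, 0, ⟨3030853, 5470418⟩, 0⟩ 101 129) (.void 28 ⟨0, 0, 0, 0, 0, 0, 0, 100000, 0, ⟨3628019, 4190819⟩, 0⟩ 111 142)))))),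
    by decide +kernel⟩

def covers6 : cell.Covers table row6.1 :=
  ⟨(.cut .d 0 (.cut .v 16777216 (.cut .v 8388608 (.void 2 ⟨0, 0, 0, 0, 50000, 50000, 0, 0, 0, ⟨0, 0⟩, 0⟩ 0 0) (.cut .v 12582912 (.pos 6 .mm ⟨0, 0, 0, 0, 0, 3120160, 0, 0, 0, ⟨0, 0⟩, 0⟩ 0 0) (.cut .d (-8388608) (.void 7 ⟨0, 0, 0, 0, 0, 100000, 0, 0, 0, ⟨0, 0⟩, 0⟩ 0 0) (.cut .v 14680064 (.pos 10 .mm ⟨0, 0, 0, 0, 0, 2008603, 0, 0, 0, ⟨0, 0⟩, 0⟩ 0 0) (.cut .d (-4194304) (.void 11 ⟨0, 0, 0, 0, 0, 100000, 0, 0, 0, ⟨0, 0⟩, 0⟩ 0 0) (.cut .d (-2097152) (.void 11 ⟨0, 0, 0, 0, 0, 100000, 0, 0, 0, ⟨0, 0⟩, 0⟩ 0 0) (.cut .d (-1048576) (.void 11 ⟨0, 0, 0, 0, 0, 100000, 0, 0, 0, ⟨0, 0⟩, 0⟩ 0 0) (.cut .v 15728640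 (.cut .s 6422528 (.pos 14 .mm ⟨0, 0, 0, 0, 0, 930755, 0, 0, 0, ⟨0, 0⟩, 0⟩ 0 0) (.cut .s 6619136 (.pos 14 .mm ⟨0, 0, 0, 0, 0, 1349629, 0, 0, 0, ⟨0, 0⟩, 0⟩ 0 0) (.pos 14 .mm ⟨0, 0, 0, 0, 0, 1827859, 0, 0, 0, ⟨0, 0⟩, 0⟩ 0 0))) (.cut .s 6422528 (.cut .v 16252928 (.cut .s 6225920 (.pos 20 .mm ⟨0, 0, 0, 0, 0, 701483, 0, 0, 0, ⟨0, 0⟩, 0⟩ 0 0) (.pos 20 .mm ⟨0, 0, 0, 0, 0, 924563, 0, 0, 0, ⟨0, 0⟩, 0⟩ 0 0)) (.pos 21 .mm ⟨0, 0, 0, 0, 0, 759109, 0, 0, 0, ⟨0, 0⟩, 0⟩ 0 0)) (.cut .d (-524288) (.pos 15 .mm ⟨0, 0, 0, 0, 0, 1928307, 0, 0, 0, ⟨0, 0⟩, 0⟩ 0 0) (.cut .l 1159153 (.cut .v 16252928 (.cut .s 6619136 (.pos 20 .mm ⟨0, 0, 0, 0, 0, 1197115, 0, 0, 0, ⟨0, 0⟩, 0⟩ 0 0) (.pos 20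 .mm ⟨0, 0, 0, 0, 0, 1666348, 0, 0, 0, ⟨0, 0⟩, 0⟩ 0 0)) (.cut .s 6619136 (.pos 21 .mm ⟨0, 0, 0, 0, 0, 1155812, 0, 0, 0, ⟨0, 0⟩, 0⟩ 0 0) (.pos 21 .mm ⟨0, 0, 0, 0, 0, 1666396, 0, 0, 0, ⟨0, 0⟩, 0⟩ 0 0))) (.pos 15 .mm ⟨0, 0, 0, 0, 0, 989411, 0, 0, 0, ⟨0, 0⟩, 0⟩ 0 0)))))))))))) (.cut .v 25165824 (.cut .d (-8388608) (.void 27 ⟨0, 0, 0, 0, 0, 100000, 0, 0, 0, ⟨0, 0⟩, 0⟩ 0 0) (.cut .d (-4194304) (.void 27 ⟨0, 0, 0, 0, 0, 100000, 0, 0, 0, ⟨0, 0⟩, 0⟩ 0 0) (.cut .v 20971520 (.cut .s 6422528 (.pos 29 .mp ⟨0, 0, 0, 0, 0, 506003, 0, 0, 0, ⟨0, 0⟩, 0⟩ 0 0) (.cut .s 6619136 (.pos 29 .mp ⟨0, 0, 0, 0, 0, 1080149, 0, 0, 0, ⟨0, 0⟩, 0⟩ 0 0) (.pos 29 .mp ⟨0, 0, 0, 0, 0, 2080463, 0, 0,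 0, ⟨0, 0⟩, 0⟩ 0 0))) (.void 30 ⟨100000, 0, 0, 0, 0, 0, 0, 0, 0, ⟨0, 0⟩, 0⟩ 0 0)))) (.void 28 ⟨100000, 0, 0, 0, 0, 0, 0, 0, 0, ⟨0, 0⟩, 0⟩ 0 0))) (.cut .v 16777216 (.cut .v 8388608 (.void 2 ⟨0, 0, 0, 0, 100000, 0, 0, 0, 0, ⟨0, 0⟩, 0⟩ 0 0) (.cut .v 12582912 (.pos 6 .pm ⟨0, 0, 0, 0, 0, 0, 0, 0, 0, ⟨0, 0⟩, 0⟩ 0 0) (.cut .v 14680064 (.pos 10 .pm ⟨0, 0, 0, 0, 0, 0, 0, 0, 0, ⟨0, 0⟩, 0⟩ 0 0) (.cut .d 6293222 (.cut .v 15728640 (.pos 14 .pm ⟨0, 0, 0, 0, 0, 0, 0, 0, 0, ⟨0, 0⟩, 0⟩ 0 0) (.cut .d 3146611 (.pos 15 .pm ⟨0, 0, 0, 0, 0, 0, 0, 0, 0, ⟨0, 0⟩, 0⟩ 0 0) (.pos 15 .pm ⟨0, 0, 0, 0, 0, 0, 0, 606823, 0, ⟨3607426, 4205136⟩, 0⟩ 109 144))) (.void 11 ⟨0, 0, 0, 0, 0, 0, 0, 0, 100000,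 ⟨0, 0⟩, 16226390⟩ 0 0))))) (.cut .d 6293222 (.cut .v 25165824 (.cut .v 20971520 (.cut .d 3146611 (.cut .v 18874368 (.pos 31 .pp ⟨0, 0, 0, 0, 0, 0, 0, 496190, 0, ⟨2639008, 6333048⟩, 0⟩ 92 124) (.pos 32 .pp ⟨0, 0, 0, 0, 0, 0, 0, 535885, 0, ⟨2639008, 6333048⟩, 0⟩ 92 124)) (.cut .v 18874368 (.pos 31 .pp ⟨0, 0, 0, 0, 0, 0, 0, 215086, 373880, ⟨3607426, 4205136⟩, 17278579⟩ 109 144) (.cut .d 4719916 (.pos 32 .pp ⟨0, 0, 0, 0, 0, 0, 0, 3706764, 0, ⟨3390555, 4714485⟩, 0⟩ 109 134) (.cut .s 6422528 (.pos 32 .pp ⟨0, 0, 0, 0, 0, 0, 0, 17651564, 0, ⟨3651769, 4208938⟩, 0⟩ 117 135) (.pos 32 .pp ⟨0, 0, 0, 0, 0, 0, 0, 10843100, 0, ⟨4083869, 3358127⟩, 0⟩ 125 144))))) (.cut .d 3146611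 (.pos 30 .pp ⟨0, 0, 0, 0, 0, 0, 0, 595428, 0, ⟨2639008, 6333048⟩, 0⟩ 92 124) (.cut .s 6422528 (.cut .d 4719916 (.pos 30 .pp ⟨0, 0, 0, 0, 0, 0, 0, 10053150, 0, ⟨3203366, 5154123⟩, 0⟩ 109 126) (.pos 30 .pp ⟨0, 0, 0, 0, 0, 0, 0, 25182302, 0, ⟨3651769, 4208938⟩, 0⟩ 117 135)) (.pos 30 .pp ⟨0, 0, 0, 0, 0, 0, 0, 14906815, 0, ⟨3823261, 3821430⟩, 0⟩ 116 144)))) (.cut .d 3146611 (.pos 28 .pp ⟨0, 0, 0, 0, 0, 0, 283708, 0, 0, ⟨0, 0⟩, 0⟩ 0 0) (.pos 28 .pp ⟨0, 0, 0, 0, 0, 0, 0, 34435988, 0, ⟨3607426, 4205136⟩, 0⟩ 109 144))) (.cut .d 9439833 (.cut .s 6422528 (.void 26 ⟨0, 0, 0, 0, 0, 0, 0, 100000, 0, ⟨4319313, 2886802⟩, 0⟩ 126 154) (.void 26 ⟨0, 0, 0, 0, 0, 0, 0, 100000, 0, ⟨4701365,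 2210251⟩, 0⟩ 134 163)) (.void 26 ⟨0, 0, 0, 0, 0, 0, 0, 100000, 0, ⟨5213891, 1340838⟩, 0⟩ 143 183))))),
    by decide +kernel⟩

def covers7 : cell.Covers table row7.1 :=
  ⟨(.cut .d 0 (.cut .v 16777216 (.cut .d (-8388608) (.void 1 ⟨0, 0, 0, 0, 0, 100000, 0, 0, 0, ⟨0, 0⟩, 0⟩ 0 0) (.cut .d (-4194304) (.void 1 ⟨0, 0, 0, 0, 0, 100000, 0, 0, 0, ⟨0, 0⟩, 0⟩ 0 0) (.cut .d (-2097152) (.void 1 ⟨0, 0, 0, 0, 0, 100000, 0, 0, 0, ⟨0, 0⟩, 0⟩ 0 0) (.cut .d (-1048576) (.void 1 ⟨0, 0, 0, 0, 0, 100000, 0, 0, 0, ⟨0, 0⟩, 0⟩ 0 0) (.cut .v 8388608 (.cut .v 4194304 (.void 4 ⟨0, 0, 100000, 0, 0, 0, 0, 0, 0, ⟨0, 0⟩, 0⟩ 0 0) (.pos 5 .mm ⟨0, 0, 0, 0, 0, 3256419, 0, 0, 0, ⟨0, 0⟩, 0⟩ 0 0)) (.cut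 .v 12582912 (.pos 6 .mm ⟨0, 0, 0, 0, 0, 2526863, 0, 0, 0, ⟨0, 0⟩, 0⟩ 0 0) (.cut .v 14680064 (.pos 10 .mm ⟨0, 0, 0, 0, 0, 3021980, 0, 0, 0, ⟨0, 0⟩, 0⟩ 0 0) (.cut .s 7176192 (.cut .d (-524288) (.cut .v 15728640 (.pos 14 .mm ⟨0, 0, 0, 0, 0, 3095038, 0, 0, 0, ⟨0, 0⟩, 0⟩ 0 0) (.pos 15 .mm ⟨0, 0, 0, 0, 0, 3389251, 0, 0, 0, ⟨0, 0⟩, 0⟩ 0 0)) (.cut .v 15728640 (.pos 14 .mm ⟨0, 0, 0, 0, 0, 2427193, 0, 0, 0, ⟨0, 0⟩, 0⟩ 0 0) (.cut .l 1159153 (.cut .s 6995968 (.cut .v 16252928 (.pos 20 .mm ⟨0, 0, 0, 0, 0, 2240890, 0, 0, 0, ⟨0, 0⟩, 0⟩ 0 0) (.pos 21 .mm ⟨0, 0, 0, 0, 0, 2279948, 0, 0, 0, ⟨0, 0⟩, 0⟩ 0 0)) (.cut .s 7086080 (.pos 15 .mm ⟨0, 0, 0, 0, 0, 2716210, 0, 0, 0, ⟨0, 0⟩, 0⟩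 0 0) (.pos 15 .mm ⟨0, 0, 0, 0, 0, 3127001, 0, 0, 0, ⟨0, 0⟩, 0⟩ 0 0))) (.pos 15 .mm ⟨0, 0, 0, 0, 0, 2052751, 0, 0, 0, ⟨0, 0⟩, 0⟩ 0 0)))) (.cut .d (-524288) (.pos 11 .mm ⟨0, 0, 0, 0, 0, 5799228, 0, 0, 0, ⟨0, 0⟩, 0⟩ 0 0) (.cut .v 15728640 (.pos 14 .mm ⟨0, 0, 0, 0, 0, 3878313, 0, 0, 0, ⟨0, 0⟩, 0⟩ 0 0) (.cut .s 7356416 (.cut .s 7266304 (.pos 15 .mm ⟨0, 0, 0, 0, 0, 3574739, 0, 0, 0, ⟨0, 0⟩, 0⟩ 0 0) (.pos 15 .mm ⟨0, 0, 0, 0, 0, 4153062, 0, 0, 0, ⟨0, 0⟩, 0⟩ 0 0)) (.cut .s 7446528 (.pos 15 .mm ⟨0, 0, 0, 0, 0, 4789462, 0, 0, 0, ⟨0, 0⟩, 0⟩ 0 0) (.pos 15 .mm ⟨0, 0, 0, 0, 0, 5424550, 0, 0, 0, ⟨0, 0⟩, 0⟩ 0 0))))))))))))) (.cut .v 33554432 (.cut .v 25165824 (.cut .d (-8388608)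 (.void 27 ⟨0, 0, 0, 0, 0, 100000, 0, 0, 0, ⟨0, 0⟩, 0⟩ 0 0) (.cut .d (-4194304) (.void 27 ⟨0, 0, 0, 0, 0, 100000, 0, 0, 0, ⟨0, 0⟩, 0⟩ 0 0) (.cut .d (-2097152) (.void 27 ⟨0, 0, 0, 0, 0, 100000, 0, 0, 0, ⟨0, 0⟩, 0⟩ 0 0) (.cut .v 20971520 (.cut .d (-1048576) (.void 29 ⟨0, 0, 0, 0, 0, 100000, 0, 0, 0, ⟨0, 0⟩, 0⟩ 0 0) (.cut .v 18874368 (.cut .v 17825792 (.cut .d (-524288) (.cut .s 7176192 (.pos 33 .mp ⟨0, 0, 0, 0, 0, 3815154, 0, 0, 0, ⟨0, 0⟩, 0⟩ 0 0) (.pos 33 .mp ⟨0, 0, 0, 0, 0, 6540221, 0, 0, 0, ⟨0, 0⟩, 0⟩ 0 0)) (.cut .s 7176192 (.cut .s 6995968 (.pos 33 .mp ⟨0, 0, 0, 0, 0, 2377310, 0, 0, 0, ⟨0, 0⟩, 0⟩ 0 0) (.pos 33 .mp ⟨0, 0, 0, 0, 0, 3223264, 0, 0, 0, ⟨0, 0⟩, 0⟩ 0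 0)) (.cut .v 17301504 (.cut .s 7356416 (.pos 35 .mp ⟨0, 0, 0, 0, 0, 4178691, 0, 0, 0, ⟨0, 0⟩, 0⟩ 0 0) (.cut .s 7446528 (.pos 35 .mp ⟨0, 0, 0, 0, 0, 4977074, 0, 0, 0, ⟨0, 0⟩, 0⟩ 0 0) (.cut .s 7491584 (.pos 35 .mp ⟨205111, 0, 0, 0, 0, 5136426, 0, 0, 0, ⟨0, 0⟩, 0⟩ 0 0) (.pos 35 .mp ⟨380936, 0, 0, 0, 0, 5310743, 0, 0, 0, ⟨0, 0⟩, 0⟩ 0 0)))) (.pos 36 .mp ⟨5024963, 0, 0, 0, 0, 0, 0, 0, 0, ⟨0, 0⟩, 0⟩ 0 0)))) (.pos 34 .mp ⟨6320706, 0, 0, 0, 0, 0, 0, 0, 0, ⟨0, 0⟩, 0⟩ 0 0)) (.pos 32 .mp ⟨8443090, 0, 0, 0, 0, 0, 0, 0, 0, ⟨0, 0⟩, 0⟩ 0 0))) (.void 30 ⟨100000, 0, 0, 0, 0, 0, 0, 0, 0, ⟨0, 0⟩, 0⟩ 0 0))))) (.void 28 ⟨100000, 0, 0, 0, 0, 0, 0, 0, 0, ⟨0, 0⟩, 0⟩ 0 0)) (.void 49 ⟨100000,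 0, 0, 0, 0, 0, 0, 0, 0, ⟨0, 0⟩, 0⟩ 0 0))) (.cut .v 16777216 (.cut .v 8388608 (.cut .v 4194304 (.void 4 ⟨0, 0, 50000, 0, 50000, 0, 0, 0, 0, ⟨0, 0⟩, 0⟩ 0 0) (.void 5 ⟨0, 0, 0, 0, 0, 0, 0, 0, 100000, ⟨0, 0⟩, 9975792⟩ 0 0)) (.cut .d 12260274 (.cut .d 6130137 (.cut .v 12582912 (.pos 6 .pm ⟨0, 0, 0, 0, 0, 0, 0, 0, 0, ⟨0, 0⟩, 0⟩ 0 0) (.cut .v 14680064 (.pos 10 .pm ⟨0, 0, 0, 0, 0, 0, 0, 0, 0, ⟨0, 0⟩, 0⟩ 0 0) (.pos 11 .pm ⟨0, 0, 0, 0, 0, 0, 0, 0, 0, ⟨0, 0⟩, 0⟩ 0 0))) (.pos 3 .pm ⟨0, 0, 0, 0, 0, 0, 0, 0, 6138822, ⟨0, 0⟩, 14107901⟩ 0 0)) (.void 3 ⟨0, 0, 0, 0, 0, 0, 0, 0, 100000, ⟨0, 0⟩, 14107901⟩ 0 0))) (.cut .v 33554432 (.cut .d 12260274 (.cut .d 6130137 (.cut .v 25165824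 (.cut .v 20971520 (.cut .v 18874368 (.pos 31 .pp ⟨407991, 0, 0, 0, 0, 0, 0, 0, 0, ⟨0, 0⟩, 0⟩ 0 0) (.pos 32 .pp ⟨38659, 0, 0, 0, 0, 0, 0, 0, 0, ⟨0, 0⟩, 0⟩ 0 0)) (.pos 30 .pp ⟨0, 0, 0, 0, 0, 0, 13695, 1333748, 0, ⟨3710244, 3842294⟩, 0⟩ 104 158)) (.pos 28 .pp ⟨0, 0, 0, 0, 0, 0, 54554, 1490012, 0, ⟨3710244, 3842294⟩, 0⟩ 104 158)) (.cut .l 1159153 (.void 26 ⟨0, 0, 0, 0, 0, 0, 0, 100000, 0, ⟨5363323, 1062382⟩, 0⟩ 142 207) (.cut .v 25165824 (.cut .d 9195205 (.cut .v 20971520 (.pos 29 .pp ⟨0, 0, 0, 0, 0, 0, 0, 12673852, 1835987, ⟨5140696, 1463738⟩, 17739746⟩ 142 179) (.cut .s 7176192 (.pos 30 .pp ⟨0, 0, 0, 0, 0, 0, 0, 52324389, 0, ⟨5012011, 1695734⟩, 0⟩ 142 170) (.pos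 30 .pp ⟨0, 0, 0, 0, 0, 0, 0, 44772419, 695018, ⟨5291551, 1247991⟩, 19632256⟩ 149 179))) (.cut .s 7176192 (.void 27 ⟨0, 0, 0, 0, 0, 0, 0, 100000, 0, ⟨5630214, 744633⟩, 0⟩ 161 190) (.cut .d 10727739 (.pos 27 .pp ⟨0, 0, 0, 0, 0, 0, 0, 48252539, 4355683, ⟨5735491, 604300⟩, 18567042⟩ 169 189) (.pos 27 .pp ⟨0, 0, 0, 0, 0, 0, 0, 80069216, 5790157, ⟨5927846, 337982⟩, 18567042⟩ 179 207)))) (.cut .d 9195205 (.pos 28 .pp ⟨0, 0, 0, 0, 0, 0, 0, 89485917, 0, ⟨5140696, 1463738⟩, 0⟩ 142 179) (.cut .s 7176192 (.void 28 ⟨0, 0, 0, 0, 0, 0, 0, 100000, 0, ⟨5630214, 744633⟩, 0⟩ 161 190) (.cut .v 29360128 (.cut .s 7356416 (.pos 45 .pp ⟨0, 0, 0, 0, 0, 0, 0, 402323276, 0, ⟨5782466, 533142⟩,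 0⟩ 169 197) (.pos 45 .pp ⟨0, 0, 0, 0, 0, 0, 0, 91291658, 4233364, ⟨5866449, 416768⟩, 21355130⟩ 173 207)) (.pos 46 .pp ⟨0, 0, 0, 0, 0, 0, 0, 240485513, 0, ⟨5819635, 476839⟩, 0⟩ 169 207))))))) (.cut .d 18390411 (.cut .v 25165824 (.void 27 ⟨0, 0, 0, 0, 0, 0, 0, 0, 100000, ⟨0, 0⟩, 18567042⟩ 0 0) (.cut .s 7176192 (.void 28 ⟨0, 0, 0, 0, 0, 0, 0, 100000, 0, ⟨6054669, 158899⟩, 0⟩ 180 268) (.cut .d 15325342 (.cut .v 29360128 (.cut .d 13792808 (.cut .s 7356416 (.void 45 ⟨0, 0, 0, 0, 0, 0, 0, 100000, 0, ⟨6036175, 197024⟩, 0⟩ 189 218) (.cut .d 13026541 (.cut .s 7446528 (.pos 45 .pp ⟨0, 1097240, 0, 0, 0, 0, 0, 143687523, 6536153, ⟨6052710, 177312⟩, 21355130⟩ 196 212) (.pos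 45 .pp ⟨0, 2094375, 0, 0, 0, 0, 0, 0, 6740983, ⟨0, 0⟩, 21355130⟩ 0 0)) (.pos 45 .pp ⟨0, 280644996, 0, 0, 0, 0, 0, 594528216, 63936905, ⟨6107941, 106752⟩, 21355130⟩ 206 228))) (.void 45 ⟨0, 69367, 0, 0, 0, 0, 0, 0, 30633, ⟨0, 0⟩, 21355130⟩ 0 0)) (.pos 46 .pp ⟨0, 21227719, 0, 0, 0, 0, 0, 287221323, 0, ⟨6089145, 125277⟩, 0⟩ 189 249)) (.void 28 ⟨0, 81475, 0, 0, 0, 0, 0, 0, 18525, ⟨0, 0⟩, 22080058⟩ 0 0)))) (.void 26 ⟨0, 0, 0, 8886, 0, 0, 0, 0, 91114, ⟨0, 0⟩, 19951585⟩ 0 0))) (.cut .d 12260274 (.cut .d 6130137 (.pos 49 .pp ⟨13604700, 0, 0, 0, 0, 0, 39587083, 0, 0, ⟨0, 0⟩, 0⟩ 0 0) (.pos 49 .pp ⟨0, 0, 0, 0, 0, 0, 16781395, 212554744, 0, ⟨5363323, 1062382⟩, 0⟩ 142 207))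 (.pos 49 .pp ⟨0, 190289161, 0, 0, 0, 0, 297440460, 0, 0, ⟨0, 0⟩, 0⟩ 0 0))))),
    by decide +kernel⟩

def covers8 : cell.Covers table row8.1 :=
  ⟨(.cut .d 0 (.cut .v 16777216 (.cut .d (-8388608) (.void 1 ⟨0, 0, 0, 0, 0, 100000, 0, 0, 0, ⟨0, 0⟩, 0⟩ 0 0) (.cut .d (-4194304) (.void 1 ⟨0, 0, 0, 0, 0, 100000, 0, 0, 0, ⟨0, 0⟩, 0⟩ 0 0) (.cut .d (-2097152) (.void 1 ⟨0, 0, 0, 0, 0, 100000, 0, 0, 0, ⟨0, 0⟩, 0⟩ 0 0) (.cut .d (-1048576) (.void 1 ⟨0, 0, 0, 0, 0, 100000, 0, 0, 0, ⟨0, 0⟩, 0⟩ 0 0) (.cut .v 8388608 (.cut .v 4194304 (.void 4 ⟨0, 0, 100000, 0, 0, 0, 0, 0, 0, ⟨0, 0⟩, 0⟩ 0 0) (.pos 5 .mm ⟨0, 0, 0, 0, 0, 4348566, 0, 0, 335409, ⟨0, 0⟩, 9975792⟩ 0 0)) (.cut .v 12582912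 (.pos 6 .mm ⟨0, 0, 0, 0, 0, 4114191, 0, 0, 0, ⟨0, 0⟩, 0⟩ 0 0) (.cut .d (-524288) (.pos 7 .mm ⟨0, 0, 0, 0, 0, 10800934, 0, 0, 0, ⟨0, 0⟩, 0⟩ 0 0) (.cut .v 14680064 (.pos 10 .mm ⟨0, 0, 0, 0, 0, 4394108, 0, 0, 0, ⟨0, 0⟩, 0⟩ 0 0) (.cut .v 15728640 (.pos 14 .mm ⟨0, 0, 0, 0, 0, 6256486, 0, 0, 0, ⟨0, 0⟩, 0⟩ 0 0) (.cut .s 7798784 (.cut .v 16252928 (.pos 20 .mm ⟨0, 0, 0, 0, 0, 6235443, 0, 0, 0, ⟨0, 0⟩, 0⟩ 0 0) (.cut .l 1159153 (.cut .d (-262144) (.pos 21 .mm ⟨0, 0, 0, 0, 0, 7698277, 0, 0, 0, ⟨0, 0⟩, 0⟩ 0 0) (.cut .s 7667712 (.pos 21 .mm ⟨0, 0, 0, 0, 0, 5900047, 0, 0, 0, ⟨0, 0⟩, 0⟩ 0 0) (.pos 21 .mm ⟨0, 0, 0, 0, 0, 6961986, 0, 0, 0, ⟨0, 0⟩, 0⟩ 0 0))) (.pos 21 .mm ⟨0, 0, 0,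 0, 0, 6015500, 0, 0, 0, ⟨0, 0⟩, 0⟩ 0 0))) (.cut .s 7929856 (.pos 15 .mm ⟨0, 0, 0, 0, 0, 8599463, 0, 0, 0, ⟨0, 0⟩, 0⟩ 0 0) (.pos 15 .mm ⟨0, 0, 0, 0, 0, 9964193, 0, 0, 0, ⟨0, 0⟩, 0⟩ 0 0)))))))))))) (.cut .v 33554432 (.cut .v 25165824 (.cut .v 20971520 (.cut .d (-8388608) (.void 29 ⟨0, 0, 0, 0, 0, 100000, 0, 0, 0, ⟨0, 0⟩, 0⟩ 0 0) (.cut .d (-4194304) (.void 29 ⟨0, 0, 0, 0, 0, 100000, 0, 0, 0, ⟨0, 0⟩, 0⟩ 0 0) (.cut .d (-2097152) (.void 29 ⟨0, 0, 0, 0, 0, 100000, 0, 0, 0, ⟨0, 0⟩, 0⟩ 0 0) (.cut .d (-1048576) (.void 29 ⟨0, 0, 0, 0, 0, 100000, 0, 0, 0, ⟨0, 0⟩, 0⟩ 0 0) (.cut .v 18874368 (.cut .v 17825792 (.cut .d (-524288) (.cut .s 7798784 (.pos 33 .mp ⟨20955, 0, 0, 0, 0,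 9626419, 0, 0, 0, ⟨0, 0⟩, 0⟩ 0 0) (.pos 33 .mp ⟨1541559, 0, 0, 0, 0, 17579955, 0, 0, 0, ⟨0, 0⟩, 0⟩ 0 0)) (.cut .s 7798784 (.cut .v 17301504 (.cut .s 7667712 (.cut .d (-262144) (.pos 35 .mp ⟨0, 0, 0, 0, 0, 7047337, 0, 0, 0, ⟨0, 0⟩, 0⟩ 0 0) (.cut .s 7602176 (.pos 35 .mp ⟨743818, 0, 0, 0, 0, 5083543, 0, 0, 0, ⟨0, 0⟩, 0⟩ 0 0) (.pos 35 .mp ⟨1135440, 0, 0, 0, 0, 5204403, 0, 0, 0, ⟨0, 0⟩, 0⟩ 0 0))) (.cut .d (-262144) (.cut .s 7733248 (.pos 35 .mp ⟨1024700, 0, 0, 0, 0, 6747313, 0, 0, 0, ⟨0, 0⟩, 0⟩ 0 0) (.pos 35 .mp ⟨1354711, 0, 0, 0, 0, 7082362, 0, 0, 0, ⟨0, 0⟩, 0⟩ 0 0)) (.cut .d (-131072) (.cut .s 7733248 (.pos 35 .mp ⟨1746548, 0, 0, 0, 0, 5487322, 0, 0, 0, ⟨0, 0⟩, 0⟩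 0 0) (.pos 35 .mp ⟨2095674, 0, 0, 0, 0, 5741778, 0, 0, 0, ⟨0, 0⟩, 0⟩ 0 0)) (.pos 35 .mp ⟨2143160, 0, 0, 0, 0, 4458570, 0, 0, 0, ⟨0, 0⟩, 0⟩ 0 0)))) (.pos 36 .mp ⟨6988598, 0, 0, 0, 0, 0, 0, 0, 0, ⟨0, 0⟩, 0⟩ 0 0)) (.cut .s 7929856 (.cut .v 17301504 (.cut .d (-262144) (.cut .s 7864320 (.pos 35 .mp ⟨1704076, 0, 0, 0, 0, 7430244, 0, 0, 0, ⟨0, 0⟩, 0⟩ 0 0) (.pos 35 .mp ⟨2076292, 0, 0, 0, 0, 7786405, 0, 0, 0, ⟨0, 0⟩, 0⟩ 0 0)) (.cut .v 17039360 (.cut .d (-131072) (.cut .s 7864320 (.pos 37 .mp ⟨2244165, 0, 0, 0, 0, 6291746, 0, 0, 0, ⟨0, 0⟩, 0⟩ 0 0) (.pos 37 .mp ⟨2665785, 0, 0, 0, 0, 6522479, 0, 0, 0, ⟨0, 0⟩, 0⟩ 0 0)) (.pos 37 .mp ⟨2665785, 0, 0, 0, 0, 5131735, 0, 0, 0, ⟨0,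 0⟩, 0⟩ 0 0)) (.pos 38 .mp ⟨6350692, 0, 0, 0, 0, 1805987, 0, 0, 0, ⟨0, 0⟩, 0⟩ 0 0))) (.pos 36 .mp ⟨8126852, 0, 0, 0, 0, 683167, 0, 0, 0, ⟨0, 0⟩, 0⟩ 0 0)) (.cut .v 17301504 (.cut .d (-262144) (.cut .s 7995392 (.pos 35 .mp ⟨2474844, 0, 0, 0, 0, 8146225, 0, 0, 0, ⟨0, 0⟩, 0⟩ 0 0) (.pos 35 .mp ⟨2903211, 0, 0, 0, 0, 8505011, 0, 0, 0, ⟨0, 0⟩, 0⟩ 0 0)) (.cut .v 17039360 (.cut .l 1159153 (.cut .d (-131072) (.pos 37 .mp ⟨2446757, 0, 0, 0, 0, 8154569, 0, 0, 0, ⟨0, 0⟩, 0⟩ 0 0) (.cut .s 7995392 (.pos 37 .mp ⟨3108954, 0, 0, 0, 0, 5785903, 0, 0, 0, ⟨0, 0⟩, 0⟩ 0 0) (.pos 37 .mp ⟨3574037, 0, 0, 0, 0, 5982429, 0, 0, 0, ⟨0, 0⟩, 0⟩ 0 0))) (.pos 37 .mp ⟨0, 0, 0, 0, 0, 0, 0, 0, 0, ⟨0,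 0⟩, 0⟩ 0 0)) (.pos 38 .mp ⟨7640078, 0, 0, 0, 0, 1781239, 0, 0, 0, ⟨0, 0⟩, 0⟩ 0 0))) (.pos 36 .mp ⟨9440014, 0, 0, 0, 0, 724782, 0, 0, 0, ⟨0, 0⟩, 0⟩ 0 0))))) (.pos 34 .mp ⟨11203238, 0, 0, 0, 0, 0, 0, 0, 0, ⟨0, 0⟩, 0⟩ 0 0)) (.pos 32 .mp ⟨14446334, 0, 0, 0, 0, 0, 0, 0, 0, ⟨0, 0⟩, 0⟩ 0 0)))))) (.void 30 ⟨100000, 0, 0, 0, 0, 0, 0, 0, 0, ⟨0, 0⟩, 0⟩ 0 0)) (.void 28 ⟨100000, 0, 0, 0, 0, 0, 0, 0, 0, ⟨0, 0⟩, 0⟩ 0 0)) (.void 49 ⟨100000, 0, 0, 0, 0, 0, 0, 0, 0, ⟨0, 0⟩, 0⟩ 0 0))) (.cut .v 16777216 (.cut .v 8388608 (.cut .v 4194304 (.void 4 ⟨0, 0, 50000, 0, 50000, 0, 0, 0, 0, ⟨0, 0⟩, 0⟩ 0 0) (.pos 5 .pm ⟨0, 0, 0, 0, 0, 0, 0, 0, 2603749, ⟨0, 0⟩, 9975792⟩ 0 0)) (.cut .d 10285164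 (.cut .v 12582912 (.pos 6 .pm ⟨0, 0, 0, 0, 0, 0, 0, 0, 0, ⟨0, 0⟩, 0⟩ 0 0) (.pos 7 .pm ⟨0, 0, 0, 0, 0, 0, 0, 389871, 0, ⟨4629334, 2013521⟩, 0⟩ 115 205)) (.void 3 ⟨0, 0, 0, 0, 0, 0, 0, 0, 100000, ⟨0, 0⟩, 14107901⟩ 0 0))) (.cut .v 33554432 (.cut .d 10285164 (.cut .v 25165824 (.cut .d 5142582 (.cut .v 20971520 (.cut .v 18874368 (.pos 31 .pp ⟨1836417, 0, 0, 0, 0, 0, 0, 0, 0, ⟨0, 0⟩, 0⟩ 0 0) (.pos 32 .pp ⟨3355788, 0, 0, 0, 0, 0, 0, 0, 0, ⟨0, 0⟩, 0⟩ 0 0)) (.pos 30 .pp ⟨4953603, 0, 0, 0, 0, 0, 225060, 0, 0, ⟨0, 0⟩, 0⟩ 0 0)) (.pos 27 .pp ⟨0, 0, 0, 0, 0, 0, 0, 0, 2105332, ⟨0, 0⟩, 18567042⟩ 0 0)) (.cut .d 5142582 (.pos 28 .pp ⟨9905982, 0, 0, 0, 0, 0, 1130048, 0, 0, ⟨0, 0⟩,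 0⟩ 0 0) (.pos 28 .pp ⟨0, 0, 0, 0, 0, 0, 0, 3536062, 0, ⟨5517190, 868478⟩, 0⟩ 150 205))) (.cut .d 15427746 (.cut .v 25165824 (.pos 27 .pp ⟨0, 0, 0, 0, 0, 0, 0, 0, 8059197, ⟨0, 0⟩, 18567042⟩ 0 0) (.cut .d 12856455 (.pos 28 .pp ⟨0, 0, 0, 0, 0, 0, 0, 0, 3887567, ⟨0, 0⟩, 22080058⟩ 0 0) (.pos 28 .pp ⟨0, 1843085, 0, 0, 0, 0, 0, 0, 9001437, ⟨0, 0⟩, 22080058⟩ 0 0))) (.void 26 ⟨0, 83433, 0, 0, 0, 0, 0, 0, 16567, ⟨0, 0⟩, 19951585⟩ 0 0))) (.cut .d 10285164 (.cut .v 50331648 (.cut .d 5142582 (.pos 52 .pp ⟨39630862, 0, 0, 0, 0, 0, 23893222, 0, 0, ⟨0, 0⟩, 0⟩ 0 0) (.pos 52 .pp ⟨0, 0, 0, 0, 0, 0, 0, 4714749, 0, ⟨5517190, 868478⟩, 0⟩ 150 205)) (.void 53 ⟨0, 0, 0, 0, 0, 0, 100000,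 0, 0, ⟨0, 0⟩, 0⟩ 0 0)) (.pos 49 .pp ⟨0, 31116557, 0, 0, 0, 0, 1363795, 0, 0, ⟨0, 0⟩, 0⟩ 0 0))))),
    by decide +kernel⟩

def covers9 : cell.Covers table row9.1 :=
  ⟨(.cut .d 0 (.cut .v 16777216 (.cut .d (-8388608) (.void 1 ⟨0, 0, 0, 0, 0, 100000, 0, 0, 0, ⟨0, 0⟩, 0⟩ 0 0) (.cut .d (-4194304) (.void 1 ⟨0, 0, 0, 0, 0, 100000, 0, 0, 0, ⟨0, 0⟩, 0⟩ 0 0) (.cut .d (-2097152) (.void 1 ⟨0, 0, 0, 0, 0, 100000, 0, 0, 0, ⟨0, 0⟩, 0⟩ 0 0) (.cut .d (-1048576) (.void 1 ⟨0, 0, 0, 0, 0, 100000, 0, 0, 0, ⟨0, 0⟩, 0⟩ 0 0) (.cut .d (-524288) (.void 1 ⟨0, 0, 0, 0, 0, 100000, 0, 0, 0, ⟨0, 0⟩, 0⟩ 0 0) (.cut .v 8388608 (.cut .v 4194304 (.void 4 ⟨0, 0, 100000, 0, 0, 0, 0, 0, 0, ⟨0, 0⟩,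 0⟩ 0 0) (.pos 5 .mm ⟨0, 0, 0, 0, 0, 4287882, 0, 0, 0, ⟨0, 0⟩, 0⟩ 0 0)) (.cut .v 12582912 (.pos 6 .mm ⟨0, 0, 0, 0, 0, 5707127, 0, 0, 0, ⟨0, 0⟩, 0⟩ 0 0) (.cut .v 14680064 (.pos 10 .mm ⟨0, 0, 0, 0, 0, 8575191, 0, 0, 0, ⟨0, 0⟩, 0⟩ 0 0) (.cut .v 15728640 (.pos 14 .mm ⟨0, 0, 0, 0, 0, 11911907, 0, 0, 0, ⟨0, 0⟩, 0⟩ 0 0) (.cut .v 16252928 (.pos 20 .mm ⟨0, 0, 0, 0, 0, 13267624, 0, 0, 0, ⟨0, 0⟩, 0⟩ 0 0) (.cut .s 8323072 (.cut .s 8192000 (.pos 21 .mm ⟨0, 0, 0, 0, 0, 11503637, 0, 0, 0, ⟨0, 0⟩, 0⟩ 0 0) (.pos 21 .mm ⟨0, 0, 0, 0, 0, 13234134, 0, 0, 0, ⟨0, 0⟩, 0⟩ 0 0)) (.cut .s 8454144 (.pos 21 .mm ⟨0, 0, 0, 0, 0, 15165509, 0, 0, 0, ⟨0, 0⟩, 0⟩ 0 0) (.pos 21 .mm ⟨0, 0, 0, 0, 0,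 17288610, 0, 0, 0, ⟨0, 0⟩, 0⟩ 0 0))))))))))))) (.cut .v 33554432 (.cut .v 25165824 (.cut .v 20971520 (.cut .d (-8388608) (.void 29 ⟨0, 0, 0, 0, 0, 100000, 0, 0, 0, ⟨0, 0⟩, 0⟩ 0 0) (.cut .v 18874368 (.cut .d (-4194304) (.void 31 ⟨0, 0, 0, 0, 0, 100000, 0, 0, 0, ⟨0, 0⟩, 0⟩ 0 0) (.cut .d (-2097152) (.void 31 ⟨0, 0, 0, 0, 0, 100000, 0, 0, 0, ⟨0, 0⟩, 0⟩ 0 0) (.cut .d (-1048576) (.void 31 ⟨0, 0, 0, 0, 0, 100000, 0, 0, 0, ⟨0, 0⟩, 0⟩ 0 0) (.cut .d (-524288) (.void 31 ⟨0, 0, 0, 0, 0, 100000, 0, 0, 0, ⟨0, 0⟩, 0⟩ 0 0) (.cut .v 17825792 (.cut .s 8323072 (.cut .s 8192000 (.cut .v 17301504 (.cut .d (-262144) (.cut .s 8126464 (.pos 35 .mp ⟨3357847, 0, 0, 0, 0, 8879515, 0, 0,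 0, ⟨0, 0⟩, 0⟩ 0 0) (.pos 35 .mp ⟨3801531, 0, 0, 0, 0, 9307883, 0, 0, 0, ⟨0, 0⟩, 0⟩ 0 0)) (.cut .v 17039360 (.cut .l 1159153 (.cut .d (-131072) (.pos 37 .mp ⟨3357163, 0, 0, 0, 0, 8832741, 0, 0, 0, ⟨0, 0⟩, 0⟩ 0 0) (.cut .s 8126464 (.pos 37 .mp ⟨4064046, 0, 0, 0, 0, 6209291, 0, 0, 0, ⟨0, 0⟩, 0⟩ 0 0) (.pos 37 .mp ⟨4580561, 0, 0, 0, 0, 6425467, 0, 0, 0, ⟨0, 0⟩, 0⟩ 0 0))) (.pos 37 .mp ⟨0, 0, 0, 0, 0, 0, 0, 0, 0, ⟨0, 0⟩, 0⟩ 0 0)) (.pos 38 .mp ⟨9166190, 0, 0, 0, 0, 1625894, 0, 0, 0, ⟨0, 0⟩, 0⟩ 0 0))) (.pos 36 .mp ⟨10567951, 0, 0, 0, 0, 1117138, 0, 0, 0, ⟨0, 0⟩, 0⟩ 0 0)) (.cut .v 17301504 (.cut .d (-262144) (.cut .s 8257536 (.pos 35 .mp ⟨4258189, 0, 0, 0, 0, 9773212, 0,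 0, 0, ⟨0, 0⟩, 0⟩ 0 0) (.pos 35 .mp ⟨4732873, 0, 0, 0, 0, 10268981, 0, 0, 0, ⟨0, 0⟩, 0⟩ 0 0)) (.cut .v 17039360 (.cut .l 1159153 (.cut .d (-131072) (.pos 37 .mp ⟨4266640, 0, 0, 0, 0, 9690530, 0, 0, 0, ⟨0, 0⟩, 0⟩ 0 0) (.cut .s 8257536 (.pos 37 .mp ⟨5124322, 0, 0, 0, 0, 6658073, 0, 0, 0, ⟨0, 0⟩, 0⟩ 0 0) (.pos 37 .mp ⟨5695811, 0, 0, 0, 0, 6904799, 0, 0, 0, ⟨0, 0⟩, 0⟩ 0 0))) (.pos 37 .mp ⟨0, 0, 0, 0, 0, 0, 0, 0, 0, ⟨0, 0⟩, 0⟩ 0 0)) (.pos 38 .mp ⟨10795056, 0, 0, 0, 0, 1478156, 0, 0, 0, ⟨0, 0⟩, 0⟩ 0 0))) (.pos 36 .mp ⟨11905223, 0, 0, 0, 0, 1431936, 0, 0, 0, ⟨0, 0⟩, 0⟩ 0 0))) (.cut .d (-262144) (.cut .v 17301504 (.cut .l 1159153 (.pos 35 .mp ⟨5739322, 0, 0, 0, 0, 20301381,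 0, 0, 0, ⟨0, 0⟩, 0⟩ 0 0) (.cut .s 8454144 (.pos 35 .mp ⟨4916825, 0, 0, 0, 0, 11662460, 0, 0, 0, ⟨0, 0⟩, 0⟩ 0 0) (.cut .s 8519680 (.pos 35 .mp ⟨6212286, 0, 0, 0, 0, 11784990, 0, 0, 0, ⟨0, 0⟩, 0⟩ 0 0) (.pos 35 .mp ⟨6906050, 0, 0, 0, 0, 12213046, 0, 0, 0, ⟨0, 0⟩, 0⟩ 0 0)))) (.pos 36 .mp ⟨16636196, 0, 0, 0, 0, 0, 0, 0, 0, ⟨0, 0⟩, 0⟩ 0 0)) (.cut .l 1159153 (.cut .v 17301504 (.cut .s 8454144 (.cut .v 17039360 (.cut .d (-131072) (.pos 37 .mp ⟨5266379, 0, 0, 0, 0, 10633938, 0, 0, 0, ⟨0, 0⟩, 0⟩ 0 0) (.cut .s 8388608 (.pos 37 .mp ⟨6295525, 0, 0, 0, 0, 7163340, 0, 0, 0, ⟨0, 0⟩, 0⟩ 0 0) (.cut .s 8421376 (.pos 37 .mp ⟨6606126, 0, 0, 0, 0, 7596430, 0, 0, 0, ⟨0, 0⟩, 0⟩ 0 0) (.pos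 37 .mp ⟨6850408, 0, 0, 0, 0, 7839207, 0, 0, 0, ⟨0, 0⟩, 0⟩ 0 0)))) (.pos 38 .mp ⟨14147252, 0, 0, 0, 0, 0, 0, 0, 0, ⟨0, 0⟩, 0⟩ 0 0)) (.cut .v 17039360 (.cut .d (-131072) (.pos 37 .mp ⟨6388936, 0, 0, 0, 0, 11616530, 0, 0, 0, ⟨0, 0⟩, 0⟩ 0 0) (.cut .d (-65536) (.cut .s 8519680 (.pos 37 .mp ⟨6783293, 0, 0, 0, 0, 9833647, 0, 0, 0, ⟨0, 0⟩, 0⟩ 0 0) (.pos 37 .mp ⟨7426018, 0, 0, 0, 0, 10234284, 0, 0, 0, ⟨0, 0⟩, 0⟩ 0 0)) (.pos 37 .mp ⟨7442536, 0, 0, 0, 0, 0, 0, 0, 0, ⟨0, 0⟩, 0⟩ 0 0))) (.pos 38 .mp ⟨15968498, 0, 0, 0, 0, 0, 0, 0, 0, ⟨0, 0⟩, 0⟩ 0 0))) (.pos 36 .mp ⟨15870340, 0, 0, 0, 0, 0, 0, 0, 0, ⟨0, 0⟩, 0⟩ 0 0)) (.pos 33 .mp ⟨8049763, 0, 0, 0, 0, 5304168, 0, 0, 0, ⟨0, 0⟩,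 0⟩ 0 0)))) (.pos 34 .mp ⟨16330040, 0, 0, 0, 0, 0, 0, 0, 0, ⟨0, 0⟩, 0⟩ 0 0)))))) (.pos 32 .mp ⟨55929415, 0, 0, 0, 0, 0, 0, 0, 0, ⟨0, 0⟩, 0⟩ 0 0))) (.void 30 ⟨100000, 0, 0, 0, 0, 0, 0, 0, 0, ⟨0, 0⟩, 0⟩ 0 0)) (.void 28 ⟨100000, 0, 0, 0, 0, 0, 0, 0, 0, ⟨0, 0⟩, 0⟩ 0 0)) (.void 49 ⟨100000, 0, 0, 0, 0, 0, 0, 0, 0, ⟨0, 0⟩, 0⟩ 0 0))) (.cut .v 16777216 (.cut .v 8388608 (.cut .v 4194304 (.void 4 ⟨0, 0, 50000, 0, 50000, 0, 0, 0, 0, ⟨0, 0⟩, 0⟩ 0 0) (.pos 5 .pm ⟨0, 0, 0, 0, 0, 0, 0, 0, 0, ⟨0, 0⟩, 0⟩ 0 0)) (.cut .d 9070610 (.cut .v 12582912 (.pos 6 .pm ⟨0, 0, 0, 0, 0, 0, 0, 0, 0, ⟨0, 0⟩, 0⟩ 0 0) (.pos 7 .pm ⟨0, 0, 0, 0, 0, 0, 0, 0, 0, ⟨0, 0⟩, 0⟩ 0 0)) (.pos 3 .pm ⟨0, 0, 0, 0,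 0, 0, 0, 0, 13141369, ⟨0, 0⟩, 14107901⟩ 0 0))) (.cut .v 33554432 (.cut .d 9070610 (.cut .d 4535305 (.cut .d 2267652 (.cut .v 25165824 (.cut .v 20971520 (.cut .s 8323072 (.pos 29 .pp ⟨6764284, 0, 0, 0, 0, 0, 0, 0, 0, ⟨0, 0⟩, 0⟩ 0 0) (.pos 29 .pp ⟨9155414, 0, 0, 0, 0, 0, 0, 0, 0, ⟨0, 0⟩, 0⟩ 0 0)) (.pos 30 .pp ⟨15959382, 0, 0, 0, 0, 0, 0, 0, 0, ⟨0, 0⟩, 0⟩ 0 0)) (.pos 28 .pp ⟨34919252, 0, 0, 0, 0, 0, 0, 0, 0, ⟨0, 0⟩, 0⟩ 0 0)) (.pos 26 .pp ⟨0, 0, 0, 0, 0, 0, 0, 5515566, 0, ⟨4893574, 1890121⟩, 0⟩ 139 167)) (.pos 26 .pp ⟨0, 0, 0, 0, 0, 0, 0, 5515566, 0, ⟨5650949, 686475⟩, 0⟩ 156 212)) (.cut .v 25165824 (.cut .d 13605915 (.pos 27 .pp ⟨0, 0, 0, 0, 0, 0, 0, 0, 6914231, ⟨0,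 0⟩, 18567042⟩ 0 0) (.void 27 ⟨0, 86035, 0, 0, 0, 0, 0, 0, 13965, ⟨0, 0⟩, 18567042⟩ 0 0)) (.pos 28 .pp ⟨0, 17098398, 0, 0, 0, 0, 0, 0, 2062666, ⟨0, 0⟩, 22080058⟩ 0 0))) (.cut .d 9070610 (.cut .v 50331648 (.cut .d 4535305 (.cut .d 2267652 (.void 52 ⟨100000, 0, 0, 0, 0, 0, 0, 0, 0, ⟨0, 0⟩, 0⟩ 0 0) (.pos 52 .pp ⟨30990015, 0, 0, 0, 0, 0, 0, 0, 0, ⟨0, 0⟩, 0⟩ 0 0)) (.pos 52 .pp ⟨0, 0, 0, 0, 0, 0, 2043872, 0, 0, ⟨0, 0⟩, 0⟩ 0 0)) (.pos 53 .pp ⟨130258029, 0, 0, 0, 0, 0, 164874075, 0, 0, ⟨0, 0⟩, 0⟩ 0 0)) (.pos 49 .pp ⟨0, 19697173, 0, 0, 0, 0, 2043872, 0, 0, ⟨0, 0⟩, 0⟩ 0 0))))),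
    by decide +kernel⟩

def covers10 : cell.Covers table row10.1 :=
  ⟨(.cut .d 0 (.cut .v 16777216 (.cut .d (-8388608) (.void 1 ⟨0, 0, 0, 0, 0, 100000, 0, 0, 0, ⟨0, 0⟩, 0⟩ 0 0) (.cut .d (-4194304) (.void 1 ⟨0, 0, 0, 0, 0, 100000, 0, 0, 0, ⟨0, 0⟩, 0⟩ 0 0) (.cut .d (-2097152) (.void 1 ⟨0, 0, 0, 0, 0, 100000, 0, 0, 0, ⟨0, 0⟩, 0⟩ 0 0) (.cut .d (-1048576) (.void 1 ⟨0, 0, 0, 0, 0, 100000, 0, 0, 0, ⟨0, 0⟩, 0⟩ 0 0) (.cut .d (-524288) (.void 1 ⟨0, 0, 0, 0, 0, 100000, 0, 0, 0, ⟨0, 0⟩, 0⟩ 0 0) (.cut .v 8388608 (.cut .v 4194304 (.void 4 ⟨0, 0, 100000, 0, 0, 0, 0, 0, 0, ⟨0, 0⟩, 0⟩ 0 0) (.pos 5 .mm ⟨0, 0, 0, 0, 0, 5263803, 0, 0, 0, ⟨0, 0⟩, 0⟩ 0 0)) (.cut .d (-262144) (.pos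 3 .mm ⟨0, 0, 0, 0, 0, 26997232, 0, 0, 0, ⟨0, 0⟩, 0⟩ 0 0) (.cut .s 8814592 (.cut .s 8699904 (.pos 3 .mm ⟨0, 0, 0, 0, 0, 18665043, 0, 0, 0, ⟨0, 0⟩, 0⟩ 0 0) (.pos 3 .mm ⟨0, 0, 0, 0, 0, 20884495, 0, 0, 0, ⟨0, 0⟩, 0⟩ 0 0)) (.pos 3 .mm ⟨0, 0, 0, 0, 0, 25271201, 0, 0, 0, ⟨0, 0⟩, 0⟩ 0 0))))))))) (.cut .v 33554432 (.cut .v 25165824 (.cut .v 20971520 (.cut .d (-8388608) (.void 29 ⟨0, 0, 0, 0, 0, 100000, 0, 0, 0, ⟨0, 0⟩, 0⟩ 0 0) (.cut .v 18874368 (.cut .d (-4194304) (.void 31 ⟨0, 0, 0, 0, 0, 100000, 0, 0, 0, ⟨0, 0⟩, 0⟩ 0 0) (.cut .d (-2097152) (.void 31 ⟨0, 0, 0, 0, 0, 100000, 0, 0, 0, ⟨0, 0⟩, 0⟩ 0 0) (.cut .d (-1048576) (.void 31 ⟨0, 0, 0, 0, 0, 100000, 0, 0, 0, ⟨0, 0⟩,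 0⟩ 0 0) (.cut .d (-524288) (.void 31 ⟨0, 0, 0, 0, 0, 100000, 0, 0, 0, ⟨0, 0⟩, 0⟩ 0 0) (.cut .v 17825792 (.cut .d (-262144) (.cut .l 1159153 (.void 33 ⟨0, 0, 0, 0, 0, 100000, 0, 0, 0, ⟨0, 0⟩, 0⟩ 0 0) (.cut .v 17301504 (.cut .s 8814592 (.cut .s 8699904 (.pos 35 .mp ⟨7630209, 0, 0, 0, 0, 13356786, 0, 0, 0, ⟨0, 0⟩, 0⟩ 0 0) (.pos 35 .mp ⟨8951719, 0, 0, 0, 0, 14361634, 0, 0, 0, ⟨0, 0⟩, 0⟩ 0 0)) (.cut .d (-393216) (.pos 35 .mp ⟨11836779, 0, 0, 0, 0, 17647341, 0, 0, 0, ⟨0, 0⟩, 0⟩ 0 0) (.cut .s 8929280 (.pos 35 .mp ⟨10371347, 0, 0, 0, 0, 15065887, 0, 0, 0, ⟨0, 0⟩, 0⟩ 0 0) (.pos 35 .mp ⟨11887122, 0, 0, 0, 0, 16209786, 0, 0, 0, ⟨0, 0⟩, 0⟩ 0 0)))) (.cut .s 8814592 (.pos 36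 .mp ⟨21142460, 0, 0, 0, 0, 0, 0, 0, 0, ⟨0, 0⟩, 0⟩ 0 0) (.pos 36 .mp ⟨26022799, 0, 0, 0, 0, 0, 0, 0, 0, ⟨0, 0⟩, 0⟩ 0 0)))) (.cut .s 8814592 (.cut .l 1159153 (.cut .v 17301504 (.cut .s 8699904 (.cut .v 17039360 (.cut .d (-131072) (.pos 37 .mp ⟨7849749, 0, 0, 0, 0, 12158178, 0, 0, 0, ⟨0, 0⟩, 0⟩ 0 0) (.cut .d (-65536) (.cut .s 8642560 (.pos 37 .mp ⟨8062307, 0, 0, 0, 0, 10549887, 0, 0, 0, ⟨0, 0⟩, 0⟩ 0 0) (.pos 37 .mp ⟨8687610, 0, 0, 0, 0, 10927024, 0, 0, 0, ⟨0, 0⟩, 0⟩ 0 0)) (.pos 37 .mp ⟨8725434, 0, 0, 0, 0, 0, 0, 0, 0, ⟨0, 0⟩, 0⟩ 0 0))) (.pos 38 .mp ⟨17831400, 0, 0, 0, 0, 0, 0, 0, 0, ⟨0, 0⟩, 0⟩ 0 0)) (.cut .v 17039360 (.cut .d (-131072) (.pos 37 .mp ⟨8629001, 0, 0,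 0, 0, 13894347, 0, 0, 0, ⟨0, 0⟩, 0⟩ 0 0) (.cut .d (-65536) (.cut .s 8757248 (.pos 37 .mp ⟨9337471, 0, 0, 0, 0, 11327288, 0, 0, 0, ⟨0, 0⟩, 0⟩ 0 0) (.pos 37 .mp ⟨10034315, 0, 0, 0, 0, 11701818, 0, 0, 0, ⟨0, 0⟩, 0⟩ 0 0)) (.pos 37 .mp ⟨10087498, 0, 0, 0, 0, 0, 0, 0, 0, ⟨0, 0⟩, 0⟩ 0 0))) (.pos 38 .mp ⟨19722914, 0, 0, 0, 0, 0, 0, 0, 0, ⟨0, 0⟩, 0⟩ 0 0))) (.pos 36 .mp ⟨19735056, 0, 0, 0, 0, 0, 0, 0, 0, ⟨0, 0⟩, 0⟩ 0 0)) (.pos 33 .mp ⟨11375320, 0, 0, 0, 0, 5695390, 0, 0, 0, ⟨0, 0⟩, 0⟩ 0 0)) (.cut .v 17301504 (.cut .l 1159153 (.cut .d (-131072) (.cut .d (-196608) (.pos 35 .mp ⟨10718182, 0, 0, 0, 0, 19113465, 0, 0, 0, ⟨0, 0⟩, 0⟩ 0 0) (.cut .v 17039360 (.cut .s 8929280 (.pos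 37 .mp ⟨9885542, 0, 0, 0, 0, 15046018, 0, 0, 0, ⟨0, 0⟩, 0⟩ 0 0) (.pos 37 .mp ⟨11279507, 0, 0, 0, 0, 16219786, 0, 0, 0, ⟨0, 0⟩, 0⟩ 0 0)) (.pos 38 .mp ⟨22913217, 0, 0, 0, 0, 0, 0, 0, 0, ⟨0, 0⟩, 0⟩ 0 0))) (.cut .v 17039360 (.cut .l 747348 (.cut .s 8929280 (.cut .d (-65536) (.cut .s 8871936 (.pos 37 .mp ⟨10806782, 0, 0, 0, 0, 11989060, 0, 0, 0, ⟨0, 0⟩, 0⟩ 0 0) (.pos 37 .mp ⟨11605459, 0, 0, 0, 0, 12293342, 0, 0, 0, ⟨0, 0⟩, 0⟩ 0 0)) (.pos 37 .mp ⟨11288914, 0, 0, 0, 0, 9355609, 0, 0, 0, ⟨0, 0⟩, 0⟩ 0 0)) (.cut .d (-65536) (.cut .s 8986624 (.pos 37 .mp ⟨12427348, 0, 0, 0, 0, 12619917, 0, 0, 0, ⟨0, 0⟩, 0⟩ 0 0) (.pos 37 .mp ⟨12791239, 0, 0, 0, 0, 13795650, 0, 0, 0, ⟨0, 0⟩,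 0⟩ 0 0)) (.pos 37 .mp ⟨12837471, 0, 0, 0, 0, 9993538, 0, 0, 0, ⟨0, 0⟩, 0⟩ 0 0))) (.pos 37 .mp ⟨11735806, 0, 0, 0, 0, 0, 0, 0, 0, ⟨0, 0⟩, 0⟩ 0 0)) (.pos 38 .mp ⟨21651313, 0, 0, 0, 0, 0, 0, 0, 0, ⟨0, 0⟩, 0⟩ 0 0))) (.cut .s 8929280 (.pos 35 .mp ⟨12850885, 0, 0, 0, 0, 8142446, 0, 0, 0, ⟨0, 0⟩, 0⟩ 0 0) (.pos 35 .mp ⟨14711229, 0, 0, 0, 0, 8478501, 0, 0, 0, ⟨0, 0⟩, 0⟩ 0 0))) (.pos 36 .mp ⟨22871692, 0, 0, 0, 0, 0, 0, 0, 0, ⟨0, 0⟩, 0⟩ 0 0)))) (.pos 34 .mp ⟨24975615, 0, 0, 0, 0, 0, 0, 0, 0, ⟨0, 0⟩, 0⟩ 0 0)))))) (.pos 32 .mp ⟨80379514, 0, 0, 0, 0, 0, 0, 0, 0, ⟨0, 0⟩, 0⟩ 0 0))) (.void 30 ⟨100000, 0, 0, 0, 0, 0, 0, 0, 0, ⟨0, 0⟩, 0⟩ 0 0)) (.void 28 ⟨100000, 0, 0, 0, 0, 0, 0,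 0, 0, ⟨0, 0⟩, 0⟩ 0 0)) (.void 49 ⟨100000, 0, 0, 0, 0, 0, 0, 0, 0, ⟨0, 0⟩, 0⟩ 0 0))) (.cut .v 16777216 (.cut .v 8388608 (.cut .v 4194304 (.void 4 ⟨0, 0, 50000, 0, 50000, 0, 0, 0, 0, ⟨0, 0⟩, 0⟩ 0 0) (.pos 5 .pm ⟨0, 0, 0, 0, 0, 0, 0, 0, 1256923, ⟨0, 0⟩, 9975792⟩ 0 0)) (.cut .d 8004398 (.pos 3 .pm ⟨0, 0, 0, 0, 0, 0, 0, 0, 0, ⟨0, 0⟩, 0⟩ 0 0) (.pos 3 .pm ⟨0, 0, 0, 0, 0, 0, 0, 0, 15392499, ⟨0, 0⟩, 14107901⟩ 0 0))) (.cut .d 8004398 (.cut .d 4002199 (.cut .v 33554432 (.cut .d 2001099 (.cut .v 25165824 (.cut .v 20971520 (.cut .v 18874368 (.pos 31 .pp ⟨12595165, 0, 0, 0, 0, 0, 0, 0, 0, ⟨0, 0⟩, 0⟩ 0 0) (.pos 32 .pp ⟨18775581, 0, 0, 0, 0, 0, 0, 0, 0, ⟨0, 0⟩, 0⟩ 0 0)) (.pos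 30 .pp ⟨27362700, 0, 0, 0, 0, 0, 0, 0, 0, ⟨0, 0⟩, 0⟩ 0 0)) (.pos 28 .pp ⟨57395779, 0, 0, 0, 0, 0, 0, 0, 0, ⟨0, 0⟩, 0⟩ 0 0)) (.pos 26 .pp ⟨0, 0, 0, 0, 0, 0, 0, 8582313, 0, ⟨5116811, 1534156⟩, 0⟩ 146 171)) (.cut .d 2001099 (.void 49 ⟨100000, 0, 0, 0, 0, 0, 0, 0, 0, ⟨0, 0⟩, 0⟩ 0 0) (.cut .v 50331648 (.pos 52 .pp ⟨54597804, 0, 0, 0, 0, 0, 517940, 0, 0, ⟨0, 0⟩, 0⟩ 0 0) (.pos 53 .pp ⟨243137747, 0, 0, 0, 0, 0, 0, 0, 0, ⟨0, 0⟩, 0⟩ 0 0)))) (.cut .v 33554432 (.pos 26 .pp ⟨0, 0, 0, 0, 0, 0, 0, 6436735, 0, ⟨5757167, 547608⟩, 0⟩ 162 216) (.pos 49 .pp ⟨0, 0, 0, 0, 0, 0, 2647167, 0, 0, ⟨0, 0⟩, 0⟩ 0 0))) (.cut .v 33554432 (.cut .d 12006597 (.pos 26 .pp ⟨0, 6566436, 0, 0, 0, 0,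 0, 2351471, 2198347, ⟨6138239, 64000⟩, 19951585⟩ 195 282) (.void 26 ⟨0, 88361, 0, 0, 0, 0, 0, 0, 11639, ⟨0, 0⟩, 19951585⟩ 0 0)) (.pos 49 .pp ⟨0, 3903459, 0, 0, 0, 0, 2647167, 0, 0, ⟨0, 0⟩, 0⟩ 0 0))))),
    by decide +kernel⟩

def covers11 : cell.Covers table row11.1 :=
  ⟨(.cut .d 0 (.cut .v 16777216 (.cut .d (-8388608) (.void 1 ⟨0, 0, 0, 0, 0, 100000, 0, 0, 0, ⟨0, 0⟩, 0⟩ 0 0) (.cut .d (-4194304) (.void 1 ⟨0, 0, 0, 0, 0, 100000, 0, 0, 0, ⟨0, 0⟩, 0⟩ 0 0) (.cut .d (-2097152) (.void 1 ⟨0, 0, 0, 0, 0, 100000, 0, 0, 0, ⟨0, 0⟩, 0⟩ 0 0) (.cut .d (-1048576) (.void 1 ⟨0, 0, 0, 0, 0, 100000, 0, 0, 0, ⟨0, 0⟩, 0⟩ 0 0) (.cut .d (-524288) (.void 1 ⟨0, 0, 0, 0, 0, 100000, 0,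 0, 0, ⟨0, 0⟩, 0⟩ 0 0) (.cut .v 8388608 (.cut .v 4194304 (.void 4 ⟨0, 0, 100000, 0, 0, 0, 0, 0, 0, ⟨0, 0⟩, 0⟩ 0 0) (.pos 5 .mm ⟨0, 0, 0, 0, 0, 7613434, 0, 0, 0, ⟨0, 0⟩, 0⟩ 0 0)) (.cut .d (-262144) (.pos 3 .mm ⟨0, 0, 0, 0, 0, 43581586, 0, 0, 0, ⟨0, 0⟩, 0⟩ 0 0) (.cut .s 9306112 (.pos 3 .mm ⟨0, 0, 0, 0, 0, 32057349, 0, 0, 0, ⟨0, 0⟩, 0⟩ 0 0) (.pos 3 .mm ⟨0, 0, 0, 0, 0, 40549905, 0, 0, 0, ⟨0, 0⟩, 0⟩ 0 0))))))))) (.cut .v 67108864 (.cut .v 33554432 (.cut .v 25165824 (.cut .v 20971520 (.cut .d (-8388608) (.void 29 ⟨0, 0, 0, 0, 0, 100000, 0, 0, 0, ⟨0, 0⟩, 0⟩ 0 0) (.cut .d (-4194304) (.void 29 ⟨0, 0, 0, 0, 0, 100000, 0, 0, 0, ⟨0, 0⟩, 0⟩ 0 0) (.cut .v 18874368 (.cut .d (-2097152)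 (.void 31 ⟨0, 0, 0, 0, 0, 100000, 0, 0, 0, ⟨0, 0⟩, 0⟩ 0 0) (.cut .d (-1048576) (.void 31 ⟨0, 0, 0, 0, 0, 100000, 0, 0, 0, ⟨0, 0⟩, 0⟩ 0 0) (.cut .d (-524288) (.void 31 ⟨0, 0, 0, 0, 0, 100000, 0, 0, 0, ⟨0, 0⟩, 0⟩ 0 0) (.cut .v 17825792 (.cut .d (-262144) (.cut .d (-393216) (.void 33 ⟨0, 0, 0, 0, 0, 100000, 0, 0, 0, ⟨0, 0⟩, 0⟩ 0 0) (.cut .l 1159153 (.void 33 ⟨0, 0, 0, 0, 0, 100000, 0, 0, 0, ⟨0, 0⟩, 0⟩ 0 0) (.cut .v 17301504 (.cut .s 9306112 (.cut .l 1570957 (.pos 35 .mp ⟨14181204, 0, 0, 0, 0, 21840578, 0, 0, 0, ⟨0, 0⟩, 0⟩ 0 0) (.cut .s 9175040 (.pos 35 .mp ⟨13525827, 0, 0, 0, 0, 17316771, 0, 0, 0, ⟨0, 0⟩, 0⟩ 0 0) (.pos 35 .mp ⟨15562448, 0, 0, 0, 0, 19042678, 0, 0,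 0, ⟨0, 0⟩, 0⟩ 0 0))) (.cut .d (-327680) (.pos 35 .mp ⟨18991931, 0, 0, 0, 0, 25603391, 0, 0, 0, ⟨0, 0⟩, 0⟩ 0 0) (.cut .l 1570957 (.pos 35 .mp ⟨18605700, 0, 0, 0, 0, 28368487, 0, 0, 0, ⟨0, 0⟩, 0⟩ 0 0) (.cut .s 9437184 (.pos 35 .mp ⟨17792041, 0, 0, 0, 0, 20161941, 0, 0, 0, ⟨0, 0⟩, 0⟩ 0 0) (.pos 35 .mp ⟨20223087, 0, 0, 0, 0, 22094611, 0, 0, 0, ⟨0, 0⟩, 0⟩ 0 0))))) (.cut .s 9306112 (.pos 36 .mp ⟨30178794, 0, 0, 0, 0, 0, 0, 0, 0, ⟨0, 0⟩, 0⟩ 0 0) (.pos 36 .mp ⟨37971750, 0, 0, 0, 0, 0, 0, 0, 0, ⟨0, 0⟩, 0⟩ 0 0))))) (.cut .s 9306112 (.cut .v 17301504 (.cut .s 9175040 (.cut .l 1159153 (.cut .v 17039360 (.cut .d (-131072) (.pos 37 .mp ⟨12783577, 0, 0, 0, 0, 17790437, 0, 0,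 0, ⟨0, 0⟩, 0⟩ 0 0) (.cut .d (-65536) (.cut .s 9109504 (.pos 37 .mp ⟨14637152, 0, 0, 0, 0, 12646341, 0, 0, 0, ⟨0, 0⟩, 0⟩ 0 0) (.pos 37 .mp ⟨15806441, 0, 0, 0, 0, 12876070, 0, 0, 0, ⟨0, 0⟩, 0⟩ 0 0)) (.pos 37 .mp ⟨14807266, 0, 0, 0, 0, 10358194, 0, 0, 0, ⟨0, 0⟩, 0⟩ 0 0))) (.pos 38 .mp ⟨26546753, 0, 0, 0, 0, 0, 0, 0, 0, ⟨0, 0⟩, 0⟩ 0 0)) (.pos 35 .mp ⟨17031443, 0, 0, 0, 0, 8564174, 0, 0, 0, ⟨0, 0⟩, 0⟩ 0 0)) (.cut .l 1159153 (.cut .v 17039360 (.cut .d (-131072) (.cut .s 9240576 (.pos 37 .mp ⟨14648794, 0, 0, 0, 0, 18253049, 0, 0, 0, ⟨0, 0⟩, 0⟩ 0 0) (.pos 37 .mp ⟨15644834, 0, 0, 0, 0, 19053811, 0, 0, 0, ⟨0, 0⟩, 0⟩ 0 0)) (.cut .l 747348 (.cut .d (-65536) (.cut .s 9240576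 (.pos 37 .mp ⟨15308040, 0, 0, 0, 0, 16100637, 0, 0, 0, ⟨0, 0⟩, 0⟩ 0 0) (.pos 37 .mp ⟨16279608, 0, 0, 0, 0, 16900023, 0, 0, 0, ⟨0, 0⟩, 0⟩ 0 0)) (.cut .s 9240576 (.pos 37 .mp ⟨15987445, 0, 0, 0, 0, 12152421, 0, 0, 0, ⟨0, 0⟩, 0⟩ 0 0) (.pos 37 .mp ⟨17067683, 0, 0, 0, 0, 12650676, 0, 0, 0, ⟨0, 0⟩, 0⟩ 0 0))) (.pos 37 .mp ⟨16166747, 0, 0, 0, 0, 12151026, 0, 0, 0, ⟨0, 0⟩, 0⟩ 0 0))) (.pos 38 .mp ⟨29521493, 0, 0, 0, 0, 0, 0, 0, 0, ⟨0, 0⟩, 0⟩ 0 0)) (.cut .s 9240576 (.pos 35 .mp ⟨18202906, 0, 0, 0, 0, 10419334, 0, 0, 0, ⟨0, 0⟩, 0⟩ 0 0) (.pos 35 .mp ⟨19427346, 0, 0, 0, 0, 10820600, 0, 0, 0, ⟨0, 0⟩, 0⟩ 0 0)))) (.pos 36 .mp ⟨28078638, 0, 0, 0, 0, 0, 0, 0, 0, ⟨0, 0⟩, 0⟩ 0 0))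 (.cut .v 17301504 (.cut .s 9437184 (.cut .l 1159153 (.cut .d (-131072) (.cut .s 9371648 (.pos 35 .mp ⟨17576012, 0, 0, 0, 0, 19394378, 0, 0, 0, ⟨0, 0⟩, 0⟩ 0 0) (.pos 35 .mp ⟨18676401, 0, 0, 0, 0, 20326290, 0, 0, 0, ⟨0, 0⟩, 0⟩ 0 0)) (.cut .v 17039360 (.cut .l 747348 (.cut .d (-65536) (.cut .s 9371648 (.pos 37 .mp ⟨17293333, 0, 0, 0, 0, 17738698, 0, 0, 0, ⟨0, 0⟩, 0⟩ 0 0) (.pos 37 .mp ⟨18354569, 0, 0, 0, 0, 18607582, 0, 0, 0, ⟨0, 0⟩, 0⟩ 0 0)) (.cut .s 9371648 (.pos 37 .mp ⟨18190452, 0, 0, 0, 0, 13184651, 0, 0, 0, ⟨0, 0⟩, 0⟩ 0 0) (.pos 37 .mp ⟨19356745, 0, 0, 0, 0, 13750155, 0, 0, 0, ⟨0, 0⟩, 0⟩ 0 0))) (.pos 37 .mp ⟨18621387, 0, 0, 0, 0, 12928304, 0, 0, 0, ⟨0, 0⟩, 0⟩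 0 0)) (.pos 38 .mp ⟨31537826, 0, 0, 0, 0, 0, 0, 0, 0, ⟨0, 0⟩, 0⟩ 0 0))) (.cut .s 9371648 (.pos 35 .mp ⟨20705924, 0, 0, 0, 0, 11242607, 0, 0, 0, ⟨0, 0⟩, 0⟩ 0 0) (.pos 35 .mp ⟨22039842, 0, 0, 0, 0, 11680699, 0, 0, 0, ⟨0, 0⟩, 0⟩ 0 0))) (.cut .s 9502720 (.cut .v 17039360 (.cut .d (-131072) (.pos 37 .mp ⟨17126312, 0, 0, 0, 0, 23495542, 0, 0, 0, ⟨0, 0⟩, 0⟩ 0 0) (.cut .d (-65536) (.cut .s 9469952 (.pos 37 .mp ⟨19932051, 0, 0, 0, 0, 17901879, 0, 0, 0, ⟨0, 0⟩, 0⟩ 0 0) (.pos 37 .mp ⟨20571672, 0, 0, 0, 0, 18221597, 0, 0, 0, ⟨0, 0⟩, 0⟩ 0 0)) (.pos 37 .mp ⟨20554702, 0, 0, 0, 0, 14369704, 0, 0, 0, ⟨0, 0⟩, 0⟩ 0 0))) (.cut .s 9469952 (.pos 38 .mp ⟨27686130, 0, 0, 0, 0, 8440091,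 0, 0, 0, ⟨0, 0⟩, 0⟩ 0 0) (.pos 38 .mp ⟨28412321, 0, 0, 0, 0, 8657324, 0, 0, 0, ⟨0, 0⟩, 0⟩ 0 0))) (.cut .v 17039360 (.cut .d (-131072) (.pos 37 .mp ⟨18208504, 0, 0, 0, 0, 24559608, 0, 0, 0, ⟨0, 0⟩, 0⟩ 0 0) (.cut .d (-65536) (.cut .s 9535488 (.pos 37 .mp ⟨21224087, 0, 0, 0, 0, 18549332, 0, 0, 0, ⟨0, 0⟩, 0⟩ 0 0) (.pos 37 .mp ⟨21881303, 0, 0, 0, 0, 18897022, 0, 0, 0, ⟨0, 0⟩, 0⟩ 0 0)) (.pos 37 .mp ⟨21787465, 0, 0, 0, 0, 15034602, 0, 0, 0, ⟨0, 0⟩, 0⟩ 0 0))) (.cut .s 9535488 (.pos 38 .mp ⟨29163493, 0, 0, 0, 0, 8865025, 0, 0, 0, ⟨0, 0⟩, 0⟩ 0 0) (.pos 38 .mp ⟨29941994, 0, 0, 0, 0, 9060007, 0, 0, 0, ⟨0, 0⟩, 0⟩ 0 0))))) (.cut .s 9437184 (.pos 36 .mp ⟨32928487, 0, 0, 0, 0,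 0, 0, 0, 0, ⟨0, 0⟩, 0⟩ 0 0) (.pos 36 .mp ⟨36472783, 0, 0, 0, 0, 0, 0, 0, 0, ⟨0, 0⟩, 0⟩ 0 0))))) (.cut .s 9306112 (.pos 34 .mp ⟨32969806, 0, 0, 0, 0, 0, 0, 0, 0, ⟨0, 0⟩, 0⟩ 0 0) (.pos 34 .mp ⟨40532346, 0, 0, 0, 0, 0, 0, 0, 0, ⟨0, 0⟩, 0⟩ 0 0)))))) (.pos 32 .mp ⟨81926687, 0, 0, 0, 0, 0, 0, 0, 0, ⟨0, 0⟩, 0⟩ 0 0)))) (.void 30 ⟨100000, 0, 0, 0, 0, 0, 0, 0, 0, ⟨0, 0⟩, 0⟩ 0 0)) (.void 28 ⟨100000, 0, 0, 0, 0, 0, 0, 0, 0, ⟨0, 0⟩, 0⟩ 0 0)) (.void 49 ⟨100000, 0, 0, 0, 0, 0, 0, 0, 0, ⟨0, 0⟩, 0⟩ 0 0)) (.void 62 ⟨100000, 0, 0, 0, 0, 0, 0, 0, 0, ⟨0, 0⟩, 0⟩ 0 0))) (.cut .v 16777216 (.cut .v 8388608 (.cut .v 4194304 (.void 4 ⟨0, 0, 50000, 0, 50000, 0, 0, 0, 0, ⟨0, 0⟩, 0⟩ 0 0) (.pos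 5 .pm ⟨0, 0, 0, 0, 0, 0, 0, 0, 4572190, ⟨0, 0⟩, 9975792⟩ 0 0)) (.cut .d 7172869 (.pos 3 .pm ⟨0, 0, 0, 0, 0, 0, 0, 0, 0, ⟨0, 0⟩, 0⟩ 0 0) (.cut .d 10759303 (.pos 3 .pm ⟨0, 6537977, 0, 0, 0, 0, 0, 0, 8587101, ⟨0, 0⟩, 14107901⟩ 0 0) (.pos 3 .pm ⟨0, 33047813, 0, 0, 0, 0, 0, 0, 14869831, ⟨0, 0⟩, 14107901⟩ 0 0)))) (.cut .v 67108864 (.cut .d 7172869 (.cut .d 3586434 (.cut .v 33554432 (.cut .d 1793217 (.cut .v 25165824 (.cut .v 20971520 (.cut .v 18874368 (.cut .s 9306112 (.pos 31 .pp ⟨17574721, 0, 0, 0, 0, 0, 0, 0, 0, ⟨0, 0⟩, 0⟩ 0 0) (.pos 31 .pp ⟨22804433, 0, 0, 0, 0, 0, 0, 0, 0, ⟨0, 0⟩, 0⟩ 0 0)) (.pos 32 .pp ⟨28983489, 0, 0, 0, 0, 0, 0, 0, 0, ⟨0, 0⟩, 0⟩ 0 0)) (.pos 30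 .pp ⟨42831784, 0, 0, 0, 0, 0, 0, 0, 0, ⟨0, 0⟩, 0⟩ 0 0)) (.pos 28 .pp ⟨88881062, 0, 0, 0, 0, 0, 0, 0, 0, ⟨0, 0⟩, 0⟩ 0 0)) (.pos 26 .pp ⟨0, 0, 0, 0, 0, 0, 0, 12034214, 0, ⟨5338203, 1184531⟩, 0⟩ 152 178)) (.cut .d 1793217 (.void 49 ⟨100000, 0, 0, 0, 0, 0, 0, 0, 0, ⟨0, 0⟩, 0⟩ 0 0) (.cut .v 50331648 (.pos 52 .pp ⟨93046652, 0, 0, 0, 0, 0, 0, 0, 0, ⟨0, 0⟩, 0⟩ 0 0) (.pos 53 .pp ⟨346847555, 0, 0, 0, 0, 0, 0, 0, 0, ⟨0, 0⟩, 0⟩ 0 0)))) (.pos 48 .pp ⟨0, 0, 0, 0, 0, 0, 3090653, 0, 0, ⟨0, 0⟩, 0⟩ 0 0)) (.cut .d 10759303 (.pos 48 .pp ⟨0, 0, 0, 0, 0, 0, 0, 9025661, 0, ⟨6153172, 47276⟩, 0⟩ 202 288) (.pos 48 .pp ⟨0, 31344655, 0, 0, 0, 0, 0, 0, 0, ⟨0, 0⟩, 0⟩ 0 0))) (.void 62 ⟨38048,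 61952, 0, 0, 0, 0, 0, 0, 0, ⟨0, 0⟩, 0⟩ 0 0)))),
    by decide +kernel⟩

def covers12 : cell.Covers table row12.1 :=
  ⟨(.cut .d 0 (.cut .v 16777216 (.cut .d (-8388608) (.void 1 ⟨0, 0, 0, 0, 0, 100000, 0, 0, 0, ⟨0, 0⟩, 0⟩ 0 0) (.cut .d (-4194304) (.void 1 ⟨0, 0, 0, 0, 0, 100000, 0, 0, 0, ⟨0, 0⟩, 0⟩ 0 0) (.cut .d (-2097152) (.void 1 ⟨0, 0, 0, 0, 0, 100000, 0, 0, 0, ⟨0, 0⟩, 0⟩ 0 0) (.cut .d (-1048576) (.void 1 ⟨0, 0, 0, 0, 0, 100000, 0, 0, 0, ⟨0, 0⟩, 0⟩ 0 0) (.cut .d (-524288) (.void 1 ⟨0, 0, 0, 0, 0, 100000, 0, 0, 0, ⟨0, 0⟩, 0⟩ 0 0) (.cut .v 8388608 (.cut .v 4194304 (.void 4 ⟨0, 0, 100000, 0, 0, 0, 0, 0, 0, ⟨0, 0⟩, 0⟩ 0 0) (.pos 5 .mm ⟨0, 0, 0, 0, 0, 12304141, 0,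 0, 0, ⟨0, 0⟩, 0⟩ 0 0)) (.cut .d (-262144) (.pos 3 .mm ⟨0, 0, 0, 0, 0, 69186650, 0, 0, 0, ⟨0, 0⟩, 0⟩ 0 0) (.cut .s 9830400 (.pos 3 .mm ⟨0, 0, 0, 0, 0, 50803389, 0, 0, 0, ⟨0, 0⟩, 0⟩ 0 0) (.pos 3 .mm ⟨0, 0, 0, 0, 0, 63424859, 0, 0, 0, ⟨0, 0⟩, 0⟩ 0 0))))))))) (.cut .v 67108864 (.cut .v 33554432 (.cut .v 25165824 (.cut .v 20971520 (.cut .d (-8388608) (.void 29 ⟨0, 0, 0, 0, 0, 100000, 0, 0, 0, ⟨0, 0⟩, 0⟩ 0 0) (.cut .d (-4194304) (.void 29 ⟨0, 0, 0, 0, 0, 100000, 0, 0, 0, ⟨0, 0⟩, 0⟩ 0 0) (.cut .v 18874368 (.cut .d (-2097152) (.void 31 ⟨0, 0, 0, 0, 0, 100000, 0, 0, 0, ⟨0, 0⟩, 0⟩ 0 0) (.cut .d (-1048576) (.void 31 ⟨0, 0, 0, 0, 0, 100000, 0, 0, 0, ⟨0, 0⟩, 0⟩ 0 0) (.cut .d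 (-524288) (.void 31 ⟨0, 0, 0, 0, 0, 100000, 0, 0, 0, ⟨0, 0⟩, 0⟩ 0 0) (.cut .v 17825792 (.cut .d (-262144) (.cut .d (-393216) (.void 33 ⟨0, 0, 0, 0, 0, 100000, 0, 0, 0, ⟨0, 0⟩, 0⟩ 0 0) (.cut .d (-327680) (.void 33 ⟨0, 0, 0, 0, 0, 100000, 0, 0, 0, ⟨0, 0⟩, 0⟩ 0 0) (.cut .l 1159153 (.void 33 ⟨0, 0, 0, 0, 0, 100000, 0, 0, 0, ⟨0, 0⟩, 0⟩ 0 0) (.cut .l 1570957 (.void 33 ⟨0, 0, 0, 0, 0, 100000, 0, 0, 0, ⟨0, 0⟩, 0⟩ 0 0) (.cut .v 17301504 (.cut .v 17039360 (.pos 37 .mp ⟨0, 0, 0, 0, 0, 62804833, 0, 0, 0, ⟨0, 0⟩, 0⟩ 0 0) (.cut .s 9830400 (.cut .s 9699328 (.pos 38 .mp ⟨23411257, 0, 0, 0, 0, 23620582, 0, 0, 0, ⟨0, 0⟩, 0⟩ 0 0) (.pos 38 .mp ⟨26380438, 0, 0, 0, 0, 26068265, 0, 0,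 0, ⟨0, 0⟩, 0⟩ 0 0)) (.cut .s 9961472 (.pos 38 .mp ⟨29614172, 0, 0, 0, 0, 28692942, 0, 0, 0, ⟨0, 0⟩, 0⟩ 0 0) (.pos 38 .mp ⟨33125437, 0, 0, 0, 0, 31473327, 0, 0, 0, ⟨0, 0⟩, 0⟩ 0 0)))) (.cut .s 9830400 (.pos 36 .mp ⟨44932014, 0, 0, 0, 0, 0, 0, 0, 0, ⟨0, 0⟩, 0⟩ 0 0) (.pos 36 .mp ⟨56523741, 0, 0, 0, 0, 0, 0, 0, 0, ⟨0, 0⟩, 0⟩ 0 0))))))) (.cut .s 9830400 (.cut .v 17301504 (.cut .s 9699328 (.cut .d (-131072) (.cut .l 1159153 (.cut .s 9633792 (.pos 35 .mp ⟨22254314, 0, 0, 0, 0, 23341874, 0, 0, 0, ⟨0, 0⟩, 0⟩ 0 0) (.pos 35 .mp ⟨23549524, 0, 0, 0, 0, 24459567, 0, 0, 0, ⟨0, 0⟩, 0⟩ 0 0)) (.cut .v 17039360 (.pos 37 .mp ⟨0, 0, 0, 0, 0, 47526632, 0, 0, 0, ⟨0, 0⟩, 0⟩ 0 0) (.pos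 38 .mp ⟨28630769, 0, 0, 0, 0, 13099797, 0, 0, 0, ⟨0, 0⟩, 0⟩ 0 0))) (.cut .v 17039360 (.cut .l 1159153 (.cut .l 747348 (.cut .d (-65536) (.cut .s 9633792 (.pos 37 .mp ⟨21745821, 0, 0, 0, 0, 21487464, 0, 0, 0, ⟨0, 0⟩, 0⟩ 0 0) (.pos 37 .mp ⟨22987208, 0, 0, 0, 0, 22539831, 0, 0, 0, ⟨0, 0⟩, 0⟩ 0 0)) (.cut .s 9633792 (.pos 37 .mp ⟨22992799, 0, 0, 0, 0, 15761071, 0, 0, 0, ⟨0, 0⟩, 0⟩ 0 0) (.pos 37 .mp ⟨24394273, 0, 0, 0, 0, 16372711, 0, 0, 0, ⟨0, 0⟩, 0⟩ 0 0))) (.pos 37 .mp ⟨23997688, 0, 0, 0, 0, 14900665, 0, 0, 0, ⟨0, 0⟩, 0⟩ 0 0)) (.pos 37 .mp ⟨0, 0, 0, 0, 0, 0, 0, 0, 0, ⟨0, 0⟩, 0⟩ 0 0)) (.pos 38 .mp ⟨37627007, 0, 0, 0, 0, 0, 0, 0, 0, ⟨0, 0⟩, 0⟩ 0 0))) (.cut .d (-131072)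 (.cut .l 1159153 (.cut .s 9764864 (.pos 35 .mp ⟨24485115, 0, 0, 0, 0, 26619022, 0, 0, 0, ⟨0, 0⟩, 0⟩ 0 0) (.pos 35 .mp ⟨25914156, 0, 0, 0, 0, 27812280, 0, 0, 0, ⟨0, 0⟩, 0⟩ 0 0)) (.cut .v 17039360 (.pos 37 .mp ⟨0, 0, 0, 0, 0, 53445387, 0, 0, 0, ⟨0, 0⟩, 0⟩ 0 0) (.cut .s 9764864 (.pos 38 .mp ⟨30328544, 0, 0, 0, 0, 15554322, 0, 0, 0, ⟨0, 0⟩, 0⟩ 0 0) (.pos 38 .mp ⟨32099243, 0, 0, 0, 0, 16137852, 0, 0, 0, ⟨0, 0⟩, 0⟩ 0 0)))) (.cut .v 17039360 (.cut .l 1159153 (.cut .l 747348 (.cut .d (-65536) (.cut .s 9764864 (.pos 37 .mp ⟨24271508, 0, 0, 0, 0, 23673334, 0, 0, 0, ⟨0, 0⟩, 0⟩ 0 0) (.pos 37 .mp ⟨25606228, 0, 0, 0, 0, 24875225, 0, 0, 0, ⟨0, 0⟩, 0⟩ 0 0)) (.cut .s 9764864 (.pos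 37 .mp ⟨25789753, 0, 0, 0, 0, 17169346, 0, 0, 0, ⟨0, 0⟩, 0⟩ 0 0) (.pos 37 .mp ⟨27233305, 0, 0, 0, 0, 18036323, 0, 0, 0, ⟨0, 0⟩, 0⟩ 0 0))) (.pos 37 .mp ⟨27364400, 0, 0, 0, 0, 15621111, 0, 0, 0, ⟨0, 0⟩, 0⟩ 0 0)) (.pos 37 .mp ⟨0, 0, 0, 0, 0, 0, 0, 0, 0, ⟨0, 0⟩, 0⟩ 0 0)) (.pos 38 .mp ⟨41554527, 0, 0, 0, 0, 0, 0, 0, 0, ⟨0, 0⟩, 0⟩ 0 0)))) (.cut .s 9699328 (.pos 36 .mp ⟨40305726, 0, 0, 0, 0, 0, 0, 0, 0, ⟨0, 0⟩, 0⟩ 0 0) (.pos 36 .mp ⟨44498474, 0, 0, 0, 0, 0, 0, 0, 0, ⟨0, 0⟩, 0⟩ 0 0))) (.cut .v 17301504 (.cut .s 9961472 (.cut .d (-131072) (.cut .l 1159153 (.cut .s 9895936 (.pos 35 .mp ⟨27401533, 0, 0, 0, 0, 29068519, 0, 0, 0, ⟨0, 0⟩, 0⟩ 0 0) (.pos 35 .mp ⟨28948678, 0, 0,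 0, 0, 30389704, 0, 0, 0, ⟨0, 0⟩, 0⟩ 0 0)) (.cut .v 17039360 (.pos 37 .mp ⟨18281299, 0, 0, 0, 0, 38464073, 0, 0, 0, ⟨0, 0⟩, 0⟩ 0 0) (.cut .s 9895936 (.pos 38 .mp ⟨33944647, 0, 0, 0, 0, 16753560, 0, 0, 0, ⟨0, 0⟩, 0⟩ 0 0) (.pos 38 .mp ⟨35866605, 0, 0, 0, 0, 17398418, 0, 0, 0, ⟨0, 0⟩, 0⟩ 0 0)))) (.cut .v 17039360 (.cut .l 1159153 (.cut .l 747348 (.cut .d (-65536) (.cut .s 9895936 (.pos 37 .mp ⟨26998914, 0, 0, 0, 0, 26132556, 0, 0, 0, ⟨0, 0⟩, 0⟩ 0 0) (.pos 37 .mp ⟨28457162, 0, 0, 0, 0, 27432166, 0, 0, 0, ⟨0, 0⟩, 0⟩ 0 0)) (.cut .s 9895936 (.pos 37 .mp ⟨28733743, 0, 0, 0, 0, 18952619, 0, 0, 0, ⟨0, 0⟩, 0⟩ 0 0) (.pos 37 .mp ⟨30292490, 0, 0, 0, 0, 19912513, 0, 0, 0, ⟨0,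 0⟩, 0⟩ 0 0))) (.pos 37 .mp ⟨30935661, 0, 0, 0, 0, 16580759, 0, 0, 0, ⟨0, 0⟩, 0⟩ 0 0)) (.pos 37 .mp ⟨0, 0, 0, 0, 0, 0, 0, 0, 0, ⟨0, 0⟩, 0⟩ 0 0)) (.pos 38 .mp ⟨45840769, 0, 0, 0, 0, 0, 0, 0, 0, ⟨0, 0⟩, 0⟩ 0 0))) (.cut .d (-131072) (.cut .l 1159153 (.cut .s 10027008 (.pos 35 .mp ⟨30557083, 0, 0, 0, 0, 31777869, 0, 0, 0, ⟨0, 0⟩, 0⟩ 0 0) (.pos 35 .mp ⟨32228298, 0, 0, 0, 0, 33235118, 0, 0, 0, ⟨0, 0⟩, 0⟩ 0 0)) (.cut .v 17039360 (.pos 37 .mp ⟨19295297, 0, 0, 0, 0, 44001637, 0, 0, 0, ⟨0, 0⟩, 0⟩ 0 0) (.cut .s 10027008 (.pos 38 .mp ⟨37867043, 0, 0, 0, 0, 18069236, 0, 0, 0, ⟨0, 0⟩, 0⟩ 0 0) (.pos 38 .mp ⟨39947966, 0, 0, 0, 0, 18762651, 0, 0, 0, ⟨0, 0⟩, 0⟩ 0 0)))) (.cut .v 17039360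 (.cut .d (-65536) (.cut .s 10027008 (.cut .s 9994240 (.pos 37 .mp ⟨32406740, 0, 0, 0, 0, 23180057, 0, 0, 0, ⟨0, 0⟩, 0⟩ 0 0) (.pos 37 .mp ⟨33302430, 0, 0, 0, 0, 23631962, 0, 0, 0, ⟨0, 0⟩, 0⟩ 0 0)) (.pos 37 .mp ⟨36040496, 0, 0, 0, 0, 21676553, 0, 0, 0, ⟨0, 0⟩, 0⟩ 0 0)) (.pos 37 .mp ⟨33590893, 0, 0, 0, 0, 19247966, 0, 0, 0, ⟨0, 0⟩, 0⟩ 0 0)) (.pos 38 .mp ⟨50502900, 0, 0, 0, 0, 0, 0, 0, 0, ⟨0, 0⟩, 0⟩ 0 0)))) (.cut .s 9961472 (.pos 36 .mp ⟨49080480, 0, 0, 0, 0, 0, 0, 0, 0, ⟨0, 0⟩, 0⟩ 0 0) (.pos 36 .mp ⟨54045828, 0, 0, 0, 0, 0, 0, 0, 0, ⟨0, 0⟩, 0⟩ 0 0))))) (.cut .s 9830400 (.pos 34 .mp ⟨49526756, 0, 0, 0, 0, 0, 0, 0, 0, ⟨0, 0⟩, 0⟩ 0 0) (.pos 34 .mp ⟨60101301, 0, 0, 0,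 0, 0, 0, 0, 0, ⟨0, 0⟩, 0⟩ 0 0)))))) (.pos 32 .mp ⟨120093549, 0, 0, 0, 0, 0, 0, 0, 0, ⟨0, 0⟩, 0⟩ 0 0)))) (.void 30 ⟨100000, 0, 0, 0, 0, 0, 0, 0, 0, ⟨0, 0⟩, 0⟩ 0 0)) (.void 28 ⟨100000, 0, 0, 0, 0, 0, 0, 0, 0, ⟨0, 0⟩, 0⟩ 0 0)) (.void 49 ⟨100000, 0, 0, 0, 0, 0, 0, 0, 0, ⟨0, 0⟩, 0⟩ 0 0)) (.void 62 ⟨100000, 0, 0, 0, 0, 0, 0, 0, 0, ⟨0, 0⟩, 0⟩ 0 0))) (.cut .v 16777216 (.cut .v 8388608 (.cut .v 4194304 (.void 4 ⟨0, 0, 32105, 0, 0, 0, 0, 0, 67895, ⟨0, 0⟩, 3966728⟩ 0 0) (.cut .d 6320185 (.pos 5 .pm ⟨0, 0, 0, 0, 0, 0, 0, 0, 0, ⟨0, 0⟩, 0⟩ 0 0) (.pos 5 .pm ⟨0, 0, 0, 0, 0, 0, 0, 0, 20347962, ⟨0, 0⟩, 9975792⟩ 0 0))) (.cut .d 6320185 (.pos 3 .pm ⟨0, 0, 0, 0, 0, 0, 0, 0, 0, ⟨0,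 0⟩, 0⟩ 0 0) (.cut .d 9480278 (.cut .v 12582912 (.pos 6 .pm ⟨0, 0, 0, 0, 0, 0, 0, 1223067, 5536898, ⟨6165163, 34307⟩, 13128881⟩ 210 293) (.pos 7 .pm ⟨0, 5895421, 0, 0, 0, 0, 0, 13204309, 0, ⟨6165163, 34307⟩, 0⟩ 210 293)) (.cut .d 11060324 (.cut .v 12582912 (.pos 6 .pm ⟨0, 31566791, 0, 0, 0, 0, 0, 0, 6528272, ⟨0, 0⟩, 13128881⟩ 0 0) (.pos 7 .pm ⟨0, 31685364, 0, 0, 0, 0, 0, 0, 4852504, ⟨0, 0⟩, 15612959⟩ 0 0)) (.void 3 ⟨0, 92035, 0, 0, 0, 0, 0, 0, 7965, ⟨0, 0⟩, 14107901⟩ 0 0))))) (.cut .v 67108864 (.cut .d 6320185 (.cut .d 3160092 (.cut .v 33554432 (.cut .d 1580046 (.cut .v 25165824 (.cut .d 790023 (.cut .v 20971520 (.cut .v 18874368 (.cut .v 17825792 (.pos 33 .pp ⟨28030940,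 0, 0, 0, 0, 0, 0, 0, 0, ⟨0, 0⟩, 0⟩ 0 0) (.pos 34 .pp ⟨39672711, 0, 0, 0, 0, 0, 0, 0, 0, ⟨0, 0⟩, 0⟩ 0 0)) (.pos 32 .pp ⟨48603762, 0, 0, 0, 0, 0, 0, 0, 0, ⟨0, 0⟩, 0⟩ 0 0)) (.pos 30 .pp ⟨73604448, 0, 0, 0, 0, 0, 0, 0, 0, ⟨0, 0⟩, 0⟩ 0 0)) (.pos 27 .pp ⟨13011692, 0, 0, 0, 0, 0, 0, 0, 0, ⟨0, 0⟩, 0⟩ 0 0)) (.pos 28 .pp ⟨130244965, 0, 0, 0, 0, 0, 0, 0, 0, ⟨0, 0⟩, 0⟩ 0 0)) (.pos 26 .pp ⟨0, 0, 0, 0, 0, 0, 0, 0, 0, ⟨0, 0⟩, 0⟩ 0 0)) (.cut .d 1580046 (.pos 49 .pp ⟨641214765, 0, 0, 0, 0, 0, 0, 0, 0, ⟨0, 0⟩, 0⟩ 0 0) (.cut .v 50331648 (.pos 52 .pp ⟨147145711, 0, 0, 0, 0, 0, 0, 0, 0, ⟨0, 0⟩, 0⟩ 0 0) (.pos 53 .pp ⟨486443084, 0, 0, 0, 0, 0, 0, 0, 0, ⟨0, 0⟩, 0⟩ 0 0)))) (.pos 48 .pp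 ⟨0, 0, 0, 0, 0, 0, 2912979, 0, 0, ⟨0, 0⟩, 0⟩ 0 0)) (.pos 48 .pp ⟨0, 29472349, 0, 0, 0, 0, 0, 0, 0, ⟨0, 0⟩, 0⟩ 0 0)) (.void 62 ⟨37646, 62354, 0, 0, 0, 0, 0, 0, 0, ⟨0, 0⟩, 0⟩ 0 0)))),
    by decide +kernel⟩

def covers13 : cell.Covers table row13.1 :=
  ⟨(.cut .d 0 (.cut .v 16777216 (.cut .d (-8388608) (.void 1 ⟨0, 0, 0, 0, 0, 100000, 0, 0, 0, ⟨0, 0⟩, 0⟩ 0 0) (.cut .d (-4194304) (.void 1 ⟨0, 0, 0, 0, 0, 100000, 0, 0, 0, ⟨0, 0⟩, 0⟩ 0 0) (.cut .d (-2097152) (.void 1 ⟨0, 0, 0, 0, 0, 100000, 0, 0, 0, ⟨0, 0⟩, 0⟩ 0 0) (.cut .d (-1048576) (.void 1 ⟨0, 0, 0, 0, 0, 100000, 0, 0, 0, ⟨0, 0⟩, 0⟩ 0 0) (.cut .d (-524288) (.void 1 ⟨0, 0, 0, 0, 0, 100000, 0, 0, 0, ⟨0, 0⟩, 0⟩ 0 0)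 (.cut .v 8388608 (.cut .v 4194304 (.void 4 ⟨0, 0, 100000, 0, 0, 0, 0, 0, 0, ⟨0, 0⟩, 0⟩ 0 0) (.pos 5 .mm ⟨0, 0, 0, 0, 0, 20651311, 0, 0, 0, ⟨0, 0⟩, 0⟩ 0 0)) (.cut .s 10289152 (.pos 3 .mm ⟨0, 0, 0, 0, 0, 77879486, 0, 0, 0, ⟨0, 0⟩, 0⟩ 0 0) (.pos 3 .mm ⟨0, 0, 0, 0, 0, 91329920, 0, 0, 0, ⟨0, 0⟩, 0⟩ 0 0)))))))) (.cut .v 67108864 (.cut .v 33554432 (.cut .v 25165824 (.cut .d (-8388608) (.void 27 ⟨0, 0, 0, 0, 0, 100000, 0, 0, 0, ⟨0, 0⟩, 0⟩ 0 0) (.cut .v 20971520 (.cut .d (-4194304) (.void 29 ⟨100000, 0, 0, 0, 0, 0, 0, 0, 0, ⟨0, 0⟩, 0⟩ 0 0) (.cut .v 18874368 (.cut .d (-2097152) (.void 31 ⟨100000, 0, 0, 0, 0, 0, 0, 0, 0, ⟨0, 0⟩, 0⟩ 0 0) (.cut .d (-1048576) (.void 31 ⟨100000,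 0, 0, 0, 0, 0, 0, 0, 0, ⟨0, 0⟩, 0⟩ 0 0) (.cut .d (-524288) (.void 31 ⟨0, 0, 0, 0, 0, 100000, 0, 0, 0, ⟨0, 0⟩, 0⟩ 0 0) (.cut .v 17825792 (.cut .d (-262144) (.cut .v 17301504 (.cut .s 10289152 (.pos 35 .mp ⟨35965002, 0, 0, 0, 0, 41861409, 0, 0, 0, ⟨0, 0⟩, 0⟩ 0 0) (.pos 35 .mp ⟨42061174, 0, 0, 0, 0, 48649705, 0, 0, 0, ⟨0, 0⟩, 0⟩ 0 0)) (.pos 36 .mp ⟨80202502, 0, 0, 0, 0, 0, 0, 0, 0, ⟨0, 0⟩, 0⟩ 0 0)) (.cut .s 10289152 (.cut .v 17301504 (.cut .d (-131072) (.cut .l 1159153 (.cut .s 10190848 (.pos 35 .mp ⟨33961426, 0, 0, 0, 0, 36053845, 0, 0, 0, ⟨0, 0⟩, 0⟩ 0 0) (.pos 35 .mp ⟨36671324, 0, 0, 0, 0, 38675834, 0, 0, 0, ⟨0, 0⟩, 0⟩ 0 0)) (.cut .d (-196608) (.cut .s 10190848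 (.pos 35 .mp ⟨33486183, 0, 0, 0, 0, 34941874, 0, 0, 0, ⟨0, 0⟩, 0⟩ 0 0) (.pos 35 .mp ⟨36211780, 0, 0, 0, 0, 37480319, 0, 0, 0, ⟨0, 0⟩, 0⟩ 0 0)) (.pos 35 .mp ⟨41680558, 0, 0, 0, 0, 16587457, 0, 0, 0, ⟨0, 0⟩, 0⟩ 0 0))) (.cut .d (-65536) (.cut .s 10190848 (.cut .s 10141696 (.pos 35 .mp ⟨38398047, 0, 0, 0, 0, 21593988, 0, 0, 0, ⟨0, 0⟩, 0⟩ 0 0) (.pos 35 .mp ⟨39882316, 0, 0, 0, 0, 22249005, 0, 0, 0, ⟨0, 0⟩, 0⟩ 0 0)) (.pos 35 .mp ⟨42984317, 0, 0, 0, 0, 21183233, 0, 0, 0, ⟨0, 0⟩, 0⟩ 0 0)) (.pos 35 .mp ⟨38932457, 0, 0, 0, 0, 18313808, 0, 0, 0, ⟨0, 0⟩, 0⟩ 0 0))) (.pos 36 .mp ⟨60631922, 0, 0, 0, 0, 0, 0, 0, 0, ⟨0, 0⟩, 0⟩ 0 0)) (.cut .v 17301504 (.cut .d (-131072) (.cut .l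 1159153 (.pos 35 .mp ⟨39542792, 0, 0, 0, 0, 48092843, 0, 0, 0, ⟨0, 0⟩, 0⟩ 0 0) (.cut .s 10387456 (.pos 35 .mp ⟨36168187, 0, 0, 0, 0, 42924327, 0, 0, 0, ⟨0, 0⟩, 0⟩ 0 0) (.pos 35 .mp ⟨38966230, 0, 0, 0, 0, 46128132, 0, 0, 0, ⟨0, 0⟩, 0⟩ 0 0))) (.cut .s 10387456 (.pos 35 .mp ⟨46270304, 0, 0, 0, 0, 22063162, 0, 0, 0, ⟨0, 0⟩, 0⟩ 0 0) (.pos 35 .mp ⟨49747927, 0, 0, 0, 0, 23596440, 0, 0, 0, ⟨0, 0⟩, 0⟩ 0 0))) (.pos 36 .mp ⟨69771428, 0, 0, 0, 0, 0, 0, 0, 0, ⟨0, 0⟩, 0⟩ 0 0)))) (.pos 34 .mp ⟨78303637, 0, 0, 0, 0, 0, 0, 0, 0, ⟨0, 0⟩, 0⟩ 0 0))))) (.pos 32 .mp ⟨158648597, 0, 0, 0, 0, 0, 0, 0, 0, ⟨0, 0⟩, 0⟩ 0 0))) (.void 30 ⟨100000, 0, 0, 0, 0, 0, 0, 0, 0, ⟨0, 0⟩, 0⟩ 0 0))) (.void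 28 ⟨100000, 0, 0, 0, 0, 0, 0, 0, 0, ⟨0, 0⟩, 0⟩ 0 0)) (.void 49 ⟨100000, 0, 0, 0, 0, 0, 0, 0, 0, ⟨0, 0⟩, 0⟩ 0 0)) (.void 62 ⟨100000, 0, 0, 0, 0, 0, 0, 0, 0, ⟨0, 0⟩, 0⟩ 0 0))) (.cut .v 16777216 (.cut .v 8388608 (.cut .v 4194304 (.pos 4 .pm ⟨0, 0, 43897489, 0, 0, 0, 0, 0, 90894453, ⟨0, 0⟩, 3966728⟩ 0 0) (.cut .d 5556092 (.pos 5 .pm ⟨0, 0, 0, 0, 0, 0, 0, 0, 0, ⟨0, 0⟩, 0⟩ 0 0) (.cut .d 8334138 (.pos 5 .pm ⟨0, 0, 0, 0, 0, 0, 0, 0, 7727618, ⟨0, 0⟩, 9975792⟩ 0 0) (.pos 5 .pm ⟨0, 0, 0, 0, 0, 0, 0, 0, 35080604, ⟨0, 0⟩, 9975792⟩ 0 0)))) (.cut .d 5556092 (.pos 3 .pm ⟨0, 0, 0, 0, 0, 0, 0, 0, 0, ⟨0, 0⟩, 0⟩ 0 0) (.cut .d 8334138 (.pos 3 .pm ⟨0, 0, 0, 0, 0, 0, 0, 0, 0, ⟨0, 0⟩,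 0⟩ 0 0) (.cut .v 12582912 (.cut .d 9723161 (.cut .v 10485760 (.cut .s 10289152 (.pos 8 .pm ⟨0, 27818850, 0, 0, 0, 0, 0, 0, 6613335, ⟨0, 0⟩, 12543895⟩ 0 0) (.cut .v 9437184 (.pos 69 .pm ⟨0, 32537713, 0, 0, 0, 0, 0, 0, 6790101, ⟨0, 0⟩, 12217800⟩ 0 0) (.cut .d 9028649 (.cut .s 10387456 (.pos 70 .pm ⟨0, 0, 0, 0, 0, 0, 0, 0, 0, ⟨0, 0⟩, 0⟩ 0 0) (.cut .s 10436608 (.pos 70 .pm ⟨0, 34471479, 0, 0, 0, 0, 0, 0, 2157854, ⟨0, 0⟩, 12918751⟩ 0 0) (.cut .d 8681393 (.pos 70 .pm ⟨0, 0, 0, 0, 0, 0, 0, 0, 0, ⟨0, 0⟩, 0⟩ 0 0) (.cut .v 9961472 (.cut .d 8855021 (.pos 71 .pm ⟨0, 0, 0, 0, 0, 0, 0, 0, 0, ⟨0, 0⟩, 0⟩ 0 0) (.pos 71 .pm ⟨0, 39389552, 0, 0, 0, 0, 0, 0, 1654622, ⟨0, 0⟩, 12754147⟩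 0 0)) (.pos 72 .pm ⟨0, 41032411, 0, 0, 0, 0, 0, 0, 0, ⟨0, 0⟩, 0⟩ 0 0))))) (.cut .s 10387456 (.pos 70 .pm ⟨0, 39800754, 0, 0, 0, 0, 0, 0, 2911120, ⟨0, 0⟩, 12918751⟩ 0 0) (.pos 70 .pm ⟨0, 44954748, 0, 0, 0, 0, 0, 0, 2736311, ⟨0, 0⟩, 12918751⟩ 0 0))))) (.cut .d 9028649 (.pos 9 .pm ⟨0, 25581008, 0, 0, 0, 0, 0, 0, 0, ⟨0, 0⟩, 0⟩ 0 0) (.cut .s 10289152 (.pos 9 .pm ⟨0, 35966995, 0, 0, 0, 0, 0, 2991714, 4359875, ⟨6197343, 155⟩, 13882102⟩ 281 320) (.pos 9 .pm ⟨0, 42848308, 0, 0, 0, 0, 0, 0, 0, ⟨0, 0⟩, 0⟩ 0 0)))) (.void 6 ⟨0, 93654, 0, 0, 0, 0, 0, 0, 6346, ⟨0, 0⟩, 13128881⟩ 0 0)) (.pos 7 .pm ⟨0, 49059553, 0, 0, 0, 0, 0, 0, 0, ⟨0, 0⟩, 0⟩ 0 0))))) (.cut .v 67108864 (.cut .d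 5556092 (.cut .d 2778046 (.cut .v 33554432 (.cut .d 1389023 (.cut .v 25165824 (.cut .d 694511 (.cut .v 20971520 (.cut .v 18874368 (.pos 31 .pp ⟨46215244, 0, 0, 0, 0, 0, 0, 0, 0, ⟨0, 0⟩, 0⟩ 0 0) (.pos 32 .pp ⟨67844933, 0, 0, 0, 0, 0, 0, 0, 0, ⟨0, 0⟩, 0⟩ 0 0)) (.pos 30 .pp ⟨99339990, 0, 0, 0, 0, 0, 0, 0, 0, ⟨0, 0⟩, 0⟩ 0 0)) (.pos 27 .pp ⟨26227074, 0, 0, 0, 0, 0, 0, 0, 0, ⟨0, 0⟩, 0⟩ 0 0)) (.cut .d 694511 (.void 28 ⟨100000, 0, 0, 0, 0, 0, 0, 0, 0, ⟨0, 0⟩, 0⟩ 0 0) (.pos 28 .pp ⟨126211031, 0, 0, 0, 0, 0, 0, 0, 0, ⟨0, 0⟩, 0⟩ 0 0))) (.pos 26 .pp ⟨7848716, 0, 0, 0, 0, 0, 0, 0, 0, ⟨0, 0⟩, 0⟩ 0 0)) (.cut .v 50331648 (.cut .d 1389023 (.pos 52 .pp ⟨468407499, 0, 0, 0, 0, 0,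 0, 0, 0, ⟨0, 0⟩, 0⟩ 0 0) (.pos 52 .pp ⟨212325023, 0, 0, 0, 0, 0, 0, 0, 0, ⟨0, 0⟩, 0⟩ 0 0)) (.pos 53 .pp ⟨805579780, 0, 0, 0, 0, 0, 0, 0, 0, ⟨0, 0⟩, 0⟩ 0 0))) (.pos 48 .pp ⟨0, 0, 0, 0, 0, 0, 0, 0, 0, ⟨0, 0⟩, 0⟩ 0 0)) (.pos 48 .pp ⟨0, 34606972, 0, 0, 0, 0, 0, 0, 0, ⟨0, 0⟩, 0⟩ 0 0)) (.void 62 ⟨37538, 62462, 0, 0, 0, 0, 0, 0, 0, ⟨0, 0⟩, 0⟩ 0 0)))),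
    by decide +kernel⟩

def covers14 : cell.Covers table row14.1 :=
  ⟨(.cut .d 0 (.cut .v 16777216 (.cut .d (-8388608) (.void 1 ⟨0, 0, 0, 0, 0, 100000, 0, 0, 0, ⟨0, 0⟩, 0⟩ 0 0) (.cut .d (-4194304) (.void 1 ⟨0, 0, 0, 0, 0, 100000, 0, 0, 0, ⟨0, 0⟩, 0⟩ 0 0) (.cut .d (-2097152) (.void 1 ⟨0, 0, 0, 0, 0, 100000, 0, 0, 0, ⟨0, 0⟩, 0⟩ 0 0) (.cut .d (-1048576) (.void 1 ⟨0, 0, 0, 0, 0, 100000, 0, 0, 0, ⟨0, 0⟩, 0⟩ 0 0) (.cut .d (-524288) (.void 1 ⟨0, 0, 0, 0, 0, 100000, 0, 0, 0, ⟨0, 0⟩, 0⟩ 0 0) (.cut .d (-262144) (.void 1 ⟨0, 0, 0, 0, 0, 100000, 0, 0, 0, ⟨0, 0⟩, 0⟩ 0 0) (.cut .v 8388608 (.cut .v 4194304 (.void 4 ⟨0, 0, 100000, 0, 0, 0, 0, 0, 0, ⟨0, 0⟩, 0⟩ 0 0) (.pos 5 .mm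 ⟨0, 0, 0, 0, 0, 28044541, 0, 0, 0, ⟨0, 0⟩, 0⟩ 0 0)) (.cut .s 10682368 (.pos 3 .mm ⟨0, 0, 0, 0, 0, 103515075, 0, 0, 0, ⟨0, 0⟩, 0⟩ 0 0) (.pos 3 .mm ⟨0, 0, 0, 0, 0, 120633994, 0, 0, 0, ⟨0, 0⟩, 0⟩ 0 0))))))))) (.cut .v 67108864 (.cut .v 33554432 (.cut .v 25165824 (.cut .d (-8388608) (.void 27 ⟨0, 0, 0, 0, 0, 100000, 0, 0, 0, ⟨0, 0⟩, 0⟩ 0 0) (.cut .v 20971520 (.cut .d (-4194304) (.void 29 ⟨100000, 0, 0, 0, 0, 0, 0, 0, 0, ⟨0, 0⟩, 0⟩ 0 0) (.cut .v 18874368 (.cut .d (-2097152) (.void 31 ⟨100000, 0, 0, 0, 0, 0, 0, 0, 0, ⟨0, 0⟩, 0⟩ 0 0) (.cut .d (-1048576) (.void 31 ⟨100000, 0, 0, 0, 0, 0, 0, 0, 0, ⟨0, 0⟩, 0⟩ 0 0) (.cut .d (-524288) (.void 31 ⟨0, 0, 0, 0, 0, 100000, 0, 0,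 0, ⟨0, 0⟩, 0⟩ 0 0) (.cut .d (-262144) (.void 31 ⟨0, 0, 0, 0, 0, 100000, 0, 0, 0, ⟨0, 0⟩, 0⟩ 0 0) (.cut .v 17825792 (.cut .s 10682368 (.cut .v 17301504 (.cut .d (-131072) (.cut .s 10584064 (.pos 35 .mp ⟨41924515, 0, 0, 0, 0, 51499663, 0, 0, 0, ⟨0, 0⟩, 0⟩ 0 0) (.cut .s 10633216 (.pos 35 .mp ⟨45106738, 0, 0, 0, 0, 52106441, 0, 0, 0, ⟨0, 0⟩, 0⟩ 0 0) (.pos 35 .mp ⟨46763577, 0, 0, 0, 0, 53934893, 0, 0, 0, ⟨0, 0⟩, 0⟩ 0 0))) (.cut .s 10584064 (.pos 35 .mp ⟨53475282, 0, 0, 0, 0, 25635773, 0, 0, 0, ⟨0, 0⟩, 0⟩ 0 0) (.pos 35 .mp ⟨57417214, 0, 0, 0, 0, 27322179, 0, 0, 0, ⟨0, 0⟩, 0⟩ 0 0))) (.pos 36 .mp ⟨80627465, 0, 0, 0, 0, 0, 0, 0, 0, ⟨0, 0⟩, 0⟩ 0 0)) (.cut .v 17301504 (.cut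 .d (-131072) (.cut .l 1159153 (.pos 35 .mp ⟨55089967, 0, 0, 0, 0, 61610991, 0, 0, 0, ⟨0, 0⟩, 0⟩ 0 0) (.cut .s 10780672 (.pos 35 .mp ⟨48465515, 0, 0, 0, 0, 57969182, 0, 0, 0, ⟨0, 0⟩, 0⟩ 0 0) (.pos 35 .mp ⟨52008723, 0, 0, 0, 0, 62251766, 0, 0, 0, ⟨0, 0⟩, 0⟩ 0 0))) (.cut .s 10780672 (.pos 35 .mp ⟨61584423, 0, 0, 0, 0, 29213849, 0, 0, 0, ⟨0, 0⟩, 0⟩ 0 0) (.cut .s 10829824 (.pos 35 .mp ⟨63755674, 0, 0, 0, 0, 33450716, 0, 0, 0, ⟨0, 0⟩, 0⟩ 0 0) (.pos 35 .mp ⟨65987132, 0, 0, 0, 0, 34621949, 0, 0, 0, ⟨0, 0⟩, 0⟩ 0 0)))) (.pos 36 .mp ⟨92320805, 0, 0, 0, 0, 0, 0, 0, 0, ⟨0, 0⟩, 0⟩ 0 0))) (.pos 34 .mp ⟨94776177, 0, 0, 0, 0, 0, 0, 0, 0, ⟨0, 0⟩, 0⟩ 0 0)))))) (.pos 32 .mp ⟨208716571,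 0, 0, 0, 0, 0, 0, 0, 0, ⟨0, 0⟩, 0⟩ 0 0))) (.void 30 ⟨100000, 0, 0, 0, 0, 0, 0, 0, 0, ⟨0, 0⟩, 0⟩ 0 0))) (.void 28 ⟨100000, 0, 0, 0, 0, 0, 0, 0, 0, ⟨0, 0⟩, 0⟩ 0 0)) (.void 49 ⟨100000, 0, 0, 0, 0, 0, 0, 0, 0, ⟨0, 0⟩, 0⟩ 0 0)) (.void 62 ⟨100000, 0, 0, 0, 0, 0, 0, 0, 0, ⟨0, 0⟩, 0⟩ 0 0))) (.cut .v 16777216 (.cut .v 8388608 (.cut .v 4194304 (.cut .v 2097152 (.void 77 ⟨0, 0, 50000, 0, 50000, 0, 0, 0, 0, ⟨0, 0⟩, 0⟩ 0 0) (.void 78 ⟨0, 0, 45679, 0, 0, 0, 0, 0, 54321, ⟨0, 0⟩, 7053950⟩ 0 0)) (.cut .d 5033166 (.pos 5 .pm ⟨0, 0, 0, 0, 0, 0, 0, 0, 0, ⟨0, 0⟩, 0⟩ 0 0) (.cut .d 7549749 (.pos 5 .pm ⟨0, 0, 0, 0, 0, 0, 0, 0, 0, ⟨0, 0⟩, 0⟩ 0 0) (.cut .d 8808040 (.cut .d 8178894 (.pos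 5 .pm ⟨0, 0, 0, 0, 0, 0, 0, 0, 0, ⟨0, 0⟩, 0⟩ 0 0) (.cut .s 10682368 (.pos 5 .pm ⟨0, 37879502, 0, 0, 0, 0, 0, 0, 3498602, ⟨0, 0⟩, 9975792⟩ 0 0) (.cut .d 8493467 (.cut .s 10780672 (.pos 5 .pm ⟨0, 41371725, 0, 0, 0, 0, 0, 0, 0, ⟨0, 0⟩, 0⟩ 0 0) (.pos 5 .pm ⟨0, 45386882, 0, 0, 0, 0, 0, 0, 0, ⟨0, 0⟩, 0⟩ 0 0)) (.pos 5 .pm ⟨0, 49417908, 0, 0, 0, 0, 0, 0, 0, ⟨0, 0⟩, 0⟩ 0 0)))) (.pos 5 .pm ⟨0, 72191141, 0, 0, 0, 0, 0, 0, 7727283, ⟨0, 0⟩, 9975792⟩ 0 0))))) (.cut .d 5033166 (.pos 3 .pm ⟨0, 0, 0, 0, 0, 0, 0, 0, 0, ⟨0, 0⟩, 0⟩ 0 0) (.cut .d 7549749 (.pos 3 .pm ⟨0, 0, 0, 0, 0, 0, 0, 0, 0, ⟨0, 0⟩, 0⟩ 0 0) (.cut .v 12582912 (.cut .d 8808040 (.cut .v 10485760 (.cut .d 8178894 (.pos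 8 .pm ⟨0, 31263591, 0, 0, 0, 0, 0, 0, 0, ⟨0, 0⟩, 0⟩ 0 0) (.cut .s 10682368 (.cut .d 8493467 (.pos 8 .pm ⟨0, 0, 0, 0, 0, 0, 0, 0, 0, ⟨0, 0⟩, 0⟩ 0 0) (.cut .l 1159153 (.cut .l 747348 (.cut .v 9437184 (.cut .l 541446 (.cut .s 10584064 (.cut .v 8912896 (.pos 79 .pm ⟨0, 0, 0, 0, 0, 0, 0, 0, 28844779, ⟨0, 0⟩, 12044454⟩ 0 0) (.cut .s 10534912 (.pos 80 .pm ⟨0, 0, 0, 0, 0, 0, 0, 0, 0, ⟨0, 0⟩, 0⟩ 0 0) (.cut .v 9175040 (.pos 81 .pm ⟨0, 39275742, 0, 0, 0, 0, 0, 0, 617970, ⟨0, 0⟩, 12317332⟩ 0 0) (.pos 82 .pm ⟨0, 39745987, 0, 0, 0, 0, 0, 0, 421577, ⟨0, 0⟩, 12494605⟩ 0 0)))) (.cut .l 438495 (.cut .d 8650753 (.cut .v 8912896 (.pos 79 .pm ⟨0, 39866189, 0, 0, 0, 0, 0, 0, 0, ⟨0,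 0⟩, 0⟩ 0 0) (.pos 80 .pm ⟨0, 39813906, 0, 0, 0, 0, 0, 0, 0, ⟨0, 0⟩, 0⟩ 0 0)) (.cut .v 8912896 (.cut .s 10633216 (.pos 79 .pm ⟨0, 42870765, 0, 0, 0, 0, 0, 0, 1222432, ⟨0, 0⟩, 12044454⟩ 0 0) (.pos 79 .pm ⟨0, 44418822, 0, 0, 0, 0, 0, 0, 81117, ⟨0, 0⟩, 12044454⟩ 0 0)) (.cut .s 10633216 (.pos 80 .pm ⟨0, 42301983, 0, 0, 0, 0, 0, 0, 122823, ⟨0, 0⟩, 12404386⟩ 0 0) (.pos 80 .pm ⟨0, 44951526, 0, 0, 0, 0, 0, 0, 0, ⟨0, 0⟩, 0⟩ 0 0)))) (.pos 69 .pm ⟨0, 41736086, 0, 0, 0, 0, 0, 0, 0, ⟨0, 0⟩, 0⟩ 0 0))) (.pos 69 .pm ⟨0, 38277259, 0, 0, 0, 0, 0, 0, 0, ⟨0, 0⟩, 0⟩ 0 0)) (.cut .s 10584064 (.pos 70 .pm ⟨0, 35977194, 0, 0, 0, 0, 0, 0, 0, ⟨0, 0⟩, 0⟩ 0 0) (.pos 70 .pm ⟨0, 44123164, 0,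 0, 0, 0, 0, 0, 0, ⟨0, 0⟩, 0⟩ 0 0))) (.pos 8 .pm ⟨0, 38793018, 0, 0, 0, 0, 0, 0, 0, ⟨0, 0⟩, 0⟩ 0 0)) (.pos 8 .pm ⟨0, 38327477, 0, 0, 0, 0, 0, 0, 0, ⟨0, 0⟩, 0⟩ 0 0))) (.cut .v 9437184 (.cut .l 1159153 (.cut .l 747348 (.cut .d 8493467 (.cut .s 10780672 (.pos 69 .pm ⟨0, 42504079, 0, 0, 0, 0, 0, 0, 0, ⟨0, 0⟩, 0⟩ 0 0) (.pos 69 .pm ⟨0, 47807851, 0, 0, 0, 0, 0, 0, 0, ⟨0, 0⟩, 0⟩ 0 0)) (.cut .s 10780672 (.cut .v 8912896 (.pos 79 .pm ⟨0, 47431627, 0, 0, 0, 0, 0, 0, 0, ⟨0, 0⟩, 0⟩ 0 0) (.pos 80 .pm ⟨0, 48286838, 0, 0, 0, 0, 0, 0, 0, ⟨0, 0⟩, 0⟩ 0 0)) (.void 69 ⟨0, 100000, 0, 0, 0, 0, 0, 0, 0, ⟨0, 0⟩, 0⟩ 0 0))) (.pos 69 .pm ⟨0, 47616075, 0, 0, 0, 0, 0, 0, 0, ⟨0, 0⟩, 0⟩ 0 0))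 (.pos 69 .pm ⟨0, 47165359, 0, 0, 0, 0, 0, 0, 0, ⟨0, 0⟩, 0⟩ 0 0)) (.pos 70 .pm ⟨0, 50639667, 0, 0, 0, 0, 0, 0, 0, ⟨0, 0⟩, 0⟩ 0 0)))) (.pos 9 .pm ⟨0, 42057821, 0, 0, 0, 0, 0, 0, 0, ⟨0, 0⟩, 0⟩ 0 0)) (.cut .v 10485760 (.cut .s 10682368 (.cut .s 10584064 (.cut .d 9437186 (.cut .d 9122613 (.cut .d 8965326 (.cut .l 1159153 (.cut .l 747348 (.cut .v 9437184 (.cut .d 8886683 (.cut .s 10534912 (.pos 69 .pm ⟨0, 40209004, 0, 0, 0, 0, 0, 0, 1400192, ⟨0, 0⟩, 12217800⟩ 0 0) (.cut .v 8912896 (.pos 79 .pm ⟨0, 63284972, 0, 0, 0, 0, 0, 0, 6849548, ⟨0, 0⟩, 12044454⟩ 0 0) (.cut .v 9175040 (.pos 81 .pm ⟨0, 64118828, 0, 0, 0, 0, 0, 0, 6719893, ⟨0, 0⟩, 12317332⟩ 0 0) (.pos 82 .pm ⟨0, 42650877,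 0, 0, 0, 0, 0, 0, 1015394, ⟨0, 0⟩, 12494605⟩ 0 0)))) (.pos 69 .pm ⟨0, 63860911, 0, 0, 0, 0, 0, 0, 6789807, ⟨0, 0⟩, 12217800⟩ 0 0)) (.cut .s 10534912 (.cut .s 10510336 (.pos 70 .pm ⟨0, 39955925, 0, 0, 0, 0, 0, 0, 981184, ⟨0, 0⟩, 12918751⟩ 0 0) (.pos 70 .pm ⟨0, 41404256, 0, 0, 0, 0, 0, 0, 693030, ⟨0, 0⟩, 12918751⟩ 0 0)) (.pos 70 .pm ⟨0, 43704085, 0, 0, 0, 0, 0, 0, 0, ⟨0, 0⟩, 0⟩ 0 0))) (.pos 8 .pm ⟨0, 42155742, 0, 0, 0, 0, 0, 0, 1613430, ⟨0, 0⟩, 12543895⟩ 0 0)) (.pos 8 .pm ⟨0, 39397991, 0, 0, 0, 0, 0, 0, 202385, ⟨0, 0⟩, 12543895⟩ 0 0)) (.pos 8 .pm ⟨0, 128619310, 0, 0, 0, 0, 0, 0, 6491680, ⟨0, 0⟩, 12543895⟩ 0 0)) (.void 8 ⟨0, 94722, 0, 0, 0, 0, 0, 0, 5278, ⟨0, 0⟩,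 12543895⟩ 0 0)) (.void 8 ⟨0, 0, 0, 68567, 0, 0, 0, 0, 31433, ⟨0, 0⟩, 12543895⟩ 0 0)) (.pos 8 .pm ⟨0, 191267502, 0, 0, 0, 0, 0, 0, 6371279, ⟨0, 0⟩, 12543895⟩ 0 0)) (.void 8 ⟨0, 100000, 0, 0, 0, 0, 0, 0, 0, ⟨0, 0⟩, 0⟩ 0 0)) (.pos 9 .pm ⟨0, 66132317, 0, 0, 0, 0, 0, 0, 0, ⟨0, 0⟩, 0⟩ 0 0))) (.pos 7 .pm ⟨0, 61664892, 0, 0, 0, 0, 0, 0, 0, ⟨0, 0⟩, 0⟩ 0 0))))) (.cut .d 5033166 (.cut .v 67108864 (.cut .d 2516583 (.cut .v 33554432 (.cut .d 1258291 (.cut .v 25165824 (.cut .d 629145 (.cut .v 20971520 (.cut .v 18874368 (.pos 31 .pp ⟨62844429, 0, 0, 0, 0, 0, 0, 0, 0, ⟨0, 0⟩, 0⟩ 0 0) (.pos 32 .pp ⟨89353411, 0, 0, 0, 0, 0, 0, 0, 0, ⟨0, 0⟩, 0⟩ 0 0)) (.pos 30 .pp ⟨129623262, 0, 0,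 0, 0, 0, 0, 0, 0, ⟨0, 0⟩, 0⟩ 0 0)) (.pos 27 .pp ⟨38795161, 0, 0, 0, 0, 0, 0, 0, 0, ⟨0, 0⟩, 0⟩ 0 0)) (.cut .d 629145 (.void 28 ⟨100000, 0, 0, 0, 0, 0, 0, 0, 0, ⟨0, 0⟩, 0⟩ 0 0) (.pos 28 .pp ⟨166236152, 0, 0, 0, 0, 0, 0, 0, 0, ⟨0, 0⟩, 0⟩ 0 0))) (.pos 26 .pp ⟨19682298, 0, 0, 0, 0, 0, 0, 0, 0, ⟨0, 0⟩, 0⟩ 0 0)) (.cut .v 50331648 (.cut .d 1258291 (.pos 52 .pp ⟨586242238, 0, 0, 0, 0, 0, 0, 0, 0, ⟨0, 0⟩, 0⟩ 0 0) (.pos 52 .pp ⟨277805119, 0, 0, 0, 0, 0, 0, 0, 0, ⟨0, 0⟩, 0⟩ 0 0)) (.pos 53 .pp ⟨987087916, 0, 0, 0, 0, 0, 0, 0, 0, ⟨0, 0⟩, 0⟩ 0 0))) (.pos 48 .pp ⟨0, 0, 0, 0, 0, 0, 0, 0, 0, ⟨0, 0⟩, 0⟩ 0 0)) (.void 62 ⟨40138, 59862, 0, 0, 0, 0, 0, 0, 0, ⟨0, 0⟩, 0⟩ 0 0)) (.pos 61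 .pp ⟨0, 41846570, 0, 0, 0, 0, 0, 0, 0, ⟨0, 0⟩, 0⟩ 0 0)))),
    by decide +kernel⟩

def covers15 : cell.Covers table row15.1 :=
  ⟨(.cut .d 0 (.cut .v 16777216 (.cut .d (-8388608) (.void 1 ⟨0, 0, 0, 0, 0, 100000, 0, 0, 0, ⟨0, 0⟩, 0⟩ 0 0) (.cut .d (-4194304) (.void 1 ⟨0, 0, 0, 0, 0, 100000, 0, 0, 0, ⟨0, 0⟩, 0⟩ 0 0) (.cut .d (-2097152) (.void 1 ⟨0, 0, 0, 0, 0, 100000, 0, 0, 0, ⟨0, 0⟩, 0⟩ 0 0) (.cut .d (-1048576) (.void 1 ⟨0, 0, 0, 0, 0, 100000, 0, 0, 0, ⟨0, 0⟩, 0⟩ 0 0) (.cut .d (-524288) (.void 1 ⟨0, 0, 0, 0, 0, 100000, 0, 0, 0, ⟨0, 0⟩, 0⟩ 0 0) (.cut .d (-262144) (.void 1 ⟨0, 0, 0, 0, 0, 100000, 0, 0, 0, ⟨0, 0⟩, 0⟩ 0 0) (.cut .v 8388608 (.cut .v 4194304 (.void 4 ⟨0,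 0, 100000, 0, 0, 0, 0, 0, 0, ⟨0, 0⟩, 0⟩ 0 0) (.pos 5 .mm ⟨0, 0, 0, 0, 0, 39865209, 0, 0, 0, ⟨0, 0⟩, 0⟩ 0 0)) (.cut .s 11108352 (.pos 3 .mm ⟨0, 0, 0, 0, 0, 144673960, 0, 0, 0, ⟨0, 0⟩, 0⟩ 0 0) (.pos 3 .mm ⟨0, 0, 0, 0, 0, 171168680, 0, 0, 0, ⟨0, 0⟩, 0⟩ 0 0))))))))) (.cut .v 268435456 (.cut .v 67108864 (.cut .v 33554432 (.cut .v 25165824 (.cut .d (-8388608) (.void 27 ⟨0, 0, 0, 0, 0, 100000, 0, 0, 0, ⟨0, 0⟩, 0⟩ 0 0) (.cut .v 20971520 (.cut .d (-4194304) (.void 29 ⟨100000, 0, 0, 0, 0, 0, 0, 0, 0, ⟨0, 0⟩, 0⟩ 0 0) (.cut .v 18874368 (.cut .d (-2097152) (.void 31 ⟨100000, 0, 0, 0, 0, 0, 0, 0, 0, ⟨0, 0⟩, 0⟩ 0 0) (.cut .d (-1048576) (.void 31 ⟨100000, 0, 0, 0, 0, 0, 0, 0,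 0, ⟨0, 0⟩, 0⟩ 0 0) (.cut .d (-524288) (.void 31 ⟨100000, 0, 0, 0, 0, 0, 0, 0, 0, ⟨0, 0⟩, 0⟩ 0 0) (.cut .d (-262144) (.void 31 ⟨0, 0, 0, 0, 0, 100000, 0, 0, 0, ⟨0, 0⟩, 0⟩ 0 0) (.cut .v 17825792 (.cut .s 11108352 (.cut .v 17301504 (.cut .d (-131072) (.cut .l 1159153 (.void 35 ⟨0, 0, 0, 0, 0, 100000, 0, 0, 0, ⟨0, 0⟩, 0⟩ 0 0) (.cut .d (-196608) (.pos 35 .mp ⟨61119982, 0, 0, 0, 0, 78272026, 0, 0, 0, ⟨0, 0⟩, 0⟩ 0 0) (.cut .s 10993664 (.pos 35 .mp ⟨55749922, 0, 0, 0, 0, 67670214, 0, 0, 0, ⟨0, 0⟩, 0⟩ 0 0) (.cut .s 11051008 (.pos 35 .mp ⟨60476486, 0, 0, 0, 0, 68874244, 0, 0, 0, ⟨0, 0⟩, 0⟩ 0 0) (.pos 35 .mp ⟨62947610, 0, 0, 0, 0, 71621643, 0, 0, 0, ⟨0, 0⟩, 0⟩ 0 0))))) (.cut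 .l 1159153 (.cut .v 17039360 (.cut .d (-65536) (.cut .s 10993664 (.pos 37 .mp ⟨54570944, 0, 0, 0, 0, 66396744, 0, 0, 0, ⟨0, 0⟩, 0⟩ 0 0) (.pos 37 .mp ⟨58706059, 0, 0, 0, 0, 72454680, 0, 0, 0, ⟨0, 0⟩, 0⟩ 0 0)) (.cut .s 10993664 (.pos 37 .mp ⟨64158727, 0, 0, 0, 0, 42956421, 0, 0, 0, ⟨0, 0⟩, 0⟩ 0 0) (.pos 37 .mp ⟨69299266, 0, 0, 0, 0, 46414058, 0, 0, 0, ⟨0, 0⟩, 0⟩ 0 0))) (.pos 38 .mp ⟨103242657, 0, 0, 0, 0, 0, 0, 0, 0, ⟨0, 0⟩, 0⟩ 0 0)) (.pos 35 .mp ⟨71379633, 0, 0, 0, 0, 30770657, 0, 0, 0, ⟨0, 0⟩, 0⟩ 0 0))) (.cut .d (-131072) (.pos 36 .mp ⟨112892409, 0, 0, 0, 0, 0, 0, 0, 0, ⟨0, 0⟩, 0⟩ 0 0) (.pos 36 .mp ⟨103027067, 0, 0, 0, 0, 0, 0, 0, 0, ⟨0, 0⟩, 0⟩ 0 0))) (.cut .v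 17301504 (.cut .d (-131072) (.cut .l 1159153 (.void 35 ⟨0, 0, 0, 0, 0, 100000, 0, 0, 0, ⟨0, 0⟩, 0⟩ 0 0) (.cut .d (-196608) (.pos 35 .mp ⟨72927223, 0, 0, 0, 0, 90355418, 0, 0, 0, ⟨0, 0⟩, 0⟩ 0 0) (.cut .v 17039360 (.cut .s 11223040 (.pos 37 .mp ⟨36597829, 0, 0, 0, 0, 117119631, 0, 0, 0, ⟨0, 0⟩, 0⟩ 0 0) (.pos 37 .mp ⟨39130903, 0, 0, 0, 0, 127901083, 0, 0, 0, ⟨0, 0⟩, 0⟩ 0 0)) (.cut .v 17170432 (.cut .s 11223040 (.cut .s 11165696 (.pos 63 .mp ⟨81746307, 0, 0, 0, 0, 46021605, 0, 0, 0, ⟨0, 0⟩, 0⟩ 0 0) (.pos 63 .mp ⟨85056713, 0, 0, 0, 0, 47797233, 0, 0, 0, ⟨0, 0⟩, 0⟩ 0 0)) (.cut .s 11280384 (.pos 63 .mp ⟨88475219, 0, 0, 0, 0, 49668846, 0, 0, 0, ⟨0, 0⟩, 0⟩ 0 0) (.pos 63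 .mp ⟨92005003, 0, 0, 0, 0, 51633413, 0, 0, 0, ⟨0, 0⟩, 0⟩ 0 0))) (.pos 64 .mp ⟨122893842, 0, 0, 0, 0, 0, 0, 0, 0, ⟨0, 0⟩, 0⟩ 0 0))))) (.cut .l 1159153 (.cut .s 11223040 (.cut .v 17039360 (.cut .d (-65536) (.cut .s 11165696 (.pos 37 .mp ⟨65420020, 0, 0, 0, 0, 69970288, 0, 0, 0, ⟨0, 0⟩, 0⟩ 0 0) (.pos 37 .mp ⟨67808888, 0, 0, 0, 0, 73194503, 0, 0, 0, ⟨0, 0⟩, 0⟩ 0 0)) (.cut .s 11165696 (.pos 37 .mp ⟨71985671, 0, 0, 0, 0, 52339359, 0, 0, 0, ⟨0, 0⟩, 0⟩ 0 0) (.pos 37 .mp ⟨74752490, 0, 0, 0, 0, 54618730, 0, 0, 0, ⟨0, 0⟩, 0⟩ 0 0))) (.pos 38 .mp ⟨114935650, 0, 0, 0, 0, 0, 0, 0, 0, ⟨0, 0⟩, 0⟩ 0 0)) (.cut .v 17039360 (.cut .d (-65536) (.cut .s 11280384 (.pos 37 .mp ⟨70367425,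 0, 0, 0, 0, 76402446, 0, 0, 0, ⟨0, 0⟩, 0⟩ 0 0) (.cut .s 11309056 (.pos 37 .mp ⟨74587022, 0, 0, 0, 0, 74142593, 0, 0, 0, ⟨0, 0⟩, 0⟩ 0 0) (.pos 37 .mp ⟨76049131, 0, 0, 0, 0, 75618519, 0, 0, 0, ⟨0, 0⟩, 0⟩ 0 0))) (.cut .d (-32768) (.cut .s 11280384 (.pos 37 .mp ⟨77602086, 0, 0, 0, 0, 58951070, 0, 0, 0, ⟨0, 0⟩, 0⟩ 0 0) (.cut .s 11309056 (.pos 37 .mp ⟨77261285, 0, 0, 0, 0, 66195210, 0, 0, 0, ⟨0, 0⟩, 0⟩ 0 0) (.pos 37 .mp ⟨78632968, 0, 0, 0, 0, 67767170, 0, 0, 0, ⟨0, 0⟩, 0⟩ 0 0))) (.pos 37 .mp ⟨76901951, 0, 0, 0, 0, 56080592, 0, 0, 0, ⟨0, 0⟩, 0⟩ 0 0))) (.pos 38 .mp ⟨123937444, 0, 0, 0, 0, 0, 0, 0, 0, ⟨0, 0⟩, 0⟩ 0 0))) (.cut .s 11223040 (.pos 35 .mp ⟨77165469, 0, 0, 0,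 0, 43949405, 0, 0, 0, ⟨0, 0⟩, 0⟩ 0 0) (.cut .s 11280384 (.pos 35 .mp ⟨80193546, 0, 0, 0, 0, 51491543, 0, 0, 0, ⟨0, 0⟩, 0⟩ 0 0) (.pos 35 .mp ⟨83315284, 0, 0, 0, 0, 53658910, 0, 0, 0, ⟨0, 0⟩, 0⟩ 0 0))))) (.cut .d (-131072) (.pos 36 .mp ⟨131616165, 0, 0, 0, 0, 0, 0, 0, 0, ⟨0, 0⟩, 0⟩ 0 0) (.pos 36 .mp ⟨119706424, 0, 0, 0, 0, 0, 0, 0, 0, ⟨0, 0⟩, 0⟩ 0 0)))) (.pos 34 .mp ⟨129288107, 0, 0, 0, 0, 0, 0, 0, 0, ⟨0, 0⟩, 0⟩ 0 0)))))) (.pos 32 .mp ⟨285942986, 0, 0, 0, 0, 0, 0, 0, 0, ⟨0, 0⟩, 0⟩ 0 0))) (.void 30 ⟨100000, 0, 0, 0, 0, 0, 0, 0, 0, ⟨0, 0⟩, 0⟩ 0 0))) (.void 28 ⟨100000, 0, 0, 0, 0, 0, 0, 0, 0, ⟨0, 0⟩, 0⟩ 0 0)) (.void 49 ⟨100000, 0, 0, 0, 0, 0, 0, 0, 0, ⟨0, 0⟩, 0⟩ 0 0))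 (.void 62 ⟨100000, 0, 0, 0, 0, 0, 0, 0, 0, ⟨0, 0⟩, 0⟩ 0 0)) (.void 87 ⟨94669, 0, 0, 5331, 0, 0, 0, 0, 0, ⟨0, 0⟩, 0⟩ 0 0))) (.cut .v 16777216 (.cut .v 8388608 (.cut .v 4194304 (.cut .v 2097152 (.void 77 ⟨0, 0, 25058, 0, 0, 0, 0, 0, 74942, ⟨0, 0⟩, 2804900⟩ 0 0) (.pos 78 .pm ⟨0, 0, 0, 0, 0, 0, 0, 0, 8013813, ⟨0, 0⟩, 7053950⟩ 0 0)) (.cut .d 4548041 (.pos 5 .pm ⟨0, 0, 0, 0, 0, 0, 0, 0, 0, ⟨0, 0⟩, 0⟩ 0 0) (.cut .d 6822062 (.pos 5 .pm ⟨0, 0, 0, 0, 0, 0, 0, 0, 0, ⟨0, 0⟩, 0⟩ 0 0) (.cut .d 7959072 (.cut .d 7390567 (.pos 5 .pm ⟨0, 0, 0, 0, 0, 0, 0, 0, 0, ⟨0, 0⟩, 0⟩ 0 0) (.cut .v 6291456 (.pos 67 .pm ⟨0, 43565722, 0, 0, 0, 0, 0, 0, 0, ⟨0, 0⟩, 0⟩ 0 0) (.cut .s 11108352 (.pos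 68 .pm ⟨0, 42999556, 0, 0, 0, 0, 0, 0, 0, ⟨0, 0⟩, 0⟩ 0 0) (.cut .d 7674819 (.pos 68 .pm ⟨0, 53399996, 0, 0, 0, 0, 0, 0, 0, ⟨0, 0⟩, 0⟩ 0 0) (.pos 68 .pm ⟨0, 61294582, 0, 0, 0, 0, 0, 0, 0, ⟨0, 0⟩, 0⟩ 0 0))))) (.cut .s 11108352 (.cut .d 8527577 (.cut .d 8243324 (.cut .s 10993664 (.pos 5 .pm ⟨0, 44313956, 0, 0, 0, 0, 0, 0, 0, ⟨0, 0⟩, 0⟩ 0 0) (.cut .v 6291456 (.pos 67 .pm ⟨0, 73667933, 0, 0, 0, 0, 0, 0, 8205970, ⟨0, 0⟩, 9283521⟩ 0 0) (.pos 68 .pm ⟨0, 54910584, 0, 0, 0, 0, 0, 0, 0, ⟨0, 0⟩, 0⟩ 0 0))) (.pos 5 .pm ⟨0, 61631055, 0, 0, 0, 0, 0, 0, 820151, ⟨0, 0⟩, 9975792⟩ 0 0)) (.void 5 ⟨0, 95671, 0, 0, 0, 0, 0, 0, 4329, ⟨0, 0⟩, 9975792⟩ 0 0)) (.pos 5 .pm ⟨0, 329335921, 0,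 0, 0, 0, 0, 0, 8063776, ⟨0, 0⟩, 9975792⟩ 0 0)))))) (.cut .d 4548041 (.pos 3 .pm ⟨0, 0, 0, 0, 0, 0, 0, 0, 0, ⟨0, 0⟩, 0⟩ 0 0) (.cut .d 6822062 (.pos 3 .pm ⟨0, 0, 0, 0, 0, 0, 0, 0, 0, ⟨0, 0⟩, 0⟩ 0 0) (.cut .v 12582912 (.cut .d 7959072 (.cut .s 11108352 (.pos 6 .pm ⟨0, 42754302, 0, 0, 0, 0, 0, 0, 0, ⟨0, 0⟩, 0⟩ 0 0) (.pos 6 .pm ⟨0, 57745238, 0, 0, 0, 0, 0, 0, 0, ⟨0, 0⟩, 0⟩ 0 0)) (.cut .s 11108352 (.cut .d 8527577 (.cut .d 8243324 (.pos 6 .pm ⟨0, 54237939, 0, 0, 0, 0, 0, 0, 0, ⟨0, 0⟩, 0⟩ 0 0) (.void 6 ⟨0, 100000, 0, 0, 0, 0, 0, 0, 0, ⟨0, 0⟩, 0⟩ 0 0)) (.void 6 ⟨0, 0, 0, 100000, 0, 0, 0, 0, 0, ⟨0, 0⟩, 0⟩ 0 0)) (.void 6 ⟨0, 100000, 0, 0, 0, 0, 0, 0, 0, ⟨0, 0⟩, 0⟩ 0 0)))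 (.pos 7 .pm ⟨0, 79890766, 0, 0, 0, 0, 0, 0, 0, ⟨0, 0⟩, 0⟩ 0 0))))) (.cut .v 268435456 (.cut .d 4548041 (.cut .v 67108864 (.cut .d 2274020 (.cut .v 33554432 (.cut .d 1137010 (.cut .v 25165824 (.cut .d 568505 (.cut .v 20971520 (.cut .v 18874368 (.pos 31 .pp ⟨85974765, 0, 0, 0, 0, 0, 0, 0, 0, ⟨0, 0⟩, 0⟩ 0 0) (.pos 32 .pp ⟨118217387, 0, 0, 0, 0, 0, 0, 0, 0, ⟨0, 0⟩, 0⟩ 0 0)) (.pos 30 .pp ⟨171691677, 0, 0, 0, 0, 0, 0, 0, 0, ⟨0, 0⟩, 0⟩ 0 0)) (.pos 27 .pp ⟨54381390, 0, 0, 0, 0, 0, 0, 0, 0, ⟨0, 0⟩, 0⟩ 0 0)) (.cut .d 568505 (.pos 28 .pp ⟨345363173, 0, 0, 0, 0, 0, 0, 0, 0, ⟨0, 0⟩, 0⟩ 0 0) (.pos 28 .pp ⟨218759553, 0, 0, 0, 0, 0, 0, 0, 0, ⟨0, 0⟩, 0⟩ 0 0))) (.pos 26 .pp ⟨34662468,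 0, 0, 0, 0, 0, 0, 0, 0, ⟨0, 0⟩, 0⟩ 0 0)) (.cut .d 1137010 (.pos 49 .pp ⟨1284879673, 0, 0, 0, 0, 0, 0, 0, 0, ⟨0, 0⟩, 0⟩ 0 0) (.cut .v 50331648 (.cut .v 41943040 (.pos 56 .pp ⟨274535185, 0, 0, 0, 0, 0, 0, 0, 0, ⟨0, 0⟩, 0⟩ 0 0) (.pos 57 .pp ⟨514729873, 0, 0, 0, 0, 0, 0, 0, 0, ⟨0, 0⟩, 0⟩ 0 0)) (.pos 53 .pp ⟨1002754207, 0, 0, 0, 0, 0, 0, 0, 0, ⟨0, 0⟩, 0⟩ 0 0)))) (.pos 48 .pp ⟨0, 0, 0, 0, 0, 0, 0, 0, 0, ⟨0, 0⟩, 0⟩ 0 0)) (.void 62 ⟨39452, 60548, 0, 0, 0, 0, 0, 0, 0, ⟨0, 0⟩, 0⟩ 0 0)) (.pos 61 .pp ⟨0, 52858941, 0, 0, 0, 0, 0, 0, 0, ⟨0, 0⟩, 0⟩ 0 0)) (.void 87 ⟨0, 0, 0, 100000, 0, 0, 0, 0, 0, ⟨0, 0⟩, 0⟩ 0 0)))),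
    by decide +kernel⟩

def covers16 : cell.Covers table row16.1 :=
  ⟨(.cut .d 0 (.cut .v 16777216 (.cut .d (-8388608) (.void 1 ⟨0, 0, 0, 0, 0, 100000, 0, 0, 0, ⟨0, 0⟩, 0⟩ 0 0) (.cut .d (-4194304) (.void 1 ⟨0, 0, 0, 0, 0, 100000, 0, 0, 0, ⟨0, 0⟩, 0⟩ 0 0) (.cut .d (-2097152) (.void 1 ⟨0, 0, 0, 0, 0, 100000, 0, 0, 0, ⟨0, 0⟩, 0⟩ 0 0) (.cut .d (-1048576) (.void 1 ⟨0, 0, 0, 0, 0, 100000, 0, 0, 0, ⟨0, 0⟩, 0⟩ 0 0) (.cut .d (-524288) (.void 1 ⟨0, 0, 0, 0, 0, 100000, 0, 0, 0, ⟨0, 0⟩, 0⟩ 0 0) (.cut .d (-262144) (.void 1 ⟨0, 0, 0, 0, 0, 100000, 0, 0, 0, ⟨0, 0⟩, 0⟩ 0 0) (.cut .v 8388608 (.cut .v 4194304 (.void 4 ⟨0, 0, 100000, 0, 0, 0, 0, 0, 0, ⟨0, 0⟩, 0⟩ 0 0) (.pos 5 .mm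 ⟨0, 0, 0, 0, 0, 59919975, 0, 0, 0, ⟨0, 0⟩, 0⟩ 0 0)) (.cut .s 11534336 (.pos 3 .mm ⟨0, 0, 0, 0, 0, 198226646, 0, 0, 0, ⟨0, 0⟩, 0⟩ 0 0) (.pos 3 .mm ⟨0, 0, 0, 0, 0, 228824919, 0, 0, 0, ⟨0, 0⟩, 0⟩ 0 0))))))))) (.cut .v 268435456 (.cut .v 67108864 (.cut .v 33554432 (.cut .v 25165824 (.cut .d (-8388608) (.void 27 ⟨0, 0, 0, 0, 0, 100000, 0, 0, 0, ⟨0, 0⟩, 0⟩ 0 0) (.cut .v 20971520 (.cut .d (-4194304) (.void 29 ⟨100000, 0, 0, 0, 0, 0, 0, 0, 0, ⟨0, 0⟩, 0⟩ 0 0) (.cut .v 18874368 (.cut .d (-2097152) (.void 31 ⟨100000, 0, 0, 0, 0, 0, 0, 0, 0, ⟨0, 0⟩, 0⟩ 0 0) (.cut .d (-1048576) (.void 31 ⟨100000, 0, 0, 0, 0, 0, 0, 0, 0, ⟨0, 0⟩, 0⟩ 0 0) (.cut .d (-524288) (.void 31 ⟨100000,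 0, 0, 0, 0, 0, 0, 0, 0, ⟨0, 0⟩, 0⟩ 0 0) (.cut .d (-262144) (.void 31 ⟨0, 0, 0, 0, 0, 100000, 0, 0, 0, ⟨0, 0⟩, 0⟩ 0 0) (.cut .v 17825792 (.cut .d (-131072) (.cut .d (-196608) (.void 33 ⟨0, 0, 0, 0, 0, 100000, 0, 0, 0, ⟨0, 0⟩, 0⟩ 0 0) (.cut .v 17301504 (.cut .l 1159153 (.void 35 ⟨0, 0, 0, 0, 0, 100000, 0, 0, 0, ⟨0, 0⟩, 0⟩ 0 0) (.cut .s 11534336 (.cut .v 17039360 (.cut .s 11436032 (.pos 37 .mp ⟨0, 0, 0, 0, 0, 207769621, 0, 0, 0, ⟨0, 0⟩, 0⟩ 0 0) (.pos 37 .mp ⟨0, 0, 0, 0, 0, 222530291, 0, 0, 0, ⟨0, 0⟩, 0⟩ 0 0)) (.cut .v 17170432 (.cut .s 11436032 (.cut .s 11386880 (.pos 63 .mp ⟨95122379, 0, 0, 0, 0, 53904527, 0, 0, 0, ⟨0, 0⟩, 0⟩ 0 0) (.pos 63 .mp ⟨80206400, 0, 0, 0,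 0, 85499269, 0, 0, 0, ⟨0, 0⟩, 0⟩ 0 0)) (.cut .d (-163840) (.pos 63 .mp ⟨86879536, 0, 0, 0, 0, 89550011, 0, 0, 0, ⟨0, 0⟩, 0⟩ 0 0) (.cut .s 11485184 (.pos 63 .mp ⟨97358268, 0, 0, 0, 0, 62039371, 0, 0, 0, ⟨0, 0⟩, 0⟩ 0 0) (.pos 63 .mp ⟨100558649, 0, 0, 0, 0, 64088779, 0, 0, 0, ⟨0, 0⟩, 0⟩ 0 0)))) (.pos 64 .mp ⟨141364501, 0, 0, 0, 0, 0, 0, 0, 0, ⟨0, 0⟩, 0⟩ 0 0))) (.cut .v 17039360 (.pos 37 .mp ⟨0, 0, 0, 0, 0, 243815707, 0, 0, 0, ⟨0, 0⟩, 0⟩ 0 0) (.cut .s 11632640 (.cut .l 1570957 (.pos 38 .mp ⟨110653819, 0, 0, 0, 0, 68202405, 0, 0, 0, ⟨0, 0⟩, 0⟩ 0 0) (.cut .d (-163840) (.cut .s 11583488 (.pos 38 .mp ⟨97168496, 0, 0, 0, 0, 83931494, 0, 0, 0, ⟨0, 0⟩, 0⟩ 0 0) (.pos 38 .mp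 ⟨100633051, 0, 0, 0, 0, 86299934, 0, 0, 0, ⟨0, 0⟩, 0⟩ 0 0)) (.pos 38 .mp ⟨104512365, 0, 0, 0, 0, 66111623, 0, 0, 0, ⟨0, 0⟩, 0⟩ 0 0))) (.cut .d (-163840) (.pos 38 .mp ⟨100337654, 0, 0, 0, 0, 104029234, 0, 0, 0, ⟨0, 0⟩, 0⟩ 0 0) (.cut .s 11681792 (.pos 38 .mp ⟨111954553, 0, 0, 0, 0, 69108089, 0, 0, 0, ⟨0, 0⟩, 0⟩ 0 0) (.pos 38 .mp ⟨115634336, 0, 0, 0, 0, 71455686, 0, 0, 0, ⟨0, 0⟩, 0⟩ 0 0))))))) (.pos 36 .mp ⟨159590792, 0, 0, 0, 0, 0, 0, 0, 0, ⟨0, 0⟩, 0⟩ 0 0))) (.cut .s 11534336 (.cut .v 17301504 (.cut .l 1159153 (.cut .v 17039360 (.cut .d (-65536) (.cut .l 747348 (.pos 37 .mp ⟨77561273, 0, 0, 0, 0, 104700017, 0, 0, 0, ⟨0, 0⟩, 0⟩ 0 0) (.cut .d (-98304) (.pos 37 .mp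 ⟨77318491, 0, 0, 0, 0, 99568599, 0, 0, 0, ⟨0, 0⟩, 0⟩ 0 0) (.cut .v 16908288 (.pos 54 .mp ⟨0, 0, 0, 0, 0, 198515892, 0, 0, 0, ⟨0, 0⟩, 0⟩ 0 0) (.cut .s 11436032 (.pos 55 .mp ⟨87290274, 0, 0, 0, 0, 62960738, 0, 0, 0, ⟨0, 0⟩, 0⟩ 0 0) (.pos 55 .mp ⟨92952012, 0, 0, 0, 0, 67521861, 0, 0, 0, ⟨0, 0⟩, 0⟩ 0 0))))) (.cut .l 747348 (.cut .d (-32768) (.cut .s 11436032 (.cut .v 16908288 (.cut .s 11386880 (.pos 54 .mp ⟨75433627, 0, 0, 0, 0, 77863678, 0, 0, 0, ⟨0, 0⟩, 0⟩ 0 0) (.pos 54 .mp ⟨77331566, 0, 0, 0, 0, 81440928, 0, 0, 0, ⟨0, 0⟩, 0⟩ 0 0)) (.pos 55 .mp ⟨129548197, 0, 0, 0, 0, 0, 0, 0, 0, ⟨0, 0⟩, 0⟩ 0 0)) (.cut .v 16908288 (.cut .l 541446 (.cut .s 11485184 (.pos 54 .mp ⟨80606629,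 0, 0, 0, 0, 83355188, 0, 0, 0, ⟨0, 0⟩, 0⟩ 0 0) (.pos 54 .mp ⟨82915770, 0, 0, 0, 0, 86791513, 0, 0, 0, ⟨0, 0⟩, 0⟩ 0 0)) (.pos 54 .mp ⟨77069636, 0, 0, 0, 0, 88949052, 0, 0, 0, ⟨0, 0⟩, 0⟩ 0 0)) (.pos 55 .mp ⟨137927447, 0, 0, 0, 0, 0, 0, 0, 0, ⟨0, 0⟩, 0⟩ 0 0))) (.cut .v 16908288 (.cut .d (-16384) (.cut .d (-24576) (.cut .d (-28672) (.cut .v 16842752 (.pos 94 .mp ⟨0, 0, 0, 0, 0, 191159282, 0, 0, 0, ⟨0, 0⟩, 0⟩ 0 0) (.cut .s 11436032 (.pos 95 .mp ⟨81182215, 0, 0, 0, 0, 68321692, 0, 0, 0, ⟨0, 0⟩, 0⟩ 0 0) (.pos 95 .mp ⟨86249745, 0, 0, 0, 0, 73193990, 0, 0, 0, ⟨0, 0⟩, 0⟩ 0 0))) (.pos 54 .mp ⟨84664906, 0, 0, 0, 0, 0, 0, 0, 0, ⟨0, 0⟩, 0⟩ 0 0)) (.pos 54 .mp ⟨79638146, 0, 0,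 0, 0, 0, 0, 0, 0, ⟨0, 0⟩, 0⟩ 0 0)) (.pos 54 .mp ⟨0, 0, 0, 0, 0, 0, 0, 0, 0, ⟨0, 0⟩, 0⟩ 0 0)) (.pos 55 .mp ⟨126072489, 0, 0, 0, 0, 0, 0, 0, 0, ⟨0, 0⟩, 0⟩ 0 0))) (.pos 37 .mp ⟨86734699, 0, 0, 0, 0, 0, 0, 0, 0, ⟨0, 0⟩, 0⟩ 0 0))) (.cut .s 11436032 (.pos 38 .mp ⟨132942979, 0, 0, 0, 0, 0, 0, 0, 0, ⟨0, 0⟩, 0⟩ 0 0) (.pos 38 .mp ⟨141680602, 0, 0, 0, 0, 0, 0, 0, 0, ⟨0, 0⟩, 0⟩ 0 0))) (.cut .d (-65536) (.cut .d (-98304) (.cut .l 1570957 (.cut .v 17039360 (.cut .s 11436032 (.pos 37 .mp ⟨73934243, 0, 0, 0, 0, 85559339, 0, 0, 0, ⟨0, 0⟩, 0⟩ 0 0) (.pos 37 .mp ⟨78814159, 0, 0, 0, 0, 91667376, 0, 0, 0, ⟨0, 0⟩, 0⟩ 0 0)) (.pos 38 .mp ⟨134049800, 0, 0, 0, 0, 0, 0, 0, 0, ⟨0, 0⟩, 0⟩ 0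 0)) (.pos 35 .mp ⟨87916081, 0, 0, 0, 0, 0, 0, 0, 0, ⟨0, 0⟩, 0⟩ 0 0)) (.pos 35 .mp ⟨88570280, 0, 0, 0, 0, 0, 0, 0, 0, ⟨0, 0⟩, 0⟩ 0 0)) (.pos 35 .mp ⟨0, 0, 0, 0, 0, 0, 0, 0, 0, ⟨0, 0⟩, 0⟩ 0 0))) (.pos 36 .mp ⟨137399608, 0, 0, 0, 0, 0, 0, 0, 0, ⟨0, 0⟩, 0⟩ 0 0)) (.cut .v 17301504 (.cut .s 11632640 (.cut .v 17039360 (.cut .d (-65536) (.cut .l 1159153 (.cut .l 747348 (.pos 37 .mp ⟨88151341, 0, 0, 0, 0, 102864367, 0, 0, 0, ⟨0, 0⟩, 0⟩ 0 0) (.cut .s 11583488 (.pos 37 .mp ⟨83471791, 0, 0, 0, 0, 97228702, 0, 0, 0, ⟨0, 0⟩, 0⟩ 0 0) (.pos 37 .mp ⟨86058094, 0, 0, 0, 0, 100839706, 0, 0, 0, ⟨0, 0⟩, 0⟩ 0 0))) (.cut .s 11583488 (.pos 37 .mp ⟨79393805, 0, 0, 0, 0, 99785744, 0, 0,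 0, ⟨0, 0⟩, 0⟩ 0 0) (.pos 37 .mp ⟨81653051, 0, 0, 0, 0, 103830880, 0, 0, 0, ⟨0, 0⟩, 0⟩ 0 0))) (.cut .l 1159153 (.cut .l 747348 (.cut .v 16908288 (.cut .d (-32768) (.cut .l 541446 (.cut .s 11583488 (.pos 54 .mp ⟨85333954, 0, 0, 0, 0, 90283804, 0, 0, 0, ⟨0, 0⟩, 0⟩ 0 0) (.pos 54 .mp ⟨87871515, 0, 0, 0, 0, 93812903, 0, 0, 0, ⟨0, 0⟩, 0⟩ 0 0)) (.pos 54 .mp ⟨81778085, 0, 0, 0, 0, 95915991, 0, 0, 0, ⟨0, 0⟩, 0⟩ 0 0)) (.cut .v 16842752 (.pos 94 .mp ⟨0, 0, 0, 0, 0, 199503475, 0, 0, 0, ⟨0, 0⟩, 0⟩ 0 0) (.cut .s 11583488 (.pos 95 .mp ⟨88872743, 0, 0, 0, 0, 76269139, 0, 0, 0, ⟨0, 0⟩, 0⟩ 0 0) (.pos 95 .mp ⟨91557423, 0, 0, 0, 0, 79269717, 0, 0, 0, ⟨0, 0⟩, 0⟩ 0 0)))) (.pos 55 .mp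 ⟨146323209, 0, 0, 0, 0, 0, 0, 0, 0, ⟨0, 0⟩, 0⟩ 0 0)) (.pos 37 .mp ⟨92795740, 0, 0, 0, 0, 0, 0, 0, 0, ⟨0, 0⟩, 0⟩ 0 0)) (.pos 37 .mp ⟨0, 0, 0, 0, 0, 0, 0, 0, 0, ⟨0, 0⟩, 0⟩ 0 0))) (.cut .s 11583488 (.pos 38 .mp ⟨118384213, 0, 0, 0, 0, 41704888, 0, 0, 0, ⟨0, 0⟩, 0⟩ 0 0) (.pos 38 .mp ⟨121981158, 0, 0, 0, 0, 43489429, 0, 0, 0, ⟨0, 0⟩, 0⟩ 0 0))) (.cut .v 17039360 (.cut .d (-65536) (.cut .l 1159153 (.cut .s 11681792 (.pos 37 .mp ⟨88705290, 0, 0, 0, 0, 106456390, 0, 0, 0, ⟨0, 0⟩, 0⟩ 0 0) (.pos 37 .mp ⟨91415080, 0, 0, 0, 0, 110508376, 0, 0, 0, ⟨0, 0⟩, 0⟩ 0 0)) (.pos 37 .mp ⟨80643707, 0, 0, 0, 0, 115703366, 0, 0, 0, ⟨0, 0⟩, 0⟩ 0 0)) (.cut .l 1159153 (.cut .l 747348 (.cut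 .v 16908288 (.cut .d (-32768) (.cut .s 11681792 (.pos 54 .mp ⟨88817867, 0, 0, 0, 0, 99748960, 0, 0, 0, ⟨0, 0⟩, 0⟩ 0 0) (.pos 54 .mp ⟨91627329, 0, 0, 0, 0, 103300512, 0, 0, 0, ⟨0, 0⟩, 0⟩ 0 0)) (.cut .v 16842752 (.pos 94 .mp ⟨0, 0, 0, 0, 0, 214265626, 0, 0, 0, ⟨0, 0⟩, 0⟩ 0 0) (.cut .s 11681792 (.pos 95 .mp ⟨94305509, 0, 0, 0, 0, 82373739, 0, 0, 0, ⟨0, 0⟩, 0⟩ 0 0) (.pos 95 .mp ⟨97118793, 0, 0, 0, 0, 85574831, 0, 0, 0, ⟨0, 0⟩, 0⟩ 0 0)))) (.pos 55 .mp ⟨155852713, 0, 0, 0, 0, 0, 0, 0, 0, ⟨0, 0⟩, 0⟩ 0 0)) (.pos 37 .mp ⟨95149875, 0, 0, 0, 0, 80034683, 0, 0, 0, ⟨0, 0⟩, 0⟩ 0 0)) (.pos 37 .mp ⟨0, 0, 0, 0, 0, 0, 0, 0, 0, ⟨0, 0⟩, 0⟩ 0 0))) (.cut .s 11681792 (.pos 38 .mp ⟨125967133,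 0, 0, 0, 0, 44928485, 0, 0, 0, ⟨0, 0⟩, 0⟩ 0 0) (.pos 38 .mp ⟨130389296, 0, 0, 0, 0, 45946874, 0, 0, 0, ⟨0, 0⟩, 0⟩ 0 0)))) (.pos 36 .mp ⟨155746304, 0, 0, 0, 0, 0, 0, 0, 0, ⟨0, 0⟩, 0⟩ 0 0)))) (.pos 34 .mp ⟨168140815, 0, 0, 0, 0, 0, 0, 0, 0, ⟨0, 0⟩, 0⟩ 0 0)))))) (.pos 32 .mp ⟨373099706, 0, 0, 0, 0, 0, 0, 0, 0, ⟨0, 0⟩, 0⟩ 0 0))) (.void 30 ⟨100000, 0, 0, 0, 0, 0, 0, 0, 0, ⟨0, 0⟩, 0⟩ 0 0))) (.void 28 ⟨100000, 0, 0, 0, 0, 0, 0, 0, 0, ⟨0, 0⟩, 0⟩ 0 0)) (.void 49 ⟨100000, 0, 0, 0, 0, 0, 0, 0, 0, ⟨0, 0⟩, 0⟩ 0 0)) (.void 62 ⟨100000, 0, 0, 0, 0, 0, 0, 0, 0, ⟨0, 0⟩, 0⟩ 0 0)) (.void 87 ⟨94494, 0, 0, 5506, 0, 0, 0, 0, 0, ⟨0, 0⟩, 0⟩ 0 0))) (.cut .v 16777216 (.cut .v 8388608 (.cut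 .v 4194304 (.cut .v 2097152 (.pos 77 .pm ⟨0, 0, 27221114, 0, 0, 0, 0, 0, 66841528, ⟨0, 0⟩, 2804900⟩ 0 0) (.pos 78 .pm ⟨0, 9172751, 0, 0, 0, 0, 0, 0, 0, ⟨0, 0⟩, 0⟩ 0 0)) (.cut .d 4024593 (.pos 5 .pm ⟨0, 0, 0, 0, 0, 0, 0, 0, 0, ⟨0, 0⟩, 0⟩ 0 0) (.cut .d 6036890 (.pos 5 .pm ⟨0, 0, 0, 0, 0, 0, 0, 0, 0, ⟨0, 0⟩, 0⟩ 0 0) (.cut .d 7043038 (.cut .v 6291456 (.pos 67 .pm ⟨0, 46394782, 0, 0, 0, 0, 0, 0, 0, ⟨0, 0⟩, 0⟩ 0 0) (.pos 68 .pm ⟨0, 50820465, 0, 0, 0, 0, 0, 0, 0, ⟨0, 0⟩, 0⟩ 0 0)) (.cut .s 11534336 (.cut .v 6291456 (.pos 67 .pm ⟨0, 61310815, 0, 0, 0, 0, 0, 0, 0, ⟨0, 0⟩, 0⟩ 0 0) (.cut .d 7546112 (.pos 68 .pm ⟨0, 63297565, 0, 0, 0, 0, 0, 0, 0, ⟨0, 0⟩, 0⟩ 0 0) (.void 68 ⟨0,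 100000, 0, 0, 0, 0, 0, 0, 0, ⟨0, 0⟩, 0⟩ 0 0))) (.pos 5 .pm ⟨0, 88023629, 0, 0, 0, 0, 0, 0, 0, ⟨0, 0⟩, 0⟩ 0 0)))))) (.cut .d 4024593 (.pos 3 .pm ⟨0, 0, 0, 0, 0, 0, 0, 0, 0, ⟨0, 0⟩, 0⟩ 0 0) (.cut .d 6036890 (.pos 3 .pm ⟨0, 0, 0, 0, 0, 0, 0, 0, 0, ⟨0, 0⟩, 0⟩ 0 0) (.cut .d 7043038 (.pos 3 .pm ⟨0, 57298892, 0, 0, 0, 0, 0, 0, 0, ⟨0, 0⟩, 0⟩ 0 0) (.pos 3 .pm ⟨0, 95654236, 0, 0, 0, 0, 0, 0, 0, ⟨0, 0⟩, 0⟩ 0 0))))) (.cut .v 268435456 (.cut .d 4024593 (.cut .v 67108864 (.cut .d 2012296 (.cut .v 33554432 (.cut .d 1006148 (.cut .v 25165824 (.cut .d 503074 (.cut .v 20971520 (.cut .v 18874368 (.pos 31 .pp ⟨108113679, 0, 0, 0, 0, 0, 0, 0, 0, ⟨0, 0⟩, 0⟩ 0 0) (.pos 32 .pp ⟨154529102,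 0, 0, 0, 0, 0, 0, 0, 0, ⟨0, 0⟩, 0⟩ 0 0)) (.pos 30 .pp ⟨219830828, 0, 0, 0, 0, 0, 0, 0, 0, ⟨0, 0⟩, 0⟩ 0 0)) (.pos 27 .pp ⟨76852314, 0, 0, 0, 0, 0, 0, 0, 0, ⟨0, 0⟩, 0⟩ 0 0)) (.cut .d 503074 (.pos 28 .pp ⟨449470860, 0, 0, 0, 0, 0, 0, 0, 0, ⟨0, 0⟩, 0⟩ 0 0) (.pos 28 .pp ⟨283046096, 0, 0, 0, 0, 0, 0, 0, 0, ⟨0, 0⟩, 0⟩ 0 0))) (.pos 26 .pp ⟨56422458, 0, 0, 0, 0, 0, 0, 0, 0, ⟨0, 0⟩, 0⟩ 0 0)) (.cut .d 1006148 (.pos 49 .pp ⟨1583676784, 0, 0, 0, 0, 0, 0, 0, 0, ⟨0, 0⟩, 0⟩ 0 0) (.cut .v 50331648 (.cut .v 41943040 (.pos 56 .pp ⟨359234220, 0, 0, 0, 0, 0, 0, 0, 0, ⟨0, 0⟩, 0⟩ 0 0) (.pos 57 .pp ⟨649544409, 0, 0, 0, 0, 0, 0, 0, 0, ⟨0, 0⟩, 0⟩ 0 0)) (.pos 53 .pp ⟨1248865833, 0, 0, 0,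 0, 0, 0, 0, 0, ⟨0, 0⟩, 0⟩ 0 0)))) (.pos 48 .pp ⟨0, 0, 0, 0, 0, 0, 0, 0, 0, ⟨0, 0⟩, 0⟩ 0 0)) (.void 62 ⟨38969, 61031, 0, 0, 0, 0, 0, 0, 0, ⟨0, 0⟩, 0⟩ 0 0)) (.pos 61 .pp ⟨0, 62072154, 0, 0, 0, 0, 0, 0, 0, ⟨0, 0⟩, 0⟩ 0 0)) (.void 87 ⟨0, 0, 0, 100000, 0, 0, 0, 0, 0, ⟨0, 0⟩, 0⟩ 0 0)))),
    by decide +kernel⟩

def covers17 : cell.Covers table row17.1 :=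
  ⟨(.cut .d 0 (.cut .v 16777216 (.cut .d (-8388608) (.void 1 ⟨0, 0, 0, 0, 0, 100000, 0, 0, 0, ⟨0, 0⟩, 0⟩ 0 0) (.cut .d (-4194304) (.void 1 ⟨0, 0, 0, 0, 0, 100000, 0, 0, 0, ⟨0, 0⟩, 0⟩ 0 0) (.cut .d (-2097152) (.void 1 ⟨0, 0, 0, 0, 0, 100000, 0, 0, 0, ⟨0, 0⟩, 0⟩ 0 0) (.cut .d (-1048576) (.void 1 ⟨0, 0, 0, 0, 0, 100000, 0, 0, 0, ⟨0, 0⟩, 0⟩ 0 0) (.cut .d (-524288) (.void 1 ⟨0, 0, 0, 0, 0, 100000, 0, 0, 0, ⟨0, 0⟩, 0⟩ 0 0) (.cut .d (-262144) (.void 1 ⟨0, 0, 0, 0, 0, 100000, 0, 0, 0, ⟨0, 0⟩, 0⟩ 0 0) (.cut .v 8388608 (.cut .v 4194304 (.void 4 ⟨0, 0, 100000, 0, 0, 0, 0, 0, 0, ⟨0, 0⟩, 0⟩ 0 0) (.pos 5 .mm ⟨0, 0, 1134612, 0, 0, 93294745, 0, 0, 0, ⟨0, 0⟩, 0⟩ 0 0)) (.cut .d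 (-131072) (.pos 3 .mm ⟨0, 0, 0, 0, 0, 339973124, 0, 0, 0, ⟨0, 0⟩, 0⟩ 0 0) (.cut .l 1159153 (.cut .d (-65536) (.pos 3 .mm ⟨0, 0, 0, 0, 0, 324862250, 0, 0, 0, ⟨0, 0⟩, 0⟩ 0 0) (.cut .s 11993088 (.pos 3 .mm ⟨0, 0, 0, 0, 0, 254243312, 0, 0, 0, ⟨0, 0⟩, 0⟩ 0 0) (.pos 3 .mm ⟨0, 0, 0, 0, 0, 306152504, 0, 0, 0, ⟨0, 0⟩, 0⟩ 0 0))) (.pos 3 .mm ⟨0, 0, 0, 0, 0, 257873949, 0, 0, 0, ⟨0, 0⟩, 0⟩ 0 0)))))))))) (.cut .v 268435456 (.cut .v 67108864 (.cut .v 33554432 (.cut .v 25165824 (.cut .d (-8388608) (.void 27 ⟨100000, 0, 0, 0, 0, 0, 0, 0, 0, ⟨0, 0⟩, 0⟩ 0 0) (.cut .v 20971520 (.cut .d (-4194304) (.void 29 ⟨100000, 0, 0, 0, 0, 0, 0, 0, 0, ⟨0, 0⟩, 0⟩ 0 0) (.cut .d (-2097152) (.void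 29 ⟨100000, 0, 0, 0, 0, 0, 0, 0, 0, ⟨0, 0⟩, 0⟩ 0 0) (.cut .v 18874368 (.cut .d (-1048576) (.void 31 ⟨100000, 0, 0, 0, 0, 0, 0, 0, 0, ⟨0, 0⟩, 0⟩ 0 0) (.cut .d (-524288) (.void 31 ⟨100000, 0, 0, 0, 0, 0, 0, 0, 0, ⟨0, 0⟩, 0⟩ 0 0) (.cut .d (-262144) (.void 31 ⟨0, 0, 0, 0, 0, 100000, 0, 0, 0, ⟨0, 0⟩, 0⟩ 0 0) (.cut .v 17825792 (.cut .d (-131072) (.cut .d (-196608) (.void 33 ⟨0, 0, 0, 0, 0, 100000, 0, 0, 0, ⟨0, 0⟩, 0⟩ 0 0) (.cut .v 17301504 (.cut .l 1159153 (.void 35 ⟨0, 0, 0, 0, 0, 100000, 0, 0, 0, ⟨0, 0⟩, 0⟩ 0 0) (.cut .s 11993088 (.cut .s 11862016 (.cut .v 17039360 (.pos 37 .mp ⟨0, 0, 0, 0, 0, 279633545, 0, 0, 0, ⟨0, 0⟩, 0⟩ 0 0) (.cut .d (-163840) (.pos 38 .mp ⟨110182522,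 0, 0, 0, 0, 117544100, 0, 0, 0, ⟨0, 0⟩, 0⟩ 0 0) (.cut .s 11796480 (.pos 38 .mp ⟨120886597, 0, 0, 0, 0, 74111282, 0, 0, 0, ⟨0, 0⟩, 0⟩ 0 0) (.cut .s 11829248 (.pos 38 .mp ⟨121057332, 0, 0, 0, 0, 82214087, 0, 0, 0, ⟨0, 0⟩, 0⟩ 0 0) (.pos 38 .mp ⟨123316765, 0, 0, 0, 0, 84540984, 0, 0, 0, ⟨0, 0⟩, 0⟩ 0 0))))) (.cut .d (-163840) (.pos 35 .mp ⟨113026301, 0, 0, 0, 0, 159917764, 0, 0, 0, ⟨0, 0⟩, 0⟩ 0 0) (.cut .v 17039360 (.pos 37 .mp ⟨0, 0, 0, 0, 0, 305958962, 0, 0, 0, ⟨0, 0⟩, 0⟩ 0 0) (.cut .l 1570957 (.void 38 ⟨0, 0, 0, 0, 0, 100000, 0, 0, 0, ⟨0, 0⟩, 0⟩ 0 0) (.cut .v 17170432 (.cut .s 11927552 (.cut .s 11894784 (.pos 63 .mp ⟨108877841, 0, 0, 0, 0, 115590930, 0, 0, 0, ⟨0,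 0⟩, 0⟩ 0 0) (.pos 63 .mp ⟨111137490, 0, 0, 0, 0, 118270110, 0, 0, 0, ⟨0, 0⟩, 0⟩ 0 0)) (.cut .s 11960320 (.pos 63 .mp ⟨113432234, 0, 0, 0, 0, 121053385, 0, 0, 0, ⟨0, 0⟩, 0⟩ 0 0) (.pos 63 .mp ⟨115762773, 0, 0, 0, 0, 123940515, 0, 0, 0, ⟨0, 0⟩, 0⟩ 0 0))) (.pos 64 .mp ⟨192298330, 0, 0, 0, 0, 0, 0, 0, 0, ⟨0, 0⟩, 0⟩ 0 0)))))) (.cut .d (-163840) (.void 35 ⟨0, 0, 0, 0, 0, 100000, 0, 0, 0, ⟨0, 0⟩, 0⟩ 0 0) (.cut .l 1570957 (.void 35 ⟨0, 0, 0, 0, 0, 100000, 0, 0, 0, ⟨0, 0⟩, 0⟩ 0 0) (.cut .v 17039360 (.pos 37 .mp ⟨0, 0, 0, 0, 0, 335136605, 0, 0, 0, ⟨0, 0⟩, 0⟩ 0 0) (.cut .v 17170432 (.cut .s 12124160 (.cut .s 12058624 (.pos 63 .mp ⟨118129826, 0, 0, 0, 0, 130957017, 0, 0, 0,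 ⟨0, 0⟩, 0⟩ 0 0) (.pos 63 .mp ⟨122976457, 0, 0, 0, 0, 137430189, 0, 0, 0, ⟨0, 0⟩, 0⟩ 0 0)) (.pos 63 .mp ⟨127978296, 0, 0, 0, 0, 153182864, 0, 0, 0, ⟨0, 0⟩, 0⟩ 0 0)) (.pos 64 .mp ⟨217763891, 0, 0, 0, 0, 0, 0, 0, 0, ⟨0, 0⟩, 0⟩ 0 0))))))) (.pos 36 .mp ⟨223546836, 0, 0, 0, 0, 0, 0, 0, 0, ⟨0, 0⟩, 0⟩ 0 0))) (.cut .s 11993088 (.cut .v 17301504 (.cut .s 11862016 (.cut .v 17039360 (.cut .d (-65536) (.cut .l 1159153 (.cut .l 747348 (.void 37 ⟨0, 0, 0, 0, 0, 100000, 0, 0, 0, ⟨0, 0⟩, 0⟩ 0 0) (.cut .s 11796480 (.pos 37 .mp ⟨94207072, 0, 0, 0, 0, 115129029, 0, 0, 0, ⟨0, 0⟩, 0⟩ 0 0) (.pos 37 .mp ⟨98055757, 0, 0, 0, 0, 120577854, 0, 0, 0, ⟨0, 0⟩, 0⟩ 0 0))) (.cut .s 11796480 (.pos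 37 .mp ⟨85938210, 0, 0, 0, 0, 123603691, 0, 0, 0, ⟨0, 0⟩, 0⟩ 0 0) (.pos 37 .mp ⟨89128736, 0, 0, 0, 0, 129862286, 0, 0, 0, ⟨0, 0⟩, 0⟩ 0 0))) (.cut .l 1159153 (.cut .l 747348 (.cut .d (-32768) (.cut .v 16908288 (.cut .v 16842752 (.pos 94 .mp ⟨0, 0, 0, 0, 0, 269028286, 0, 0, 0, ⟨0, 0⟩, 0⟩ 0 0) (.cut .s 11796480 (.cut .s 11763712 (.pos 95 .mp ⟨99055107, 0, 0, 0, 0, 98957845, 0, 0, 0, ⟨0, 0⟩, 0⟩ 0 0) (.pos 95 .mp ⟨101003696, 0, 0, 0, 0, 101097058, 0, 0, 0, ⟨0, 0⟩, 0⟩ 0 0)) (.cut .s 11829248 (.pos 95 .mp ⟨102979611, 0, 0, 0, 0, 103358271, 0, 0, 0, ⟨0, 0⟩, 0⟩ 0 0) (.pos 95 .mp ⟨104983393, 0, 0, 0, 0, 105744137, 0, 0, 0, ⟨0, 0⟩, 0⟩ 0 0)))) (.pos 55 .mp ⟨169349355, 0, 0,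 0, 0, 0, 0, 0, 0, ⟨0, 0⟩, 0⟩ 0 0)) (.cut .d (-16384) (.cut .d (-24576) (.cut .v 16908288 (.cut .v 16842752 (.pos 94 .mp ⟨0, 0, 0, 0, 0, 246274602, 0, 0, 0, ⟨0, 0⟩, 0⟩ 0 0) (.cut .s 11796480 (.pos 95 .mp ⟨101003696, 0, 0, 0, 0, 94907066, 0, 0, 0, ⟨0, 0⟩, 0⟩ 0 0) (.pos 95 .mp ⟨104983393, 0, 0, 0, 0, 99271688, 0, 0, 0, ⟨0, 0⟩, 0⟩ 0 0))) (.pos 55 .mp ⟨161421386, 0, 0, 0, 0, 0, 0, 0, 0, ⟨0, 0⟩, 0⟩ 0 0)) (.pos 37 .mp ⟨104095246, 0, 0, 0, 0, 0, 0, 0, 0, ⟨0, 0⟩, 0⟩ 0 0)) (.pos 37 .mp ⟨98167330, 0, 0, 0, 0, 0, 0, 0, 0, ⟨0, 0⟩, 0⟩ 0 0))) (.pos 37 .mp ⟨106022201, 0, 0, 0, 0, 79359960, 0, 0, 0, ⟨0, 0⟩, 0⟩ 0 0)) (.pos 37 .mp ⟨0, 0, 0, 0, 0, 0, 0, 0, 0, ⟨0, 0⟩, 0⟩ 0 0))) (.cut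 .l 1159153 (.pos 38 .mp ⟨173198358, 0, 0, 0, 0, 0, 0, 0, 0, ⟨0, 0⟩, 0⟩ 0 0) (.cut .s 11796480 (.pos 38 .mp ⟨133781591, 0, 0, 0, 0, 48692412, 0, 0, 0, ⟨0, 0⟩, 0⟩ 0 0) (.pos 38 .mp ⟨137915296, 0, 0, 0, 0, 53037546, 0, 0, 0, ⟨0, 0⟩, 0⟩ 0 0)))) (.cut .v 17039360 (.cut .d (-65536) (.cut .l 1159153 (.cut .l 747348 (.void 37 ⟨0, 0, 0, 0, 0, 100000, 0, 0, 0, ⟨0, 0⟩, 0⟩ 0 0) (.cut .d (-98304) (.void 37 ⟨0, 0, 0, 0, 0, 100000, 0, 0, 0, ⟨0, 0⟩, 0⟩ 0 0) (.cut .s 11927552 (.pos 37 .mp ⟨102013283, 0, 0, 0, 0, 125004437, 0, 0, 0, ⟨0, 0⟩, 0⟩ 0 0) (.pos 37 .mp ⟨106084020, 0, 0, 0, 0, 131162025, 0, 0, 0, ⟨0, 0⟩, 0⟩ 0 0)))) (.cut .d (-98304) (.cut .s 11927552 (.pos 37 .mp ⟨71112004,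 0, 0, 0, 0, 173112225, 0, 0, 0, ⟨0, 0⟩, 0⟩ 0 0) (.pos 37 .mp ⟨72502064, 0, 0, 0, 0, 183697880, 0, 0, 0, ⟨0, 0⟩, 0⟩ 0 0)) (.pos 37 .mp ⟨110724125, 0, 0, 0, 0, 99683869, 0, 0, 0, ⟨0, 0⟩, 0⟩ 0 0))) (.cut .l 1159153 (.cut .l 747348 (.cut .d (-32768) (.cut .v 16908288 (.cut .v 16842752 (.pos 94 .mp ⟨0, 0, 0, 0, 0, 293810573, 0, 0, 0, ⟨0, 0⟩, 0⟩ 0 0) (.cut .s 11927552 (.cut .s 11894784 (.pos 95 .mp ⟨106661364, 0, 0, 0, 0, 108955041, 0, 0, 0, ⟨0, 0⟩, 0⟩ 0 0) (.pos 95 .mp ⟨108433725, 0, 0, 0, 0, 112170030, 0, 0, 0, ⟨0, 0⟩, 0⟩ 0 0)) (.cut .s 11960320 (.pos 95 .mp ⟨110328614, 0, 0, 0, 0, 115336648, 0, 0, 0, ⟨0, 0⟩, 0⟩ 0 0) (.pos 95 .mp ⟨112355970, 0, 0, 0, 0, 118438150,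 0, 0, 0, ⟨0, 0⟩, 0⟩ 0 0)))) (.cut .s 11927552 (.pos 55 .mp ⟨162255020, 0, 0, 0, 0, 26463537, 0, 0, 0, ⟨0, 0⟩, 0⟩ 0 0) (.pos 55 .mp ⟨168783823, 0, 0, 0, 0, 28169882, 0, 0, 0, ⟨0, 0⟩, 0⟩ 0 0))) (.cut .d (-16384) (.cut .d (-24576) (.cut .v 16908288 (.cut .v 16842752 (.pos 94 .mp ⟨0, 0, 0, 0, 0, 270532818, 0, 0, 0, ⟨0, 0⟩, 0⟩ 0 0) (.cut .l 541446 (.cut .v 16875520 (.cut .l 438495 (.cut .s 11927552 (.pos 96 .mp ⟨108670549, 0, 0, 0, 0, 105224187, 0, 0, 0, ⟨0, 0⟩, 0⟩ 0 0) (.pos 96 .mp ⟨112865919, 0, 0, 0, 0, 110653825, 0, 0, 0, ⟨0, 0⟩, 0⟩ 0 0)) (.pos 96 .mp ⟨0, 0, 0, 0, 0, 0, 0, 0, 0, ⟨0, 0⟩, 0⟩ 0 0)) (.pos 97 .mp ⟨176733706, 0, 0, 0, 0, 0, 0, 0, 0, ⟨0, 0⟩, 0⟩ 0 0)) (.pos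 95 .mp ⟨0, 0, 0, 0, 0, 0, 0, 0, 0, ⟨0, 0⟩, 0⟩ 0 0))) (.pos 55 .mp ⟨174719360, 0, 0, 0, 0, 0, 0, 0, 0, ⟨0, 0⟩, 0⟩ 0 0)) (.pos 37 .mp ⟨112393785, 0, 0, 0, 0, 0, 0, 0, 0, ⟨0, 0⟩, 0⟩ 0 0)) (.pos 37 .mp ⟨105675654, 0, 0, 0, 0, 0, 0, 0, 0, ⟨0, 0⟩, 0⟩ 0 0))) (.pos 37 .mp ⟨115047749, 0, 0, 0, 0, 87187422, 0, 0, 0, ⟨0, 0⟩, 0⟩ 0 0)) (.pos 37 .mp ⟨0, 0, 0, 0, 0, 0, 0, 0, 0, ⟨0, 0⟩, 0⟩ 0 0))) (.cut .l 1159153 (.pos 38 .mp ⟨188046481, 0, 0, 0, 0, 0, 0, 0, 0, ⟨0, 0⟩, 0⟩ 0 0) (.cut .s 11927552 (.pos 38 .mp ⟨142621694, 0, 0, 0, 0, 57098804, 0, 0, 0, ⟨0, 0⟩, 0⟩ 0 0) (.cut .s 11960320 (.pos 38 .mp ⟨135776468, 0, 0, 0, 0, 78025061, 0, 0, 0, ⟨0, 0⟩, 0⟩ 0 0) (.pos 38 .mp ⟨138412818,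 0, 0, 0, 0, 80136705, 0, 0, 0, ⟨0, 0⟩, 0⟩ 0 0)))))) (.pos 36 .mp ⟨180784701, 0, 0, 0, 0, 0, 0, 0, 0, ⟨0, 0⟩, 0⟩ 0 0)) (.cut .v 17301504 (.cut .s 12124160 (.cut .v 17039360 (.cut .d (-65536) (.cut .l 1159153 (.cut .s 12058624 (.cut .s 12025856 (.pos 37 .mp ⟨110272578, 0, 0, 0, 0, 136017240, 0, 0, 0, ⟨0, 0⟩, 0⟩ 0 0) (.pos 37 .mp ⟨112412550, 0, 0, 0, 0, 139494925, 0, 0, 0, ⟨0, 0⟩, 0⟩ 0 0)) (.pos 37 .mp ⟨114583822, 0, 0, 0, 0, 148267824, 0, 0, 0, ⟨0, 0⟩, 0⟩ 0 0)) (.cut .s 12058624 (.cut .s 12025856 (.pos 37 .mp ⟨102583330, 0, 0, 0, 0, 143480369, 0, 0, 0, ⟨0, 0⟩, 0⟩ 0 0) (.pos 37 .mp ⟨104605673, 0, 0, 0, 0, 147010080, 0, 0, 0, ⟨0, 0⟩, 0⟩ 0 0)) (.pos 37 .mp ⟨104085576,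 0, 0, 0, 0, 157440867, 0, 0, 0, ⟨0, 0⟩, 0⟩ 0 0))) (.cut .l 1159153 (.cut .l 747348 (.cut .d (-32768) (.cut .v 16908288 (.cut .d (-49152) (.pos 54 .mp ⟨110503158, 0, 0, 0, 0, 147382831, 0, 0, 0, ⟨0, 0⟩, 0⟩ 0 0) (.cut .s 12058624 (.cut .s 12025856 (.pos 54 .mp ⟨112710132, 0, 0, 0, 0, 123393128, 0, 0, 0, ⟨0, 0⟩, 0⟩ 0 0) (.pos 54 .mp ⟨114952039, 0, 0, 0, 0, 126415848, 0, 0, 0, ⟨0, 0⟩, 0⟩ 0 0)) (.pos 54 .mp ⟨111591224, 0, 0, 0, 0, 144121892, 0, 0, 0, ⟨0, 0⟩, 0⟩ 0 0))) (.cut .s 12058624 (.pos 55 .mp ⟨176411957, 0, 0, 0, 0, 28738295, 0, 0, 0, ⟨0, 0⟩, 0⟩ 0 0) (.pos 55 .mp ⟨185304473, 0, 0, 0, 0, 27896774, 0, 0, 0, ⟨0, 0⟩, 0⟩ 0 0))) (.cut .d (-16384) (.cut .d (-24576) (.cut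 .v 16908288 (.cut .v 16842752 (.pos 94 .mp ⟨0, 0, 0, 0, 0, 296753450, 0, 0, 0, ⟨0, 0⟩, 0⟩ 0 0) (.cut .s 12058624 (.pos 95 .mp ⟨117623522, 0, 0, 0, 0, 115195694, 0, 0, 0, ⟨0, 0⟩, 0⟩ 0 0) (.pos 95 .mp ⟨122086888, 0, 0, 0, 0, 121489015, 0, 0, 0, ⟨0, 0⟩, 0⟩ 0 0))) (.pos 55 .mp ⟨189590821, 0, 0, 0, 0, 0, 0, 0, 0, ⟨0, 0⟩, 0⟩ 0 0)) (.pos 37 .mp ⟨121140100, 0, 0, 0, 0, 0, 0, 0, 0, ⟨0, 0⟩, 0⟩ 0 0)) (.pos 37 .mp ⟨113587916, 0, 0, 0, 0, 0, 0, 0, 0, ⟨0, 0⟩, 0⟩ 0 0))) (.pos 37 .mp ⟨124458406, 0, 0, 0, 0, 96417081, 0, 0, 0, ⟨0, 0⟩, 0⟩ 0 0)) (.pos 37 .mp ⟨0, 0, 0, 0, 0, 0, 0, 0, 0, ⟨0, 0⟩, 0⟩ 0 0))) (.cut .l 1159153 (.pos 38 .mp ⟨204123994, 0, 0, 0, 0, 0, 0, 0, 0, ⟨0, 0⟩, 0⟩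 0 0) (.cut .s 12058624 (.cut .s 12025856 (.pos 38 .mp ⟨141289135, 0, 0, 0, 0, 82026924, 0, 0, 0, ⟨0, 0⟩, 0⟩ 0 0) (.pos 38 .mp ⟨144425454, 0, 0, 0, 0, 83663153, 0, 0, 0, ⟨0, 0⟩, 0⟩ 0 0)) (.pos 38 .mp ⟨161650522, 0, 0, 0, 0, 65240048, 0, 0, 0, ⟨0, 0⟩, 0⟩ 0 0)))) (.cut .v 17039360 (.cut .d (-65536) (.cut .v 16908288 (.pos 54 .mp ⟨0, 0, 0, 0, 0, 358414288, 0, 0, 0, ⟨0, 0⟩, 0⟩ 0 0) (.cut .l 1159153 (.cut .s 12189696 (.pos 55 .mp ⟨120860230, 0, 0, 0, 0, 153052485, 0, 0, 0, ⟨0, 0⟩, 0⟩ 0 0) (.pos 55 .mp ⟨125860664, 0, 0, 0, 0, 160465146, 0, 0, 0, ⟨0, 0⟩, 0⟩ 0 0)) (.cut .s 12189696 (.pos 55 .mp ⟨109849944, 0, 0, 0, 0, 162748516, 0, 0, 0, ⟨0, 0⟩, 0⟩ 0 0) (.pos 55 .mp ⟨114019708,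 0, 0, 0, 0, 171232110, 0, 0, 0, ⟨0, 0⟩, 0⟩ 0 0)))) (.cut .l 1159153 (.cut .l 747348 (.cut .d (-32768) (.cut .v 16908288 (.cut .s 12189696 (.pos 54 .mp ⟨115631921, 0, 0, 0, 0, 152419979, 0, 0, 0, ⟨0, 0⟩, 0⟩ 0 0) (.pos 54 .mp ⟨121024303, 0, 0, 0, 0, 158532036, 0, 0, 0, ⟨0, 0⟩, 0⟩ 0 0)) (.pos 55 .mp ⟨217039667, 0, 0, 0, 0, 0, 0, 0, 0, ⟨0, 0⟩, 0⟩ 0 0)) (.cut .d (-16384) (.cut .v 16908288 (.cut .s 12189696 (.cut .s 12156928 (.pos 54 .mp ⟨117624345, 0, 0, 0, 0, 137631049, 0, 0, 0, ⟨0, 0⟩, 0⟩ 0 0) (.pos 54 .mp ⟨119785583, 0, 0, 0, 0, 141120821, 0, 0, 0, ⟨0, 0⟩, 0⟩ 0 0)) (.pos 54 .mp ⟨121977850, 0, 0, 0, 0, 148429372, 0, 0, 0, ⟨0, 0⟩, 0⟩ 0 0)) (.pos 55 .mp ⟨206151854,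 0, 0, 0, 0, 0, 0, 0, 0, ⟨0, 0⟩, 0⟩ 0 0)) (.pos 37 .mp ⟨121937347, 0, 0, 0, 0, 0, 0, 0, 0, ⟨0, 0⟩, 0⟩ 0 0))) (.pos 37 .mp ⟨134295434, 0, 0, 0, 0, 106898971, 0, 0, 0, ⟨0, 0⟩, 0⟩ 0 0)) (.pos 37 .mp ⟨0, 0, 0, 0, 0, 0, 0, 0, 0, ⟨0, 0⟩, 0⟩ 0 0))) (.cut .s 12189696 (.cut .s 12156928 (.pos 38 .mp ⟨161703068, 0, 0, 0, 0, 77923887, 0, 0, 0, ⟨0, 0⟩, 0⟩ 0 0) (.pos 38 .mp ⟨166293449, 0, 0, 0, 0, 77880289, 0, 0, 0, ⟨0, 0⟩, 0⟩ 0 0)) (.pos 38 .mp ⟨192919213, 0, 0, 0, 0, 46039987, 0, 0, 0, ⟨0, 0⟩, 0⟩ 0 0)))) (.pos 36 .mp ⟨213024609, 0, 0, 0, 0, 0, 0, 0, 0, ⟨0, 0⟩, 0⟩ 0 0)))) (.cut .s 11993088 (.pos 34 .mp ⟨203868773, 0, 0, 0, 0, 0, 0, 0, 0, ⟨0, 0⟩, 0⟩ 0 0) (.pos 34 .mp ⟨239173118,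 0, 0, 0, 0, 0, 0, 0, 0, ⟨0, 0⟩, 0⟩ 0 0)))))) (.pos 32 .mp ⟨407332705, 0, 0, 0, 0, 0, 0, 0, 0, ⟨0, 0⟩, 0⟩ 0 0)))) (.void 30 ⟨100000, 0, 0, 0, 0, 0, 0, 0, 0, ⟨0, 0⟩, 0⟩ 0 0))) (.void 28 ⟨100000, 0, 0, 0, 0, 0, 0, 0, 0, ⟨0, 0⟩, 0⟩ 0 0)) (.void 49 ⟨100000, 0, 0, 0, 0, 0, 0, 0, 0, ⟨0, 0⟩, 0⟩ 0 0)) (.void 62 ⟨100000, 0, 0, 0, 0, 0, 0, 0, 0, ⟨0, 0⟩, 0⟩ 0 0)) (.void 87 ⟨94262, 0, 0, 5738, 0, 0, 0, 0, 0, ⟨0, 0⟩, 0⟩ 0 0))) (.cut .v 16777216 (.cut .v 8388608 (.cut .v 4194304 (.cut .v 2097152 (.cut .v 1048576 (.void 100 ⟨0, 0, 19122, 0, 0, 0, 0, 0, 80878, ⟨0, 0⟩, 1983364⟩ 0 0) (.pos 101 .pm ⟨0, 0, 6238727, 0, 0, 0, 0, 0, 9385189, ⟨0, 0⟩, 4987896⟩ 0 0)) (.cut .d 3608508 (.pos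 78 .pm ⟨0, 0, 17379406, 0, 0, 0, 0, 0, 0, ⟨0, 0⟩, 0⟩ 0 0) (.cut .d 5412762 (.pos 78 .pm ⟨0, 0, 0, 0, 0, 0, 0, 0, 0, ⟨0, 0⟩, 0⟩ 0 0) (.pos 78 .pm ⟨0, 54869352, 0, 0, 0, 0, 0, 0, 0, ⟨0, 0⟩, 0⟩ 0 0)))) (.cut .d 3608508 (.pos 5 .pm ⟨0, 0, 844584, 0, 0, 0, 0, 0, 0, ⟨0, 0⟩, 0⟩ 0 0) (.cut .d 5412762 (.pos 5 .pm ⟨0, 0, 0, 0, 0, 0, 0, 0, 0, ⟨0, 0⟩, 0⟩ 0 0) (.cut .d 6314889 (.cut .v 6291456 (.pos 67 .pm ⟨0, 56549024, 0, 0, 0, 0, 0, 0, 0, ⟨0, 0⟩, 0⟩ 0 0) (.pos 68 .pm ⟨0, 62419223, 0, 0, 0, 0, 0, 0, 0, ⟨0, 0⟩, 0⟩ 0 0)) (.cut .v 6291456 (.pos 67 .pm ⟨0, 94777669, 0, 0, 0, 0, 0, 0, 0, ⟨0, 0⟩, 0⟩ 0 0) (.cut .s 11993088 (.pos 68 .pm ⟨0, 87710789, 0, 0, 0, 0, 0, 0, 0, ⟨0, 0⟩, 0⟩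 0 0) (.void 68 ⟨0, 100000, 0, 0, 0, 0, 0, 0, 0, ⟨0, 0⟩, 0⟩ 0 0))))))) (.cut .d 3608508 (.pos 3 .pm ⟨0, 0, 0, 0, 0, 0, 0, 0, 0, ⟨0, 0⟩, 0⟩ 0 0) (.cut .d 5412762 (.pos 3 .pm ⟨0, 0, 0, 0, 0, 0, 0, 0, 0, ⟨0, 0⟩, 0⟩ 0 0) (.cut .d 6314889 (.pos 3 .pm ⟨0, 72096920, 0, 0, 0, 0, 0, 0, 0, ⟨0, 0⟩, 0⟩ 0 0) (.pos 3 .pm ⟨0, 119097974, 0, 0, 0, 0, 0, 0, 0, ⟨0, 0⟩, 0⟩ 0 0))))) (.cut .v 268435456 (.cut .d 3608508 (.cut .v 67108864 (.cut .d 1804254 (.cut .v 33554432 (.cut .d 902127 (.cut .v 25165824 (.cut .d 451063 (.cut .v 20971520 (.cut .v 18874368 (.pos 31 .pp ⟨142924831, 0, 0, 0, 0, 0, 0, 0, 0, ⟨0, 0⟩, 0⟩ 0 0) (.pos 32 .pp ⟨201623134, 0, 0, 0, 0, 0, 0, 0, 0, ⟨0, 0⟩, 0⟩ 0 0))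 (.pos 30 .pp ⟨289769977, 0, 0, 0, 0, 0, 0, 0, 0, ⟨0, 0⟩, 0⟩ 0 0)) (.pos 27 .pp ⟨99780153, 0, 0, 0, 0, 0, 0, 0, 0, ⟨0, 0⟩, 0⟩ 0 0)) (.cut .d 451063 (.pos 28 .pp ⟨568766890, 0, 0, 0, 0, 0, 0, 0, 0, ⟨0, 0⟩, 0⟩ 0 0) (.pos 28 .pp ⟨362238028, 0, 0, 0, 0, 0, 0, 0, 0, ⟨0, 0⟩, 0⟩ 0 0))) (.pos 26 .pp ⟨78603239, 0, 0, 0, 0, 0, 0, 0, 0, ⟨0, 0⟩, 0⟩ 0 0)) (.cut .d 902127 (.cut .v 50331648 (.pos 52 .pp ⟨1196189350, 0, 0, 0, 0, 0, 0, 0, 0, ⟨0, 0⟩, 0⟩ 0 0) (.void 53 ⟨100000, 0, 0, 0, 0, 0, 0, 0, 0, ⟨0, 0⟩, 0⟩ 0 0)) (.cut .v 50331648 (.cut .v 41943040 (.pos 56 .pp ⟨453580267, 0, 0, 0, 0, 0, 0, 0, 0, ⟨0, 0⟩, 0⟩ 0 0) (.pos 57 .pp ⟨805614595, 0, 0, 0, 0, 0, 0, 0, 0, ⟨0, 0⟩, 0⟩ 0 0))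 (.cut .d 1353190 (.pos 53 .pp ⟨1874589181, 0, 0, 0, 0, 0, 0, 0, 0, ⟨0, 0⟩, 0⟩ 0 0) (.pos 53 .pp ⟨1230649235, 0, 0, 0, 0, 0, 0, 0, 0, ⟨0, 0⟩, 0⟩ 0 0))))) (.pos 48 .pp ⟨31450522, 0, 0, 0, 0, 0, 0, 0, 0, ⟨0, 0⟩, 0⟩ 0 0)) (.cut .d 1804254 (.pos 62 .pp ⟨7505113937, 8172648783, 0, 0, 0, 0, 0, 0, 0, ⟨0, 0⟩, 0⟩ 0 0) (.void 62 ⟨26788, 73212, 0, 0, 0, 0, 0, 0, 0, ⟨0, 0⟩, 0⟩ 0 0))) (.pos 61 .pp ⟨0, 80902720, 0, 0, 0, 0, 0, 0, 0, ⟨0, 0⟩, 0⟩ 0 0)) (.void 87 ⟨0, 0, 0, 100000, 0, 0, 0, 0, 0, ⟨0, 0⟩, 0⟩ 0 0)))),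
    by decide +kernel⟩

def covers18 : cell.Covers table row18.1 :=
  ⟨(.cut .d 0 (.cut .v 16777216 (.cut .d (-8388608) (.void 1 ⟨0, 0, 0, 0, 0, 100000, 0, 0, 0, ⟨0, 0⟩, 0⟩ 0 0) (.cut .d (-4194304) (.void 1 ⟨0, 0, 0, 0, 0, 100000, 0, 0, 0, ⟨0, 0⟩, 0⟩ 0 0) (.cut .d (-2097152) (.void 1 ⟨0, 0, 0, 0, 0, 100000, 0, 0, 0, ⟨0, 0⟩, 0⟩ 0 0) (.cut .d (-1048576) (.void 1 ⟨0, 0, 0, 0, 0, 100000, 0, 0, 0, ⟨0, 0⟩, 0⟩ 0 0) (.cut .d (-524288) (.void 1 ⟨0, 0, 0, 0, 0, 100000, 0, 0, 0, ⟨0, 0⟩, 0⟩ 0 0) (.cut .d (-262144) (.void 1 ⟨0, 0, 0, 0, 0, 100000, 0, 0, 0, ⟨0, 0⟩, 0⟩ 0 0) (.cut .v 8388608 (.cut .v 4194304 (.void 4 ⟨0, 0, 100000, 0, 0, 0, 0, 0, 0, ⟨0, 0⟩, 0⟩ 0 0) (.pos 5 .mm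 ⟨0, 0, 4681385, 0, 0, 147865763, 0, 0, 0, ⟨0, 0⟩, 0⟩ 0 0)) (.cut .d (-131072) (.pos 3 .mm ⟨0, 0, 0, 0, 0, 488222628, 0, 0, 0, ⟨0, 0⟩, 0⟩ 0 0) (.cut .s 12484608 (.pos 3 .mm ⟨0, 0, 0, 0, 0, 379935950, 0, 0, 0, ⟨0, 0⟩, 0⟩ 0 0) (.cut .s 12599296 (.pos 3 .mm ⟨0, 0, 0, 0, 0, 416207524, 0, 0, 0, ⟨0, 0⟩, 0⟩ 0 0) (.pos 3 .mm ⟨0, 0, 0, 0, 0, 450098184, 0, 0, 0, ⟨0, 0⟩, 0⟩ 0 0))))))))))) (.cut .v 268435456 (.cut .v 67108864 (.cut .v 33554432 (.cut .v 25165824 (.cut .d (-8388608) (.void 27 ⟨100000, 0, 0, 0, 0, 0, 0, 0, 0, ⟨0, 0⟩, 0⟩ 0 0) (.cut .d (-4194304) (.void 27 ⟨100000, 0, 0, 0, 0, 0, 0, 0, 0, ⟨0, 0⟩, 0⟩ 0 0) (.cut .v 20971520 (.cut .d (-2097152) (.void 29 ⟨100000, 0,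 0, 0, 0, 0, 0, 0, 0, ⟨0, 0⟩, 0⟩ 0 0) (.cut .v 18874368 (.cut .d (-1048576) (.void 31 ⟨100000, 0, 0, 0, 0, 0, 0, 0, 0, ⟨0, 0⟩, 0⟩ 0 0) (.cut .d (-524288) (.void 31 ⟨100000, 0, 0, 0, 0, 0, 0, 0, 0, ⟨0, 0⟩, 0⟩ 0 0) (.cut .d (-262144) (.void 31 ⟨100000, 0, 0, 0, 0, 0, 0, 0, 0, ⟨0, 0⟩, 0⟩ 0 0) (.cut .v 17825792 (.cut .d (-131072) (.cut .v 17301504 (.cut .d (-196608) (.void 35 ⟨0, 0, 0, 0, 0, 100000, 0, 0, 0, ⟨0, 0⟩, 0⟩ 0 0) (.cut .v 17039360 (.pos 37 .mp ⟨0, 0, 0, 0, 0, 501963491, 0, 0, 0, ⟨0, 0⟩, 0⟩ 0 0) (.cut .v 17170432 (.cut .d (-163840) (.void 63 ⟨0, 0, 0, 0, 0, 100000, 0, 0, 0, ⟨0, 0⟩, 0⟩ 0 0) (.cut .d (-147456) (.void 63 ⟨0, 0, 0, 0, 0, 100000, 0, 0, 0, ⟨0, 0⟩,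 0⟩ 0 0) (.cut .s 12484608 (.pos 63 .mp ⟨138474022, 0, 0, 0, 0, 204513977, 0, 0, 0, ⟨0, 0⟩, 0⟩ 0 0) (.cut .s 12599296 (.pos 63 .mp ⟨159319818, 0, 0, 0, 0, 206056159, 0, 0, 0, ⟨0, 0⟩, 0⟩ 0 0) (.void 63 ⟨0, 0, 0, 0, 0, 100000, 0, 0, 0, ⟨0, 0⟩, 0⟩ 0 0))))) (.pos 64 .mp ⟨313765601, 0, 0, 0, 0, 0, 0, 0, 0, ⟨0, 0⟩, 0⟩ 0 0)))) (.void 36 ⟨100000, 0, 0, 0, 0, 0, 0, 0, 0, ⟨0, 0⟩, 0⟩ 0 0)) (.cut .s 12484608 (.cut .v 17301504 (.cut .s 12369920 (.cut .v 17039360 (.cut .d (-65536) (.cut .l 1159153 (.pos 37 .mp ⟨128307003, 0, 0, 0, 0, 185103496, 0, 0, 0, ⟨0, 0⟩, 0⟩ 0 0) (.cut .s 12312576 (.pos 37 .mp ⟨116390426, 0, 0, 0, 0, 184852443, 0, 0, 0, ⟨0, 0⟩, 0⟩ 0 0) (.pos 37 .mp ⟨120375643,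 0, 0, 0, 0, 191603584, 0, 0, 0, ⟨0, 0⟩, 0⟩ 0 0))) (.cut .l 1159153 (.cut .s 12312576 (.cut .v 16908288 (.cut .d (-32768) (.pos 54 .mp ⟨126981931, 0, 0, 0, 0, 162498281, 0, 0, 0, ⟨0, 0⟩, 0⟩ 0 0) (.cut .s 12283904 (.pos 54 .mp ⟨132553615, 0, 0, 0, 0, 136261920, 0, 0, 0, ⟨0, 0⟩, 0⟩ 0 0) (.pos 54 .mp ⟨134694287, 0, 0, 0, 0, 139248201, 0, 0, 0, ⟨0, 0⟩, 0⟩ 0 0))) (.pos 55 .mp ⟨206896348, 0, 0, 0, 0, 31705800, 0, 0, 0, ⟨0, 0⟩, 0⟩ 0 0)) (.cut .v 16908288 (.cut .d (-32768) (.pos 54 .mp ⟨127776113, 0, 0, 0, 0, 174578788, 0, 0, 0, ⟨0, 0⟩, 0⟩ 0 0) (.cut .d (-16384) (.cut .s 12341248 (.pos 54 .mp ⟨130514298, 0, 0, 0, 0, 160618409, 0, 0, 0, ⟨0, 0⟩, 0⟩ 0 0) (.pos 54 .mp ⟨132572590,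 0, 0, 0, 0, 164133538, 0, 0, 0, ⟨0, 0⟩, 0⟩ 0 0)) (.pos 54 .mp ⟨0, 0, 0, 0, 0, 0, 0, 0, 0, ⟨0, 0⟩, 0⟩ 0 0))) (.pos 55 .mp ⟨208708602, 0, 0, 0, 0, 41083487, 0, 0, 0, ⟨0, 0⟩, 0⟩ 0 0))) (.pos 37 .mp ⟨0, 0, 0, 0, 0, 0, 0, 0, 0, ⟨0, 0⟩, 0⟩ 0 0))) (.cut .s 12312576 (.pos 38 .mp ⟨200745989, 0, 0, 0, 0, 48421898, 0, 0, 0, ⟨0, 0⟩, 0⟩ 0 0) (.pos 38 .mp ⟨203030978, 0, 0, 0, 0, 57382776, 0, 0, 0, ⟨0, 0⟩, 0⟩ 0 0))) (.cut .v 17039360 (.cut .d (-65536) (.cut .v 16908288 (.pos 54 .mp ⟨0, 0, 0, 0, 0, 422827992, 0, 0, 0, ⟨0, 0⟩, 0⟩ 0 0) (.cut .l 1159153 (.pos 55 .mp ⟨139239674, 0, 0, 0, 0, 195470136, 0, 0, 0, ⟨0, 0⟩, 0⟩ 0 0) (.cut .l 1570957 (.cut .s 12427264 (.pos 55 .mp ⟨132830599,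 0, 0, 0, 0, 186807984, 0, 0, 0, ⟨0, 0⟩, 0⟩ 0 0) (.cut .s 12455936 (.pos 55 .mp ⟨137245016, 0, 0, 0, 0, 189934771, 0, 0, 0, ⟨0, 0⟩, 0⟩ 0 0) (.pos 55 .mp ⟨139487325, 0, 0, 0, 0, 193861064, 0, 0, 0, ⟨0, 0⟩, 0⟩ 0 0))) (.pos 55 .mp ⟨0, 0, 0, 0, 0, 385768810, 0, 0, 0, ⟨0, 0⟩, 0⟩ 0 0)))) (.cut .l 1159153 (.cut .s 12427264 (.cut .l 747348 (.cut .v 16908288 (.cut .d (-32768) (.pos 54 .mp ⟨132628631, 0, 0, 0, 0, 184256703, 0, 0, 0, ⟨0, 0⟩, 0⟩ 0 0) (.cut .d (-16384) (.cut .s 12398592 (.pos 54 .mp ⟨134651867, 0, 0, 0, 0, 167746792, 0, 0, 0, ⟨0, 0⟩, 0⟩ 0 0) (.cut .s 12412928 (.pos 54 .mp ⟨136752558, 0, 0, 0, 0, 168450117, 0, 0, 0, ⟨0, 0⟩, 0⟩ 0 0) (.pos 54 .mp ⟨137811071, 0,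 0, 0, 0, 170326745, 0, 0, 0, ⟨0, 0⟩, 0⟩ 0 0))) (.pos 54 .mp ⟨0, 0, 0, 0, 0, 0, 0, 0, 0, ⟨0, 0⟩, 0⟩ 0 0))) (.pos 55 .mp ⟨209028930, 0, 0, 0, 0, 56770472, 0, 0, 0, ⟨0, 0⟩, 0⟩ 0 0)) (.pos 37 .mp ⟨148317383, 0, 0, 0, 0, 140849376, 0, 0, 0, ⟨0, 0⟩, 0⟩ 0 0)) (.cut .v 16908288 (.cut .l 747348 (.cut .d (-32768) (.pos 54 .mp ⟨136868411, 0, 0, 0, 0, 191214431, 0, 0, 0, ⟨0, 0⟩, 0⟩ 0 0) (.cut .d (-16384) (.cut .v 16842752 (.pos 94 .mp ⟨0, 0, 0, 0, 0, 383381373, 0, 0, 0, ⟨0, 0⟩, 0⟩ 0 0) (.cut .s 12455936 (.pos 95 .mp ⟨146864589, 0, 0, 0, 0, 160122342, 0, 0, 0, ⟨0, 0⟩, 0⟩ 0 0) (.cut .s 12470272 (.pos 95 .mp ⟨148014586, 0, 0, 0, 0, 162897067, 0, 0, 0, ⟨0, 0⟩, 0⟩ 0 0) (.pos 95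 .mp ⟨149171182, 0, 0, 0, 0, 164721908, 0, 0, 0, ⟨0, 0⟩, 0⟩ 0 0)))) (.pos 54 .mp ⟨0, 0, 0, 0, 0, 0, 0, 0, 0, ⟨0, 0⟩, 0⟩ 0 0))) (.pos 54 .mp ⟨0, 0, 0, 0, 0, 379676557, 0, 0, 0, ⟨0, 0⟩, 0⟩ 0 0)) (.cut .s 12455936 (.pos 55 .mp ⟨195431982, 0, 0, 0, 0, 86509888, 0, 0, 0, ⟨0, 0⟩, 0⟩ 0 0) (.pos 55 .mp ⟨197266691, 0, 0, 0, 0, 90645209, 0, 0, 0, ⟨0, 0⟩, 0⟩ 0 0)))) (.pos 37 .mp ⟨0, 0, 0, 0, 0, 0, 0, 0, 0, ⟨0, 0⟩, 0⟩ 0 0))) (.cut .d (-65536) (.cut .v 17170432 (.cut .v 17104896 (.cut .l 1159153 (.pos 88 .mp ⟨269488267, 0, 0, 0, 0, 0, 0, 0, 0, ⟨0, 0⟩, 0⟩ 0 0) (.cut .d (-98304) (.cut .s 12427264 (.pos 88 .mp ⟨166232889, 0, 0, 0, 0, 133798470, 0, 0, 0, ⟨0, 0⟩, 0⟩ 0 0) (.cut .s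 12455936 (.pos 88 .mp ⟨166206601, 0, 0, 0, 0, 143921043, 0, 0, 0, ⟨0, 0⟩, 0⟩ 0 0) (.pos 88 .mp ⟨167836224, 0, 0, 0, 0, 148781096, 0, 0, 0, ⟨0, 0⟩, 0⟩ 0 0))) (.pos 88 .mp ⟨243138190, 0, 0, 0, 0, 0, 0, 0, 0, ⟨0, 0⟩, 0⟩ 0 0))) (.pos 89 .mp ⟨237733652, 0, 0, 0, 0, 26553561, 0, 0, 0, ⟨0, 0⟩, 0⟩ 0 0)) (.pos 64 .mp ⟨258182809, 0, 0, 0, 0, 0, 0, 0, 0, ⟨0, 0⟩, 0⟩ 0 0)) (.pos 38 .mp ⟨242854476, 0, 0, 0, 0, 0, 0, 0, 0, ⟨0, 0⟩, 0⟩ 0 0)))) (.pos 36 .mp ⟨250112972, 0, 0, 0, 0, 0, 0, 0, 0, ⟨0, 0⟩, 0⟩ 0 0)) (.cut .v 17301504 (.cut .s 12599296 (.cut .v 17039360 (.cut .d (-65536) (.cut .v 16908288 (.pos 54 .mp ⟨0, 0, 0, 0, 0, 455076986, 0, 0, 0, ⟨0, 0⟩, 0⟩ 0 0) (.cut .l 1159153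 (.cut .s 12541952 (.pos 55 .mp ⟨148595584, 0, 0, 0, 0, 197021867, 0, 0, 0, ⟨0, 0⟩, 0⟩ 0 0) (.pos 55 .mp ⟨153437159, 0, 0, 0, 0, 205442544, 0, 0, 0, ⟨0, 0⟩, 0⟩ 0 0)) (.cut .v 16973824 (.pos 92 .mp ⟨0, 0, 0, 0, 0, 427427402, 0, 0, 0, ⟨0, 0⟩, 0⟩ 0 0) (.cut .s 12541952 (.cut .s 12513280 (.pos 93 .mp ⟨125689037, 0, 0, 0, 0, 223114708, 0, 0, 0, ⟨0, 0⟩, 0⟩ 0 0) (.pos 93 .mp ⟨126600663, 0, 0, 0, 0, 229498092, 0, 0, 0, ⟨0, 0⟩, 0⟩ 0 0)) (.cut .s 12570624 (.pos 93 .mp ⟨127870093, 0, 0, 0, 0, 235486476, 0, 0, 0, ⟨0, 0⟩, 0⟩ 0 0) (.pos 93 .mp ⟨129519896, 0, 0, 0, 0, 241041529, 0, 0, 0, ⟨0, 0⟩, 0⟩ 0 0)))))) (.cut .l 1159153 (.cut .s 12541952 (.cut .v 16908288 (.cut .l 747348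 (.cut .d (-32768) (.pos 54 .mp ⟨141197903, 0, 0, 0, 0, 198872959, 0, 0, 0, ⟨0, 0⟩, 0⟩ 0 0) (.cut .d (-16384) (.cut .v 16842752 (.pos 94 .mp ⟨0, 0, 0, 0, 0, 398674943, 0, 0, 0, ⟨0, 0⟩, 0⟩ 0 0) (.cut .v 16875520 (.cut .l 541446 (.cut .d (-24576) (.pos 96 .mp ⟨144346185, 0, 0, 0, 0, 189276385, 0, 0, 0, ⟨0, 0⟩, 0⟩ 0 0) (.cut .s 12513280 (.pos 96 .mp ⟨148434403, 0, 0, 0, 0, 169382955, 0, 0, 0, ⟨0, 0⟩, 0⟩ 0 0) (.pos 96 .mp ⟨150721775, 0, 0, 0, 0, 173156110, 0, 0, 0, ⟨0, 0⟩, 0⟩ 0 0))) (.pos 96 .mp ⟨0, 0, 0, 0, 0, 0, 0, 0, 0, ⟨0, 0⟩, 0⟩ 0 0)) (.pos 97 .mp ⟨252449966, 0, 0, 0, 0, 0, 0, 0, 0, ⟨0, 0⟩, 0⟩ 0 0))) (.pos 54 .mp ⟨145428124, 0, 0, 0, 0, 0, 0, 0, 0, ⟨0, 0⟩, 0⟩ 0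 0))) (.pos 54 .mp ⟨0, 0, 0, 0, 0, 394931966, 0, 0, 0, ⟨0, 0⟩, 0⟩ 0 0)) (.cut .s 12513280 (.pos 55 .mp ⟨199427762, 0, 0, 0, 0, 94425234, 0, 0, 0, ⟨0, 0⟩, 0⟩ 0 0) (.pos 55 .mp ⟨201936439, 0, 0, 0, 0, 97814021, 0, 0, 0, ⟨0, 0⟩, 0⟩ 0 0))) (.cut .d (-32768) (.cut .l 747348 (.cut .v 16908288 (.pos 54 .mp ⟨145620891, 0, 0, 0, 0, 207262588, 0, 0, 0, ⟨0, 0⟩, 0⟩ 0 0) (.pos 55 .mp ⟨207755155, 0, 0, 0, 0, 105837108, 0, 0, 0, ⟨0, 0⟩, 0⟩ 0 0)) (.cut .s 12570624 (.pos 37 .mp ⟨156751614, 0, 0, 0, 0, 176119616, 0, 0, 0, ⟨0, 0⟩, 0⟩ 0 0) (.pos 37 .mp ⟨159316357, 0, 0, 0, 0, 179798391, 0, 0, 0, ⟨0, 0⟩, 0⟩ 0 0))) (.cut .d (-16384) (.cut .v 16908288 (.cut .v 16842752 (.pos 94 .mp ⟨0,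 0, 0, 0, 0, 414511934, 0, 0, 0, ⟨0, 0⟩, 0⟩ 0 0) (.cut .v 16875520 (.cut .l 747348 (.cut .l 541446 (.cut .d (-24576) (.pos 96 .mp ⟨147781729, 0, 0, 0, 0, 199376978, 0, 0, 0, ⟨0, 0⟩, 0⟩ 0 0) (.cut .s 12570624 (.pos 96 .mp ⟨153035162, 0, 0, 0, 0, 177010028, 0, 0, 0, ⟨0, 0⟩, 0⟩ 0 0) (.pos 96 .mp ⟨155375114, 0, 0, 0, 0, 180942724, 0, 0, 0, ⟨0, 0⟩, 0⟩ 0 0))) (.pos 96 .mp ⟨0, 0, 0, 0, 0, 0, 0, 0, 0, ⟨0, 0⟩, 0⟩ 0 0)) (.pos 96 .mp ⟨0, 0, 0, 0, 0, 0, 0, 0, 0, ⟨0, 0⟩, 0⟩ 0 0)) (.pos 97 .mp ⟨259213089, 0, 0, 0, 0, 0, 0, 0, 0, ⟨0, 0⟩, 0⟩ 0 0))) (.pos 55 .mp ⟨260041429, 0, 0, 0, 0, 0, 0, 0, 0, ⟨0, 0⟩, 0⟩ 0 0)) (.pos 37 .mp ⟨153168956, 0, 0, 0, 0, 0, 0, 0, 0, ⟨0, 0⟩, 0⟩ 0 0))))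 (.pos 37 .mp ⟨0, 0, 0, 0, 0, 0, 0, 0, 0, ⟨0, 0⟩, 0⟩ 0 0))) (.cut .d (-65536) (.cut .v 17170432 (.cut .v 17104896 (.cut .l 1159153 (.pos 88 .mp ⟨288625154, 0, 0, 0, 0, 0, 0, 0, 0, ⟨0, 0⟩, 0⟩ 0 0) (.cut .s 12541952 (.cut .s 12513280 (.pos 88 .mp ⟨174433933, 0, 0, 0, 0, 144397954, 0, 0, 0, ⟨0, 0⟩, 0⟩ 0 0) (.pos 88 .mp ⟨176632320, 0, 0, 0, 0, 148622635, 0, 0, 0, ⟨0, 0⟩, 0⟩ 0 0)) (.cut .s 12570624 (.pos 88 .mp ⟨179080426, 0, 0, 0, 0, 152607471, 0, 0, 0, ⟨0, 0⟩, 0⟩ 0 0) (.pos 88 .mp ⟨181793034, 0, 0, 0, 0, 156326894, 0, 0, 0, ⟨0, 0⟩, 0⟩ 0 0)))) (.pos 89 .mp ⟨255211185, 0, 0, 0, 0, 27583770, 0, 0, 0, ⟨0, 0⟩, 0⟩ 0 0)) (.pos 64 .mp ⟨276288909, 0, 0, 0, 0, 0, 0, 0, 0, ⟨0,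 0⟩, 0⟩ 0 0)) (.pos 38 .mp ⟨259450889, 0, 0, 0, 0, 0, 0, 0, 0, ⟨0, 0⟩, 0⟩ 0 0))) (.cut .d (-65536) (.cut .l 1159153 (.cut .v 17039360 (.pos 37 .mp ⟨155975855, 0, 0, 0, 0, 234419541, 0, 0, 0, ⟨0, 0⟩, 0⟩ 0 0) (.pos 38 .mp ⟨308886442, 0, 0, 0, 0, 0, 0, 0, 0, ⟨0, 0⟩, 0⟩ 0 0)) (.cut .v 17039360 (.cut .d (-98304) (.pos 37 .mp ⟨0, 0, 0, 0, 0, 493357272, 0, 0, 0, ⟨0, 0⟩, 0⟩ 0 0) (.cut .s 12656640 (.pos 37 .mp ⟨141483018, 0, 0, 0, 0, 230362861, 0, 0, 0, ⟨0, 0⟩, 0⟩ 0 0) (.pos 37 .mp ⟨145965038, 0, 0, 0, 0, 240377922, 0, 0, 0, ⟨0, 0⟩, 0⟩ 0 0))) (.cut .v 17170432 (.cut .v 17104896 (.cut .s 12656640 (.cut .s 12627968 (.pos 88 .mp ⟨184785224, 0, 0, 0, 0, 159754697, 0, 0, 0, ⟨0,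 0⟩, 0⟩ 0 0) (.pos 88 .mp ⟨188072389, 0, 0, 0, 0, 162864013, 0, 0, 0, ⟨0, 0⟩, 0⟩ 0 0)) (.cut .s 12685312 (.pos 88 .mp ⟨191670243, 0, 0, 0, 0, 165627290, 0, 0, 0, ⟨0, 0⟩, 0⟩ 0 0) (.pos 88 .mp ⟨195594837, 0, 0, 0, 0, 168016265, 0, 0, 0, ⟨0, 0⟩, 0⟩ 0 0))) (.pos 89 .mp ⟨273936094, 0, 0, 0, 0, 29194737, 0, 0, 0, ⟨0, 0⟩, 0⟩ 0 0)) (.pos 64 .mp ⟨295547328, 0, 0, 0, 0, 0, 0, 0, 0, ⟨0, 0⟩, 0⟩ 0 0)))) (.cut .l 1159153 (.cut .v 17039360 (.cut .d (-32768) (.cut .l 747348 (.cut .v 16908288 (.cut .s 12656640 (.pos 54 .mp ⟨150141367, 0, 0, 0, 0, 216415220, 0, 0, 0, ⟨0, 0⟩, 0⟩ 0 0) (.pos 54 .mp ⟨154763541, 0, 0, 0, 0, 226364464, 0, 0, 0, ⟨0, 0⟩, 0⟩ 0 0)) (.pos 55 .mp ⟨255164867,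 0, 0, 0, 0, 56826389, 0, 0, 0, ⟨0, 0⟩, 0⟩ 0 0)) (.cut .s 12656640 (.cut .s 12627968 (.pos 37 .mp ⟨161737069, 0, 0, 0, 0, 183972772, 0, 0, 0, ⟨0, 0⟩, 0⟩ 0 0) (.pos 37 .mp ⟨163998007, 0, 0, 0, 0, 188677946, 0, 0, 0, ⟨0, 0⟩, 0⟩ 0 0)) (.pos 37 .mp ⟨173986628, 0, 0, 0, 0, 179952148, 0, 0, 0, ⟨0, 0⟩, 0⟩ 0 0))) (.cut .d (-16384) (.cut .v 16908288 (.cut .l 747348 (.cut .l 541446 (.cut .s 12656640 (.cut .v 16842752 (.pos 94 .mp ⟨0, 0, 0, 0, 0, 430885245, 0, 0, 0, ⟨0, 0⟩, 0⟩ 0 0) (.cut .s 12627968 (.cut .s 12613632 (.pos 95 .mp ⟨159889085, 0, 0, 0, 0, 182056065, 0, 0, 0, ⟨0, 0⟩, 0⟩ 0 0) (.pos 95 .mp ⟨161115577, 0, 0, 0, 0, 184078477, 0, 0, 0, ⟨0, 0⟩, 0⟩ 0 0)) (.pos 95 .mp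 ⟨163590842, 0, 0, 0, 0, 186902104, 0, 0, 0, ⟨0, 0⟩, 0⟩ 0 0))) (.cut .s 12685312 (.cut .s 12670976 (.pos 54 .mp ⟨156699145, 0, 0, 0, 0, 205655119, 0, 0, 0, ⟨0, 0⟩, 0⟩ 0 0) (.pos 54 .mp ⟨157866372, 0, 0, 0, 0, 207920945, 0, 0, 0, ⟨0, 0⟩, 0⟩ 0 0)) (.pos 54 .mp ⟨159040268, 0, 0, 0, 0, 213436761, 0, 0, 0, ⟨0, 0⟩, 0⟩ 0 0))) (.pos 54 .mp ⟨163414521, 0, 0, 0, 0, 0, 0, 0, 0, ⟨0, 0⟩, 0⟩ 0 0)) (.pos 54 .mp ⟨0, 0, 0, 0, 0, 0, 0, 0, 0, ⟨0, 0⟩, 0⟩ 0 0)) (.pos 55 .mp ⟨271539472, 0, 0, 0, 0, 0, 0, 0, 0, ⟨0, 0⟩, 0⟩ 0 0)) (.pos 37 .mp ⟨160891225, 0, 0, 0, 0, 0, 0, 0, 0, ⟨0, 0⟩, 0⟩ 0 0))) (.pos 38 .mp ⟨285868009, 0, 0, 0, 0, 0, 0, 0, 0, ⟨0, 0⟩, 0⟩ 0 0)) (.pos 35 .mp ⟨169683084, 0,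 0, 0, 0, 0, 0, 0, 0, ⟨0, 0⟩, 0⟩ 0 0)))) (.pos 36 .mp ⟨286491243, 0, 0, 0, 0, 0, 0, 0, 0, ⟨0, 0⟩, 0⟩ 0 0)))) (.pos 34 .mp ⟨312101540, 0, 0, 0, 0, 0, 0, 0, 0, ⟨0, 0⟩, 0⟩ 0 0))))) (.pos 32 .mp ⟨546598745, 0, 0, 0, 0, 0, 0, 0, 0, ⟨0, 0⟩, 0⟩ 0 0))) (.void 30 ⟨100000, 0, 0, 0, 0, 0, 0, 0, 0, ⟨0, 0⟩, 0⟩ 0 0)))) (.void 28 ⟨100000, 0, 0, 0, 0, 0, 0, 0, 0, ⟨0, 0⟩, 0⟩ 0 0)) (.void 49 ⟨100000, 0, 0, 0, 0, 0, 0, 0, 0, ⟨0, 0⟩, 0⟩ 0 0)) (.void 62 ⟨100000, 0, 0, 0, 0, 0, 0, 0, 0, ⟨0, 0⟩, 0⟩ 0 0)) (.void 87 ⟨94060, 0, 0, 5940, 0, 0, 0, 0, 0, ⟨0, 0⟩, 0⟩ 0 0))) (.cut .v 16777216 (.cut .v 8388608 (.cut .v 4194304 (.cut .v 2097152 (.cut .v 1048576 (.pos 100 .pm ⟨0, 0, 20669308, 0,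 0, 0, 0, 0, 26691873, ⟨0, 0⟩, 1983364⟩ 0 0) (.pos 101 .pm ⟨0, 1470980, 0, 0, 0, 0, 0, 0, 0, ⟨0, 0⟩, 0⟩ 0 0)) (.cut .d 3095263 (.pos 78 .pm ⟨0, 0, 26714309, 0, 0, 0, 0, 0, 0, ⟨0, 0⟩, 0⟩ 0 0) (.cut .d 4642894 (.pos 78 .pm ⟨0, 0, 0, 0, 0, 0, 0, 0, 0, ⟨0, 0⟩, 0⟩ 0 0) (.pos 78 .pm ⟨0, 68123365, 0, 0, 0, 0, 0, 0, 0, ⟨0, 0⟩, 0⟩ 0 0)))) (.cut .d 3095263 (.pos 5 .pm ⟨0, 0, 3483693, 0, 0, 0, 0, 0, 0, ⟨0, 0⟩, 0⟩ 0 0) (.cut .d 4642894 (.pos 5 .pm ⟨0, 0, 0, 0, 0, 0, 0, 0, 0, ⟨0, 0⟩, 0⟩ 0 0) (.cut .d 5416710 (.pos 5 .pm ⟨0, 67526639, 0, 0, 0, 0, 0, 0, 0, ⟨0, 0⟩, 0⟩ 0 0) (.pos 5 .pm ⟨0, 110307077, 0, 0, 0, 0, 0, 0, 0, ⟨0, 0⟩, 0⟩ 0 0))))) (.cut .d 3095263 (.pos 3 .pm ⟨0, 0, 0,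 0, 0, 0, 0, 0, 0, ⟨0, 0⟩, 0⟩ 0 0) (.cut .d 4642894 (.pos 3 .pm ⟨0, 0, 0, 0, 0, 0, 0, 0, 0, ⟨0, 0⟩, 0⟩ 0 0) (.pos 3 .pm ⟨0, 125361908, 0, 0, 0, 0, 0, 0, 0, ⟨0, 0⟩, 0⟩ 0 0)))) (.cut .v 268435456 (.cut .d 3095263 (.cut .v 67108864 (.cut .d 1547631 (.cut .v 33554432 (.cut .d 773815 (.cut .v 25165824 (.cut .d 386907 (.cut .v 20971520 (.cut .v 18874368 (.pos 31 .pp ⟨184076333, 0, 0, 0, 0, 0, 0, 0, 0, ⟨0, 0⟩, 0⟩ 0 0) (.pos 32 .pp ⟨270947487, 0, 0, 0, 0, 0, 0, 0, 0, ⟨0, 0⟩, 0⟩ 0 0)) (.pos 30 .pp ⟨379701560, 0, 0, 0, 0, 0, 0, 0, 0, ⟨0, 0⟩, 0⟩ 0 0)) (.pos 27 .pp ⟨136098316, 0, 0, 0, 0, 0, 0, 0, 0, ⟨0, 0⟩, 0⟩ 0 0)) (.cut .d 386907 (.pos 28 .pp ⟨725989313, 0, 0, 0, 0, 0, 0,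 0, 0, ⟨0, 0⟩, 0⟩ 0 0) (.pos 28 .pp ⟨475451358, 0, 0, 0, 0, 0, 0, 0, 0, ⟨0, 0⟩, 0⟩ 0 0))) (.pos 26 .pp ⟨113116274, 0, 0, 0, 0, 0, 0, 0, 0, ⟨0, 0⟩, 0⟩ 0 0)) (.cut .d 773815 (.cut .v 50331648 (.pos 52 .pp ⟨1510474490, 0, 0, 0, 0, 0, 0, 0, 0, ⟨0, 0⟩, 0⟩ 0 0) (.void 53 ⟨100000, 0, 0, 0, 0, 0, 0, 0, 0, ⟨0, 0⟩, 0⟩ 0 0)) (.cut .v 50331648 (.cut .v 41943040 (.pos 56 .pp ⟨603167955, 0, 0, 0, 0, 0, 0, 0, 0, ⟨0, 0⟩, 0⟩ 0 0) (.pos 57 .pp ⟨1038774688, 0, 0, 0, 0, 0, 0, 0, 0, ⟨0, 0⟩, 0⟩ 0 0)) (.cut .v 58720256 (.pos 104 .pp ⟨1625599631, 0, 0, 0, 0, 0, 0, 0, 0, ⟨0, 0⟩, 0⟩ 0 0) (.pos 105 .pp ⟨2294199624, 0, 0, 0, 0, 0, 0, 0, 0, ⟨0, 0⟩, 0⟩ 0 0))))) (.pos 48 .pp ⟨86943006, 0, 0,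 0, 0, 0, 0, 0, 0, ⟨0, 0⟩, 0⟩ 0 0)) (.cut .d 1547631 (.cut .v 134217728 (.cut .d 773815 (.void 106 ⟨100000, 0, 0, 0, 0, 0, 0, 0, 0, ⟨0, 0⟩, 0⟩ 0 0) (.pos 106 .pp ⟨4301676394, 2901737458, 0, 0, 0, 0, 0, 0, 0, ⟨0, 0⟩, 0⟩ 0 0)) (.void 107 ⟨0, 0, 0, 100000, 0, 0, 0, 0, 0, ⟨0, 0⟩, 0⟩ 0 0)) (.pos 62 .pp ⟨3096486282, 3578314433, 0, 0, 0, 0, 0, 0, 0, ⟨0, 0⟩, 0⟩ 0 0))) (.pos 61 .pp ⟨0, 92071942, 0, 0, 0, 0, 0, 0, 0, ⟨0, 0⟩, 0⟩ 0 0)) (.void 87 ⟨0, 0, 0, 100000, 0, 0, 0, 0, 0, ⟨0, 0⟩, 0⟩ 0 0)))),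
    by decide +kernel⟩

def covers19 : cell.Covers table row19.1 :=
  ⟨(.cut .d 0 (.cut .v 16777216 (.cut .d (-8388608) (.void 1 ⟨0, 0, 0, 0, 0, 100000, 0, 0, 0, ⟨0, 0⟩, 0⟩ 0 0) (.cut .v 8388608 (.pos 2 .mm ⟨0, 0, 507338987, 0, 0, 180763003, 0, 0, 0, ⟨0, 0⟩, 0⟩ 0 0) (.cut .d (-4194304) (.void 3 ⟨0, 0, 0, 0, 0, 100000, 0, 0, 0, ⟨0, 0⟩, 0⟩ 0 0) (.cut .d (-2097152) (.void 3 ⟨0, 0, 0, 0, 0, 100000, 0, 0, 0, ⟨0, 0⟩, 0⟩ 0 0) (.cut .d (-1048576) (.void 3 ⟨0, 0, 0, 0, 0, 100000, 0, 0, 0, ⟨0, 0⟩, 0⟩ 0 0) (.cut .d (-524288) (.void 3 ⟨0, 0, 0, 0, 0, 100000, 0, 0, 0, ⟨0, 0⟩, 0⟩ 0 0) (.cut .d (-262144) (.void 3 ⟨0, 0, 0, 0, 0, 100000, 0, 0, 0, ⟨0, 0⟩, 0⟩ 0 0) (.cut .d (-131072)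 (.void 3 ⟨0, 0, 0, 0, 0, 100000, 0, 0, 0, ⟨0, 0⟩, 0⟩ 0 0) (.cut .v 12582912 (.pos 6 .mm ⟨0, 0, 0, 0, 0, 354246131, 0, 0, 0, ⟨0, 0⟩, 0⟩ 0 0) (.cut .v 14680064 (.pos 10 .mm ⟨0, 0, 0, 0, 0, 467794234, 0, 0, 0, ⟨0, 0⟩, 0⟩ 0 0) (.cut .v 15728640 (.pos 14 .mm ⟨0, 0, 0, 0, 0, 519112178, 0, 0, 0, ⟨0, 0⟩, 0⟩ 0 0) (.cut .v 16252928 (.pos 20 .mm ⟨0, 0, 0, 0, 0, 546128048, 0, 0, 0, ⟨0, 0⟩, 0⟩ 0 0) (.cut .s 12976128 (.cut .s 12845056 (.pos 21 .mm ⟨0, 0, 0, 0, 0, 492299196, 0, 0, 0, ⟨0, 0⟩, 0⟩ 0 0) (.pos 21 .mm ⟨0, 0, 0, 0, 0, 538080698, 0, 0, 0, ⟨0, 0⟩, 0⟩ 0 0)) (.cut .s 13107200 (.pos 21 .mm ⟨0, 0, 0, 0, 0, 587918252, 0, 0, 0, ⟨0, 0⟩, 0⟩ 0 0) (.pos 21 .mm ⟨0, 0, 0, 0, 0, 641692494,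 0, 0, 0, ⟨0, 0⟩, 0⟩ 0 0))))))))))))))) (.cut .v 268435456 (.cut .v 67108864 (.cut .v 33554432 (.cut .d (-8388608) (.void 26 ⟨100000, 0, 0, 0, 0, 0, 0, 0, 0, ⟨0, 0⟩, 0⟩ 0 0) (.cut .v 25165824 (.cut .d (-4194304) (.void 27 ⟨100000, 0, 0, 0, 0, 0, 0, 0, 0, ⟨0, 0⟩, 0⟩ 0 0) (.cut .v 20971520 (.cut .d (-2097152) (.void 29 ⟨100000, 0, 0, 0, 0, 0, 0, 0, 0, ⟨0, 0⟩, 0⟩ 0 0) (.cut .v 18874368 (.cut .d (-1048576) (.void 31 ⟨100000, 0, 0, 0, 0, 0, 0, 0, 0, ⟨0, 0⟩, 0⟩ 0 0) (.cut .d (-524288) (.void 31 ⟨100000, 0, 0, 0, 0, 0, 0, 0, 0, ⟨0, 0⟩, 0⟩ 0 0) (.cut .d (-262144) (.void 31 ⟨100000, 0, 0, 0, 0, 0, 0, 0, 0, ⟨0, 0⟩, 0⟩ 0 0) (.cut .d (-131072) (.void 31 ⟨0, 0, 0, 0, 0, 100000,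 0, 0, 0, ⟨0, 0⟩, 0⟩ 0 0) (.cut .v 17825792 (.cut .s 12976128 (.cut .v 17301504 (.cut .d (-65536) (.cut .l 1159153 (.cut .v 17039360 (.cut .s 12845056 (.pos 37 .mp ⟨166132123, 0, 0, 0, 0, 262088892, 0, 0, 0, ⟨0, 0⟩, 0⟩ 0 0) (.pos 37 .mp ⟨178545106, 0, 0, 0, 0, 287438940, 0, 0, 0, ⟨0, 0⟩, 0⟩ 0 0)) (.pos 38 .mp ⟨363516724, 0, 0, 0, 0, 0, 0, 0, 0, ⟨0, 0⟩, 0⟩ 0 0)) (.cut .s 12845056 (.cut .v 17039360 (.cut .d (-98304) (.pos 37 .mp ⟨0, 0, 0, 0, 0, 544649410, 0, 0, 0, ⟨0, 0⟩, 0⟩ 0 0) (.cut .s 12779520 (.pos 37 .mp ⟨150582960, 0, 0, 0, 0, 254621763, 0, 0, 0, ⟨0, 0⟩, 0⟩ 0 0) (.cut .s 12812288 (.pos 37 .mp ⟨156161381, 0, 0, 0, 0, 261171520, 0, 0, 0, ⟨0, 0⟩, 0⟩ 0 0) (.pos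 37 .mp ⟨158983185, 0, 0, 0, 0, 266941983, 0, 0, 0, ⟨0, 0⟩, 0⟩ 0 0)))) (.cut .v 17170432 (.cut .s 12779520 (.cut .s 12746752 (.pos 63 .mp ⟨197272028, 0, 0, 0, 0, 176528292, 0, 0, 0, ⟨0, 0⟩, 0⟩ 0 0) (.cut .s 12763136 (.pos 63 .mp ⟨192010931, 0, 0, 0, 0, 192992681, 0, 0, 0, ⟨0, 0⟩, 0⟩ 0 0) (.pos 63 .mp ⟨193113777, 0, 0, 0, 0, 196308172, 0, 0, 0, ⟨0, 0⟩, 0⟩ 0 0))) (.cut .d (-98304) (.cut .s 12812288 (.pos 63 .mp ⟨191324685, 0, 0, 0, 0, 210991054, 0, 0, 0, ⟨0, 0⟩, 0⟩ 0 0) (.cut .d (-114688) (.pos 63 .mp ⟨186996297, 0, 0, 0, 0, 240538221, 0, 0, 0, ⟨0, 0⟩, 0⟩ 0 0) (.pos 63 .mp ⟨202802237, 0, 0, 0, 0, 197162558, 0, 0, 0, ⟨0, 0⟩, 0⟩ 0 0))) (.pos 63 .mp ⟨223466186, 0, 0,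 0, 0, 151541432, 0, 0, 0, ⟨0, 0⟩, 0⟩ 0 0))) (.pos 64 .mp ⟨324442588, 0, 0, 0, 0, 0, 0, 0, 0, ⟨0, 0⟩, 0⟩ 0 0))) (.cut .v 17039360 (.cut .d (-98304) (.pos 37 .mp ⟨0, 0, 0, 0, 0, 590636850, 0, 0, 0, ⟨0, 0⟩, 0⟩ 0 0) (.cut .l 1570957 (.cut .v 16908288 (.pos 54 .mp ⟨0, 0, 0, 0, 0, 547974238, 0, 0, 0, ⟨0, 0⟩, 0⟩ 0 0) (.cut .v 16973824 (.pos 92 .mp ⟨0, 0, 0, 0, 0, 552325149, 0, 0, 0, ⟨0, 0⟩, 0⟩ 0 0) (.cut .s 12910592 (.cut .s 12877824 (.pos 93 .mp ⟨174238636, 0, 0, 0, 0, 253612019, 0, 0, 0, ⟨0, 0⟩, 0⟩ 0 0) (.pos 93 .mp ⟨177339001, 0, 0, 0, 0, 259662469, 0, 0, 0, ⟨0, 0⟩, 0⟩ 0 0)) (.cut .s 12943360 (.pos 93 .mp ⟨180469932, 0, 0, 0, 0, 265988240, 0, 0, 0, ⟨0, 0⟩, 0⟩ 0 0)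 (.pos 93 .mp ⟨183632287, 0, 0, 0, 0, 272589988, 0, 0, 0, ⟨0, 0⟩, 0⟩ 0 0))))) (.pos 37 .mp ⟨0, 0, 0, 0, 0, 524129964, 0, 0, 0, ⟨0, 0⟩, 0⟩ 0 0))) (.cut .v 17170432 (.cut .s 12910592 (.cut .d (-98304) (.cut .d (-114688) (.pos 63 .mp ⟨190432355, 0, 0, 0, 0, 255766960, 0, 0, 0, ⟨0, 0⟩, 0⟩ 0 0) (.cut .s 12877824 (.pos 63 .mp ⟨205596362, 0, 0, 0, 0, 203519099, 0, 0, 0, ⟨0, 0⟩, 0⟩ 0 0) (.pos 63 .mp ⟨208738260, 0, 0, 0, 0, 209596409, 0, 0, 0, ⟨0, 0⟩, 0⟩ 0 0))) (.cut .l 1570957 (.pos 63 .mp ⟨241774865, 0, 0, 0, 0, 148374417, 0, 0, 0, ⟨0, 0⟩, 0⟩ 0 0) (.pos 63 .mp ⟨199312627, 0, 0, 0, 0, 208853082, 0, 0, 0, ⟨0, 0⟩, 0⟩ 0 0))) (.cut .d (-98304) (.cut .d (-114688) (.pos 63 .mp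 ⟨197725530, 0, 0, 0, 0, 266085059, 0, 0, 0, ⟨0, 0⟩, 0⟩ 0 0) (.cut .s 12943360 (.pos 63 .mp ⟨212252886, 0, 0, 0, 0, 215350197, 0, 0, 0, ⟨0, 0⟩, 0⟩ 0 0) (.pos 63 .mp ⟨193948038, 0, 0, 0, 0, 264222845, 0, 0, 0, ⟨0, 0⟩, 0⟩ 0 0))) (.cut .l 1570957 (.pos 63 .mp ⟨254842971, 0, 0, 0, 0, 149162877, 0, 0, 0, ⟨0, 0⟩, 0⟩ 0 0) (.pos 63 .mp ⟨206707917, 0, 0, 0, 0, 217817396, 0, 0, 0, ⟨0, 0⟩, 0⟩ 0 0)))) (.pos 64 .mp ⟨349478344, 0, 0, 0, 0, 0, 0, 0, 0, ⟨0, 0⟩, 0⟩ 0 0))))) (.cut .l 1159153 (.cut .v 17039360 (.cut .s 12845056 (.cut .d (-32768) (.cut .s 12779520 (.cut .v 16908288 (.cut .l 747348 (.pos 54 .mp ⟨159523583, 0, 0, 0, 0, 240969537, 0, 0, 0, ⟨0, 0⟩, 0⟩ 0 0) (.pos 54 .mp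 ⟨0, 0, 0, 0, 0, 474273363, 0, 0, 0, ⟨0, 0⟩, 0⟩ 0 0)) (.cut .s 12746752 (.pos 55 .mp ⟨188045089, 0, 0, 0, 0, 182161016, 0, 0, 0, ⟨0, 0⟩, 0⟩ 0 0) (.pos 55 .mp ⟨191473661, 0, 0, 0, 0, 186021440, 0, 0, 0, ⟨0, 0⟩, 0⟩ 0 0))) (.cut .l 747348 (.cut .v 16908288 (.pos 54 .mp ⟨165144680, 0, 0, 0, 0, 251057406, 0, 0, 0, ⟨0, 0⟩, 0⟩ 0 0) (.pos 55 .mp ⟨221878070, 0, 0, 0, 0, 156733569, 0, 0, 0, ⟨0, 0⟩, 0⟩ 0 0)) (.cut .d (-49152) (.cut .s 12812288 (.pos 37 .mp ⟨166316956, 0, 0, 0, 0, 244558781, 0, 0, 0, ⟨0, 0⟩, 0⟩ 0 0) (.pos 37 .mp ⟨168875584, 0, 0, 0, 0, 250981784, 0, 0, 0, ⟨0, 0⟩, 0⟩ 0 0)) (.pos 37 .mp ⟨180284462, 0, 0, 0, 0, 202605570, 0, 0, 0, ⟨0, 0⟩, 0⟩ 0 0)))) (.cut .d (-16384)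 (.cut .v 16908288 (.cut .l 747348 (.cut .l 541446 (.cut .s 12779520 (.cut .s 12746752 (.pos 54 .mp ⟨161470496, 0, 0, 0, 0, 221147549, 0, 0, 0, ⟨0, 0⟩, 0⟩ 0 0) (.cut .s 12763136 (.pos 54 .mp ⟨164252959, 0, 0, 0, 0, 221769940, 0, 0, 0, ⟨0, 0⟩, 0⟩ 0 0) (.pos 54 .mp ⟨165605433, 0, 0, 0, 0, 224622324, 0, 0, 0, ⟨0, 0⟩, 0⟩ 0 0))) (.cut .s 12812288 (.cut .d (-24576) (.pos 54 .mp ⟨166061055, 0, 0, 0, 0, 242893163, 0, 0, 0, ⟨0, 0⟩, 0⟩ 0 0) (.cut .v 16842752 (.pos 94 .mp ⟨0, 0, 0, 0, 0, 481334781, 0, 0, 0, ⟨0, 0⟩, 0⟩ 0 0) (.pos 95 .mp ⟨174375871, 0, 0, 0, 0, 215232847, 0, 0, 0, ⟨0, 0⟩, 0⟩ 0 0))) (.cut .v 16842752 (.pos 94 .mp ⟨0, 0, 0, 0, 0, 493851760, 0, 0, 0, ⟨0, 0⟩, 0⟩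 0 0) (.cut .s 12828672 (.pos 95 .mp ⟨179158303, 0, 0, 0, 0, 215490966, 0, 0, 0, ⟨0, 0⟩, 0⟩ 0 0) (.pos 95 .mp ⟨180689210, 0, 0, 0, 0, 218228036, 0, 0, 0, ⟨0, 0⟩, 0⟩ 0 0))))) (.pos 54 .mp ⟨175082627, 0, 0, 0, 0, 185792042, 0, 0, 0, ⟨0, 0⟩, 0⟩ 0 0)) (.pos 54 .mp ⟨0, 0, 0, 0, 0, 0, 0, 0, 0, ⟨0, 0⟩, 0⟩ 0 0)) (.pos 55 .mp ⟨293841478, 0, 0, 0, 0, 0, 0, 0, 0, ⟨0, 0⟩, 0⟩ 0 0)) (.pos 37 .mp ⟨175332451, 0, 0, 0, 0, 0, 0, 0, 0, ⟨0, 0⟩, 0⟩ 0 0))) (.cut .d (-32768) (.cut .s 12910592 (.cut .l 747348 (.cut .v 16908288 (.pos 54 .mp ⟨170867529, 0, 0, 0, 0, 262579361, 0, 0, 0, ⟨0, 0⟩, 0⟩ 0 0) (.pos 55 .mp ⟨229997388, 0, 0, 0, 0, 164639593, 0, 0, 0, ⟨0, 0⟩, 0⟩ 0 0)) (.cut .d (-49152)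 (.cut .s 12877824 (.pos 37 .mp ⟨171835070, 0, 0, 0, 0, 256821011, 0, 0, 0, ⟨0, 0⟩, 0⟩ 0 0) (.pos 37 .mp ⟨174822674, 0, 0, 0, 0, 262967070, 0, 0, 0, ⟨0, 0⟩, 0⟩ 0 0)) (.pos 37 .mp ⟨186616793, 0, 0, 0, 0, 212586721, 0, 0, 0, ⟨0, 0⟩, 0⟩ 0 0))) (.cut .l 747348 (.cut .v 16908288 (.pos 54 .mp ⟨176697880, 0, 0, 0, 0, 275817798, 0, 0, 0, ⟨0, 0⟩, 0⟩ 0 0) (.pos 55 .mp ⟨241249404, 0, 0, 0, 0, 168596356, 0, 0, 0, ⟨0, 0⟩, 0⟩ 0 0)) (.cut .d (-49152) (.cut .s 12943360 (.pos 37 .mp ⟨177839184, 0, 0, 0, 0, 269423120, 0, 0, 0, ⟨0, 0⟩, 0⟩ 0 0) (.pos 37 .mp ⟨180885413, 0, 0, 0, 0, 276192327, 0, 0, 0, ⟨0, 0⟩, 0⟩ 0 0)) (.pos 37 .mp ⟨193091871, 0, 0, 0, 0, 223221641, 0, 0, 0, ⟨0, 0⟩,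 0⟩ 0 0)))) (.cut .d (-16384) (.cut .v 16908288 (.cut .l 747348 (.cut .l 541446 (.cut .s 12910592 (.cut .s 12877824 (.cut .v 16842752 (.pos 94 .mp ⟨0, 0, 0, 0, 0, 504834800, 0, 0, 0, ⟨0, 0⟩, 0⟩ 0 0) (.cut .d (-24576) (.pos 95 .mp ⟨180320002, 0, 0, 0, 0, 234444079, 0, 0, 0, ⟨0, 0⟩, 0⟩ 0 0) (.cut .s 12861440 (.pos 95 .mp ⟨178822785, 0, 0, 0, 0, 224800449, 0, 0, 0, ⟨0, 0⟩, 0⟩ 0 0) (.pos 95 .mp ⟨180320002, 0, 0, 0, 0, 227666266, 0, 0, 0, ⟨0, 0⟩, 0⟩ 0 0)))) (.cut .v 16842752 (.pos 94 .mp ⟨0, 0, 0, 0, 0, 516069699, 0, 0, 0, ⟨0, 0⟩, 0⟩ 0 0) (.cut .d (-24576) (.pos 95 .mp ⟨183337425, 0, 0, 0, 0, 240209570, 0, 0, 0, ⟨0, 0⟩, 0⟩ 0 0) (.cut .s 12894208 (.pos 95 .mp ⟨181824847,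 0, 0, 0, 0, 230577283, 0, 0, 0, ⟨0, 0⟩, 0⟩ 0 0) (.pos 95 .mp ⟨183337425, 0, 0, 0, 0, 233533057, 0, 0, 0, ⟨0, 0⟩, 0⟩ 0 0))))) (.cut .s 12943360 (.cut .v 16842752 (.pos 94 .mp ⟨0, 0, 0, 0, 0, 527554586, 0, 0, 0, ⟨0, 0⟩, 0⟩ 0 0) (.cut .s 12926976 (.pos 95 .mp ⟨188469205, 0, 0, 0, 0, 232581342, 0, 0, 0, ⟨0, 0⟩, 0⟩ 0 0) (.pos 95 .mp ⟨190051101, 0, 0, 0, 0, 235582343, 0, 0, 0, ⟨0, 0⟩, 0⟩ 0 0))) (.cut .d (-24576) (.pos 54 .mp ⟨180477477, 0, 0, 0, 0, 273501505, 0, 0, 0, ⟨0, 0⟩, 0⟩ 0 0) (.cut .v 16842752 (.pos 94 .mp ⟨0, 0, 0, 0, 0, 536748590, 0, 0, 0, ⟨0, 0⟩, 0⟩ 0 0) (.pos 95 .mp ⟨189467231, 0, 0, 0, 0, 243860553, 0, 0, 0, ⟨0, 0⟩, 0⟩ 0 0))))) (.pos 54 .mp ⟨185072352, 0,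 0, 0, 0, 209361669, 0, 0, 0, ⟨0, 0⟩, 0⟩ 0 0)) (.pos 54 .mp ⟨0, 0, 0, 0, 0, 0, 0, 0, 0, ⟨0, 0⟩, 0⟩ 0 0)) (.pos 55 .mp ⟨316021695, 0, 0, 0, 0, 0, 0, 0, 0, ⟨0, 0⟩, 0⟩ 0 0)) (.pos 37 .mp ⟨187145705, 0, 0, 0, 0, 0, 0, 0, 0, ⟨0, 0⟩, 0⟩ 0 0)))) (.cut .s 12845056 (.pos 38 .mp ⟨308880557, 0, 0, 0, 0, 0, 0, 0, 0, ⟨0, 0⟩, 0⟩ 0 0) (.pos 38 .mp ⟨333425754, 0, 0, 0, 0, 0, 0, 0, 0, ⟨0, 0⟩, 0⟩ 0 0))) (.pos 35 .mp ⟨197478091, 0, 0, 0, 0, 91789252, 0, 0, 0, ⟨0, 0⟩, 0⟩ 0 0))) (.pos 36 .mp ⟨334483341, 0, 0, 0, 0, 0, 0, 0, 0, ⟨0, 0⟩, 0⟩ 0 0)) (.cut .v 17301504 (.cut .d (-65536) (.cut .l 1159153 (.void 35 ⟨0, 0, 0, 0, 0, 100000, 0, 0, 0, ⟨0, 0⟩, 0⟩ 0 0) (.cut .s 13107200 (.cut .d (-98304)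 (.cut .v 17039360 (.pos 37 .mp ⟨0, 0, 0, 0, 0, 643611050, 0, 0, 0, ⟨0, 0⟩, 0⟩ 0 0) (.cut .s 13041664 (.cut .s 13008896 (.cut .s 12992512 (.pos 38 .mp ⟨219149910, 0, 0, 0, 0, 231145020, 0, 0, 0, ⟨0, 0⟩, 0⟩ 0 0) (.pos 38 .mp ⟨221538584, 0, 0, 0, 0, 233354861, 0, 0, 0, ⟨0, 0⟩, 0⟩ 0 0)) (.pos 38 .mp ⟨211927586, 0, 0, 0, 0, 265605516, 0, 0, 0, ⟨0, 0⟩, 0⟩ 0 0)) (.pos 38 .mp ⟨207858114, 0, 0, 0, 0, 299746370, 0, 0, 0, ⟨0, 0⟩, 0⟩ 0 0))) (.cut .v 17039360 (.cut .s 13041664 (.cut .s 13008896 (.pos 37 .mp ⟨173443969, 0, 0, 0, 0, 300596513, 0, 0, 0, ⟨0, 0⟩, 0⟩ 0 0) (.pos 37 .mp ⟨176411349, 0, 0, 0, 0, 308312123, 0, 0, 0, ⟨0, 0⟩, 0⟩ 0 0)) (.pos 37 .mp ⟨179405539, 0, 0, 0, 0,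 321025110, 0, 0, 0, ⟨0, 0⟩, 0⟩ 0 0)) (.cut .l 1570957 (.pos 38 .mp ⟨367008639, 0, 0, 0, 0, 0, 0, 0, 0, ⟨0, 0⟩, 0⟩ 0 0) (.pos 38 .mp ⟨225427232, 0, 0, 0, 0, 213056518, 0, 0, 0, ⟨0, 0⟩, 0⟩ 0 0)))) (.cut .d (-98304) (.pos 35 .mp ⟨208819261, 0, 0, 0, 0, 349743952, 0, 0, 0, ⟨0, 0⟩, 0⟩ 0 0) (.cut .v 17039360 (.cut .s 13172736 (.pos 37 .mp ⟨185477558, 0, 0, 0, 0, 338229854, 0, 0, 0, ⟨0, 0⟩, 0⟩ 0 0) (.pos 37 .mp ⟨191666736, 0, 0, 0, 0, 356806538, 0, 0, 0, ⟨0, 0⟩, 0⟩ 0 0)) (.pos 38 .mp ⟨328577320, 0, 0, 0, 0, 101506234, 0, 0, 0, ⟨0, 0⟩, 0⟩ 0 0))))) (.cut .l 1159153 (.cut .s 13107200 (.cut .v 17039360 (.cut .d (-32768) (.cut .s 13041664 (.cut .l 747348 (.cut .v 16908288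 (.pos 54 .mp ⟨182641875, 0, 0, 0, 0, 290248196, 0, 0, 0, ⟨0, 0⟩, 0⟩ 0 0) (.pos 55 .mp ⟨364350577, 0, 0, 0, 0, 0, 0, 0, 0, ⟨0, 0⟩, 0⟩ 0 0)) (.cut .d (-49152) (.pos 37 .mp ⟨183962202, 0, 0, 0, 0, 290358646, 0, 0, 0, ⟨0, 0⟩, 0⟩ 0 0) (.pos 37 .mp ⟨199717716, 0, 0, 0, 0, 234480938, 0, 0, 0, ⟨0, 0⟩, 0⟩ 0 0))) (.cut .l 747348 (.pos 37 .mp ⟨191698257, 0, 0, 0, 0, 310078468, 0, 0, 0, ⟨0, 0⟩, 0⟩ 0 0) (.cut .d (-49152) (.pos 37 .mp ⟨190210974, 0, 0, 0, 0, 305645046, 0, 0, 0, ⟨0, 0⟩, 0⟩ 0 0) (.pos 37 .mp ⟨200794874, 0, 0, 0, 0, 263907304, 0, 0, 0, ⟨0, 0⟩, 0⟩ 0 0)))) (.cut .d (-16384) (.cut .l 747348 (.cut .v 16908288 (.cut .l 541446 (.cut .s 13041664 (.cut .s 13008896 (.cut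 .s 12992512 (.pos 54 .mp ⟨184257237, 0, 0, 0, 0, 264969638, 0, 0, 0, ⟨0, 0⟩, 0⟩ 0 0) (.pos 54 .mp ⟨185741757, 0, 0, 0, 0, 268395699, 0, 0, 0, ⟨0, 0⟩, 0⟩ 0 0)) (.pos 54 .mp ⟨185937912, 0, 0, 0, 0, 279158606, 0, 0, 0, ⟨0, 0⟩, 0⟩ 0 0)) (.cut .s 13074432 (.pos 54 .mp ⟨189597946, 0, 0, 0, 0, 285260739, 0, 0, 0, ⟨0, 0⟩, 0⟩ 0 0) (.pos 54 .mp ⟨193278175, 0, 0, 0, 0, 291544666, 0, 0, 0, ⟨0, 0⟩, 0⟩ 0 0))) (.pos 54 .mp ⟨194917480, 0, 0, 0, 0, 237011884, 0, 0, 0, ⟨0, 0⟩, 0⟩ 0 0)) (.pos 55 .mp ⟨349868473, 0, 0, 0, 0, 0, 0, 0, 0, ⟨0, 0⟩, 0⟩ 0 0)) (.pos 37 .mp ⟨189774977, 0, 0, 0, 0, 0, 0, 0, 0, ⟨0, 0⟩, 0⟩ 0 0)) (.pos 37 .mp ⟨198828927, 0, 0, 0, 0, 0, 0, 0, 0, ⟨0, 0⟩, 0⟩ 0 0)))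 (.pos 38 .mp ⟨360877336, 0, 0, 0, 0, 0, 0, 0, 0, ⟨0, 0⟩, 0⟩ 0 0)) (.cut .v 17039360 (.cut .d (-32768) (.cut .s 13172736 (.cut .s 13139968 (.pos 37 .mp ⟨195720114, 0, 0, 0, 0, 313822574, 0, 0, 0, ⟨0, 0⟩, 0⟩ 0 0) (.pos 37 .mp ⟨200731772, 0, 0, 0, 0, 318897987, 0, 0, 0, ⟨0, 0⟩, 0⟩ 0 0)) (.pos 37 .mp ⟨196321115, 0, 0, 0, 0, 352374829, 0, 0, 0, ⟨0, 0⟩, 0⟩ 0 0)) (.cut .d (-16384) (.cut .s 13172736 (.cut .s 13139968 (.pos 37 .mp ⟨206024387, 0, 0, 0, 0, 282909349, 0, 0, 0, ⟨0, 0⟩, 0⟩ 0 0) (.pos 37 .mp ⟨207930039, 0, 0, 0, 0, 294522125, 0, 0, 0, ⟨0, 0⟩, 0⟩ 0 0)) (.pos 37 .mp ⟨220649512, 0, 0, 0, 0, 286626991, 0, 0, 0, ⟨0, 0⟩, 0⟩ 0 0)) (.pos 37 .mp ⟨210843450, 0, 0, 0, 0,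 0, 0, 0, 0, ⟨0, 0⟩, 0⟩ 0 0))) (.pos 38 .mp ⟨391262226, 0, 0, 0, 0, 0, 0, 0, 0, ⟨0, 0⟩, 0⟩ 0 0))) (.cut .v 17039360 (.pos 37 .mp ⟨191896380, 0, 0, 0, 0, 243204150, 0, 0, 0, ⟨0, 0⟩, 0⟩ 0 0) (.pos 38 .mp ⟨337620830, 0, 0, 0, 0, 0, 0, 0, 0, ⟨0, 0⟩, 0⟩ 0 0)))) (.pos 36 .mp ⟨391325828, 0, 0, 0, 0, 0, 0, 0, 0, ⟨0, 0⟩, 0⟩ 0 0))) (.pos 34 .mp ⟨393459577, 0, 0, 0, 0, 0, 0, 0, 0, ⟨0, 0⟩, 0⟩ 0 0)))))) (.pos 32 .mp ⟨763217718, 0, 0, 0, 0, 0, 0, 0, 0, ⟨0, 0⟩, 0⟩ 0 0))) (.void 30 ⟨100000, 0, 0, 0, 0, 0, 0, 0, 0, ⟨0, 0⟩, 0⟩ 0 0))) (.void 28 ⟨100000, 0, 0, 0, 0, 0, 0, 0, 0, ⟨0, 0⟩, 0⟩ 0 0))) (.void 49 ⟨100000, 0, 0, 0, 0, 0, 0, 0, 0, ⟨0, 0⟩, 0⟩ 0 0)) (.void 62 ⟨100000, 0, 0, 0,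 0, 0, 0, 0, 0, ⟨0, 0⟩, 0⟩ 0 0)) (.void 87 ⟨93830, 0, 0, 6170, 0, 0, 0, 0, 0, ⟨0, 0⟩, 0⟩ 0 0))) (.cut .v 16777216 (.cut .v 8388608 (.cut .v 4194304 (.cut .v 2097152 (.cut .v 1048576 (.pos 100 .pm ⟨0, 0, 12663014, 0, 0, 0, 0, 0, 0, ⟨0, 0⟩, 0⟩ 0 0) (.pos 101 .pm ⟨0, 5246627, 0, 0, 0, 0, 0, 0, 0, ⟨0, 0⟩, 0⟩ 0 0)) (.cut .d 2680896 (.pos 78 .pm ⟨0, 0, 45766809, 0, 0, 0, 0, 0, 0, ⟨0, 0⟩, 0⟩ 0 0) (.cut .d 4021344 (.pos 78 .pm ⟨0, 0, 0, 0, 0, 0, 0, 0, 0, ⟨0, 0⟩, 0⟩ 0 0) (.pos 78 .pm ⟨0, 82914278, 0, 0, 0, 0, 0, 0, 0, ⟨0, 0⟩, 0⟩ 0 0)))) (.cut .d 2680896 (.pos 5 .pm ⟨0, 0, 7911723, 0, 0, 0, 0, 0, 0, ⟨0, 0⟩, 0⟩ 0 0) (.cut .d 4021344 (.pos 5 .pm ⟨0, 0, 0, 0, 0, 0, 0, 0, 0,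 ⟨0, 0⟩, 0⟩ 0 0) (.cut .d 4691568 (.pos 5 .pm ⟨0, 72240295, 0, 0, 0, 0, 0, 0, 0, ⟨0, 0⟩, 0⟩ 0 0) (.pos 5 .pm ⟨0, 131877035, 0, 0, 0, 0, 0, 0, 0, ⟨0, 0⟩, 0⟩ 0 0))))) (.cut .d 2680896 (.pos 3 .pm ⟨0, 0, 0, 0, 0, 0, 0, 0, 0, ⟨0, 0⟩, 0⟩ 0 0) (.pos 3 .pm ⟨0, 115515267, 0, 0, 0, 0, 0, 0, 0, ⟨0, 0⟩, 0⟩ 0 0))) (.cut .v 268435456 (.cut .d 2680896 (.cut .v 67108864 (.cut .d 1340448 (.cut .v 33554432 (.cut .d 670224 (.cut .v 25165824 (.cut .d 335112 (.cut .v 20971520 (.cut .v 18874368 (.pos 31 .pp ⟨233754675, 0, 0, 0, 0, 0, 0, 0, 0, ⟨0, 0⟩, 0⟩ 0 0) (.pos 32 .pp ⟨354474748, 0, 0, 0, 0, 0, 0, 0, 0, ⟨0, 0⟩, 0⟩ 0 0)) (.pos 30 .pp ⟨494858868, 0, 0, 0, 0, 0, 0, 0, 0, ⟨0, 0⟩, 0⟩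 0 0)) (.pos 27 .pp ⟨173496423, 0, 0, 0, 0, 0, 0, 0, 0, ⟨0, 0⟩, 0⟩ 0 0)) (.cut .d 335112 (.pos 28 .pp ⟨934830014, 0, 0, 0, 0, 0, 0, 0, 0, ⟨0, 0⟩, 0⟩ 0 0) (.pos 28 .pp ⟨599767544, 0, 0, 0, 0, 0, 0, 0, 0, ⟨0, 0⟩, 0⟩ 0 0))) (.pos 26 .pp ⟨147760435, 0, 0, 0, 0, 0, 0, 0, 0, ⟨0, 0⟩, 0⟩ 0 0)) (.cut .d 670224 (.cut .v 50331648 (.pos 52 .pp ⟨1928787302, 0, 0, 0, 0, 0, 0, 0, 0, ⟨0, 0⟩, 0⟩ 0 0) (.void 53 ⟨100000, 0, 0, 0, 0, 0, 0, 0, 0, ⟨0, 0⟩, 0⟩ 0 0)) (.cut .v 50331648 (.cut .v 41943040 (.pos 56 .pp ⟨770251336, 0, 0, 0, 0, 0, 0, 0, 0, ⟨0, 0⟩, 0⟩ 0 0) (.pos 57 .pp ⟨1298782490, 0, 0, 0, 0, 0, 0, 0, 0, ⟨0, 0⟩, 0⟩ 0 0)) (.cut .d 1005336 (.pos 53 .pp ⟨3030181209, 0, 0, 0, 0,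 0, 0, 0, 0, ⟨0, 0⟩, 0⟩ 0 0) (.cut .v 58720256 (.pos 104 .pp ⟨1719231108, 0, 0, 0, 0, 0, 0, 0, 0, ⟨0, 0⟩, 0⟩ 0 0) (.pos 105 .pp ⟨2480506431, 0, 0, 0, 0, 0, 0, 0, 0, ⟨0, 0⟩, 0⟩ 0 0)))))) (.pos 48 .pp ⟨141223752, 0, 0, 0, 0, 0, 0, 0, 0, ⟨0, 0⟩, 0⟩ 0 0)) (.cut .v 134217728 (.cut .d 1340448 (.cut .d 670224 (.void 106 ⟨100000, 0, 0, 0, 0, 0, 0, 0, 0, ⟨0, 0⟩, 0⟩ 0 0) (.cut .d 1005336 (.void 106 ⟨100000, 0, 0, 0, 0, 0, 0, 0, 0, ⟨0, 0⟩, 0⟩ 0 0) (.cut .v 100663296 (.cut .v 83886080 (.pos 114 .pp ⟨3483975900, 996601771, 0, 0, 0, 0, 0, 0, 0, ⟨0, 0⟩, 0⟩ 0 0) (.void 115 ⟨9656, 90344, 0, 0, 0, 0, 0, 0, 0, ⟨0, 0⟩, 0⟩ 0 0)) (.void 113 ⟨0, 0, 0, 100000, 0, 0, 0, 0, 0, ⟨0, 0⟩, 0⟩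 0 0)))) (.pos 106 .pp ⟨2822731606, 1623853584, 0, 0, 0, 0, 0, 0, 0, ⟨0, 0⟩, 0⟩ 0 0)) (.void 107 ⟨0, 0, 0, 100000, 0, 0, 0, 0, 0, ⟨0, 0⟩, 0⟩ 0 0))) (.pos 61 .pp ⟨0, 111389597, 0, 0, 0, 0, 0, 0, 0, ⟨0, 0⟩, 0⟩ 0 0)) (.void 87 ⟨0, 0, 0, 100000, 0, 0, 0, 0, 0, ⟨0, 0⟩, 0⟩ 0 0)))),
    by decide +kernel⟩

def covers20 : cell.Covers table row20.1 :=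
  ⟨(.cut .d 0 (.cut .v 16777216 (.cut .v 8388608 (.void 2 ⟨0, 0, 100000, 0, 0, 0, 0, 0, 0, ⟨0, 0⟩, 0⟩ 0 0) (.cut .d (-8388608) (.void 3 ⟨100000, 0, 0, 0, 0, 0, 0, 0, 0, ⟨0, 0⟩, 0⟩ 0 0) (.cut .d (-4194304) (.void 3 ⟨100000, 0, 0, 0, 0, 0, 0, 0, 0, ⟨0, 0⟩, 0⟩ 0 0) (.cut .d (-2097152) (.void 3 ⟨0, 0, 0, 0, 0, 100000, 0, 0, 0, ⟨0, 0⟩, 0⟩ 0 0) (.cut .d (-1048576) (.void 3 ⟨0, 0, 0, 0, 0, 100000, 0, 0, 0, ⟨0, 0⟩, 0⟩ 0 0) (.cut .d (-524288) (.void 3 ⟨0, 0, 0, 0, 0, 100000, 0, 0, 0, ⟨0, 0⟩, 0⟩ 0 0) (.cut .d (-262144) (.void 3 ⟨0, 0, 0, 0, 0, 100000, 0, 0, 0, ⟨0, 0⟩, 0⟩ 0 0) (.cut .d (-131072) (.void 3 ⟨0, 0, 0, 0, 0, 100000, 0, 0, 0, ⟨0, 0⟩, 0⟩ 0 0) (.cut .v 12582912 (.pos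 6 .mm ⟨0, 0, 0, 0, 0, 519851567, 0, 0, 0, ⟨0, 0⟩, 0⟩ 0 0) (.cut .v 14680064 (.pos 10 .mm ⟨0, 0, 0, 0, 0, 690297131, 0, 0, 0, ⟨0, 0⟩, 0⟩ 0 0) (.cut .v 15728640 (.pos 14 .mm ⟨0, 0, 0, 0, 0, 757433496, 0, 0, 0, ⟨0, 0⟩, 0⟩ 0 0) (.cut .v 16252928 (.pos 20 .mm ⟨0, 0, 0, 0, 0, 792443597, 0, 0, 0, ⟨0, 0⟩, 0⟩ 0 0) (.cut .s 13500416 (.cut .s 13369344 (.pos 21 .mm ⟨0, 0, 0, 0, 0, 703074051, 0, 0, 0, ⟨0, 0⟩, 0⟩ 0 0) (.pos 21 .mm ⟨0, 0, 0, 0, 0, 767185787, 0, 0, 0, ⟨0, 0⟩, 0⟩ 0 0)) (.cut .s 13631488 (.pos 21 .mm ⟨0, 0, 0, 0, 0, 837069666, 0, 0, 0, ⟨0, 0⟩, 0⟩ 0 0) (.pos 21 .mm ⟨0, 0, 0, 0, 0, 912562185, 0, 0, 0, ⟨0, 0⟩, 0⟩ 0 0))))))))))))))) (.cut .v 268435456 (.cut .v 67108864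 (.cut .v 33554432 (.cut .d (-8388608) (.void 26 ⟨100000, 0, 0, 0, 0, 0, 0, 0, 0, ⟨0, 0⟩, 0⟩ 0 0) (.cut .v 25165824 (.cut .d (-4194304) (.void 27 ⟨100000, 0, 0, 0, 0, 0, 0, 0, 0, ⟨0, 0⟩, 0⟩ 0 0) (.cut .v 20971520 (.cut .d (-2097152) (.void 29 ⟨100000, 0, 0, 0, 0, 0, 0, 0, 0, ⟨0, 0⟩, 0⟩ 0 0) (.cut .d (-1048576) (.void 29 ⟨100000, 0, 0, 0, 0, 0, 0, 0, 0, ⟨0, 0⟩, 0⟩ 0 0) (.cut .d (-524288) (.void 29 ⟨100000, 0, 0, 0, 0, 0, 0, 0, 0, ⟨0, 0⟩, 0⟩ 0 0) (.cut .d (-262144) (.void 29 ⟨100000, 0, 0, 0, 0, 0, 0, 0, 0, ⟨0, 0⟩, 0⟩ 0 0) (.cut .d (-131072) (.void 29 ⟨0, 0, 0, 0, 0, 100000, 0, 0, 0, ⟨0, 0⟩, 0⟩ 0 0) (.cut .v 18874368 (.cut .v 17825792 (.cut .s 13500416 (.cut .v 17301504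 (.cut .d (-65536) (.cut .d (-98304) (.pos 35 .mp ⟨223979079, 0, 0, 0, 0, 609208263, 0, 0, 0, ⟨0, 0⟩, 0⟩ 0 0) (.cut .l 1159153 (.void 35 ⟨0, 0, 0, 0, 0, 100000, 0, 0, 0, ⟨0, 0⟩, 0⟩ 0 0) (.cut .s 13369344 (.cut .v 17039360 (.pos 37 .mp ⟨198023777, 0, 0, 0, 0, 405730056, 0, 0, 0, ⟨0, 0⟩, 0⟩ 0 0) (.pos 38 .mp ⟨329457386, 0, 0, 0, 0, 177817118, 0, 0, 0, ⟨0, 0⟩, 0⟩ 0 0)) (.cut .v 17039360 (.cut .l 1570957 (.pos 37 .mp ⟨223810805, 0, 0, 0, 0, 430582269, 0, 0, 0, ⟨0, 0⟩, 0⟩ 0 0) (.cut .s 13434880 (.pos 37 .mp ⟨128451715, 0, 0, 0, 0, 554112462, 0, 0, 0, ⟨0, 0⟩, 0⟩ 0 0) (.pos 37 .mp ⟨123524716, 0, 0, 0, 0, 592909733, 0, 0, 0, ⟨0, 0⟩, 0⟩ 0 0))) (.cut .s 13434880 (.pos 38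 .mp ⟨282436343, 0, 0, 0, 0, 293205996, 0, 0, 0, ⟨0, 0⟩, 0⟩ 0 0) (.cut .s 13467648 (.pos 38 .mp ⟨278021374, 0, 0, 0, 0, 323454198, 0, 0, 0, ⟨0, 0⟩, 0⟩ 0 0) (.pos 38 .mp ⟨282489579, 0, 0, 0, 0, 331580283, 0, 0, 0, ⟨0, 0⟩, 0⟩ 0 0))))))) (.cut .s 13369344 (.cut .v 17039360 (.cut .l 1159153 (.cut .d (-32768) (.cut .s 13303808 (.pos 37 .mp ⟨212891665, 0, 0, 0, 0, 354024864, 0, 0, 0, ⟨0, 0⟩, 0⟩ 0 0) (.cut .s 13336576 (.pos 37 .mp ⟨219579094, 0, 0, 0, 0, 357776252, 0, 0, 0, ⟨0, 0⟩, 0⟩ 0 0) (.pos 37 .mp ⟨219646995, 0, 0, 0, 0, 372370849, 0, 0, 0, ⟨0, 0⟩, 0⟩ 0 0))) (.cut .d (-16384) (.cut .s 13303808 (.pos 37 .mp ⟨229217747, 0, 0, 0, 0, 304990655, 0, 0, 0, ⟨0, 0⟩, 0⟩ 0 0)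 (.cut .s 13336576 (.pos 37 .mp ⟨228719404, 0, 0, 0, 0, 327606612, 0, 0, 0, ⟨0, 0⟩, 0⟩ 0 0) (.pos 37 .mp ⟨234851763, 0, 0, 0, 0, 328460072, 0, 0, 0, ⟨0, 0⟩, 0⟩ 0 0))) (.pos 37 .mp ⟨225830571, 0, 0, 0, 0, 286703925, 0, 0, 0, ⟨0, 0⟩, 0⟩ 0 0))) (.pos 37 .mp ⟨235230909, 0, 0, 0, 0, 285177697, 0, 0, 0, ⟨0, 0⟩, 0⟩ 0 0)) (.pos 38 .mp ⟨418680068, 0, 0, 0, 0, 0, 0, 0, 0, ⟨0, 0⟩, 0⟩ 0 0)) (.cut .v 17039360 (.cut .l 1159153 (.cut .d (-32768) (.cut .l 747348 (.pos 37 .mp ⟨227271375, 0, 0, 0, 0, 429772680, 0, 0, 0, ⟨0, 0⟩, 0⟩ 0 0) (.cut .d (-49152) (.pos 37 .mp ⟨224434767, 0, 0, 0, 0, 428435859, 0, 0, 0, ⟨0, 0⟩, 0⟩ 0 0) (.cut .s 13434880 (.pos 37 .mp ⟨243745167, 0, 0, 0, 0,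 331924700, 0, 0, 0, ⟨0, 0⟩, 0⟩ 0 0) (.cut .v 16908288 (.pos 54 .mp ⟨161544973, 0, 0, 0, 0, 514635892, 0, 0, 0, ⟨0, 0⟩, 0⟩ 0 0) (.pos 55 .mp ⟨255617388, 0, 0, 0, 0, 349642968, 0, 0, 0, ⟨0, 0⟩, 0⟩ 0 0))))) (.cut .d (-16384) (.cut .l 747348 (.cut .v 16908288 (.cut .v 16842752 (.pos 94 .mp ⟨0, 0, 0, 0, 0, 788269070, 0, 0, 0, ⟨0, 0⟩, 0⟩ 0 0) (.cut .s 13434880 (.cut .s 13402112 (.pos 95 .mp ⟨231788545, 0, 0, 0, 0, 351702923, 0, 0, 0, ⟨0, 0⟩, 0⟩ 0 0) (.pos 95 .mp ⟨242326160, 0, 0, 0, 0, 346399822, 0, 0, 0, ⟨0, 0⟩, 0⟩ 0 0)) (.cut .s 13467648 (.pos 95 .mp ⟨246114745, 0, 0, 0, 0, 354540340, 0, 0, 0, ⟨0, 0⟩, 0⟩ 0 0) (.pos 95 .mp ⟨249935220, 0, 0, 0, 0, 363174636, 0, 0, 0,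 ⟨0, 0⟩, 0⟩ 0 0)))) (.pos 55 .mp ⟨448392539, 0, 0, 0, 0, 0, 0, 0, 0, ⟨0, 0⟩, 0⟩ 0 0)) (.pos 37 .mp ⟨239502644, 0, 0, 0, 0, 0, 0, 0, 0, ⟨0, 0⟩, 0⟩ 0 0)) (.pos 37 .mp ⟨239647089, 0, 0, 0, 0, 315941811, 0, 0, 0, ⟨0, 0⟩, 0⟩ 0 0))) (.cut .s 13434880 (.pos 37 .mp ⟨243347068, 0, 0, 0, 0, 319878386, 0, 0, 0, ⟨0, 0⟩, 0⟩ 0 0) (.cut .s 13467648 (.pos 37 .mp ⟨247459212, 0, 0, 0, 0, 339835370, 0, 0, 0, ⟨0, 0⟩, 0⟩ 0 0) (.pos 37 .mp ⟨251609034, 0, 0, 0, 0, 348305409, 0, 0, 0, ⟨0, 0⟩, 0⟩ 0 0)))) (.pos 38 .mp ⟨446631966, 0, 0, 0, 0, 0, 0, 0, 0, ⟨0, 0⟩, 0⟩ 0 0)))) (.pos 36 .mp ⟨463618712, 0, 0, 0, 0, 0, 0, 0, 0, ⟨0, 0⟩, 0⟩ 0 0)) (.cut .v 17301504 (.cut .d (-65536) (.cut .d (-98304)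 (.void 35 ⟨0, 0, 0, 0, 0, 100000, 0, 0, 0, ⟨0, 0⟩, 0⟩ 0 0) (.cut .l 1159153 (.void 35 ⟨0, 0, 0, 0, 0, 100000, 0, 0, 0, ⟨0, 0⟩, 0⟩ 0 0) (.cut .s 13631488 (.cut .v 17039360 (.cut .d (-81920) (.pos 37 .mp ⟨0, 0, 0, 0, 0, 905140545, 0, 0, 0, ⟨0, 0⟩, 0⟩ 0 0) (.cut .l 1570957 (.pos 37 .mp ⟨239368475, 0, 0, 0, 0, 461399566, 0, 0, 0, ⟨0, 0⟩, 0⟩ 0 0) (.pos 37 .mp ⟨99259230, 0, 0, 0, 0, 671316113, 0, 0, 0, ⟨0, 0⟩, 0⟩ 0 0))) (.cut .l 1570957 (.pos 38 .mp ⟨525011046, 0, 0, 0, 0, 0, 0, 0, 0, ⟨0, 0⟩, 0⟩ 0 0) (.cut .v 17170432 (.cut .v 17104896 (.cut .s 13565952 (.cut .s 13533184 (.pos 88 .mp ⟨272530927, 0, 0, 0, 0, 363201195, 0, 0, 0, ⟨0, 0⟩, 0⟩ 0 0) (.pos 88 .mp ⟨278102585,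 0, 0, 0, 0, 370265466, 0, 0, 0, ⟨0, 0⟩, 0⟩ 0 0)) (.cut .s 13598720 (.pos 88 .mp ⟨284572365, 0, 0, 0, 0, 376196490, 0, 0, 0, ⟨0, 0⟩, 0⟩ 0 0) (.pos 88 .mp ⟨291992467, 0, 0, 0, 0, 380896664, 0, 0, 0, ⟨0, 0⟩, 0⟩ 0 0))) (.pos 89 .mp ⟨507115145, 0, 0, 0, 0, 0, 0, 0, 0, ⟨0, 0⟩, 0⟩ 0 0)) (.pos 64 .mp ⟨512044698, 0, 0, 0, 0, 0, 0, 0, 0, ⟨0, 0⟩, 0⟩ 0 0)))) (.cut .l 1570957 (.pos 35 .mp ⟨263647097, 0, 0, 0, 0, 523731547, 0, 0, 0, ⟨0, 0⟩, 0⟩ 0 0) (.cut .v 17039360 (.pos 37 .mp ⟨61050150, 0, 0, 0, 0, 819517543, 0, 0, 0, ⟨0, 0⟩, 0⟩ 0 0) (.cut .s 13697024 (.pos 38 .mp ⟨311076084, 0, 0, 0, 0, 373642617, 0, 0, 0, ⟨0, 0⟩, 0⟩ 0 0) (.pos 38 .mp ⟨321954723, 0, 0, 0, 0, 392410686, 0,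 0, 0, ⟨0, 0⟩, 0⟩ 0 0))))))) (.cut .s 13631488 (.cut .v 17039360 (.cut .l 1159153 (.cut .d (-32768) (.cut .l 747348 (.pos 37 .mp ⟨239502644, 0, 0, 0, 0, 474706678, 0, 0, 0, ⟨0, 0⟩, 0⟩ 0 0) (.cut .d (-49152) (.pos 37 .mp ⟨239410006, 0, 0, 0, 0, 466368535, 0, 0, 0, ⟨0, 0⟩, 0⟩ 0 0) (.cut .s 13565952 (.cut .s 13533184 (.pos 37 .mp ⟨227261397, 0, 0, 0, 0, 433086980, 0, 0, 0, ⟨0, 0⟩, 0⟩ 0 0) (.pos 37 .mp ⟨230689472, 0, 0, 0, 0, 443778356, 0, 0, 0, ⟨0, 0⟩, 0⟩ 0 0)) (.pos 37 .mp ⟨234131939, 0, 0, 0, 0, 462529535, 0, 0, 0, ⟨0, 0⟩, 0⟩ 0 0)))) (.cut .d (-16384) (.cut .l 747348 (.cut .v 16908288 (.cut .v 16842752 (.pos 94 .mp ⟨0, 0, 0, 0, 0, 849180867, 0, 0, 0, ⟨0, 0⟩, 0⟩ 0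 0) (.cut .s 13565952 (.cut .s 13533184 (.pos 95 .mp ⟨253788695, 0, 0, 0, 0, 372308208, 0, 0, 0, ⟨0, 0⟩, 0⟩ 0 0) (.pos 95 .mp ⟨257676325, 0, 0, 0, 0, 381946572, 0, 0, 0, ⟨0, 0⟩, 0⟩ 0 0)) (.cut .s 13598720 (.pos 95 .mp ⟨261599312, 0, 0, 0, 0, 392095262, 0, 0, 0, ⟨0, 0⟩, 0⟩ 0 0) (.pos 95 .mp ⟨237708362, 0, 0, 0, 0, 456412601, 0, 0, 0, ⟨0, 0⟩, 0⟩ 0 0)))) (.pos 55 .mp ⟨482237857, 0, 0, 0, 0, 0, 0, 0, 0, ⟨0, 0⟩, 0⟩ 0 0)) (.pos 37 .mp ⟨254274807, 0, 0, 0, 0, 201438714, 0, 0, 0, ⟨0, 0⟩, 0⟩ 0 0)) (.pos 37 .mp ⟨253007786, 0, 0, 0, 0, 351990894, 0, 0, 0, ⟨0, 0⟩, 0⟩ 0 0))) (.cut .v 16908288 (.pos 54 .mp ⟨0, 0, 0, 0, 0, 787593470, 0, 0, 0, ⟨0, 0⟩, 0⟩ 0 0) (.cut .s 13565952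 (.cut .s 13533184 (.pos 55 .mp ⟨259785719, 0, 0, 0, 0, 359765116, 0, 0, 0, ⟨0, 0⟩, 0⟩ 0 0) (.pos 55 .mp ⟨264081917, 0, 0, 0, 0, 368782521, 0, 0, 0, ⟨0, 0⟩, 0⟩ 0 0)) (.pos 55 .mp ⟨272803572, 0, 0, 0, 0, 372563575, 0, 0, 0, ⟨0, 0⟩, 0⟩ 0 0)))) (.cut .s 13565952 (.pos 38 .mp ⟨467198548, 0, 0, 0, 0, 0, 0, 0, 0, ⟨0, 0⟩, 0⟩ 0 0) (.pos 38 .mp ⟨485470573, 0, 0, 0, 0, 0, 0, 0, 0, ⟨0, 0⟩, 0⟩ 0 0))) (.cut .v 17039360 (.cut .l 1159153 (.cut .d (-32768) (.cut .s 13697024 (.cut .s 13664256 (.pos 37 .mp ⟨241062582, 0, 0, 0, 0, 486399107, 0, 0, 0, ⟨0, 0⟩, 0⟩ 0 0) (.pos 37 .mp ⟨244552088, 0, 0, 0, 0, 500489013, 0, 0, 0, ⟨0, 0⟩, 0⟩ 0 0)) (.pos 37 .mp ⟨248058651, 0, 0, 0, 0, 527730139,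 0, 0, 0, ⟨0, 0⟩, 0⟩ 0 0)) (.cut .d (-16384) (.cut .s 13697024 (.cut .s 13664256 (.pos 37 .mp ⟨271648844, 0, 0, 0, 0, 404555414, 0, 0, 0, ⟨0, 0⟩, 0⟩ 0 0) (.pos 37 .mp ⟨275719411, 0, 0, 0, 0, 416388657, 0, 0, 0, ⟨0, 0⟩, 0⟩ 0 0)) (.pos 37 .mp ⟨283985507, 0, 0, 0, 0, 426367375, 0, 0, 0, ⟨0, 0⟩, 0⟩ 0 0)) (.pos 37 .mp ⟨264855828, 0, 0, 0, 0, 397679262, 0, 0, 0, ⟨0, 0⟩, 0⟩ 0 0))) (.cut .s 13697024 (.pos 37 .mp ⟨277375115, 0, 0, 0, 0, 388865816, 0, 0, 0, ⟨0, 0⟩, 0⟩ 0 0) (.pos 37 .mp ⟨286330177, 0, 0, 0, 0, 408459090, 0, 0, 0, ⟨0, 0⟩, 0⟩ 0 0))) (.pos 38 .mp ⟨519218534, 0, 0, 0, 0, 0, 0, 0, 0, ⟨0, 0⟩, 0⟩ 0 0)))) (.cut .d (-65536) (.pos 36 .mp ⟨563075957, 0, 0, 0, 0, 0, 0,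 0, 0, ⟨0, 0⟩, 0⟩ 0 0) (.pos 36 .mp ⟨512240057, 0, 0, 0, 0, 0, 0, 0, 0, ⟨0, 0⟩, 0⟩ 0 0)))) (.pos 34 .mp ⟨545703277, 0, 0, 0, 0, 0, 0, 0, 0, ⟨0, 0⟩, 0⟩ 0 0)) (.pos 32 .mp ⟨626948516, 0, 0, 0, 0, 0, 0, 0, 0, ⟨0, 0⟩, 0⟩ 0 0))))))) (.void 30 ⟨100000, 0, 0, 0, 0, 0, 0, 0, 0, ⟨0, 0⟩, 0⟩ 0 0))) (.void 28 ⟨100000, 0, 0, 0, 0, 0, 0, 0, 0, ⟨0, 0⟩, 0⟩ 0 0))) (.void 49 ⟨100000, 0, 0, 0, 0, 0, 0, 0, 0, ⟨0, 0⟩, 0⟩ 0 0)) (.void 62 ⟨100000, 0, 0, 0, 0, 0, 0, 0, 0, ⟨0, 0⟩, 0⟩ 0 0)) (.void 87 ⟨93601, 0, 0, 6399, 0, 0, 0, 0, 0, ⟨0, 0⟩, 0⟩ 0 0))) (.cut .v 16777216 (.cut .v 8388608 (.cut .v 4194304 (.cut .v 2097152 (.cut .v 1048576 (.pos 100 .pm ⟨0, 0, 11547154, 0, 0, 0, 0, 0, 0, ⟨0,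 0⟩, 0⟩ 0 0) (.pos 101 .pm ⟨0, 6786788, 0, 0, 0, 0, 0, 0, 0, ⟨0, 0⟩, 0⟩ 0 0)) (.cut .d 2242500 (.pos 78 .pm ⟨0, 0, 93339747, 0, 0, 0, 0, 0, 0, ⟨0, 0⟩, 0⟩ 0 0) (.cut .d 3363750 (.pos 78 .pm ⟨0, 0, 0, 0, 0, 0, 0, 0, 0, ⟨0, 0⟩, 0⟩ 0 0) (.pos 78 .pm ⟨0, 93156573, 0, 0, 0, 0, 0, 0, 0, ⟨0, 0⟩, 0⟩ 0 0)))) (.cut .d 2242500 (.pos 5 .pm ⟨0, 0, 130517279, 0, 0, 0, 0, 0, 0, ⟨0, 0⟩, 0⟩ 0 0) (.cut .d 3363750 (.pos 5 .pm ⟨0, 0, 0, 0, 0, 0, 0, 0, 0, ⟨0, 0⟩, 0⟩ 0 0) (.pos 5 .pm ⟨0, 125281538, 0, 0, 0, 0, 0, 0, 0, ⟨0, 0⟩, 0⟩ 0 0)))) (.cut .d 2242500 (.pos 3 .pm ⟨0, 0, 0, 0, 0, 0, 0, 0, 0, ⟨0, 0⟩, 0⟩ 0 0) (.pos 3 .pm ⟨0, 136735756, 0, 0, 0, 0, 0, 0, 0, ⟨0, 0⟩, 0⟩ 0 0))) (.cut .v 268435456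 (.cut .d 2242500 (.cut .v 67108864 (.cut .d 1121250 (.cut .v 33554432 (.cut .d 560625 (.cut .v 25165824 (.cut .v 20971520 (.cut .v 18874368 (.pos 31 .pp ⟨293340748, 0, 0, 0, 0, 0, 0, 0, 0, ⟨0, 0⟩, 0⟩ 0 0) (.pos 32 .pp ⟨446806002, 0, 0, 0, 0, 0, 0, 0, 0, ⟨0, 0⟩, 0⟩ 0 0)) (.pos 30 .pp ⟨587757378, 0, 0, 0, 0, 0, 0, 0, 0, ⟨0, 0⟩, 0⟩ 0 0)) (.cut .d 280312 (.pos 28 .pp ⟨1203377599, 0, 0, 0, 0, 0, 0, 0, 0, ⟨0, 0⟩, 0⟩ 0 0) (.pos 28 .pp ⟨782303858, 0, 0, 0, 0, 0, 0, 0, 0, ⟨0, 0⟩, 0⟩ 0 0))) (.pos 26 .pp ⟨189003023, 0, 0, 0, 0, 0, 0, 0, 0, ⟨0, 0⟩, 0⟩ 0 0)) (.cut .d 560625 (.cut .v 50331648 (.pos 52 .pp ⟨2464605336, 0, 0, 0, 0, 0, 0, 0, 0, ⟨0, 0⟩, 0⟩ 0 0) (.void 53 ⟨100000,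 0, 0, 0, 0, 0, 0, 0, 0, ⟨0, 0⟩, 0⟩ 0 0)) (.cut .v 50331648 (.cut .v 41943040 (.pos 56 .pp ⟨1008805004, 0, 0, 0, 0, 0, 0, 0, 0, ⟨0, 0⟩, 0⟩ 0 0) (.pos 57 .pp ⟨1677938050, 0, 0, 0, 0, 0, 0, 0, 0, ⟨0, 0⟩, 0⟩ 0 0)) (.cut .d 840937 (.cut .v 58720256 (.pos 104 .pp ⟨3052884758, 0, 0, 0, 0, 0, 0, 0, 0, ⟨0, 0⟩, 0⟩ 0 0) (.pos 105 .pp ⟨4534620742, 0, 0, 0, 0, 0, 0, 0, 0, ⟨0, 0⟩, 0⟩ 0 0)) (.cut .v 58720256 (.pos 104 .pp ⟨2225360107, 0, 0, 0, 0, 0, 0, 0, 0, ⟨0, 0⟩, 0⟩ 0 0) (.cut .d 981093 (.pos 105 .pp ⟨3580165643, 0, 0, 0, 0, 0, 0, 0, 0, ⟨0, 0⟩, 0⟩ 0 0) (.pos 105 .pp ⟨3006004325, 0, 0, 0, 0, 0, 0, 0, 0, ⟨0, 0⟩, 0⟩ 0 0))))))) (.pos 48 .pp ⟨220355808, 0, 0, 0, 0, 0, 0, 0, 0,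 ⟨0, 0⟩, 0⟩ 0 0)) (.cut .v 134217728 (.cut .v 100663296 (.cut .d 1121250 (.cut .d 560625 (.void 112 ⟨100000, 0, 0, 0, 0, 0, 0, 0, 0, ⟨0, 0⟩, 0⟩ 0 0) (.cut .d 840937 (.void 112 ⟨100000, 0, 0, 0, 0, 0, 0, 0, 0, ⟨0, 0⟩, 0⟩ 0 0) (.cut .v 83886080 (.cut .v 75497472 (.cut .v 71303168 (.cut .d 981093 (.pos 120 .pp ⟨4396707908, 53549449, 0, 0, 0, 0, 0, 0, 0, ⟨0, 0⟩, 0⟩ 0 0) (.cut .s 13500416 (.pos 120 .pp ⟨3744229003, 148152952, 0, 0, 0, 0, 0, 0, 0, ⟨0, 0⟩, 0⟩ 0 0) (.pos 120 .pp ⟨3589647134, 464384814, 0, 0, 0, 0, 0, 0, 0, ⟨0, 0⟩, 0⟩ 0 0))) (.void 121 ⟨36542, 63458, 0, 0, 0, 0, 0, 0, 0, ⟨0, 0⟩, 0⟩ 0 0)) (.void 119 ⟨36542, 63458, 0, 0, 0, 0, 0, 0, 0, ⟨0, 0⟩, 0⟩ 0 0)) (.void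 115 ⟨12460, 87540, 0, 0, 0, 0, 0, 0, 0, ⟨0, 0⟩, 0⟩ 0 0)))) (.pos 112 .pp ⟨3315549844, 1226868337, 0, 0, 0, 0, 0, 0, 0, ⟨0, 0⟩, 0⟩ 0 0)) (.void 113 ⟨87271, 0, 0, 12729, 0, 0, 0, 0, 0, ⟨0, 0⟩, 0⟩ 0 0)) (.void 107 ⟨0, 0, 0, 100000, 0, 0, 0, 0, 0, ⟨0, 0⟩, 0⟩ 0 0))) (.pos 61 .pp ⟨0, 122084073, 0, 0, 0, 0, 0, 0, 0, ⟨0, 0⟩, 0⟩ 0 0)) (.void 87 ⟨0, 0, 0, 100000, 0, 0, 0, 0, 0, ⟨0, 0⟩, 0⟩ 0 0)))),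
    by decide +kernel⟩

def covers21 : cell.Covers table row21.1 :=
  ⟨(.cut .d 0 (.cut .v 16777216 (.cut .v 8388608 (.void 2 ⟨0, 0, 100000, 0, 0, 0, 0, 0, 0, ⟨0, 0⟩, 0⟩ 0 0) (.cut .d (-8388608) (.void 3 ⟨100000, 0, 0, 0, 0, 0, 0, 0, 0, ⟨0, 0⟩, 0⟩ 0 0) (.cut .d (-4194304) (.void 3 ⟨100000, 0, 0, 0, 0, 0, 0, 0, 0, ⟨0, 0⟩, 0⟩ 0 0) (.cut .d (-2097152) (.void 3 ⟨78044, 0, 21956, 0, 0, 0, 0, 0, 0, ⟨0, 0⟩, 0⟩ 0 0) (.cut .d (-1048576) (.void 3 ⟨0, 0, 0, 0, 0, 100000, 0, 0, 0, ⟨0, 0⟩, 0⟩ 0 0) (.cut .d (-524288) (.void 3 ⟨0, 0, 0, 0, 0, 100000, 0, 0, 0, ⟨0, 0⟩, 0⟩ 0 0) (.cut .d (-262144) (.void 3 ⟨0, 0, 0, 0, 0, 100000, 0, 0, 0, ⟨0, 0⟩, 0⟩ 0 0) (.cut .d (-131072) (.void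 3 ⟨0, 0, 0, 0, 0, 100000, 0, 0, 0, ⟨0, 0⟩, 0⟩ 0 0) (.cut .d (-65536) (.pos 3 .mm ⟨0, 0, 0, 0, 0, 1207153402, 0, 0, 0, ⟨0, 0⟩, 0⟩ 0 0) (.cut .s 13959168 (.pos 3 .mm ⟨0, 0, 0, 0, 0, 1007468211, 0, 0, 0, ⟨0, 0⟩, 0⟩ 0 0) (.pos 3 .mm ⟨0, 0, 0, 0, 0, 1144908644, 0, 0, 0, ⟨0, 0⟩, 0⟩ 0 0))))))))))) (.cut .v 268435456 (.cut .v 67108864 (.cut .v 33554432 (.cut .d (-8388608) (.void 26 ⟨100000, 0, 0, 0, 0, 0, 0, 0, 0, ⟨0, 0⟩, 0⟩ 0 0) (.cut .v 25165824 (.cut .d (-4194304) (.void 27 ⟨100000, 0, 0, 0, 0, 0, 0, 0, 0, ⟨0, 0⟩, 0⟩ 0 0) (.cut .d (-2097152) (.void 27 ⟨100000, 0, 0, 0, 0, 0, 0, 0, 0, ⟨0, 0⟩, 0⟩ 0 0) (.cut .v 20971520 (.cut .d (-1048576) (.void 29 ⟨100000, 0, 0, 0, 0,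 0, 0, 0, 0, ⟨0, 0⟩, 0⟩ 0 0) (.cut .d (-524288) (.void 29 ⟨100000, 0, 0, 0, 0, 0, 0, 0, 0, ⟨0, 0⟩, 0⟩ 0 0) (.cut .d (-262144) (.void 29 ⟨100000, 0, 0, 0, 0, 0, 0, 0, 0, ⟨0, 0⟩, 0⟩ 0 0) (.cut .d (-131072) (.void 29 ⟨100000, 0, 0, 0, 0, 0, 0, 0, 0, ⟨0, 0⟩, 0⟩ 0 0) (.cut .v 18874368 (.cut .v 17825792 (.cut .d (-65536) (.cut .v 17301504 (.cut .s 13959168 (.cut .s 13860864 (.pos 35 .mp ⟨266322987, 0, 0, 0, 0, 592628416, 0, 0, 0, ⟨0, 0⟩, 0⟩ 0 0) (.pos 35 .mp ⟨279368348, 0, 0, 0, 0, 636299612, 0, 0, 0, ⟨0, 0⟩, 0⟩ 0 0)) (.pos 35 .mp ⟨292384060, 0, 0, 0, 0, 756876482, 0, 0, 0, ⟨0, 0⟩, 0⟩ 0 0)) (.pos 36 .mp ⟨704287001, 0, 0, 0, 0, 0, 0, 0, 0, ⟨0, 0⟩, 0⟩ 0 0)) (.cut .v 17301504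 (.cut .s 13959168 (.cut .s 13860864 (.cut .v 17039360 (.cut .d (-32768) (.cut .l 1159153 (.pos 37 .mp ⟨255078531, 0, 0, 0, 0, 575575978, 0, 0, 0, ⟨0, 0⟩, 0⟩ 0 0) (.pos 37 .mp ⟨226776528, 0, 0, 0, 0, 596092801, 0, 0, 0, ⟨0, 0⟩, 0⟩ 0 0)) (.cut .s 13811712 (.pos 37 .mp ⟨290256370, 0, 0, 0, 0, 443645201, 0, 0, 0, ⟨0, 0⟩, 0⟩ 0 0) (.pos 37 .mp ⟨296602721, 0, 0, 0, 0, 461361058, 0, 0, 0, ⟨0, 0⟩, 0⟩ 0 0))) (.pos 38 .mp ⟨559829945, 0, 0, 0, 0, 0, 0, 0, 0, ⟨0, 0⟩, 0⟩ 0 0)) (.cut .v 17039360 (.cut .l 1159153 (.cut .d (-32768) (.pos 37 .mp ⟨266163293, 0, 0, 0, 0, 619348799, 0, 0, 0, ⟨0, 0⟩, 0⟩ 0 0) (.cut .s 13910016 (.pos 37 .mp ⟨302983347, 0, 0, 0, 0, 480062167, 0, 0, 0,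 ⟨0, 0⟩, 0⟩ 0 0) (.pos 37 .mp ⟨309400934, 0, 0, 0, 0, 499731802, 0, 0, 0, ⟨0, 0⟩, 0⟩ 0 0))) (.pos 37 .mp ⟨231613720, 0, 0, 0, 0, 626757047, 0, 0, 0, ⟨0, 0⟩, 0⟩ 0 0)) (.pos 38 .mp ⟨591919030, 0, 0, 0, 0, 0, 0, 0, 0, ⟨0, 0⟩, 0⟩ 0 0))) (.cut .s 14057472 (.cut .l 1159153 (.cut .d (-32768) (.pos 35 .mp ⟨286492487, 0, 0, 0, 0, 679459501, 0, 0, 0, ⟨0, 0⟩, 0⟩ 0 0) (.pos 35 .mp ⟨332564127, 0, 0, 0, 0, 504849702, 0, 0, 0, ⟨0, 0⟩, 0⟩ 0 0)) (.pos 35 .mp ⟨339938643, 0, 0, 0, 0, 482948654, 0, 0, 0, ⟨0, 0⟩, 0⟩ 0 0)) (.cut .s 14106624 (.pos 35 .mp ⟨384116892, 0, 0, 0, 0, 486479026, 0, 0, 0, ⟨0, 0⟩, 0⟩ 0 0) (.pos 35 .mp ⟨393222157, 0, 0, 0, 0, 509027481, 0, 0, 0, ⟨0, 0⟩, 0⟩ 0 0))))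 (.pos 36 .mp ⟨626584936, 0, 0, 0, 0, 0, 0, 0, 0, ⟨0, 0⟩, 0⟩ 0 0))) (.pos 34 .mp ⟨704176652, 0, 0, 0, 0, 0, 0, 0, 0, ⟨0, 0⟩, 0⟩ 0 0)) (.pos 32 .mp ⟨790585197, 0, 0, 0, 0, 0, 0, 0, 0, ⟨0, 0⟩, 0⟩ 0 0)))))) (.void 30 ⟨100000, 0, 0, 0, 0, 0, 0, 0, 0, ⟨0, 0⟩, 0⟩ 0 0)))) (.void 28 ⟨100000, 0, 0, 0, 0, 0, 0, 0, 0, ⟨0, 0⟩, 0⟩ 0 0))) (.void 49 ⟨100000, 0, 0, 0, 0, 0, 0, 0, 0, ⟨0, 0⟩, 0⟩ 0 0)) (.void 62 ⟨100000, 0, 0, 0, 0, 0, 0, 0, 0, ⟨0, 0⟩, 0⟩ 0 0)) (.void 87 ⟨93431, 0, 0, 6569, 0, 0, 0, 0, 0, ⟨0, 0⟩, 0⟩ 0 0))) (.cut .v 16777216 (.cut .v 8388608 (.cut .v 4194304 (.cut .v 2097152 (.cut .v 1048576 (.cut .v 524288 (.pos 124 .pm ⟨0, 0, 17489829, 0, 0, 0, 0, 0, 0, ⟨0, 0⟩, 0⟩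 0 0) (.pos 125 .pm ⟨0, 0, 9337613, 0, 0, 0, 0, 0, 0, ⟨0, 0⟩, 0⟩ 0 0)) (.pos 101 .pm ⟨0, 136363, 0, 0, 0, 0, 0, 0, 0, ⟨0, 0⟩, 0⟩ 0 0)) (.cut .d 1837506 (.pos 78 .pm ⟨0, 0, 156627323, 0, 0, 0, 0, 0, 0, ⟨0, 0⟩, 0⟩ 0 0) (.pos 78 .pm ⟨0, 53045931, 0, 0, 0, 0, 0, 0, 0, ⟨0, 0⟩, 0⟩ 0 0))) (.pos 5 .pm ⟨0, 8914409, 0, 0, 0, 0, 0, 0, 0, ⟨0, 0⟩, 0⟩ 0 0)) (.pos 3 .pm ⟨0, 0, 0, 0, 0, 0, 0, 0, 0, ⟨0, 0⟩, 0⟩ 0 0)) (.cut .v 268435456 (.cut .d 1837506 (.cut .v 67108864 (.cut .d 918753 (.cut .v 33554432 (.cut .d 459376 (.cut .v 25165824 (.cut .v 20971520 (.pos 29 .pp ⟨442968238, 0, 0, 0, 0, 0, 0, 0, 0, ⟨0, 0⟩, 0⟩ 0 0) (.pos 30 .pp ⟨756230157, 0, 0, 0, 0, 0, 0, 0, 0, ⟨0, 0⟩, 0⟩ 0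 0)) (.pos 28 .pp ⟨1268030197, 0, 0, 0, 0, 0, 0, 0, 0, ⟨0, 0⟩, 0⟩ 0 0)) (.pos 26 .pp ⟨224656571, 0, 0, 0, 0, 0, 0, 0, 0, ⟨0, 0⟩, 0⟩ 0 0)) (.cut .d 459376 (.cut .v 50331648 (.pos 52 .pp ⟨2998866806, 0, 0, 0, 0, 0, 0, 0, 0, ⟨0, 0⟩, 0⟩ 0 0) (.void 53 ⟨100000, 0, 0, 0, 0, 0, 0, 0, 0, ⟨0, 0⟩, 0⟩ 0 0)) (.cut .v 50331648 (.cut .v 41943040 (.pos 56 .pp ⟨1322198151, 0, 0, 0, 0, 0, 0, 0, 0, ⟨0, 0⟩, 0⟩ 0 0) (.pos 57 .pp ⟨2129669731, 0, 0, 0, 0, 0, 0, 0, 0, ⟨0, 0⟩, 0⟩ 0 0)) (.cut .v 58720256 (.pos 104 .pp ⟨3188002454, 0, 0, 0, 0, 0, 0, 0, 0, ⟨0, 0⟩, 0⟩ 0 0) (.cut .d 689064 (.pos 105 .pp ⟨5969372049, 0, 0, 0, 0, 0, 0, 0, 0, ⟨0, 0⟩, 0⟩ 0 0) (.cut .d 803908 (.pos 105 .pp ⟨4676686911,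 0, 0, 0, 0, 0, 0, 0, 0, ⟨0, 0⟩, 0⟩ 0 0) (.pos 105 .pp ⟨3879234759, 0, 0, 0, 0, 0, 0, 0, 0, ⟨0, 0⟩, 0⟩ 0 0))))))) (.pos 48 .pp ⟨318991269, 0, 0, 0, 0, 0, 0, 0, 0, ⟨0, 0⟩, 0⟩ 0 0)) (.cut .v 134217728 (.cut .v 100663296 (.cut .v 83886080 (.cut .v 75497472 (.cut .d 918753 (.cut .v 71303168 (.cut .d 459376 (.void 120 ⟨100000, 0, 0, 0, 0, 0, 0, 0, 0, ⟨0, 0⟩, 0⟩ 0 0) (.cut .d 689064 (.void 120 ⟨100000, 0, 0, 0, 0, 0, 0, 0, 0, ⟨0, 0⟩, 0⟩ 0 0) (.cut .s 13959168 (.cut .d 803908 (.void 120 ⟨100000, 0, 0, 0, 0, 0, 0, 0, 0, ⟨0, 0⟩, 0⟩ 0 0) (.pos 120 .pp ⟨4747707335, 167343654, 0, 0, 0, 0, 0, 0, 0, ⟨0, 0⟩, 0⟩ 0 0)) (.cut .v 69206016 (.pos 122 .pp ⟨4695925920, 0, 0, 0, 0, 0,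 0, 0, 0, ⟨0, 0⟩, 0⟩ 0 0) (.cut .l 1159153 (.pos 123 .pp ⟨5080459570, 19818976, 0, 0, 0, 0, 0, 0, 0, ⟨0, 0⟩, 0⟩ 0 0) (.cut .d 803908 (.cut .v 70254592 (.pos 126 .pp ⟨5032628190, 0, 0, 0, 0, 0, 0, 0, 0, ⟨0, 0⟩, 0⟩ 0 0) (.cut .v 70778880 (.pos 128 .pp ⟨5304741416, 0, 0, 0, 0, 0, 0, 0, 0, ⟨0, 0⟩, 0⟩ 0 0) (.cut .s 14057472 (.void 129 ⟨100000, 0, 0, 0, 0, 0, 0, 0, 0, ⟨0, 0⟩, 0⟩ 0 0) (.cut .d 746486 (.void 129 ⟨100000, 0, 0, 0, 0, 0, 0, 0, 0, ⟨0, 0⟩, 0⟩ 0 0) (.pos 129 .pp ⟨5503065861, 572178648, 0, 0, 0, 0, 0, 0, 0, ⟨0, 0⟩, 0⟩ 0 0))))) (.cut .s 14057472 (.cut .d 861330 (.pos 123 .pp ⟨5061270579, 384345595, 0, 0, 0, 0, 0, 0, 0, ⟨0, 0⟩, 0⟩ 0 0) (.pos 123 .pp ⟨3233138563,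 1162043528, 0, 0, 0, 0, 0, 0, 0, ⟨0, 0⟩, 0⟩ 0 0)) (.pos 123 .pp ⟨5032439985, 691316995, 0, 0, 0, 0, 0, 0, 0, ⟨0, 0⟩, 0⟩ 0 0)))))))) (.void 121 ⟨36580, 63420, 0, 0, 0, 0, 0, 0, 0, ⟨0, 0⟩, 0⟩ 0 0)) (.pos 118 .pp ⟨3199305985, 1010863679, 0, 0, 0, 0, 0, 0, 0, ⟨0, 0⟩, 0⟩ 0 0)) (.void 119 ⟨35972, 64028, 0, 0, 0, 0, 0, 0, 0, ⟨0, 0⟩, 0⟩ 0 0)) (.void 115 ⟨35972, 64028, 0, 0, 0, 0, 0, 0, 0, ⟨0, 0⟩, 0⟩ 0 0)) (.void 113 ⟨87083, 0, 0, 12917, 0, 0, 0, 0, 0, ⟨0, 0⟩, 0⟩ 0 0)) (.void 107 ⟨0, 0, 0, 100000, 0, 0, 0, 0, 0, ⟨0, 0⟩, 0⟩ 0 0))) (.pos 61 .pp ⟨0, 91430728, 0, 0, 0, 0, 0, 0, 0, ⟨0, 0⟩, 0⟩ 0 0)) (.void 87 ⟨0, 0, 0, 100000, 0, 0, 0, 0, 0, ⟨0, 0⟩, 0⟩ 0 0)))),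
    by decide +kernel⟩

def covers22 : cell.Covers table row22.1 :=
  ⟨(.cut .d 0 (.cut .v 16777216 (.cut .v 8388608 (.void 2 ⟨0, 0, 100000, 0, 0, 0, 0, 0, 0, ⟨0, 0⟩, 0⟩ 0 0) (.cut .d (-8388608) (.void 3 ⟨100000, 0, 0, 0, 0, 0, 0, 0, 0, ⟨0, 0⟩, 0⟩ 0 0) (.cut .d (-4194304) (.void 3 ⟨100000, 0, 0, 0, 0, 0, 0, 0, 0, ⟨0, 0⟩, 0⟩ 0 0) (.cut .d (-2097152) (.void 3 ⟨100000, 0, 0, 0, 0, 0, 0, 0, 0, ⟨0, 0⟩, 0⟩ 0 0) (.cut .d (-1048576) (.void 3 ⟨0, 0, 0, 0, 0, 100000, 0, 0, 0, ⟨0, 0⟩, 0⟩ 0 0) (.cut .d (-524288) (.void 3 ⟨0, 0, 0, 0, 0, 100000, 0, 0, 0, ⟨0, 0⟩, 0⟩ 0 0) (.cut .d (-262144) (.void 3 ⟨0, 0, 0, 0, 0, 100000, 0, 0, 0, ⟨0, 0⟩, 0⟩ 0 0) (.cut .s 14319616 (.cut .s 14237696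 (.pos 3 .mm ⟨0, 0, 0, 0, 0, 1298800959, 0, 0, 0, ⟨0, 0⟩, 0⟩ 0 0) (.pos 3 .mm ⟨0, 0, 0, 0, 0, 1373140561, 0, 0, 0, ⟨0, 0⟩, 0⟩ 0 0)) (.pos 3 .mm ⟨0, 0, 0, 0, 0, 1532313594, 0, 0, 0, ⟨0, 0⟩, 0⟩ 0 0))))))))) (.cut .v 268435456 (.cut .v 67108864 (.cut .v 33554432 (.cut .d (-8388608) (.void 26 ⟨100000, 0, 0, 0, 0, 0, 0, 0, 0, ⟨0, 0⟩, 0⟩ 0 0) (.cut .d (-4194304) (.void 26 ⟨100000, 0, 0, 0, 0, 0, 0, 0, 0, ⟨0, 0⟩, 0⟩ 0 0) (.cut .v 25165824 (.cut .d (-2097152) (.void 27 ⟨100000, 0, 0, 0, 0, 0, 0, 0, 0, ⟨0, 0⟩, 0⟩ 0 0) (.cut .v 20971520 (.cut .d (-1048576) (.void 29 ⟨100000, 0, 0, 0, 0, 0, 0, 0, 0, ⟨0, 0⟩, 0⟩ 0 0) (.cut .d (-524288) (.void 29 ⟨100000, 0, 0, 0, 0, 0, 0, 0,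 0, ⟨0, 0⟩, 0⟩ 0 0) (.cut .d (-262144) (.void 29 ⟨100000, 0, 0, 0, 0, 0, 0, 0, 0, ⟨0, 0⟩, 0⟩ 0 0) (.cut .d (-131072) (.void 29 ⟨100000, 0, 0, 0, 0, 0, 0, 0, 0, ⟨0, 0⟩, 0⟩ 0 0) (.cut .v 18874368 (.cut .d (-65536) (.pos 31 .mp ⟨384691088, 0, 0, 0, 0, 1135304460, 0, 0, 0, ⟨0, 0⟩, 0⟩ 0 0) (.cut .v 17825792 (.cut .v 17301504 (.cut .s 14319616 (.cut .s 14237696 (.cut .d (-32768) (.pos 35 .mp ⟨301611455, 0, 0, 0, 0, 798631443, 0, 0, 0, ⟨0, 0⟩, 0⟩ 0 0) (.pos 35 .mp ⟨358005117, 0, 0, 0, 0, 611268971, 0, 0, 0, ⟨0, 0⟩, 0⟩ 0 0)) (.pos 35 .mp ⟨425452323, 0, 0, 0, 0, 580595426, 0, 0, 0, ⟨0, 0⟩, 0⟩ 0 0)) (.cut .s 14401536 (.pos 35 .mp ⟨442203612, 0, 0, 0, 0, 620435962, 0, 0, 0,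 ⟨0, 0⟩, 0⟩ 0 0) (.pos 35 .mp ⟨459440130, 0, 0, 0, 0, 663252025, 0, 0, 0, ⟨0, 0⟩, 0⟩ 0 0))) (.pos 36 .mp ⟨795337247, 0, 0, 0, 0, 0, 0, 0, 0, ⟨0, 0⟩, 0⟩ 0 0)) (.pos 34 .mp ⟨839978661, 0, 0, 0, 0, 0, 0, 0, 0, ⟨0, 0⟩, 0⟩ 0 0))) (.pos 32 .mp ⟨971974110, 0, 0, 0, 0, 0, 0, 0, 0, ⟨0, 0⟩, 0⟩ 0 0)))))) (.void 30 ⟨100000, 0, 0, 0, 0, 0, 0, 0, 0, ⟨0, 0⟩, 0⟩ 0 0))) (.void 28 ⟨100000, 0, 0, 0, 0, 0, 0, 0, 0, ⟨0, 0⟩, 0⟩ 0 0)))) (.void 49 ⟨100000, 0, 0, 0, 0, 0, 0, 0, 0, ⟨0, 0⟩, 0⟩ 0 0)) (.void 62 ⟨100000, 0, 0, 0, 0, 0, 0, 0, 0, ⟨0, 0⟩, 0⟩ 0 0)) (.void 87 ⟨93289, 0, 0, 6711, 0, 0, 0, 0, 0, ⟨0, 0⟩, 0⟩ 0 0))) (.cut .v 16777216 (.cut .v 8388608 (.cut .v 4194304 (.cut .v 2097152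 (.cut .v 1048576 (.cut .v 524288 (.pos 124 .pm ⟨0, 0, 18373905, 0, 0, 0, 0, 0, 0, ⟨0, 0⟩, 0⟩ 0 0) (.pos 125 .pm ⟨0, 0, 13071296, 0, 0, 0, 0, 0, 0, ⟨0, 0⟩, 0⟩ 0 0)) (.pos 101 .pm ⟨0, 0, 8235320, 0, 0, 0, 0, 0, 0, ⟨0, 0⟩, 0⟩ 0 0)) (.pos 78 .pm ⟨0, 0, 6290490, 0, 0, 0, 0, 0, 0, ⟨0, 0⟩, 0⟩ 0 0)) (.pos 5 .pm ⟨0, 0, 10075755, 0, 0, 0, 0, 0, 0, ⟨0, 0⟩, 0⟩ 0 0)) (.pos 3 .pm ⟨0, 0, 0, 0, 0, 0, 0, 0, 0, ⟨0, 0⟩, 0⟩ 0 0)) (.cut .v 268435456 (.cut .d 1553447 (.cut .v 67108864 (.cut .d 776723 (.cut .v 33554432 (.cut .d 388361 (.cut .v 25165824 (.cut .v 20971520 (.pos 29 .pp ⟨498201476, 0, 0, 0, 0, 0, 0, 0, 0, ⟨0, 0⟩, 0⟩ 0 0) (.pos 30 .pp ⟨924883834, 0, 0, 0, 0, 0, 0, 0, 0, ⟨0,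 0⟩, 0⟩ 0 0)) (.pos 28 .pp ⟨1512986888, 0, 0, 0, 0, 0, 0, 0, 0, ⟨0, 0⟩, 0⟩ 0 0)) (.pos 26 .pp ⟨237190198, 0, 0, 0, 0, 0, 0, 0, 0, ⟨0, 0⟩, 0⟩ 0 0)) (.cut .v 50331648 (.cut .d 388361 (.pos 52 .pp ⟨3506447973, 0, 0, 0, 0, 0, 0, 0, 0, ⟨0, 0⟩, 0⟩ 0 0) (.cut .v 41943040 (.pos 56 .pp ⟨1623748690, 0, 0, 0, 0, 0, 0, 0, 0, ⟨0, 0⟩, 0⟩ 0 0) (.pos 57 .pp ⟨2572347586, 0, 0, 0, 0, 0, 0, 0, 0, ⟨0, 0⟩, 0⟩ 0 0))) (.cut .d 388361 (.void 53 ⟨100000, 0, 0, 0, 0, 0, 0, 0, 0, ⟨0, 0⟩, 0⟩ 0 0) (.cut .v 58720256 (.pos 104 .pp ⟨3777816465, 0, 0, 0, 0, 0, 0, 0, 0, ⟨0, 0⟩, 0⟩ 0 0) (.cut .d 582542 (.pos 105 .pp ⟨7227603816, 0, 0, 0, 0, 0, 0, 0, 0, ⟨0, 0⟩, 0⟩ 0 0) (.pos 105 .pp ⟨4865336198, 0,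 0, 0, 0, 0, 0, 0, 0, ⟨0, 0⟩, 0⟩ 0 0)))))) (.pos 48 .pp ⟨405027939, 0, 0, 0, 0, 0, 0, 0, 0, ⟨0, 0⟩, 0⟩ 0 0)) (.cut .v 134217728 (.cut .v 100663296 (.cut .v 83886080 (.cut .v 75497472 (.cut .d 776723 (.cut .d 388361 (.void 118 ⟨100000, 0, 0, 0, 0, 0, 0, 0, 0, ⟨0, 0⟩, 0⟩ 0 0) (.cut .d 582542 (.void 118 ⟨100000, 0, 0, 0, 0, 0, 0, 0, 0, ⟨0, 0⟩, 0⟩ 0 0) (.cut .v 71303168 (.cut .d 679632 (.pos 120 .pp ⟨6544468641, 0, 0, 0, 0, 0, 0, 0, 0, ⟨0, 0⟩, 0⟩ 0 0) (.cut .s 14319616 (.cut .d 728177 (.pos 120 .pp ⟨5887932829, 0, 0, 0, 0, 0, 0, 0, 0, ⟨0, 0⟩, 0⟩ 0 0) (.cut .s 14237696 (.cut .s 14196736 (.pos 120 .pp ⟨5548839357, 426194610, 0, 0, 0, 0, 0, 0, 0, ⟨0, 0⟩, 0⟩ 0 0) (.cut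 .d 752450 (.pos 120 .pp ⟨5677611080, 516321239, 0, 0, 0, 0, 0, 0, 0, ⟨0, 0⟩, 0⟩ 0 0) (.pos 120 .pp ⟨5500738890, 444111302, 0, 0, 0, 0, 0, 0, 0, ⟨0, 0⟩, 0⟩ 0 0))) (.pos 120 .pp ⟨5395466679, 0, 0, 0, 0, 0, 0, 0, 0, ⟨0, 0⟩, 0⟩ 0 0))) (.pos 120 .pp ⟨5595174094, 0, 0, 0, 0, 0, 0, 0, 0, ⟨0, 0⟩, 0⟩ 0 0))) (.cut .v 73400320 (.cut .d 679632 (.pos 132 .pp ⟨7009578663, 1011011863, 0, 0, 0, 0, 0, 0, 0, ⟨0, 0⟩, 0⟩ 0 0) (.cut .v 72351744 (.cut .v 71827456 (.cut .l 1159153 (.void 136 ⟨31008, 68992, 0, 0, 0, 0, 0, 0, 0, ⟨0, 0⟩, 0⟩ 0 0) (.cut .l 1570957 (.pos 136 .pp ⟨9773618046, 7465342995, 0, 0, 0, 0, 0, 0, 0, ⟨0, 0⟩, 0⟩ 0 0) (.cut .s 14319616 (.cut .v 71565312 (.cut .l 1776859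 (.pos 138 .pp ⟨7842285982, 4002378443, 0, 0, 0, 0, 0, 0, 0, ⟨0, 0⟩, 0⟩ 0 0) (.cut .s 14237696 (.cut .d 728177 (.void 138 ⟨100000, 0, 0, 0, 0, 0, 0, 0, 0, ⟨0, 0⟩, 0⟩ 0 0) (.pos 138 .pp ⟨6645057274, 2216007922, 0, 0, 0, 0, 0, 0, 0, ⟨0, 0⟩, 0⟩ 0 0)) (.cut .d 728177 (.pos 138 .pp ⟨6228854625, 758942427, 0, 0, 0, 0, 0, 0, 0, ⟨0, 0⟩, 0⟩ 0 0) (.cut .s 14278656 (.pos 138 .pp ⟨5915523628, 894805244, 0, 0, 0, 0, 0, 0, 0, ⟨0, 0⟩, 0⟩ 0 0) (.pos 138 .pp ⟨5956699618, 859165805, 0, 0, 0, 0, 0, 0, 0, ⟨0, 0⟩, 0⟩ 0 0))))) (.void 139 ⟨35957, 64043, 0, 0, 0, 0, 0, 0, 0, ⟨0, 0⟩, 0⟩ 0 0)) (.cut .s 14401536 (.cut .d 728177 (.pos 136 .pp ⟨6197347484, 743096953, 0, 0, 0, 0, 0, 0, 0, ⟨0,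 0⟩, 0⟩ 0 0) (.void 136 ⟨0, 100000, 0, 0, 0, 0, 0, 0, 0, ⟨0, 0⟩, 0⟩ 0 0)) (.pos 136 .pp ⟨6332770204, 1029593049, 0, 0, 0, 0, 0, 0, 0, ⟨0, 0⟩, 0⟩ 0 0))))) (.void 137 ⟨30930, 69070, 0, 0, 0, 0, 0, 0, 0, ⟨0, 0⟩, 0⟩ 0 0)) (.void 135 ⟨30347, 69653, 0, 0, 0, 0, 0, 0, 0, ⟨0, 0⟩, 0⟩ 0 0))) (.void 133 ⟨35759, 64241, 0, 0, 0, 0, 0, 0, 0, ⟨0, 0⟩, 0⟩ 0 0))))) (.cut .v 71303168 (.pos 120 .pp ⟨3852945304, 1121223634, 0, 0, 0, 0, 0, 0, 0, ⟨0, 0⟩, 0⟩ 0 0) (.void 121 ⟨0, 100000, 0, 0, 0, 0, 0, 0, 0, ⟨0, 0⟩, 0⟩ 0 0))) (.void 119 ⟨35632, 64368, 0, 0, 0, 0, 0, 0, 0, ⟨0, 0⟩, 0⟩ 0 0)) (.void 115 ⟨35632, 64368, 0, 0, 0, 0, 0, 0, 0, ⟨0, 0⟩, 0⟩ 0 0)) (.void 113 ⟨86916, 0, 0, 13084, 0, 0,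 0, 0, 0, ⟨0, 0⟩, 0⟩ 0 0)) (.void 107 ⟨0, 0, 0, 100000, 0, 0, 0, 0, 0, ⟨0, 0⟩, 0⟩ 0 0))) (.pos 61 .pp ⟨0, 50028978, 0, 0, 0, 0, 0, 0, 0, ⟨0, 0⟩, 0⟩ 0 0)) (.void 87 ⟨0, 0, 0, 100000, 0, 0, 0, 0, 0, ⟨0, 0⟩, 0⟩ 0 0)))),
    by decide +kernel⟩

def covers23 : cell.Covers table row23.1 :=
  ⟨(.cut .d 0 (.cut .v 16777216 (.cut .v 8388608 (.void 2 ⟨0, 0, 100000, 0, 0, 0, 0, 0, 0, ⟨0, 0⟩, 0⟩ 0 0) (.cut .d (-8388608) (.void 3 ⟨100000, 0, 0, 0, 0, 0, 0, 0, 0, ⟨0, 0⟩, 0⟩ 0 0) (.cut .d (-4194304) (.void 3 ⟨100000, 0, 0, 0, 0, 0, 0, 0, 0, ⟨0, 0⟩, 0⟩ 0 0) (.cut .d (-2097152) (.void 3 ⟨100000, 0, 0, 0, 0, 0, 0, 0, 0, ⟨0, 0⟩, 0⟩ 0 0) (.cut .d (-1048576) (.void 3 ⟨0, 0, 0, 0, 0,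 100000, 0, 0, 0, ⟨0, 0⟩, 0⟩ 0 0) (.cut .d (-524288) (.void 3 ⟨0, 0, 0, 0, 0, 100000, 0, 0, 0, ⟨0, 0⟩, 0⟩ 0 0) (.cut .d (-262144) (.void 3 ⟨0, 0, 0, 0, 0, 100000, 0, 0, 0, ⟨0, 0⟩, 0⟩ 0 0) (.cut .v 12582912 (.pos 6 .mm ⟨0, 0, 0, 0, 0, 1265978413, 0, 0, 0, ⟨0, 0⟩, 0⟩ 0 0) (.cut .s 14647296 (.pos 7 .mm ⟨0, 0, 0, 0, 0, 1720839771, 0, 0, 0, ⟨0, 0⟩, 0⟩ 0 0) (.cut .s 14729216 (.pos 7 .mm ⟨0, 0, 0, 0, 0, 1824920426, 0, 0, 0, ⟨0, 0⟩, 0⟩ 0 0) (.pos 7 .mm ⟨0, 0, 0, 0, 0, 1933652266, 0, 0, 0, ⟨0, 0⟩, 0⟩ 0 0))))))))))) (.cut .v 268435456 (.cut .v 67108864 (.cut .v 33554432 (.cut .d (-8388608) (.void 26 ⟨100000, 0, 0, 0, 0, 0, 0, 0, 0, ⟨0, 0⟩, 0⟩ 0 0) (.cut .d (-4194304) (.void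 26 ⟨100000, 0, 0, 0, 0, 0, 0, 0, 0, ⟨0, 0⟩, 0⟩ 0 0) (.cut .v 25165824 (.cut .d (-2097152) (.void 27 ⟨100000, 0, 0, 0, 0, 0, 0, 0, 0, ⟨0, 0⟩, 0⟩ 0 0) (.cut .v 20971520 (.cut .d (-1048576) (.void 29 ⟨100000, 0, 0, 0, 0, 0, 0, 0, 0, ⟨0, 0⟩, 0⟩ 0 0) (.cut .d (-524288) (.void 29 ⟨100000, 0, 0, 0, 0, 0, 0, 0, 0, ⟨0, 0⟩, 0⟩ 0 0) (.cut .d (-262144) (.void 29 ⟨100000, 0, 0, 0, 0, 0, 0, 0, 0, ⟨0, 0⟩, 0⟩ 0 0) (.cut .d (-131072) (.void 29 ⟨100000, 0, 0, 0, 0, 0, 0, 0, 0, ⟨0, 0⟩, 0⟩ 0 0) (.cut .d (-65536) (.void 29 ⟨0, 0, 0, 0, 0, 100000, 0, 0, 0, ⟨0, 0⟩, 0⟩ 0 0) (.cut .v 18874368 (.cut .d (-32768) (.pos 31 .mp ⟨633547655, 0, 0, 0, 0, 729605895, 0, 0, 0, ⟨0, 0⟩, 0⟩ 0 0) (.cut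 .v 17825792 (.cut .v 17301504 (.cut .d (-16384) (.pos 35 .mp ⟨439987808, 0, 0, 0, 0, 1015452641, 0, 0, 0, ⟨0, 0⟩, 0⟩ 0 0) (.cut .d (-8192) (.pos 35 .mp ⟨392685605, 0, 0, 0, 0, 1053349583, 0, 0, 0, ⟨0, 0⟩, 0⟩ 0 0) (.pos 35 .mp ⟨369156722, 0, 0, 0, 0, 783970365, 0, 0, 0, ⟨0, 0⟩, 0⟩ 0 0))) (.pos 36 .mp ⟨996416243, 0, 0, 0, 0, 0, 0, 0, 0, ⟨0, 0⟩, 0⟩ 0 0)) (.pos 34 .mp ⟨1055834891, 0, 0, 0, 0, 0, 0, 0, 0, ⟨0, 0⟩, 0⟩ 0 0))) (.pos 32 .mp ⟨1184625504, 0, 0, 0, 0, 0, 0, 0, 0, ⟨0, 0⟩, 0⟩ 0 0))))))) (.void 30 ⟨100000, 0, 0, 0, 0, 0, 0, 0, 0, ⟨0, 0⟩, 0⟩ 0 0))) (.void 28 ⟨100000, 0, 0, 0, 0, 0, 0, 0, 0, ⟨0, 0⟩, 0⟩ 0 0)))) (.void 49 ⟨100000, 0, 0, 0, 0, 0, 0, 0, 0, ⟨0, 0⟩, 0⟩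 0 0)) (.void 62 ⟨100000, 0, 0, 0, 0, 0, 0, 0, 0, ⟨0, 0⟩, 0⟩ 0 0)) (.void 87 ⟨93147, 0, 0, 6853, 0, 0, 0, 0, 0, ⟨0, 0⟩, 0⟩ 0 0))) (.cut .v 16777216 (.cut .v 8388608 (.cut .v 4194304 (.cut .v 2097152 (.cut .v 1048576 (.cut .v 524288 (.pos 124 .pm ⟨0, 0, 19548652, 0, 0, 0, 0, 0, 0, ⟨0, 0⟩, 0⟩ 0 0) (.pos 125 .pm ⟨0, 0, 17370990, 0, 0, 0, 0, 0, 0, ⟨0, 0⟩, 0⟩ 0 0)) (.pos 101 .pm ⟨0, 0, 17628073, 0, 0, 0, 0, 0, 0, ⟨0, 0⟩, 0⟩ 0 0)) (.pos 78 .pm ⟨0, 0, 19245032, 0, 0, 0, 0, 0, 0, ⟨0, 0⟩, 0⟩ 0 0)) (.pos 5 .pm ⟨0, 0, 33706403, 0, 0, 0, 0, 0, 0, ⟨0, 0⟩, 0⟩ 0 0)) (.pos 3 .pm ⟨0, 0, 0, 0, 0, 0, 0, 0, 0, ⟨0, 0⟩, 0⟩ 0 0)) (.cut .v 268435456 (.cut .d 1328514 (.cut .v 67108864 (.cut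 .d 664257 (.cut .v 33554432 (.cut .d 332128 (.cut .v 25165824 (.cut .v 20971520 (.pos 29 .pp ⟨543819785, 0, 0, 0, 0, 0, 0, 0, 0, ⟨0, 0⟩, 0⟩ 0 0) (.pos 30 .pp ⟨1104170308, 0, 0, 0, 0, 0, 0, 0, 0, ⟨0, 0⟩, 0⟩ 0 0)) (.pos 28 .pp ⟨1790870726, 0, 0, 0, 0, 0, 0, 0, 0, ⟨0, 0⟩, 0⟩ 0 0)) (.pos 26 .pp ⟨228685818, 0, 0, 0, 0, 0, 0, 0, 0, ⟨0, 0⟩, 0⟩ 0 0)) (.cut .v 50331648 (.cut .d 332128 (.pos 52 .pp ⟨4082124461, 0, 0, 0, 0, 0, 0, 0, 0, ⟨0, 0⟩, 0⟩ 0 0) (.pos 52 .pp ⟨2388429130, 0, 0, 0, 0, 0, 0, 0, 0, ⟨0, 0⟩, 0⟩ 0 0)) (.cut .d 332128 (.void 53 ⟨100000, 0, 0, 0, 0, 0, 0, 0, 0, ⟨0, 0⟩, 0⟩ 0 0) (.cut .v 58720256 (.pos 104 .pp ⟨4427741974, 0, 0, 0, 0, 0, 0, 0, 0, ⟨0, 0⟩, 0⟩ 0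 0) (.cut .d 498192 (.pos 105 .pp ⟨8390459978, 0, 0, 0, 0, 0, 0, 0, 0, ⟨0, 0⟩, 0⟩ 0 0) (.pos 105 .pp ⟨5695456462, 0, 0, 0, 0, 0, 0, 0, 0, ⟨0, 0⟩, 0⟩ 0 0)))))) (.pos 48 .pp ⟨484423749, 0, 0, 0, 0, 0, 0, 0, 0, ⟨0, 0⟩, 0⟩ 0 0)) (.cut .v 134217728 (.cut .v 100663296 (.cut .v 83886080 (.cut .v 75497472 (.cut .d 664257 (.cut .d 332128 (.void 118 ⟨100000, 0, 0, 0, 0, 0, 0, 0, 0, ⟨0, 0⟩, 0⟩ 0 0) (.cut .d 498192 (.void 118 ⟨100000, 0, 0, 0, 0, 0, 0, 0, 0, ⟨0, 0⟩, 0⟩ 0 0) (.cut .v 71303168 (.cut .s 14647296 (.pos 120 .pp ⟨6504878453, 0, 0, 0, 0, 0, 0, 0, 0, ⟨0, 0⟩, 0⟩ 0 0) (.pos 120 .pp ⟨6741251929, 0, 0, 0, 0, 0, 0, 0, 0, ⟨0, 0⟩, 0⟩ 0 0)) (.cut .v 73400320 (.cut .d 581224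 (.cut .s 14647296 (.void 132 ⟨100000, 0, 0, 0, 0, 0, 0, 0, 0, ⟨0, 0⟩, 0⟩ 0 0) (.cut .d 539708 (.void 132 ⟨100000, 0, 0, 0, 0, 0, 0, 0, 0, ⟨0, 0⟩, 0⟩ 0 0) (.cut .d 560466 (.pos 132 .pp ⟨8280525446, 1227743533, 0, 0, 0, 0, 0, 0, 0, ⟨0, 0⟩, 0⟩ 0 0) (.cut .l 1159153 (.pos 132 .pp ⟨8086877609, 1310187925, 0, 0, 0, 0, 0, 0, 0, ⟨0, 0⟩, 0⟩ 0 0) (.cut .l 1570957 (.pos 132 .pp ⟨8160373800, 1214041327, 0, 0, 0, 0, 0, 0, 0, ⟨0, 0⟩, 0⟩ 0 0) (.cut .l 1776859 (.pos 132 .pp ⟨8197648864, 1165665280, 0, 0, 0, 0, 0, 0, 0, ⟨0, 0⟩, 0⟩ 0 0) (.cut .s 14729216 (.cut .v 72351744 (.pos 134 .pp ⟨7758196426, 1185535914, 0, 0, 0, 0, 0, 0, 0, ⟨0, 0⟩, 0⟩ 0 0) (.void 135 ⟨35516, 64484, 0, 0,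 0, 0, 0, 0, 0, ⟨0, 0⟩, 0⟩ 0 0)) (.cut .v 72351744 (.pos 134 .pp ⟨7709756699, 1078714265, 0, 0, 0, 0, 0, 0, 0, ⟨0, 0⟩, 0⟩ 0 0) (.pos 135 .pp ⟨7955655298, 1526406466, 0, 0, 0, 0, 0, 0, 0, ⟨0, 0⟩, 0⟩ 0 0))))))))) (.cut .v 72351744 (.cut .s 14647296 (.cut .l 1159153 (.pos 134 .pp ⟨7252504338, 1619366981, 0, 0, 0, 0, 0, 0, 0, ⟨0, 0⟩, 0⟩ 0 0) (.cut .l 1570957 (.pos 134 .pp ⟨7038893406, 1086873957, 0, 0, 0, 0, 0, 0, 0, ⟨0, 0⟩, 0⟩ 0 0) (.cut .s 14565376 (.cut .d 622740 (.void 134 ⟨100000, 0, 0, 0, 0, 0, 0, 0, 0, ⟨0, 0⟩, 0⟩ 0 0) (.pos 134 .pp ⟨6900607052, 1245819206, 0, 0, 0, 0, 0, 0, 0, ⟨0, 0⟩, 0⟩ 0 0)) (.cut .d 622740 (.cut .s 14606336 (.pos 134 .pp ⟨7226782124, 1070134192,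 0, 0, 0, 0, 0, 0, 0, ⟨0, 0⟩, 0⟩ 0 0) (.cut .d 601982 (.pos 134 .pp ⟨10502378810, 0, 0, 0, 0, 0, 0, 0, 0, ⟨0, 0⟩, 0⟩ 0 0) (.cut .d 612361 (.pos 134 .pp ⟨7307153832, 1125523186, 0, 0, 0, 0, 0, 0, 0, ⟨0, 0⟩, 0⟩ 0 0) (.pos 134 .pp ⟨7097212815, 1211331282, 0, 0, 0, 0, 0, 0, 0, ⟨0, 0⟩, 0⟩ 0 0)))) (.pos 134 .pp ⟨6866239249, 1211332076, 0, 0, 0, 0, 0, 0, 0, ⟨0, 0⟩, 0⟩ 0 0))))) (.cut .s 14729216 (.cut .d 622740 (.cut .d 601982 (.cut .s 14688256 (.cut .s 14667776 (.pos 134 .pp ⟨7439120215, 1145215216, 0, 0, 0, 0, 0, 0, 0, ⟨0, 0⟩, 0⟩ 0 0) (.pos 134 .pp ⟨7455733874, 1122418431, 0, 0, 0, 0, 0, 0, 0, ⟨0, 0⟩, 0⟩ 0 0)) (.pos 134 .pp ⟨7482570224, 1095887396, 0, 0, 0, 0, 0, 0, 0,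 ⟨0, 0⟩, 0⟩ 0 0)) (.pos 134 .pp ⟨7226699749, 1254349704, 0, 0, 0, 0, 0, 0, 0, ⟨0, 0⟩, 0⟩ 0 0)) (.pos 134 .pp ⟨5451532536, 1934779146, 0, 0, 0, 0, 0, 0, 0, ⟨0, 0⟩, 0⟩ 0 0)) (.pos 134 .pp ⟨5763773365, 1952804084, 0, 0, 0, 0, 0, 0, 0, ⟨0, 0⟩, 0⟩ 0 0))) (.void 135 ⟨31376, 68624, 0, 0, 0, 0, 0, 0, 0, ⟨0, 0⟩, 0⟩ 0 0))) (.void 133 ⟨35376, 64624, 0, 0, 0, 0, 0, 0, 0, ⟨0, 0⟩, 0⟩ 0 0))))) (.cut .v 71303168 (.pos 120 .pp ⟨5175761076, 576075388, 0, 0, 0, 0, 0, 0, 0, ⟨0, 0⟩, 0⟩ 0 0) (.pos 121 .pp ⟨5175761076, 2025257182, 0, 0, 0, 0, 0, 0, 0, ⟨0, 0⟩, 0⟩ 0 0))) (.void 119 ⟨35267, 64733, 0, 0, 0, 0, 0, 0, 0, ⟨0, 0⟩, 0⟩ 0 0)) (.void 115 ⟨35267, 64733, 0, 0, 0, 0, 0, 0, 0, ⟨0, 0⟩,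 0⟩ 0 0)) (.void 113 ⟨86733, 0, 0, 13267, 0, 0, 0, 0, 0, ⟨0, 0⟩, 0⟩ 0 0)) (.void 107 ⟨0, 0, 0, 100000, 0, 0, 0, 0, 0, ⟨0, 0⟩, 0⟩ 0 0))) (.pos 61 .pp ⟨0, 596104940, 0, 0, 0, 0, 0, 0, 0, ⟨0, 0⟩, 0⟩ 0 0)) (.void 87 ⟨0, 0, 0, 100000, 0, 0, 0, 0, 0, ⟨0, 0⟩, 0⟩ 0 0)))),
    by decide +kernel⟩

def covers24 : cell.Covers table row24.1 :=
  ⟨(.cut .d 0 (.cut .v 16777216 (.cut .v 8388608 (.void 2 ⟨0, 0, 100000, 0, 0, 0, 0, 0, 0, ⟨0, 0⟩, 0⟩ 0 0) (.cut .d (-8388608) (.void 3 ⟨100000, 0, 0, 0, 0, 0, 0, 0, 0, ⟨0, 0⟩, 0⟩ 0 0) (.cut .d (-4194304) (.void 3 ⟨100000, 0, 0, 0, 0, 0, 0, 0, 0, ⟨0, 0⟩, 0⟩ 0 0) (.cut .d (-2097152) (.void 3 ⟨100000, 0, 0, 0, 0, 0, 0, 0, 0, ⟨0, 0⟩, 0⟩ 0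 0) (.cut .d (-1048576) (.void 3 ⟨76993, 0, 23007, 0, 0, 0, 0, 0, 0, ⟨0, 0⟩, 0⟩ 0 0) (.cut .d (-524288) (.void 3 ⟨0, 0, 0, 0, 0, 100000, 0, 0, 0, ⟨0, 0⟩, 0⟩ 0 0) (.cut .d (-262144) (.void 3 ⟨0, 0, 0, 0, 0, 100000, 0, 0, 0, ⟨0, 0⟩, 0⟩ 0 0) (.cut .d (-131072) (.void 3 ⟨0, 0, 0, 0, 0, 100000, 0, 0, 0, ⟨0, 0⟩, 0⟩ 0 0) (.cut .v 12582912 (.pos 6 .mm ⟨0, 0, 0, 0, 0, 1369572995, 0, 0, 0, ⟨0, 0⟩, 0⟩ 0 0) (.cut .d (-65536) (.void 7 ⟨0, 0, 0, 0, 0, 100000, 0, 0, 0, ⟨0, 0⟩, 0⟩ 0 0) (.cut .s 14942208 (.pos 7 .mm ⟨0, 0, 0, 0, 0, 2003220077, 0, 0, 0, ⟨0, 0⟩, 0⟩ 0 0) (.pos 7 .mm ⟨0, 0, 0, 0, 0, 2192378141, 0, 0, 0, ⟨0, 0⟩, 0⟩ 0 0)))))))))))) (.cut .v 268435456 (.cut .v 67108864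 (.cut .v 33554432 (.cut .d (-8388608) (.void 26 ⟨100000, 0, 0, 0, 0, 0, 0, 0, 0, ⟨0, 0⟩, 0⟩ 0 0) (.cut .d (-4194304) (.void 26 ⟨100000, 0, 0, 0, 0, 0, 0, 0, 0, ⟨0, 0⟩, 0⟩ 0 0) (.cut .v 25165824 (.cut .d (-2097152) (.void 27 ⟨100000, 0, 0, 0, 0, 0, 0, 0, 0, ⟨0, 0⟩, 0⟩ 0 0) (.cut .v 20971520 (.cut .d (-1048576) (.void 29 ⟨100000, 0, 0, 0, 0, 0, 0, 0, 0, ⟨0, 0⟩, 0⟩ 0 0) (.cut .v 18874368 (.cut .d (-524288) (.void 31 ⟨100000, 0, 0, 0, 0, 0, 0, 0, 0, ⟨0, 0⟩, 0⟩ 0 0) (.cut .d (-262144) (.void 31 ⟨100000, 0, 0, 0, 0, 0, 0, 0, 0, ⟨0, 0⟩, 0⟩ 0 0) (.cut .d (-131072) (.void 31 ⟨100000, 0, 0, 0, 0, 0, 0, 0, 0, ⟨0, 0⟩, 0⟩ 0 0) (.cut .d (-65536) (.void 31 ⟨0, 0, 0, 0, 0, 100000,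 0, 0, 0, ⟨0, 0⟩, 0⟩ 0 0) (.cut .v 17825792 (.cut .v 17301504 (.cut .d (-32768) (.cut .v 17039360 (.pos 37 .mp ⟨285166019, 0, 0, 0, 0, 1755461255, 0, 0, 0, ⟨0, 0⟩, 0⟩ 0 0) (.pos 38 .mp ⟨499020872, 0, 0, 0, 0, 1372089343, 0, 0, 0, ⟨0, 0⟩, 0⟩ 0 0)) (.cut .v 17039360 (.cut .d (-16384) (.cut .l 1159153 (.pos 37 .mp ⟨334524843, 0, 0, 0, 0, 1619204730, 0, 0, 0, ⟨0, 0⟩, 0⟩ 0 0) (.cut .d (-24576) (.pos 37 .mp ⟨306369356, 0, 0, 0, 0, 1632635683, 0, 0, 0, ⟨0, 0⟩, 0⟩ 0 0) (.pos 37 .mp ⟨365419815, 0, 0, 0, 0, 1419133993, 0, 0, 0, ⟨0, 0⟩, 0⟩ 0 0))) (.cut .s 14942208 (.pos 37 .mp ⟨387859655, 0, 0, 0, 0, 1244538031, 0, 0, 0, ⟨0, 0⟩, 0⟩ 0 0) (.cut .s 15007744 (.pos 37 .mp ⟨390844813,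 0, 0, 0, 0, 1346281471, 0, 0, 0, ⟨0, 0⟩, 0⟩ 0 0) (.pos 37 .mp ⟨392720615, 0, 0, 0, 0, 1428930293, 0, 0, 0, ⟨0, 0⟩, 0⟩ 0 0)))) (.pos 38 .mp ⟨1133089730, 0, 0, 0, 0, 0, 0, 0, 0, ⟨0, 0⟩, 0⟩ 0 0))) (.pos 36 .mp ⟨1230991982, 0, 0, 0, 0, 0, 0, 0, 0, ⟨0, 0⟩, 0⟩ 0 0)) (.pos 34 .mp ⟨1293135820, 0, 0, 0, 0, 0, 0, 0, 0, ⟨0, 0⟩, 0⟩ 0 0)))))) (.pos 32 .mp ⟨2107304763, 0, 0, 0, 0, 0, 0, 0, 0, ⟨0, 0⟩, 0⟩ 0 0))) (.void 30 ⟨100000, 0, 0, 0, 0, 0, 0, 0, 0, ⟨0, 0⟩, 0⟩ 0 0))) (.void 28 ⟨100000, 0, 0, 0, 0, 0, 0, 0, 0, ⟨0, 0⟩, 0⟩ 0 0)))) (.void 49 ⟨100000, 0, 0, 0, 0, 0, 0, 0, 0, ⟨0, 0⟩, 0⟩ 0 0)) (.void 62 ⟨100000, 0, 0, 0, 0, 0, 0, 0, 0, ⟨0, 0⟩, 0⟩ 0 0)) (.void 87 ⟨93035, 0, 0, 6965,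 0, 0, 0, 0, 0, ⟨0, 0⟩, 0⟩ 0 0))) (.cut .v 16777216 (.cut .v 8388608 (.cut .v 4194304 (.cut .v 2097152 (.cut .v 1048576 (.cut .v 524288 (.pos 124 .pm ⟨0, 0, 22314226, 0, 0, 0, 0, 0, 0, ⟨0, 0⟩, 0⟩ 0 0) (.pos 125 .pm ⟨0, 0, 26602641, 0, 0, 0, 0, 0, 0, ⟨0, 0⟩, 0⟩ 0 0)) (.pos 101 .pm ⟨0, 0, 33924328, 0, 0, 0, 0, 0, 0, ⟨0, 0⟩, 0⟩ 0 0)) (.pos 78 .pm ⟨0, 0, 44528218, 0, 0, 0, 0, 0, 0, ⟨0, 0⟩, 0⟩ 0 0)) (.pos 5 .pm ⟨0, 0, 91456564, 0, 0, 0, 0, 0, 0, ⟨0, 0⟩, 0⟩ 0 0)) (.pos 3 .pm ⟨0, 0, 0, 0, 0, 0, 0, 0, 0, ⟨0, 0⟩, 0⟩ 0 0)) (.cut .v 268435456 (.cut .d 1113533 (.cut .v 67108864 (.cut .d 556766 (.cut .v 33554432 (.cut .v 25165824 (.cut .v 20971520 (.pos 29 .pp ⟨567787698, 0,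 0, 0, 0, 0, 0, 0, 0, ⟨0, 0⟩, 0⟩ 0 0) (.pos 30 .pp ⟨1187796430, 0, 0, 0, 0, 0, 0, 0, 0, ⟨0, 0⟩, 0⟩ 0 0)) (.pos 28 .pp ⟨1780407342, 0, 0, 0, 0, 0, 0, 0, 0, ⟨0, 0⟩, 0⟩ 0 0)) (.cut .v 50331648 (.cut .d 278383 (.pos 52 .pp ⟨4675686320, 0, 0, 0, 0, 0, 0, 0, 0, ⟨0, 0⟩, 0⟩ 0 0) (.pos 52 .pp ⟨2802401368, 0, 0, 0, 0, 0, 0, 0, 0, ⟨0, 0⟩, 0⟩ 0 0)) (.cut .v 58720256 (.pos 104 .pp ⟨5926511604, 0, 0, 0, 0, 0, 0, 0, 0, ⟨0, 0⟩, 0⟩ 0 0) (.cut .d 278383 (.void 105 ⟨100000, 0, 0, 0, 0, 0, 0, 0, 0, ⟨0, 0⟩, 0⟩ 0 0) (.pos 105 .pp ⟨7037878600, 0, 0, 0, 0, 0, 0, 0, 0, ⟨0, 0⟩, 0⟩ 0 0))))) (.pos 48 .pp ⟨568146605, 0, 0, 0, 0, 0, 0, 0, 0, ⟨0, 0⟩, 0⟩ 0 0)) (.cut .v 134217728 (.cut .v 100663296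 (.cut .v 83886080 (.cut .v 75497472 (.cut .d 556766 (.cut .d 278383 (.void 118 ⟨100000, 0, 0, 0, 0, 0, 0, 0, 0, ⟨0, 0⟩, 0⟩ 0 0) (.cut .d 417574 (.void 118 ⟨100000, 0, 0, 0, 0, 0, 0, 0, 0, ⟨0, 0⟩, 0⟩ 0 0) (.cut .v 71303168 (.pos 120 .pp ⟨7624132647, 0, 0, 0, 0, 0, 0, 0, 0, ⟨0, 0⟩, 0⟩ 0 0) (.cut .v 73400320 (.cut .l 1159153 (.pos 132 .pp ⟨8607705310, 1074113228, 0, 0, 0, 0, 0, 0, 0, ⟨0, 0⟩, 0⟩ 0 0) (.cut .d 487170 (.cut .v 72351744 (.pos 134 .pp ⟨8955980162, 0, 0, 0, 0, 0, 0, 0, 0, ⟨0, 0⟩, 0⟩ 0 0) (.cut .s 14942208 (.void 135 ⟨100000, 0, 0, 0, 0, 0, 0, 0, 0, ⟨0, 0⟩, 0⟩ 0 0) (.cut .s 15007744 (.pos 135 .pp ⟨13851595877, 0, 0, 0, 0, 0, 0, 0, 0, ⟨0, 0⟩, 0⟩ 0 0) (.pos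 135 .pp ⟨9400964337, 1644101209, 0, 0, 0, 0, 0, 0, 0, ⟨0, 0⟩, 0⟩ 0 0)))) (.cut .s 14942208 (.cut .l 1570957 (.pos 132 .pp ⟨8395646733, 1198810705, 0, 0, 0, 0, 0, 0, 0, ⟨0, 0⟩, 0⟩ 0 0) (.cut .v 72351744 (.cut .s 14876672 (.pos 134 .pp ⟨7493895456, 0, 0, 0, 0, 0, 0, 0, 0, ⟨0, 0⟩, 0⟩ 0 0) (.pos 134 .pp ⟨7602166107, 0, 0, 0, 0, 0, 0, 0, 0, ⟨0, 0⟩, 0⟩ 0 0)) (.cut .v 72876032 (.cut .l 1776859 (.pos 142 .pp ⟨8715171999, 2151525588, 0, 0, 0, 0, 0, 0, 0, ⟨0, 0⟩, 0⟩ 0 0) (.cut .s 14876672 (.cut .d 521968 (.void 142 ⟨100000, 0, 0, 0, 0, 0, 0, 0, 0, ⟨0, 0⟩, 0⟩ 0 0) (.cut .d 539367 (.pos 142 .pp ⟨8431904421, 1661026357, 0, 0, 0, 0, 0, 0, 0, ⟨0, 0⟩, 0⟩ 0 0) (.pos 142 .pp ⟨8225892318,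 1554492990, 0, 0, 0, 0, 0, 0, 0, ⟨0, 0⟩, 0⟩ 0 0))) (.cut .l 1879810 (.pos 142 .pp ⟨8755548652, 2052796565, 0, 0, 0, 0, 0, 0, 0, ⟨0, 0⟩, 0⟩ 0 0) (.cut .d 521968 (.cut .s 14909440 (.pos 142 .pp ⟨8632954872, 1550142363, 0, 0, 0, 0, 0, 0, 0, ⟨0, 0⟩, 0⟩ 0 0) (.cut .d 504569 (.void 142 ⟨100000, 0, 0, 0, 0, 0, 0, 0, 0, ⟨0, 0⟩, 0⟩ 0 0) (.cut .s 14925824 (.pos 142 .pp ⟨8632019987, 1535827509, 0, 0, 0, 0, 0, 0, 0, ⟨0, 0⟩, 0⟩ 0 0) (.pos 142 .pp ⟨8647507544, 1514310957, 0, 0, 0, 0, 0, 0, 0, ⟨0, 0⟩, 0⟩ 0 0)))) (.cut .s 14909440 (.cut .s 14893056 (.pos 142 .pp ⟨8415210631, 1675283788, 0, 0, 0, 0, 0, 0, 0, ⟨0, 0⟩, 0⟩ 0 0) (.pos 142 .pp ⟨8437304759, 1651216654, 0, 0, 0, 0, 0,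 0, 0, ⟨0, 0⟩, 0⟩ 0 0)) (.pos 142 .pp ⟨0, 4875772527, 0, 0, 0, 0, 0, 0, 0, ⟨0, 0⟩, 0⟩ 0 0)))))) (.void 143 ⟨35253, 64747, 0, 0, 0, 0, 0, 0, 0, ⟨0, 0⟩, 0⟩ 0 0)))) (.cut .v 72351744 (.pos 134 .pp ⟨7727792134, 0, 0, 0, 0, 0, 0, 0, 0, ⟨0, 0⟩, 0⟩ 0 0) (.cut .s 15007744 (.cut .d 521968 (.cut .v 72876032 (.cut .d 504569 (.cut .s 14974976 (.pos 142 .pp ⟨8860069738, 1654754883, 0, 0, 0, 0, 0, 0, 0, ⟨0, 0⟩, 0⟩ 0 0) (.pos 142 .pp ⟨8886451568, 1612037657, 0, 0, 0, 0, 0, 0, 0, ⟨0, 0⟩, 0⟩ 0 0)) (.pos 142 .pp ⟨8704947448, 1743276405, 0, 0, 0, 0, 0, 0, 0, ⟨0, 0⟩, 0⟩ 0 0)) (.void 143 ⟨35176, 64824, 0, 0, 0, 0, 0, 0, 0, ⟨0, 0⟩, 0⟩ 0 0)) (.void 135 ⟨0, 100000, 0, 0, 0, 0, 0, 0, 0,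 ⟨0, 0⟩, 0⟩ 0 0)) (.pos 135 .pp ⟨8939942492, 1886199563, 0, 0, 0, 0, 0, 0, 0, ⟨0, 0⟩, 0⟩ 0 0)))))) (.void 133 ⟨35099, 64901, 0, 0, 0, 0, 0, 0, 0, ⟨0, 0⟩, 0⟩ 0 0))))) (.cut .v 71303168 (.pos 120 .pp ⟨5816142793, 0, 0, 0, 0, 0, 0, 0, 0, ⟨0, 0⟩, 0⟩ 0 0) (.pos 121 .pp ⟨6354804198, 2213757741, 0, 0, 0, 0, 0, 0, 0, ⟨0, 0⟩, 0⟩ 0 0))) (.void 119 ⟨35008, 64992, 0, 0, 0, 0, 0, 0, 0, ⟨0, 0⟩, 0⟩ 0 0)) (.void 115 ⟨79248, 9264, 0, 11488, 0, 0, 0, 0, 0, ⟨0, 0⟩, 0⟩ 0 0)) (.void 113 ⟨86602, 0, 0, 13398, 0, 0, 0, 0, 0, ⟨0, 0⟩, 0⟩ 0 0)) (.void 107 ⟨0, 0, 0, 100000, 0, 0, 0, 0, 0, ⟨0, 0⟩, 0⟩ 0 0))) (.pos 61 .pp ⟨0, 1929127403, 0, 0, 0, 0, 0, 0, 0, ⟨0, 0⟩, 0⟩ 0 0)) (.void 87 ⟨0, 0,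 0, 100000, 0, 0, 0, 0, 0, ⟨0, 0⟩, 0⟩ 0 0)))),
    by decide +kernel⟩

def covers25 : cell.Covers table row25.1 :=
  ⟨(.cut .d 0 (.cut .v 16777216 (.cut .v 8388608 (.void 2 ⟨0, 0, 100000, 0, 0, 0, 0, 0, 0, ⟨0, 0⟩, 0⟩ 0 0) (.cut .d (-8388608) (.void 3 ⟨100000, 0, 0, 0, 0, 0, 0, 0, 0, ⟨0, 0⟩, 0⟩ 0 0) (.cut .d (-4194304) (.void 3 ⟨100000, 0, 0, 0, 0, 0, 0, 0, 0, ⟨0, 0⟩, 0⟩ 0 0) (.cut .d (-2097152) (.void 3 ⟨100000, 0, 0, 0, 0, 0, 0, 0, 0, ⟨0, 0⟩, 0⟩ 0 0) (.cut .d (-1048576) (.void 3 ⟨100000, 0, 0, 0, 0, 0, 0, 0, 0, ⟨0, 0⟩, 0⟩ 0 0) (.cut .d (-524288) (.void 3 ⟨0, 0, 0, 0, 0, 100000, 0, 0, 0, ⟨0, 0⟩, 0⟩ 0 0) (.cut .d (-262144) (.void 3 ⟨0, 0, 0, 0, 0, 100000, 0, 0, 0,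 ⟨0, 0⟩, 0⟩ 0 0) (.cut .d (-131072) (.void 3 ⟨0, 0, 0, 0, 0, 100000, 0, 0, 0, ⟨0, 0⟩, 0⟩ 0 0) (.cut .d (-65536) (.void 3 ⟨0, 0, 0, 0, 0, 100000, 0, 0, 0, ⟨0, 0⟩, 0⟩ 0 0) (.cut .v 12582912 (.pos 6 .mm ⟨0, 0, 9537453, 0, 0, 1499101974, 0, 0, 0, ⟨0, 0⟩, 0⟩ 0 0) (.cut .s 15171584 (.cut .s 15122432 (.pos 7 .mm ⟨0, 0, 0, 0, 0, 2281350213, 0, 0, 0, ⟨0, 0⟩, 0⟩ 0 0) (.pos 7 .mm ⟨0, 0, 0, 0, 0, 2366140486, 0, 0, 0, ⟨0, 0⟩, 0⟩ 0 0)) (.pos 7 .mm ⟨0, 0, 0, 0, 0, 2529438519, 0, 0, 0, ⟨0, 0⟩, 0⟩ 0 0)))))))))))) (.cut .v 268435456 (.cut .v 67108864 (.cut .v 33554432 (.cut .d (-8388608) (.void 26 ⟨100000, 0, 0, 0, 0, 0, 0, 0, 0, ⟨0, 0⟩, 0⟩ 0 0) (.cut .d (-4194304) (.void 26 ⟨100000,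 0, 0, 0, 0, 0, 0, 0, 0, ⟨0, 0⟩, 0⟩ 0 0) (.cut .v 25165824 (.cut .d (-2097152) (.void 27 ⟨100000, 0, 0, 0, 0, 0, 0, 0, 0, ⟨0, 0⟩, 0⟩ 0 0) (.cut .v 20971520 (.cut .d (-1048576) (.void 29 ⟨100000, 0, 0, 0, 0, 0, 0, 0, 0, ⟨0, 0⟩, 0⟩ 0 0) (.cut .d (-524288) (.void 29 ⟨100000, 0, 0, 0, 0, 0, 0, 0, 0, ⟨0, 0⟩, 0⟩ 0 0) (.cut .d (-262144) (.void 29 ⟨100000, 0, 0, 0, 0, 0, 0, 0, 0, ⟨0, 0⟩, 0⟩ 0 0) (.cut .d (-131072) (.void 29 ⟨100000, 0, 0, 0, 0, 0, 0, 0, 0, ⟨0, 0⟩, 0⟩ 0 0) (.cut .d (-65536) (.void 29 ⟨100000, 0, 0, 0, 0, 0, 0, 0, 0, ⟨0, 0⟩, 0⟩ 0 0) (.cut .v 18874368 (.cut .v 17825792 (.cut .s 15171584 (.cut .v 17301504 (.cut .s 15122432 (.cut .s 15097856 (.cut .d (-32768)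 (.pos 35 .mp ⟨353327637, 0, 0, 0, 0, 1704105213, 0, 0, 0, ⟨0, 0⟩, 0⟩ 0 0) (.cut .s 15085568 (.cut .v 17039360 (.pos 37 .mp ⟨453581715, 0, 0, 0, 0, 1380533929, 0, 0, 0, ⟨0, 0⟩, 0⟩ 0 0) (.pos 38 .mp ⟨1140618424, 0, 0, 0, 0, 0, 0, 0, 0, ⟨0, 0⟩, 0⟩ 0 0)) (.pos 35 .mp ⟨475128285, 0, 0, 0, 0, 1371612490, 0, 0, 0, ⟨0, 0⟩, 0⟩ 0 0))) (.pos 35 .mp ⟨341338888, 0, 0, 0, 0, 1765908792, 0, 0, 0, ⟨0, 0⟩, 0⟩ 0 0)) (.pos 35 .mp ⟨339134437, 0, 0, 0, 0, 1846195241, 0, 0, 0, ⟨0, 0⟩, 0⟩ 0 0)) (.pos 36 .mp ⟨1285360989, 0, 0, 0, 0, 0, 0, 0, 0, ⟨0, 0⟩, 0⟩ 0 0)) (.pos 33 .mp ⟨697406118, 0, 0, 0, 0, 1261611255, 0, 0, 0, ⟨0, 0⟩, 0⟩ 0 0)) (.pos 34 .mp ⟨1398257364, 0, 0, 0, 0, 0, 0, 0, 0,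 ⟨0, 0⟩, 0⟩ 0 0)) (.pos 32 .mp ⟨1526167687, 0, 0, 0, 0, 0, 0, 0, 0, ⟨0, 0⟩, 0⟩ 0 0))))))) (.void 30 ⟨100000, 0, 0, 0, 0, 0, 0, 0, 0, ⟨0, 0⟩, 0⟩ 0 0))) (.void 28 ⟨100000, 0, 0, 0, 0, 0, 0, 0, 0, ⟨0, 0⟩, 0⟩ 0 0)))) (.void 49 ⟨100000, 0, 0, 0, 0, 0, 0, 0, 0, ⟨0, 0⟩, 0⟩ 0 0)) (.void 62 ⟨100000, 0, 0, 0, 0, 0, 0, 0, 0, ⟨0, 0⟩, 0⟩ 0 0)) (.void 87 ⟨92950, 0, 0, 7050, 0, 0, 0, 0, 0, ⟨0, 0⟩, 0⟩ 0 0))) (.cut .v 16777216 (.cut .v 8388608 (.cut .v 4194304 (.cut .v 2097152 (.cut .v 1048576 (.cut .v 524288 (.pos 124 .pm ⟨0, 0, 25932824, 0, 0, 0, 0, 0, 0, ⟨0, 0⟩, 0⟩ 0 0) (.pos 125 .pm ⟨0, 0, 38089260, 0, 0, 0, 0, 0, 0, ⟨0, 0⟩, 0⟩ 0 0)) (.pos 101 .pm ⟨0, 0, 51959807, 0, 0, 0, 0,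 0, 0, ⟨0, 0⟩, 0⟩ 0 0)) (.pos 78 .pm ⟨0, 0, 75952091, 0, 0, 0, 0, 0, 0, ⟨0, 0⟩, 0⟩ 0 0)) (.pos 5 .pm ⟨0, 0, 170711774, 0, 0, 0, 0, 0, 0, ⟨0, 0⟩, 0⟩ 0 0)) (.pos 3 .pm ⟨0, 0, 3636473, 0, 0, 0, 0, 0, 0, ⟨0, 0⟩, 0⟩ 0 0)) (.cut .v 268435456 (.cut .v 67108864 (.cut .d 948278 (.cut .d 474139 (.cut .v 33554432 (.cut .v 25165824 (.pos 27 .pp ⟨901886930, 0, 0, 0, 0, 0, 0, 0, 0, ⟨0, 0⟩, 0⟩ 0 0) (.pos 28 .pp ⟨2024244924, 0, 0, 0, 0, 0, 0, 0, 0, ⟨0, 0⟩, 0⟩ 0 0)) (.cut .d 237069 (.pos 49 .pp ⟨8760098327, 0, 0, 0, 0, 0, 0, 0, 0, ⟨0, 0⟩, 0⟩ 0 0) (.cut .v 50331648 (.pos 52 .pp ⟨3181472156, 0, 0, 0, 0, 0, 0, 0, 0, ⟨0, 0⟩, 0⟩ 0 0) (.pos 53 .pp ⟨7241044769, 0, 0, 0, 0, 0, 0, 0, 0,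 ⟨0, 0⟩, 0⟩ 0 0)))) (.pos 48 .pp ⟨0, 0, 0, 0, 0, 0, 0, 0, 0, ⟨0, 0⟩, 0⟩ 0 0)) (.pos 48 .pp ⟨0, 0, 0, 0, 0, 0, 0, 0, 0, ⟨0, 0⟩, 0⟩ 0 0)) (.cut .v 134217728 (.cut .d 948278 (.cut .v 100663296 (.cut .v 83886080 (.cut .v 75497472 (.cut .d 474139 (.cut .v 71303168 (.pos 120 .pp ⟨9596548785, 0, 0, 0, 0, 0, 0, 0, 0, ⟨0, 0⟩, 0⟩ 0 0) (.cut .v 73400320 (.cut .d 237069 (.void 132 ⟨100000, 0, 0, 0, 0, 0, 0, 0, 0, ⟨0, 0⟩, 0⟩ 0 0) (.pos 132 .pp ⟨10007062970, 1447058766, 0, 0, 0, 0, 0, 0, 0, ⟨0, 0⟩, 0⟩ 0 0)) (.pos 133 .pp ⟨65499262428, 102272897572, 0, 0, 0, 0, 0, 0, 0, ⟨0, 0⟩, 0⟩ 0 0))) (.pos 118 .pp ⟨6773931813, 2466211328, 0, 0, 0, 0, 0, 0, 0, ⟨0, 0⟩, 0⟩ 0 0)) (.void 119 ⟨34822,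 65178, 0, 0, 0, 0, 0, 0, 0, ⟨0, 0⟩, 0⟩ 0 0)) (.void 115 ⟨86507, 0, 0, 13493, 0, 0, 0, 0, 0, ⟨0, 0⟩, 0⟩ 0 0)) (.void 113 ⟨86507, 0, 0, 13493, 0, 0, 0, 0, 0, ⟨0, 0⟩, 0⟩ 0 0)) (.void 106 ⟨0, 0, 0, 100000, 0, 0, 0, 0, 0, ⟨0, 0⟩, 0⟩ 0 0)) (.void 107 ⟨0, 0, 0, 100000, 0, 0, 0, 0, 0, ⟨0, 0⟩, 0⟩ 0 0))) (.void 87 ⟨0, 0, 0, 100000, 0, 0, 0, 0, 0, ⟨0, 0⟩, 0⟩ 0 0)))),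
    by decide +kernel⟩

def covers26 : cell.Covers table row26.1 :=
  ⟨(.cut .d 0 (.cut .v 16777216 (.cut .v 8388608 (.void 2 ⟨0, 0, 100000, 0, 0, 0, 0, 0, 0, ⟨0, 0⟩, 0⟩ 0 0) (.cut .d (-8388608) (.void 3 ⟨100000, 0, 0, 0, 0, 0, 0, 0, 0, ⟨0, 0⟩, 0⟩ 0 0) (.cut .d (-4194304) (.void 3 ⟨100000, 0, 0, 0, 0, 0, 0, 0, 0, ⟨0, 0⟩, 0⟩ 0 0) (.cut .d (-2097152) (.void 3 ⟨100000, 0, 0, 0, 0, 0, 0, 0, 0, ⟨0, 0⟩, 0⟩ 0 0) (.cut .d (-1048576) (.void 3 ⟨100000, 0, 0, 0, 0, 0, 0, 0, 0, ⟨0, 0⟩, 0⟩ 0 0) (.cut .d (-524288) (.void 3 ⟨0, 0, 0, 0, 0, 100000, 0, 0, 0, ⟨0, 0⟩, 0⟩ 0 0) (.cut .d (-262144) (.void 3 ⟨0, 0, 0, 0, 0, 100000, 0, 0, 0, ⟨0, 0⟩, 0⟩ 0 0) (.cut .v 12582912 (.cut .v 10485760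 (.cut .v 9437184 (.pos 69 .mm ⟨0, 0, 72399607, 0, 0, 1674626581, 0, 0, 0, ⟨0, 0⟩, 0⟩ 0 0) (.pos 70 .mm ⟨0, 0, 0, 0, 0, 1927137771, 0, 0, 0, ⟨0, 0⟩, 0⟩ 0 0)) (.pos 9 .mm ⟨0, 0, 0, 0, 0, 2340835953, 0, 0, 0, ⟨0, 0⟩, 0⟩ 0 0)) (.pos 7 .mm ⟨0, 0, 0, 0, 0, 3266443727, 0, 0, 0, ⟨0, 0⟩, 0⟩ 0 0))))))))) (.cut .v 268435456 (.cut .v 67108864 (.cut .v 33554432 (.cut .d (-8388608) (.void 26 ⟨100000, 0, 0, 0, 0, 0, 0, 0, 0, ⟨0, 0⟩, 0⟩ 0 0) (.cut .d (-4194304) (.void 26 ⟨100000, 0, 0, 0, 0, 0, 0, 0, 0, ⟨0, 0⟩, 0⟩ 0 0) (.cut .v 25165824 (.cut .d (-2097152) (.void 27 ⟨100000, 0, 0, 0, 0, 0, 0, 0, 0, ⟨0, 0⟩, 0⟩ 0 0) (.cut .d (-1048576) (.void 27 ⟨100000, 0, 0, 0, 0, 0, 0, 0, 0,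 ⟨0, 0⟩, 0⟩ 0 0) (.cut .v 20971520 (.cut .d (-524288) (.void 29 ⟨100000, 0, 0, 0, 0, 0, 0, 0, 0, ⟨0, 0⟩, 0⟩ 0 0) (.cut .v 18874368 (.cut .d (-262144) (.void 31 ⟨100000, 0, 0, 0, 0, 0, 0, 0, 0, ⟨0, 0⟩, 0⟩ 0 0) (.cut .d (-131072) (.void 31 ⟨100000, 0, 0, 0, 0, 0, 0, 0, 0, ⟨0, 0⟩, 0⟩ 0 0) (.cut .d (-65536) (.void 31 ⟨100000, 0, 0, 0, 0, 0, 0, 0, 0, ⟨0, 0⟩, 0⟩ 0 0) (.pos 31 .mp ⟨783483598, 0, 0, 0, 0, 1148558851, 0, 0, 0, ⟨0, 0⟩, 0⟩ 0 0)))) (.pos 32 .mp ⟨19745999422, 0, 0, 0, 0, 0, 0, 0, 0, ⟨0, 0⟩, 0⟩ 0 0))) (.void 30 ⟨100000, 0, 0, 0, 0, 0, 0, 0, 0, ⟨0, 0⟩, 0⟩ 0 0)))) (.void 28 ⟨100000, 0, 0, 0, 0, 0, 0, 0, 0, ⟨0, 0⟩, 0⟩ 0 0)))) (.void 49 ⟨100000, 0, 0, 0, 0, 0, 0,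 0, 0, ⟨0, 0⟩, 0⟩ 0 0)) (.void 62 ⟨100000, 0, 0, 0, 0, 0, 0, 0, 0, ⟨0, 0⟩, 0⟩ 0 0)) (.void 87 ⟨92838, 0, 0, 7162, 0, 0, 0, 0, 0, ⟨0, 0⟩, 0⟩ 0 0))) (.cut .v 16777216 (.cut .v 8388608 (.cut .v 4194304 (.cut .v 2097152 (.cut .v 1048576 (.cut .v 524288 (.cut .v 262144 (.pos 146 .pm ⟨0, 0, 25080020, 0, 0, 0, 0, 0, 0, ⟨0, 0⟩, 0⟩ 0 0) (.pos 147 .pm ⟨0, 0, 34447983, 0, 0, 0, 0, 0, 0, ⟨0, 0⟩, 0⟩ 0 0)) (.pos 125 .pm ⟨0, 0, 47728877, 0, 0, 0, 0, 0, 0, ⟨0, 0⟩, 0⟩ 0 0)) (.pos 101 .pm ⟨0, 0, 67941351, 0, 0, 0, 0, 0, 0, ⟨0, 0⟩, 0⟩ 0 0)) (.pos 78 .pm ⟨0, 0, 103201301, 0, 0, 0, 0, 0, 0, ⟨0, 0⟩, 0⟩ 0 0)) (.pos 5 .pm ⟨0, 0, 226184990, 0, 0, 0, 0, 0, 0, ⟨0, 0⟩, 0⟩ 0 0)) (.pos 3 .pm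 ⟨0, 0, 9787023, 0, 0, 0, 0, 0, 0, ⟨0, 0⟩, 0⟩ 0 0)) (.cut .v 268435456 (.cut .v 67108864 (.cut .d 828061 (.cut .d 414030 (.cut .v 33554432 (.cut .v 25165824 (.pos 27 .pp ⟨910514564, 0, 0, 0, 0, 0, 0, 0, 0, ⟨0, 0⟩, 0⟩ 0 0) (.pos 28 .pp ⟨2235404177, 0, 0, 0, 0, 0, 0, 0, 0, ⟨0, 0⟩, 0⟩ 0 0)) (.cut .v 50331648 (.cut .d 207015 (.pos 52 .pp ⟨5984096061, 0, 0, 0, 0, 0, 0, 0, 0, ⟨0, 0⟩, 0⟩ 0 0) (.pos 52 .pp ⟨3581399361, 0, 0, 0, 0, 0, 0, 0, 0, ⟨0, 0⟩, 0⟩ 0 0)) (.pos 53 .pp ⟨9318519118, 0, 0, 0, 0, 0, 0, 0, 0, ⟨0, 0⟩, 0⟩ 0 0))) (.pos 48 .pp ⟨0, 0, 0, 0, 0, 0, 0, 0, 0, ⟨0, 0⟩, 0⟩ 0 0)) (.pos 48 .pp ⟨0, 0, 0, 0, 0, 0, 0, 0, 0, ⟨0, 0⟩, 0⟩ 0 0)) (.cut .v 134217728 (.cut .d 828061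 (.cut .v 100663296 (.cut .v 83886080 (.cut .d 414030 (.cut .v 75497472 (.pos 118 .pp ⟨12571823456, 786712597, 0, 0, 0, 0, 0, 0, 0, ⟨0, 0⟩, 0⟩ 0 0) (.void 119 ⟨34790, 65210, 0, 0, 0, 0, 0, 0, 0, ⟨0, 0⟩, 0⟩ 0 0)) (.pos 114 .pp ⟨9211896594, 3700008254, 0, 0, 0, 0, 0, 0, 0, ⟨0, 0⟩, 0⟩ 0 0)) (.void 115 ⟨86348, 0, 0, 13652, 0, 0, 0, 0, 0, ⟨0, 0⟩, 0⟩ 0 0)) (.void 113 ⟨86348, 0, 0, 13652, 0, 0, 0, 0, 0, ⟨0, 0⟩, 0⟩ 0 0)) (.void 106 ⟨0, 0, 0, 100000, 0, 0, 0, 0, 0, ⟨0, 0⟩, 0⟩ 0 0)) (.void 107 ⟨0, 0, 0, 100000, 0, 0, 0, 0, 0, ⟨0, 0⟩, 0⟩ 0 0))) (.void 87 ⟨0, 0, 0, 100000, 0, 0, 0, 0, 0, ⟨0, 0⟩, 0⟩ 0 0)))),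
    by decide +kernel⟩

def covers27 : cell.Covers table row27.1 :=
  ⟨(.cut .d 0 (.cut .v 16777216 (.cut .v 8388608 (.void 2 ⟨0, 0, 100000, 0, 0, 0, 0, 0, 0, ⟨0, 0⟩, 0⟩ 0 0) (.cut .d (-8388608) (.void 3 ⟨100000, 0, 0, 0, 0, 0, 0, 0, 0, ⟨0, 0⟩, 0⟩ 0 0) (.cut .d (-4194304) (.void 3 ⟨100000, 0, 0, 0, 0, 0, 0, 0, 0, ⟨0, 0⟩, 0⟩ 0 0) (.cut .d (-2097152) (.void 3 ⟨100000, 0, 0, 0, 0, 0, 0, 0, 0, ⟨0, 0⟩, 0⟩ 0 0) (.cut .v 12582912 (.cut .d (-1048576) (.void 6 ⟨100000, 0, 0, 0, 0, 0, 0, 0, 0, ⟨0, 0⟩, 0⟩ 0 0) (.cut .v 10485760 (.cut .d (-524288) (.void 8 ⟨70457, 0, 29543, 0, 0, 0, 0, 0, 0, ⟨0, 0⟩, 0⟩ 0 0) (.cut .v 9437184 (.cut .s 15654912 (.pos 69 .mm ⟨0, 0, 89724169, 0,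 0, 2096800899, 0, 0, 0, ⟨0, 0⟩, 0⟩ 0 0) (.cut .d (-262144) (.void 69 ⟨0, 0, 0, 0, 0, 100000, 0, 0, 0, ⟨0, 0⟩, 0⟩ 0 0) (.pos 69 .mm ⟨0, 0, 130324836, 0, 0, 2135541162, 0, 0, 0, ⟨0, 0⟩, 0⟩ 0 0))) (.pos 70 .mm ⟨0, 0, 0, 0, 0, 2788732199, 0, 0, 0, ⟨0, 0⟩, 0⟩ 0 0))) (.pos 9 .mm ⟨0, 0, 0, 0, 0, 4085550176, 0, 0, 0, ⟨0, 0⟩, 0⟩ 0 0))) (.pos 7 .mm ⟨0, 0, 0, 0, 0, 7420349014, 0, 0, 0, ⟨0, 0⟩, 0⟩ 0 0)))))) (.cut .v 268435456 (.cut .v 67108864 (.cut .v 33554432 (.cut .d (-8388608) (.void 26 ⟨100000, 0, 0, 0, 0, 0, 0, 0, 0, ⟨0, 0⟩, 0⟩ 0 0) (.cut .d (-4194304) (.void 26 ⟨100000, 0, 0, 0, 0, 0, 0, 0, 0, ⟨0, 0⟩, 0⟩ 0 0) (.cut .d (-2097152) (.void 26 ⟨100000, 0, 0, 0, 0, 0, 0,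 0, 0, ⟨0, 0⟩, 0⟩ 0 0) (.cut .v 25165824 (.pos 27 .mp ⟨801138651, 0, 0, 0, 0, 10297972600, 0, 0, 0, ⟨0, 0⟩, 0⟩ 0 0) (.void 28 ⟨100000, 0, 0, 0, 0, 0, 0, 0, 0, ⟨0, 0⟩, 0⟩ 0 0))))) (.void 49 ⟨100000, 0, 0, 0, 0, 0, 0, 0, 0, ⟨0, 0⟩, 0⟩ 0 0)) (.void 62 ⟨100000, 0, 0, 0, 0, 0, 0, 0, 0, ⟨0, 0⟩, 0⟩ 0 0)) (.void 87 ⟨132695, 0, 0, 9329, 0, 0, 0, 0, 0, ⟨0, 0⟩, 0⟩ 0 0))) (.cut .v 16777216 (.cut .v 8388608 (.cut .v 4194304 (.cut .v 2097152 (.cut .v 1048576 (.cut .v 524288 (.cut .v 262144 (.pos 146 .pm ⟨0, 0, 29551898, 0, 0, 0, 0, 0, 0, ⟨0, 0⟩, 0⟩ 0 0) (.pos 147 .pm ⟨0, 0, 47767010, 0, 0, 0, 0, 0, 0, ⟨0, 0⟩, 0⟩ 0 0)) (.pos 125 .pm ⟨0, 0, 69574376, 0, 0, 0, 0, 0, 0, ⟨0, 0⟩, 0⟩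 0 0)) (.pos 101 .pm ⟨0, 0, 104113409, 0, 0, 0, 0, 0, 0, ⟨0, 0⟩, 0⟩ 0 0)) (.pos 78 .pm ⟨0, 0, 172151910, 0, 0, 0, 0, 0, 0, ⟨0, 0⟩, 0⟩ 0 0)) (.pos 5 .pm ⟨0, 0, 380106566, 0, 0, 0, 0, 0, 0, ⟨0, 0⟩, 0⟩ 0 0)) (.pos 3 .pm ⟨0, 0, 44940237, 0, 0, 0, 0, 0, 0, ⟨0, 0⟩, 0⟩ 0 0)) (.cut .v 268435456 (.cut .v 67108864 (.cut .d 672505 (.cut .d 336252 (.cut .l 1159153 (.cut .v 33554432 (.cut .v 25165824 (.pos 27 .pp ⟨801138651, 0, 0, 0, 0, 0, 0, 0, 0, ⟨0, 0⟩, 0⟩ 0 0) (.pos 28 .pp ⟨2618899952, 0, 0, 0, 0, 0, 0, 0, 0, ⟨0, 0⟩, 0⟩ 0 0)) (.cut .v 50331648 (.pos 52 .pp ⟨5318347410, 0, 0, 0, 0, 0, 0, 0, 0, ⟨0, 0⟩, 0⟩ 0 0) (.pos 53 .pp ⟨10827533256, 0, 0, 0, 0, 0, 0, 0, 0, ⟨0, 0⟩, 0⟩ 0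 0))) (.pos 48 .pp ⟨2850352444, 0, 0, 0, 0, 0, 0, 0, 0, ⟨0, 0⟩, 0⟩ 0 0)) (.pos 48 .pp ⟨0, 0, 0, 0, 0, 0, 0, 0, 0, ⟨0, 0⟩, 0⟩ 0 0)) (.pos 48 .pp ⟨0, 0, 0, 0, 0, 0, 0, 0, 0, ⟨0, 0⟩, 0⟩ 0 0)) (.cut .v 134217728 (.cut .d 672505 (.cut .v 100663296 (.cut .d 336252 (.cut .v 83886080 (.pos 114 .pp ⟨17539025462, 1125869641, 0, 0, 0, 0, 0, 0, 0, ⟨0, 0⟩, 0⟩ 0 0) (.void 115 ⟨86333, 0, 0, 13667, 0, 0, 0, 0, 0, ⟨0, 0⟩, 0⟩ 0 0)) (.pos 112 .pp ⟨12150631009, 6875986842, 0, 0, 0, 0, 0, 0, 0, ⟨0, 0⟩, 0⟩ 0 0)) (.void 113 ⟨86216, 0, 0, 13784, 0, 0, 0, 0, 0, ⟨0, 0⟩, 0⟩ 0 0)) (.void 106 ⟨0, 0, 0, 100000, 0, 0, 0, 0, 0, ⟨0, 0⟩, 0⟩ 0 0)) (.void 107 ⟨0, 0, 0, 100000, 0, 0, 0, 0, 0, ⟨0, 0⟩,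 0⟩ 0 0))) (.void 87 ⟨0, 0, 0, 100000, 0, 0, 0, 0, 0, ⟨0, 0⟩, 0⟩ 0 0)))),
    by decide +kernel⟩

def covers28 : cell.Covers table row28.1 :=
  ⟨(.cut .d 0 (.cut .v 16777216 (.cut .v 8388608 (.void 2 ⟨0, 0, 100000, 0, 0, 0, 0, 0, 0, ⟨0, 0⟩, 0⟩ 0 0) (.cut .d (-8388608) (.void 3 ⟨100000, 0, 0, 0, 0, 0, 0, 0, 0, ⟨0, 0⟩, 0⟩ 0 0) (.cut .d (-4194304) (.void 3 ⟨100000, 0, 0, 0, 0, 0, 0, 0, 0, ⟨0, 0⟩, 0⟩ 0 0) (.cut .d (-2097152) (.void 3 ⟨100000, 0, 0, 0, 0, 0, 0, 0, 0, ⟨0, 0⟩, 0⟩ 0 0) (.cut .v 12582912 (.cut .d (-1048576) (.void 6 ⟨100000, 0, 0, 0, 0, 0, 0, 0, 0, ⟨0, 0⟩, 0⟩ 0 0) (.cut .v 10485760 (.cut .d (-524288) (.void 8 ⟨100000, 0, 0, 0, 0, 0, 0, 0, 0, ⟨0, 0⟩, 0⟩ 0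 0) (.cut .v 9437184 (.cut .v 8912896 (.void 79 ⟨0, 0, 100000, 0, 0, 0, 0, 0, 0, ⟨0, 0⟩, 0⟩ 0 0) (.cut .s 15876096 (.pos 80 .mm ⟨0, 0, 152235466, 0, 0, 2698726008, 0, 0, 0, ⟨0, 0⟩, 0⟩ 0 0) (.pos 80 .mm ⟨0, 0, 193517922, 0, 0, 3081817317, 0, 0, 0, ⟨0, 0⟩, 0⟩ 0 0))) (.pos 70 .mm ⟨0, 0, 0, 0, 0, 3622614517, 0, 0, 0, ⟨0, 0⟩, 0⟩ 0 0))) (.pos 9 .mm ⟨0, 0, 0, 0, 0, 5342468043, 0, 0, 0, ⟨0, 0⟩, 0⟩ 0 0))) (.pos 7 .mm ⟨0, 0, 0, 0, 0, 9781275238, 0, 0, 0, ⟨0, 0⟩, 0⟩ 0 0)))))) (.cut .d (-8388608) (.void 86 ⟨100000, 0, 0, 0, 0, 0, 0, 0, 0, ⟨0, 0⟩, 0⟩ 0 0) (.cut .v 268435456 (.cut .v 67108864 (.cut .v 33554432 (.cut .d (-4194304) (.void 26 ⟨100000, 0, 0, 0, 0, 0, 0, 0, 0, ⟨0,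 0⟩, 0⟩ 0 0) (.cut .d (-2097152) (.void 26 ⟨100000, 0, 0, 0, 0, 0, 0, 0, 0, ⟨0, 0⟩, 0⟩ 0 0) (.pos 26 .mp ⟨1631020040, 0, 0, 0, 0, 18352576083, 0, 0, 0, ⟨0, 0⟩, 0⟩ 0 0))) (.void 49 ⟨100000, 0, 0, 0, 0, 0, 0, 0, 0, ⟨0, 0⟩, 0⟩ 0 0)) (.void 62 ⟨100000, 0, 0, 0, 0, 0, 0, 0, 0, ⟨0, 0⟩, 0⟩ 0 0)) (.void 87 ⟨89364, 0, 0, 10636, 0, 0, 0, 0, 0, ⟨0, 0⟩, 0⟩ 0 0)))) (.cut .v 16777216 (.cut .v 8388608 (.cut .v 4194304 (.cut .v 2097152 (.cut .v 1048576 (.cut .v 524288 (.cut .v 262144 (.cut .v 131072 (.pos 148 .pm ⟨0, 0, 28705313, 0, 0, 0, 0, 0, 0, ⟨0, 0⟩, 0⟩ 0 0) (.pos 149 .pm ⟨0, 0, 45749299, 0, 0, 0, 0, 0, 0, ⟨0, 0⟩, 0⟩ 0 0)) (.pos 147 .pm ⟨0, 0, 67289535, 0, 0, 0, 0, 0, 0, ⟨0,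 0⟩, 0⟩ 0 0)) (.pos 125 .pm ⟨0, 0, 102678158, 0, 0, 0, 0, 0, 0, ⟨0, 0⟩, 0⟩ 0 0)) (.pos 101 .pm ⟨0, 0, 165306648, 0, 0, 0, 0, 0, 0, ⟨0, 0⟩, 0⟩ 0 0)) (.pos 78 .pm ⟨0, 0, 290665798, 0, 0, 0, 0, 0, 0, ⟨0, 0⟩, 0⟩ 0 0)) (.pos 5 .pm ⟨0, 0, 641026649, 0, 0, 0, 0, 0, 0, ⟨0, 0⟩, 0⟩ 0 0)) (.pos 3 .pm ⟨0, 0, 114565428, 0, 0, 0, 0, 0, 0, ⟨0, 0⟩, 0⟩ 0 0)) (.cut .v 268435456 (.cut .v 67108864 (.cut .d 531367 (.cut .v 33554432 (.pos 26 .pp ⟨1600421589, 0, 0, 0, 0, 0, 0, 0, 0, ⟨0, 0⟩, 0⟩ 0 0) (.cut .d 265683 (.cut .v 50331648 (.pos 52 .pp ⟨6216975305, 0, 0, 0, 0, 0, 0, 0, 0, ⟨0, 0⟩, 0⟩ 0 0) (.pos 53 .pp ⟨12833150094, 0, 0, 0, 0, 0, 0, 0, 0, ⟨0, 0⟩, 0⟩ 0 0)) (.pos 49 .pp ⟨0, 0, 0,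 0, 0, 0, 0, 0, 0, ⟨0, 0⟩, 0⟩ 0 0))) (.pos 48 .pp ⟨0, 0, 0, 0, 0, 0, 0, 0, 0, ⟨0, 0⟩, 0⟩ 0 0)) (.cut .v 134217728 (.cut .d 531367 (.cut .v 100663296 (.cut .d 265683 (.cut .v 83886080 (.pos 114 .pp ⟨20981169858, 2007123456, 0, 0, 0, 0, 0, 0, 0, ⟨0, 0⟩, 0⟩ 0 0) (.void 115 ⟨86211, 0, 0, 13789, 0, 0, 0, 0, 0, ⟨0, 0⟩, 0⟩ 0 0)) (.pos 112 .pp ⟨14820996080, 8739328667, 0, 0, 0, 0, 0, 0, 0, ⟨0, 0⟩, 0⟩ 0 0)) (.void 113 ⟨86117, 0, 0, 13883, 0, 0, 0, 0, 0, ⟨0, 0⟩, 0⟩ 0 0)) (.void 106 ⟨0, 0, 0, 100000, 0, 0, 0, 0, 0, ⟨0, 0⟩, 0⟩ 0 0)) (.void 107 ⟨0, 0, 0, 100000, 0, 0, 0, 0, 0, ⟨0, 0⟩, 0⟩ 0 0))) (.void 87 ⟨0, 0, 0, 100000, 0, 0, 0, 0, 0, ⟨0, 0⟩, 0⟩ 0 0)))),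
    by decide +kernel⟩

def covers29 : cell.Covers table row29.1 :=
  ⟨(.cut .d 0 (.cut .v 16777216 (.cut .v 8388608 (.void 2 ⟨0, 0, 100000, 0, 0, 0, 0, 0, 0, ⟨0, 0⟩, 0⟩ 0 0) (.cut .d (-8388608) (.void 3 ⟨100000, 0, 0, 0, 0, 0, 0, 0, 0, ⟨0, 0⟩, 0⟩ 0 0) (.cut .d (-4194304) (.void 3 ⟨100000, 0, 0, 0, 0, 0, 0, 0, 0, ⟨0, 0⟩, 0⟩ 0 0) (.cut .d (-2097152) (.void 3 ⟨100000, 0, 0, 0, 0, 0, 0, 0, 0, ⟨0, 0⟩, 0⟩ 0 0) (.cut .v 12582912 (.cut .d (-1048576) (.void 6 ⟨100000, 0, 0, 0, 0, 0, 0, 0, 0, ⟨0, 0⟩, 0⟩ 0 0) (.cut .v 10485760 (.cut .d (-524288) (.void 8 ⟨100000, 0, 0, 0, 0, 0, 0, 0, 0, ⟨0, 0⟩, 0⟩ 0 0) (.cut .v 9437184 (.cut .v 8912896 (.void 79 ⟨0, 0, 100000, 0, 0, 0, 0,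 0, 0, ⟨0, 0⟩, 0⟩ 0 0) (.cut .d (-262144) (.void 80 ⟨0, 0, 0, 0, 0, 100000, 0, 0, 0, ⟨0, 0⟩, 0⟩ 0 0) (.cut .s 16056320 (.pos 80 .mm ⟨0, 0, 246798830, 0, 0, 3080453864, 0, 0, 0, ⟨0, 0⟩, 0⟩ 0 0) (.pos 80 .mm ⟨0, 0, 306633088, 0, 0, 3541985905, 0, 0, 0, ⟨0, 0⟩, 0⟩ 0 0)))) (.pos 70 .mm ⟨0, 0, 0, 0, 0, 4775757381, 0, 0, 0, ⟨0, 0⟩, 0⟩ 0 0))) (.pos 9 .mm ⟨0, 0, 0, 0, 0, 7067334612, 0, 0, 0, ⟨0, 0⟩, 0⟩ 0 0))) (.pos 7 .mm ⟨0, 0, 0, 0, 0, 12990705633, 0, 0, 0, ⟨0, 0⟩, 0⟩ 0 0)))))) (.cut .v 268435456 (.cut .v 67108864 (.cut .v 33554432 (.cut .d (-8388608) (.void 26 ⟨100000, 0, 0, 0, 0, 0, 0, 0, 0, ⟨0, 0⟩, 0⟩ 0 0) (.cut .d (-4194304) (.void 26 ⟨100000, 0, 0, 0, 0, 0, 0, 0,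 0, ⟨0, 0⟩, 0⟩ 0 0) (.pos 26 .mp ⟨1268765575, 0, 0, 0, 0, 38992577364, 0, 0, 0, ⟨0, 0⟩, 0⟩ 0 0))) (.void 49 ⟨100000, 0, 0, 0, 0, 0, 0, 0, 0, ⟨0, 0⟩, 0⟩ 0 0)) (.void 62 ⟨100000, 0, 0, 0, 0, 0, 0, 0, 0, ⟨0, 0⟩, 0⟩ 0 0)) (.void 87 ⟨92579, 0, 0, 7421, 0, 0, 0, 0, 0, ⟨0, 0⟩, 0⟩ 0 0))) (.cut .v 16777216 (.cut .v 8388608 (.cut .v 4194304 (.cut .v 2097152 (.cut .v 1048576 (.cut .v 524288 (.cut .v 262144 (.cut .v 131072 (.pos 148 .pm ⟨0, 0, 34578656, 0, 0, 0, 0, 0, 0, ⟨0, 0⟩, 0⟩ 0 0) (.pos 149 .pm ⟨0, 0, 61174378, 0, 0, 0, 0, 0, 0, ⟨0, 0⟩, 0⟩ 0 0)) (.pos 147 .pm ⟨0, 0, 94199088, 0, 0, 0, 0, 0, 0, ⟨0, 0⟩, 0⟩ 0 0)) (.pos 125 .pm ⟨0, 0, 152168553, 0, 0, 0, 0, 0, 0, ⟨0, 0⟩,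 0⟩ 0 0)) (.pos 101 .pm ⟨0, 0, 257111892, 0, 0, 0, 0, 0, 0, ⟨0, 0⟩, 0⟩ 0 0)) (.pos 78 .pm ⟨0, 0, 461904954, 0, 0, 0, 0, 0, 0, ⟨0, 0⟩, 0⟩ 0 0)) (.pos 5 .pm ⟨0, 0, 985739279, 0, 0, 0, 0, 0, 0, ⟨0, 0⟩, 0⟩ 0 0)) (.pos 3 .pm ⟨0, 0, 213214398, 0, 0, 0, 0, 0, 0, ⟨0, 0⟩, 0⟩ 0 0)) (.cut .v 268435456 (.cut .v 67108864 (.cut .v 33554432 (.pos 26 .pp ⟨1268765575, 0, 0, 0, 0, 0, 0, 0, 0, ⟨0, 0⟩, 0⟩ 0 0) (.cut .d 421582 (.cut .d 210791 (.cut .v 50331648 (.pos 52 .pp ⟨7377566747, 0, 0, 0, 0, 0, 0, 0, 0, ⟨0, 0⟩, 0⟩ 0 0) (.pos 53 .pp ⟨15492115267, 0, 0, 0, 0, 0, 0, 0, 0, ⟨0, 0⟩, 0⟩ 0 0)) (.pos 49 .pp ⟨0, 0, 0, 0, 0, 0, 0, 0, 0, ⟨0, 0⟩, 0⟩ 0 0)) (.pos 49 .pp ⟨0, 0, 0, 0, 0, 0, 0,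 0, 0, ⟨0, 0⟩, 0⟩ 0 0))) (.cut .v 134217728 (.cut .d 421582 (.cut .d 210791 (.cut .v 100663296 (.cut .v 83886080 (.pos 114 .pp ⟨25613418765, 3347871321, 0, 0, 0, 0, 0, 0, 0, ⟨0, 0⟩, 0⟩ 0 0) (.void 115 ⟨86108, 0, 0, 13892, 0, 0, 0, 0, 0, ⟨0, 0⟩, 0⟩ 0 0)) (.void 113 ⟨86108, 0, 0, 13892, 0, 0, 0, 0, 0, ⟨0, 0⟩, 0⟩ 0 0)) (.pos 106 .pp ⟨22033278401, 20172641725, 0, 0, 0, 0, 0, 0, 0, ⟨0, 0⟩, 0⟩ 0 0)) (.void 106 ⟨0, 0, 0, 100000, 0, 0, 0, 0, 0, ⟨0, 0⟩, 0⟩ 0 0)) (.void 107 ⟨0, 0, 0, 100000, 0, 0, 0, 0, 0, ⟨0, 0⟩, 0⟩ 0 0))) (.void 87 ⟨0, 0, 0, 100000, 0, 0, 0, 0, 0, ⟨0, 0⟩, 0⟩ 0 0)))),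
    by decide +kernel⟩

def covers30 : cell.Covers table row30.1 :=
  ⟨(.cut .d 0 (.cut .v 16777216 (.cut .v 8388608 (.pos 2 .mm ⟨0, 0, 167772160000, 0, 0, 0, 0, 0, 0, ⟨0, 0⟩, 0⟩ 0 0) (.cut .d (-8388608) (.void 3 ⟨100000, 0, 0, 0, 0, 0, 0, 0, 0, ⟨0, 0⟩, 0⟩ 0 0) (.cut .d (-4194304) (.void 3 ⟨100000, 0, 0, 0, 0, 0, 0, 0, 0, ⟨0, 0⟩, 0⟩ 0 0) (.cut .d (-2097152) (.void 3 ⟨100000, 0, 0, 0, 0, 0, 0, 0, 0, ⟨0, 0⟩, 0⟩ 0 0) (.cut .v 12582912 (.cut .d (-1048576) (.void 6 ⟨100000, 0, 0, 0, 0, 0, 0, 0, 0, ⟨0, 0⟩, 0⟩ 0 0) (.cut .v 10485760 (.cut .v 9437184 (.cut .d (-524288) (.void 69 ⟨100000, 0, 0, 0, 0, 0, 0, 0, 0, ⟨0, 0⟩, 0⟩ 0 0) (.cut .v 8912896 (.void 79 ⟨0, 0, 100000,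 0, 0, 0, 0, 0, 0, ⟨0, 0⟩, 0⟩ 0 0) (.cut .d (-262144) (.void 80 ⟨100000, 0, 0, 0, 0, 0, 0, 0, 0, ⟨0, 0⟩, 0⟩ 0 0) (.cut .s 16203776 (.pos 80 .mm ⟨0, 0, 385472767, 0, 0, 4012692933, 0, 0, 0, ⟨0, 0⟩, 0⟩ 0 0) (.cut .d (-131072) (.void 80 ⟨0, 0, 0, 0, 0, 100000, 0, 0, 0, ⟨0, 0⟩, 0⟩ 0 0) (.pos 80 .mm ⟨0, 0, 475673940, 0, 0, 4322748595, 0, 0, 0, ⟨0, 0⟩, 0⟩ 0 0)))))) (.pos 70 .mm ⟨0, 0, 0, 0, 0, 7799895382, 0, 0, 0, ⟨0, 0⟩, 0⟩ 0 0)) (.pos 9 .mm ⟨0, 0, 0, 0, 0, 9411241656, 0, 0, 0, ⟨0, 0⟩, 0⟩ 0 0))) (.pos 7 .mm ⟨0, 0, 0, 0, 0, 17279582083, 0, 0, 0, ⟨0, 0⟩, 0⟩ 0 0)))))) (.cut .v 268435456 (.cut .v 67108864 (.cut .v 33554432 (.cut .d (-8388608) (.void 26 ⟨100000, 0, 0, 0,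 0, 0, 0, 0, 0, ⟨0, 0⟩, 0⟩ 0 0) (.pos 26 .mp ⟨693568305, 0, 0, 0, 0, 89202927249, 0, 0, 0, ⟨0, 0⟩, 0⟩ 0 0)) (.void 49 ⟨100000, 0, 0, 0, 0, 0, 0, 0, 0, ⟨0, 0⟩, 0⟩ 0 0)) (.void 62 ⟨100000, 0, 0, 0, 0, 0, 0, 0, 0, ⟨0, 0⟩, 0⟩ 0 0)) (.void 87 ⟨92523, 0, 0, 7477, 0, 0, 0, 0, 0, ⟨0, 0⟩, 0⟩ 0 0))) (.cut .v 16777216 (.cut .v 8388608 (.cut .v 4194304 (.cut .v 2097152 (.cut .v 1048576 (.cut .v 524288 (.cut .v 262144 (.cut .v 131072 (.pos 148 .pm ⟨0, 0, 43727128, 0, 0, 0, 0, 0, 0, ⟨0, 0⟩, 0⟩ 0 0) (.pos 149 .pm ⟨0, 0, 83289558, 0, 0, 0, 0, 0, 0, ⟨0, 0⟩, 0⟩ 0 0)) (.pos 147 .pm ⟨0, 0, 134866348, 0, 0, 0, 0, 0, 0, ⟨0, 0⟩, 0⟩ 0 0)) (.pos 125 .pm ⟨0, 0, 227205819, 0, 0, 0, 0, 0,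 0, ⟨0, 0⟩, 0⟩ 0 0)) (.pos 101 .pm ⟨0, 0, 395388260, 0, 0, 0, 0, 0, 0, ⟨0, 0⟩, 0⟩ 0 0)) (.pos 78 .pm ⟨0, 0, 706867667, 0, 0, 0, 0, 0, 0, ⟨0, 0⟩, 0⟩ 0 0)) (.pos 5 .pm ⟨0, 0, 1502998420, 0, 0, 0, 0, 0, 0, ⟨0, 0⟩, 0⟩ 0 0)) (.cut .v 12582912 (.pos 6 .pm ⟨0, 0, 411782766, 0, 0, 0, 0, 0, 0, ⟨0, 0⟩, 0⟩ 0 0) (.pos 7 .pm ⟨0, 0, 0, 0, 0, 0, 0, 0, 0, ⟨0, 0⟩, 0⟩ 0 0))) (.cut .v 268435456 (.cut .v 67108864 (.cut .v 33554432 (.pos 26 .pp ⟨693568305, 0, 0, 0, 0, 0, 0, 0, 0, ⟨0, 0⟩, 0⟩ 0 0) (.cut .v 50331648 (.pos 52 .pp ⟨5880699637, 0, 0, 0, 0, 0, 0, 0, 0, ⟨0, 0⟩, 0⟩ 0 0) (.cut .d 332139 (.pos 53 .pp ⟨14716843960, 0, 0, 0, 0, 0, 0, 0, 0, ⟨0, 0⟩, 0⟩ 0 0) (.void 53 ⟨0, 100000, 0,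 0, 0, 0, 0, 0, 0, ⟨0, 0⟩, 0⟩ 0 0)))) (.cut .v 134217728 (.cut .v 100663296 (.cut .d 332139 (.cut .d 166069 (.pos 112 .pp ⟨43440594440, 10482311299, 0, 0, 0, 0, 0, 0, 0, ⟨0, 0⟩, 0⟩ 0 0) (.pos 112 .pp ⟨23145560203, 15221595316, 0, 0, 0, 0, 0, 0, 0, ⟨0, 0⟩, 0⟩ 0 0)) (.void 112 ⟨0, 0, 0, 100000, 0, 0, 0, 0, 0, ⟨0, 0⟩, 0⟩ 0 0)) (.void 113 ⟨85850, 0, 0, 14150, 0, 0, 0, 0, 0, ⟨0, 0⟩, 0⟩ 0 0)) (.void 107 ⟨0, 0, 0, 100000, 0, 0, 0, 0, 0, ⟨0, 0⟩, 0⟩ 0 0))) (.void 87 ⟨0, 0, 0, 100000, 0, 0, 0, 0, 0, ⟨0, 0⟩, 0⟩ 0 0)))),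
    by decide +kernel⟩

def covers31 : cell.Covers table row31.1 :=
  ⟨(.cut .d 0 (.cut .v 16777216 (.cut .v 8388608 (.pos 2 .mm ⟨0, 0, 167772160000, 0, 0, 0, 0, 0, 0, ⟨0, 0⟩, 0⟩ 0 0) (.cut .d (-8388608) (.void 3 ⟨100000, 0, 0, 0, 0, 0, 0, 0, 0, ⟨0, 0⟩, 0⟩ 0 0) (.cut .d (-4194304) (.void 3 ⟨100000, 0, 0, 0, 0, 0, 0, 0, 0, ⟨0, 0⟩, 0⟩ 0 0) (.cut .d (-2097152) (.void 3 ⟨100000, 0, 0, 0, 0, 0, 0, 0, 0, ⟨0, 0⟩, 0⟩ 0 0) (.cut .v 12582912 (.cut .d (-1048576) (.void 6 ⟨100000, 0, 0, 0, 0, 0, 0, 0, 0, ⟨0, 0⟩, 0⟩ 0 0) (.cut .d (-524288) (.void 6 ⟨100000, 0, 0, 0, 0, 0, 0, 0, 0, ⟨0, 0⟩, 0⟩ 0 0) (.cut .v 10485760 (.cut .d (-262144) (.void 8 ⟨100000, 0, 0, 0, 0, 0, 0, 0, 0,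 ⟨0, 0⟩, 0⟩ 0 0) (.cut .v 9437184 (.pos 69 .mm ⟨0, 0, 588287717, 0, 0, 4550805512, 0, 0, 0, ⟨0, 0⟩, 0⟩ 0 0) (.pos 70 .mm ⟨0, 0, 0, 0, 0, 5606692596, 0, 0, 0, ⟨0, 0⟩, 0⟩ 0 0))) (.pos 9 .mm ⟨0, 0, 0, 0, 0, 8454991379, 0, 0, 0, ⟨0, 0⟩, 0⟩ 0 0)))) (.pos 7 .mm ⟨0, 0, 0, 0, 0, 22070054875, 0, 0, 0, ⟨0, 0⟩, 0⟩ 0 0)))))) (.cut .d (-8388608) (.void 86 ⟨100000, 0, 0, 0, 0, 0, 0, 0, 0, ⟨0, 0⟩, 0⟩ 0 0) (.cut .v 268435456 (.cut .v 67108864 (.cut .v 33554432 (.pos 26 .mp ⟨0, 0, 0, 0, 0, 117027075485, 0, 0, 0, ⟨0, 0⟩, 0⟩ 0 0) (.void 49 ⟨100000, 0, 0, 0, 0, 0, 0, 0, 0, ⟨0, 0⟩, 0⟩ 0 0)) (.void 62 ⟨100000, 0, 0, 0, 0, 0, 0, 0, 0, ⟨0, 0⟩, 0⟩ 0 0)) (.void 87 ⟨89131, 0, 0, 10869, 0,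 0, 0, 0, 0, ⟨0, 0⟩, 0⟩ 0 0)))) (.cut .v 16777216 (.cut .v 8388608 (.cut .v 4194304 (.cut .v 2097152 (.cut .v 1048576 (.cut .v 524288 (.cut .v 262144 (.cut .v 131072 (.cut .v 65536 (.pos 150 .pm ⟨0, 0, 36370606, 0, 0, 0, 0, 0, 0, ⟨0, 0⟩, 0⟩ 0 0) (.pos 151 .pm ⟨0, 0, 62277829, 0, 0, 0, 0, 0, 0, ⟨0, 0⟩, 0⟩ 0 0)) (.pos 149 .pm ⟨0, 0, 95047501, 0, 0, 0, 0, 0, 0, ⟨0, 0⟩, 0⟩ 0 0)) (.pos 147 .pm ⟨0, 0, 156083347, 0, 0, 0, 0, 0, 0, ⟨0, 0⟩, 0⟩ 0 0)) (.pos 125 .pm ⟨0, 0, 264611788, 0, 0, 0, 0, 0, 0, ⟨0, 0⟩, 0⟩ 0 0)) (.pos 101 .pm ⟨0, 0, 465097281, 0, 0, 0, 0, 0, 0, ⟨0, 0⟩, 0⟩ 0 0)) (.pos 78 .pm ⟨0, 0, 885909747, 0, 0, 0, 0, 0, 0, ⟨0, 0⟩, 0⟩ 0 0)) (.pos 5 .pm ⟨0, 0, 2185232862,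 0, 0, 0, 0, 0, 0, ⟨0, 0⟩, 0⟩ 0 0)) (.pos 3 .pm ⟨0, 0, 456895499, 0, 0, 0, 0, 0, 0, ⟨0, 0⟩, 0⟩ 0 0)) (.cut .v 268435456 (.cut .v 67108864 (.cut .v 33554432 (.pos 26 .pp ⟨0, 0, 0, 0, 0, 0, 0, 0, 0, ⟨0, 0⟩, 0⟩ 0 0) (.cut .v 50331648 (.pos 52 .pp ⟨7807594174, 0, 0, 0, 0, 0, 0, 0, 0, ⟨0, 0⟩, 0⟩ 0 0) (.cut .v 58720256 (.pos 104 .pp ⟨12981114351, 0, 0, 0, 0, 0, 0, 0, 0, ⟨0, 0⟩, 0⟩ 0 0) (.pos 105 .pp ⟨16194758650, 0, 0, 0, 0, 0, 0, 0, 0, ⟨0, 0⟩, 0⟩ 0 0)))) (.cut .v 134217728 (.cut .v 100663296 (.cut .d 261881 (.cut .d 130940 (.pos 112 .pp ⟨91551324590, 0, 0, 0, 0, 0, 0, 0, 0, ⟨0, 0⟩, 0⟩ 0 0) (.pos 112 .pp ⟨30239892108, 21258512017, 0, 0, 0, 0, 0, 0, 0, ⟨0, 0⟩, 0⟩ 0 0))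 (.void 112 ⟨0, 0, 0, 100000, 0, 0, 0, 0, 0, ⟨0, 0⟩, 0⟩ 0 0)) (.void 113 ⟨85827, 0, 0, 14173, 0, 0, 0, 0, 0, ⟨0, 0⟩, 0⟩ 0 0)) (.void 107 ⟨0, 0, 0, 100000, 0, 0, 0, 0, 0, ⟨0, 0⟩, 0⟩ 0 0))) (.void 87 ⟨0, 0, 0, 100000, 0, 0, 0, 0, 0, ⟨0, 0⟩, 0⟩ 0 0)))),
    by decide +kernel⟩

def covers32 : cell.Covers table row32.1 :=
  ⟨(.cut .d 0 (.cut .v 16777216 (.cut .v 8388608 (.pos 2 .mm ⟨0, 0, 167772160000, 0, 0, 0, 0, 0, 0, ⟨0, 0⟩, 0⟩ 0 0) (.cut .d (-8388608) (.pos 3 .mm ⟨0, 0, 0, 0, 0, 167772160000, 0, 0, 0, ⟨0, 0⟩, 0⟩ 0 0) (.pos 3 .mm ⟨0, 0, 2776943339, 0, 0, 72914129337, 0, 0, 0, ⟨0, 0⟩, 0⟩ 0 0))) (.cut .v 4294967296 (.cut .d (-8388608) (.void 86 ⟨100000, 0, 0, 0, 0,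 0, 0, 0, 0, ⟨0, 0⟩, 0⟩ 0 0) (.cut .v 268435456 (.cut .v 67108864 (.cut .d (-4194304) (.void 48 ⟨100000, 0, 0, 0, 0, 0, 0, 0, 0, ⟨0, 0⟩, 0⟩ 0 0) (.pos 48 .mp ⟨33513312918, 0, 0, 0, 0, 134258847082, 0, 0, 0, ⟨0, 0⟩, 0⟩ 0 0)) (.void 62 ⟨100000, 0, 0, 0, 0, 0, 0, 0, 0, ⟨0, 0⟩, 0⟩ 0 0)) (.void 87 ⟨89082, 0, 0, 10918, 0, 0, 0, 0, 0, ⟨0, 0⟩, 0⟩ 0 0))) (.void 154 ⟨92447, 0, 0, 7553, 0, 0, 0, 0, 0, ⟨0, 0⟩, 0⟩ 0 0))) (.cut .v 16777216 (.cut .v 8388608 (.cut .v 4194304 (.cut .v 2097152 (.cut .v 1048576 (.cut .v 524288 (.cut .v 262144 (.cut .v 131072 (.cut .v 65536 (.pos 150 .pm ⟨0, 0, 44034140, 0, 0, 0, 0, 0, 0, ⟨0, 0⟩, 0⟩ 0 0) (.pos 151 .pm ⟨0, 0, 82523041, 0, 0, 0, 0, 0,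 0, ⟨0, 0⟩, 0⟩ 0 0)) (.pos 149 .pm ⟨0, 0, 133924852, 0, 0, 0, 0, 0, 0, ⟨0, 0⟩, 0⟩ 0 0)) (.pos 147 .pm ⟨0, 0, 222382069, 0, 0, 0, 0, 0, 0, ⟨0, 0⟩, 0⟩ 0 0)) (.pos 125 .pm ⟨0, 0, 363963034, 0, 0, 0, 0, 0, 0, ⟨0, 0⟩, 0⟩ 0 0)) (.pos 101 .pm ⟨0, 0, 653697366, 0, 0, 0, 0, 0, 0, ⟨0, 0⟩, 0⟩ 0 0)) (.pos 78 .pm ⟨0, 0, 1190100829, 0, 0, 0, 0, 0, 0, ⟨0, 0⟩, 0⟩ 0 0)) (.pos 5 .pm ⟨0, 0, 2211946744, 0, 0, 0, 0, 0, 0, ⟨0, 0⟩, 0⟩ 0 0)) (.pos 3 .pm ⟨0, 0, 2152769955, 0, 0, 0, 0, 0, 0, ⟨0, 0⟩, 0⟩ 0 0)) (.cut .v 4294967296 (.cut .v 268435456 (.cut .v 67108864 (.pos 48 .pp ⟨894218938, 0, 0, 0, 0, 0, 0, 0, 0, ⟨0, 0⟩, 0⟩ 0 0) (.cut .v 134217728 (.pos 106 .pp ⟨67865760288, 87736083620,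 0, 0, 0, 0, 0, 0, 0, ⟨0, 0⟩, 0⟩ 0 0) (.void 107 ⟨0, 0, 0, 100000, 0, 0, 0, 0, 0, ⟨0, 0⟩, 0⟩ 0 0))) (.void 87 ⟨0, 0, 0, 100000, 0, 0, 0, 0, 0, ⟨0, 0⟩, 0⟩ 0 0)) (.void 154 ⟨0, 0, 0, 100000, 0, 0, 0, 0, 0, ⟨0, 0⟩, 0⟩ 0 0)))),
    by decide +kernel⟩

def covers33 : cell.Covers table row33.1 :=
  ⟨(.cut .d 0 (.cut .v 16777216 (.cut .v 8388608 (.void 2 ⟨0, 0, 100000, 0, 0, 0, 0, 0, 0, ⟨0, 0⟩, 0⟩ 0 0) (.cut .d (-8388608) (.void 3 ⟨121243, 0, 0, 0, 0, 0, 0, 0, 0, ⟨0, 0⟩, 0⟩ 0 0) (.pos 3 .mm ⟨0, 0, 3717728696, 0, 0, 95329484659, 0, 0, 0, ⟨0, 0⟩, 0⟩ 0 0))) (.cut .v 4294967296 (.cut .d (-8388608) (.void 86 ⟨100000, 0, 0, 0, 0, 0, 0, 0, 0, ⟨0, 0⟩, 0⟩ 0 0) (.cut .v 268435456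 (.cut .v 67108864 (.cut .d (-4194304) (.void 48 ⟨100000, 0, 0, 0, 0, 0, 0, 0, 0, ⟨0, 0⟩, 0⟩ 0 0) (.pos 48 .mp ⟨110668235731, 0, 0, 0, 0, 57103924269, 0, 0, 0, ⟨0, 0⟩, 0⟩ 0 0)) (.void 62 ⟨100000, 0, 0, 0, 0, 0, 0, 0, 0, ⟨0, 0⟩, 0⟩ 0 0)) (.void 87 ⟨89043, 0, 0, 10957, 0, 0, 0, 0, 0, ⟨0, 0⟩, 0⟩ 0 0))) (.void 154 ⟨92419, 0, 0, 7581, 0, 0, 0, 0, 0, ⟨0, 0⟩, 0⟩ 0 0))) (.cut .v 16777216 (.cut .v 8388608 (.cut .v 4194304 (.cut .v 2097152 (.cut .v 1048576 (.cut .v 524288 (.cut .v 262144 (.cut .v 131072 (.cut .v 65536 (.pos 150 .pm ⟨0, 0, 55173444, 0, 0, 0, 0, 0, 0, ⟨0, 0⟩, 0⟩ 0 0) (.pos 151 .pm ⟨0, 0, 111909186, 0, 0, 0, 0, 0, 0, ⟨0, 0⟩, 0⟩ 0 0)) (.pos 149 .pm ⟨0, 0, 188195915,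 0, 0, 0, 0, 0, 0, ⟨0, 0⟩, 0⟩ 0 0)) (.pos 147 .pm ⟨0, 0, 315198564, 0, 0, 0, 0, 0, 0, ⟨0, 0⟩, 0⟩ 0 0)) (.pos 125 .pm ⟨0, 0, 527807873, 0, 0, 0, 0, 0, 0, ⟨0, 0⟩, 0⟩ 0 0)) (.pos 101 .pm ⟨0, 0, 949763913, 0, 0, 0, 0, 0, 0, ⟨0, 0⟩, 0⟩ 0 0)) (.pos 78 .pm ⟨0, 0, 1740644166, 0, 0, 0, 0, 0, 0, ⟨0, 0⟩, 0⟩ 0 0)) (.pos 5 .pm ⟨0, 0, 3238593718, 0, 0, 0, 0, 0, 0, ⟨0, 0⟩, 0⟩ 0 0)) (.pos 3 .pm ⟨0, 0, 3022019910, 0, 0, 0, 0, 0, 0, ⟨0, 0⟩, 0⟩ 0 0)) (.cut .v 4294967296 (.cut .v 268435456 (.cut .v 67108864 (.pos 48 .pp ⟨0, 0, 0, 0, 0, 0, 0, 0, 0, ⟨0, 0⟩, 0⟩ 0 0) (.cut .v 134217728 (.pos 106 .pp ⟨92666030405, 70868989713, 0, 4237139881, 0, 0, 0, 0, 0, ⟨0, 0⟩, 0⟩ 0 0) (.void 107 ⟨0,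 0, 0, 100000, 0, 0, 0, 0, 0, ⟨0, 0⟩, 0⟩ 0 0))) (.void 87 ⟨0, 0, 0, 100000, 0, 0, 0, 0, 0, ⟨0, 0⟩, 0⟩ 0 0)) (.void 154 ⟨0, 0, 0, 100000, 0, 0, 0, 0, 0, ⟨0, 0⟩, 0⟩ 0 0)))),
    by decide +kernel⟩

def covers34 : cell.Covers table row34.1 :=
  ⟨(.cut .d 0 (.cut .v 16777216 (.cut .d (-8388608) (.void 1 ⟨0, 0, 0, 0, 0, 99978, 0, 0, 0, ⟨0, 0⟩, 0⟩ 0 0) (.cut .v 8388608 (.void 2 ⟨0, 0, 45516, 0, 0, 0, 0, 0, 0, ⟨0, 0⟩, 0⟩ 0 0) (.pos 3 .mm ⟨0, 0, 4927965548, 0, 0, 122052467969, 0, 0, 0, ⟨0, 0⟩, 0⟩ 0 0))) (.cut .v 4294967296 (.cut .v 268435456 (.cut .v 67108864 (.cut .d (-8388608) (.void 48 ⟨100000, 0, 0, 0, 0, 0, 0, 0, 0, ⟨0, 0⟩, 0⟩ 0 0) (.cut .v 33554432 (.cut .d (-4194304)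 (.void 26 ⟨100000, 0, 0, 0, 0, 0, 0, 0, 0, ⟨0, 0⟩, 0⟩ 0 0) (.pos 26 .mp ⟨0, 0, 0, 0, 0, 156499256059, 0, 0, 0, ⟨0, 0⟩, 0⟩ 0 0)) (.void 49 ⟨100000, 0, 0, 0, 0, 0, 0, 0, 0, ⟨0, 0⟩, 0⟩ 0 0))) (.void 62 ⟨100000, 0, 0, 0, 0, 0, 0, 0, 0, ⟨0, 0⟩, 0⟩ 0 0)) (.void 87 ⟨92398, 0, 0, 7602, 0, 0, 0, 0, 0, ⟨0, 0⟩, 0⟩ 0 0)) (.void 154 ⟨92398, 0, 0, 7602, 0, 0, 0, 0, 0, ⟨0, 0⟩, 0⟩ 0 0))) (.cut .v 16777216 (.cut .v 8388608 (.cut .v 4194304 (.cut .v 2097152 (.cut .v 1048576 (.cut .v 524288 (.cut .v 262144 (.cut .v 131072 (.cut .v 65536 (.cut .v 32768 (.pos 155 .pm ⟨0, 0, 46377682, 0, 0, 0, 0, 0, 0, ⟨0, 0⟩, 0⟩ 0 0) (.pos 156 .pm ⟨0, 0, 90783198, 0, 0, 0, 0, 0, 0, ⟨0, 0⟩, 0⟩ 0 0))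 (.pos 151 .pm ⟨0, 0, 151420806, 0, 0, 0, 0, 0, 0, ⟨0, 0⟩, 0⟩ 0 0)) (.pos 149 .pm ⟨0, 0, 259966720, 0, 0, 0, 0, 0, 0, ⟨0, 0⟩, 0⟩ 0 0)) (.pos 147 .pm ⟨0, 0, 441907719, 0, 0, 0, 0, 0, 0, ⟨0, 0⟩, 0⟩ 0 0)) (.pos 125 .pm ⟨0, 0, 753679839, 0, 0, 0, 0, 0, 0, ⟨0, 0⟩, 0⟩ 0 0)) (.pos 101 .pm ⟨0, 0, 1360952924, 0, 0, 0, 0, 0, 0, ⟨0, 0⟩, 0⟩ 0 0)) (.pos 78 .pm ⟨0, 0, 2516331998, 0, 0, 0, 0, 0, 0, ⟨0, 0⟩, 0⟩ 0 0)) (.pos 5 .pm ⟨0, 0, 4740228539, 0, 0, 0, 0, 0, 0, ⟨0, 0⟩, 0⟩ 0 0)) (.pos 3 .pm ⟨0, 0, 4248484125, 0, 0, 0, 0, 0, 0, ⟨0, 0⟩, 0⟩ 0 0)) (.cut .v 4294967296 (.cut .v 268435456 (.cut .v 67108864 (.pos 48 .pp ⟨0, 0, 0, 0, 0, 0, 0, 0, 0, ⟨0, 0⟩, 0⟩ 0 0) (.cut .v 134217728 (.pos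 106 .pp ⟨126976387539, 29241421214, 0, 11554351247, 0, 0, 0, 0, 0, ⟨0, 0⟩, 0⟩ 0 0) (.void 107 ⟨0, 0, 0, 100000, 0, 0, 0, 0, 0, ⟨0, 0⟩, 0⟩ 0 0))) (.void 87 ⟨0, 0, 0, 100000, 0, 0, 0, 0, 0, ⟨0, 0⟩, 0⟩ 0 0)) (.void 154 ⟨0, 0, 0, 100000, 0, 0, 0, 0, 0, ⟨0, 0⟩, 0⟩ 0 0)))),
    by decide +kernel⟩

def covers35 : cell.Covers table row35.1 :=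
  ⟨(.cut .d 0 (.cut .v 16777216 (.cut .v 8388608 (.pos 2 .mm ⟨0, 0, 167772160000, 0, 0, 0, 0, 0, 0, ⟨0, 0⟩, 0⟩ 0 0) (.cut .d (-8388608) (.void 3 ⟨1635, 0, 0, 6950, 0, 86035, 0, 5208, 0, ⟨(-1), 11603304⟩, 0⟩ 0 127) (.cut .v 12582912 (.pos 6 .mm ⟨0, 0, 6080379430, 0, 0, 124051938643, 0, 0, 0, ⟨0, 0⟩, 0⟩ 0 0) (.pos 7 .mm ⟨12179197922, 0, 0, 0, 0, 155592962078, 0, 0, 0, ⟨0, 0⟩, 0⟩ 0 0)))) (.cut .v 4294967296 (.cut .v 268435456 (.cut .v 67108864 (.cut .d (-8388608) (.void 48 ⟨100000, 0, 0, 0, 0, 0, 0, 0, 0, ⟨0, 0⟩, 0⟩ 0 0) (.cut .d (-4194304) (.void 48 ⟨100000, 0, 0, 0, 0, 0, 0, 0, 0, ⟨0, 0⟩, 0⟩ 0 0) (.cut .d (-2097152) (.void 48 ⟨100000, 0, 0, 0, 0, 0, 0, 0, 0, ⟨0,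 0⟩, 0⟩ 0 0) (.pos 48 .mp ⟨160116685114, 0, 0, 0, 0, 7655474886, 0, 0, 0, ⟨0, 0⟩, 0⟩ 0 0)))) (.void 62 ⟨100000, 0, 0, 0, 0, 0, 0, 0, 0, ⟨0, 0⟩, 0⟩ 0 0)) (.void 87 ⟨0, 0, 5219, 7692, 0, 87089, 0, 0, 0, ⟨0, 0⟩, 0⟩ 0 0)) (.void 154 ⟨92377, 0, 0, 7623, 0, 0, 0, 0, 0, ⟨0, 0⟩, 0⟩ 0 0))) (.cut .v 16777216 (.cut .v 8388608 (.cut .v 4194304 (.cut .v 2097152 (.cut .v 1048576 (.cut .v 524288 (.cut .v 262144 (.cut .v 131072 (.cut .v 65536 (.cut .v 32768 (.pos 155 .pm ⟨0, 0, 59630257, 0, 0, 0, 0, 0, 0, ⟨0, 0⟩, 0⟩ 0 0) (.pos 156 .pm ⟨0, 0, 126717089, 0, 0, 0, 0, 0, 0, ⟨0, 0⟩, 0⟩ 0 0)) (.pos 151 .pm ⟨0, 0, 218984154, 0, 0, 0, 0, 0, 0, ⟨0, 0⟩, 0⟩ 0 0)) (.pos 149 .pm ⟨0, 0, 375881555,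 0, 0, 0, 0, 0, 0, ⟨0, 0⟩, 0⟩ 0 0)) (.pos 147 .pm ⟨0, 0, 647597901, 0, 0, 0, 0, 0, 0, ⟨0, 0⟩, 0⟩ 0 0)) (.pos 125 .pm ⟨0, 0, 1115399117, 0, 0, 0, 0, 0, 0, ⟨0, 0⟩, 0⟩ 0 0)) (.pos 101 .pm ⟨0, 0, 2021037539, 0, 0, 0, 0, 0, 0, ⟨0, 0⟩, 0⟩ 0 0)) (.pos 78 .pm ⟨0, 0, 3708670168, 0, 0, 0, 0, 0, 0, ⟨0, 0⟩, 0⟩ 0 0)) (.pos 5 .pm ⟨0, 0, 6824484223, 0, 0, 0, 0, 0, 0, ⟨0, 0⟩, 0⟩ 0 0)) (.pos 3 .pm ⟨0, 0, 5828156302, 0, 0, 0, 0, 0, 0, ⟨0, 0⟩, 0⟩ 0 0)) (.cut .v 4294967296 (.cut .v 268435456 (.cut .v 67108864 (.pos 48 .pp ⟨0, 0, 0, 0, 0, 0, 0, 0, 0, ⟨0, 0⟩, 0⟩ 0 0) (.cut .v 134217728 (.cut .v 100663296 (.pos 112 .pp ⟨140709113985, 14559473025, 0, 12503572990, 0, 0, 0, 0, 0, ⟨0, 0⟩,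 0⟩ 0 0) (.void 113 ⟨85756, 0, 0, 14244, 0, 0, 0, 0, 0, ⟨0, 0⟩, 0⟩ 0 0)) (.void 107 ⟨0, 0, 0, 100000, 0, 0, 0, 0, 0, ⟨0, 0⟩, 0⟩ 0 0))) (.void 87 ⟨0, 0, 0, 100000, 0, 0, 0, 0, 0, ⟨0, 0⟩, 0⟩ 0 0)) (.void 154 ⟨0, 0, 0, 100000, 0, 0, 0, 0, 0, ⟨0, 0⟩, 0⟩ 0 0)))),
    by decide +kernel⟩

def covers36 : cell.Covers table row36.1 :=
  ⟨(.cut .d 0 (.cut .v 16777216 (.cut .d (-8388608) (.void 1 ⟨0, 0, 0, 0, 0, 100000, 0, 0, 0, ⟨0, 0⟩, 0⟩ 0 0) (.cut .v 8388608 (.void 2 ⟨0, 0, 99525, 0, 0, 0, 0, 0, 0, ⟨0, 0⟩, 0⟩ 0 0) (.cut .d (-4194304) (.void 3 ⟨100000, 0, 0, 0, 0, 0, 0, 0, 0, ⟨0, 0⟩, 0⟩ 0 0) (.pos 3 .mm ⟨0, 0, 8681784001, 0, 0, 133975772486, 0, 0, 0, ⟨0, 0⟩, 0⟩ 0 0)))) (.cut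 .v 4294967296 (.cut .v 268435456 (.cut .v 67108864 (.cut .d (-8388608) (.void 48 ⟨100000, 0, 0, 0, 0, 0, 0, 0, 0, ⟨0, 0⟩, 0⟩ 0 0) (.cut .d (-4194304) (.void 48 ⟨100000, 0, 0, 0, 0, 0, 0, 0, 0, ⟨0, 0⟩, 0⟩ 0 0) (.cut .v 33554432 (.pos 26 .mp ⟨160336935152, 0, 0, 0, 0, 7435224848, 0, 0, 0, ⟨0, 0⟩, 0⟩ 0 0) (.void 49 ⟨100000, 0, 0, 0, 0, 0, 0, 0, 0, ⟨0, 0⟩, 0⟩ 0 0)))) (.void 62 ⟨100000, 0, 0, 0, 0, 0, 0, 0, 0, ⟨0, 0⟩, 0⟩ 0 0)) (.void 87 ⟨0, 0, 5250, 7692, 0, 87058, 0, 0, 0, ⟨0, 0⟩, 0⟩ 0 0)) (.void 154 ⟨92363, 0, 0, 7637, 0, 0, 0, 0, 0, ⟨0, 0⟩, 0⟩ 0 0))) (.cut .v 16777216 (.cut .v 8388608 (.cut .v 4194304 (.cut .v 2097152 (.cut .v 1048576 (.cut .v 524288 (.cut .v 262144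 (.cut .v 131072 (.cut .v 65536 (.cut .v 32768 (.cut .v 16384 (.pos 157 .pm ⟨0, 0, 50199624, 0, 0, 0, 0, 0, 0, ⟨0, 0⟩, 0⟩ 0 0) (.pos 158 .pm ⟨0, 0, 102859880, 0, 0, 0, 0, 0, 0, ⟨0, 0⟩, 0⟩ 0 0)) (.pos 156 .pm ⟨0, 0, 176021861, 0, 0, 0, 0, 0, 0, ⟨0, 0⟩, 0⟩ 0 0)) (.pos 151 .pm ⟨0, 0, 310135284, 0, 0, 0, 0, 0, 0, ⟨0, 0⟩, 0⟩ 0 0)) (.pos 149 .pm ⟨0, 0, 541646654, 0, 0, 0, 0, 0, 0, ⟨0, 0⟩, 0⟩ 0 0)) (.pos 147 .pm ⟨0, 0, 948384549, 0, 0, 0, 0, 0, 0, ⟨0, 0⟩, 0⟩ 0 0)) (.pos 125 .pm ⟨0, 0, 1645170579, 0, 0, 0, 0, 0, 0, ⟨0, 0⟩, 0⟩ 0 0)) (.pos 101 .pm ⟨0, 0, 3016663612, 0, 0, 0, 0, 0, 0, ⟨0, 0⟩, 0⟩ 0 0)) (.pos 78 .pm ⟨0, 0, 5608326183, 0, 0, 0, 0, 0, 0, ⟨0, 0⟩, 0⟩ 0 0)) (.pos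 5 .pm ⟨0, 0, 10595942952, 0, 0, 0, 0, 0, 0, ⟨0, 0⟩, 0⟩ 0 0)) (.pos 3 .pm ⟨0, 0, 8681784001, 0, 0, 0, 0, 0, 0, ⟨0, 0⟩, 0⟩ 0 0)) (.cut .v 4294967296 (.cut .v 268435456 (.cut .v 67108864 (.pos 48 .pp ⟨0, 0, 0, 0, 0, 0, 0, 0, 0, ⟨0, 0⟩, 0⟩ 0 0) (.cut .v 134217728 (.cut .v 100663296 (.pos 112 .pp ⟨159391414990, 0, 0, 8380745010, 0, 0, 0, 0, 0, ⟨0, 0⟩, 0⟩ 0 0) (.void 113 ⟨85750, 0, 0, 14250, 0, 0, 0, 0, 0, ⟨0, 0⟩, 0⟩ 0 0)) (.void 107 ⟨0, 0, 0, 100000, 0, 0, 0, 0, 0, ⟨0, 0⟩, 0⟩ 0 0))) (.void 87 ⟨0, 0, 0, 100000, 0, 0, 0, 0, 0, ⟨0, 0⟩, 0⟩ 0 0)) (.void 154 ⟨0, 0, 0, 100000, 0, 0, 0, 0, 0, ⟨0, 0⟩, 0⟩ 0 0)))),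
    by decide +kernel⟩

def covers37 : cell.Covers table row37.1 :=
  ⟨(.cut .d 0 (.cut .v 16777216 (.cut .d (-8388608) (.void 1 ⟨0, 0, 82065, 5449, 0, 0, 0, 19313, 0, ⟨(-1), 11544164⟩, 0⟩ 0 128) (.cut .v 8388608 (.void 2 ⟨0, 0, 100000, 0, 0, 0, 0, 0, 0, ⟨0, 0⟩, 0⟩ 0 0) (.cut .d (-4194304) (.void 3 ⟨100000, 0, 0, 0, 0, 0, 0, 0, 0, ⟨0, 0⟩, 0⟩ 0 0) (.pos 3 .mm ⟨1752866390, 0, 12762676377, 0, 0, 153256617234, 0, 0, 0, ⟨0, 0⟩, 0⟩ 0 0)))) (.cut .v 4294967296 (.cut .d (-8388608) (.void 86 ⟨100000, 0, 0, 0, 0, 0, 0, 0, 0, ⟨0, 0⟩, 0⟩ 0 0) (.cut .v 268435456 (.cut .v 67108864 (.cut .d (-4194304) (.void 48 ⟨100000, 0, 0, 0, 0, 0, 0, 0, 0, ⟨0, 0⟩, 0⟩ 0 0) (.cut .v 33554432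 (.cut .d (-2097152) (.void 26 ⟨100000, 0, 0, 0, 0, 0, 0, 0, 0, ⟨0, 0⟩, 0⟩ 0 0) (.pos 26 .mp ⟨85328333346, 0, 0, 0, 0, 82443826654, 0, 0, 0, ⟨0, 0⟩, 0⟩ 0 0)) (.void 49 ⟨100000, 0, 0, 0, 0, 0, 0, 0, 0, ⟨0, 0⟩, 0⟩ 0 0))) (.void 62 ⟨100000, 0, 0, 0, 0, 0, 0, 0, 0, ⟨0, 0⟩, 0⟩ 0 0)) (.void 87 ⟨88956, 0, 0, 11044, 0, 0, 0, 0, 0, ⟨0, 0⟩, 0⟩ 0 0))) (.void 154 ⟨92356, 0, 0, 7644, 0, 0, 0, 0, 0, ⟨0, 0⟩, 0⟩ 0 0))) (.cut .v 16777216 (.cut .v 8388608 (.cut .v 4194304 (.cut .v 2097152 (.cut .v 1048576 (.cut .v 524288 (.cut .v 262144 (.cut .v 131072 (.cut .v 65536 (.cut .v 32768 (.cut .v 16384 (.pos 157 .pm ⟨0, 0, 59140407, 0, 0, 0, 0, 0, 0, ⟨0, 0⟩, 0⟩ 0 0) (.pos 158 .pm ⟨0, 0,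 126642624, 0, 0, 0, 0, 0, 0, ⟨0, 0⟩, 0⟩ 0 0)) (.pos 156 .pm ⟨0, 0, 220113429, 0, 0, 0, 0, 0, 0, ⟨0, 0⟩, 0⟩ 0 0)) (.pos 151 .pm ⟨0, 0, 391646441, 0, 0, 0, 0, 0, 0, ⟨0, 0⟩, 0⟩ 0 0)) (.pos 149 .pm ⟨0, 0, 695986645, 0, 0, 0, 0, 0, 0, ⟨0, 0⟩, 0⟩ 0 0)) (.pos 147 .pm ⟨0, 0, 1233032892, 0, 0, 0, 0, 0, 0, ⟨0, 0⟩, 0⟩ 0 0)) (.pos 125 .pm ⟨0, 0, 2148134675, 0, 0, 0, 0, 0, 0, ⟨0, 0⟩, 0⟩ 0 0)) (.pos 101 .pm ⟨0, 0, 4022512963, 0, 0, 0, 0, 0, 0, ⟨0, 0⟩, 0⟩ 0 0)) (.pos 78 .pm ⟨0, 0, 7687190078, 0, 0, 0, 0, 0, 0, ⟨0, 0⟩, 0⟩ 0 0)) (.pos 5 .pm ⟨0, 0, 15379006777, 0, 0, 0, 0, 0, 0, ⟨0, 0⟩, 0⟩ 0 0)) (.pos 3 .pm ⟨0, 0, 12176773077, 0, 0, 0, 0, 0, 0, ⟨0, 0⟩, 0⟩ 0 0)) (.cut .v 4294967296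 (.cut .v 268435456 (.cut .v 67108864 (.pos 48 .pp ⟨3365029979, 0, 0, 0, 0, 0, 0, 0, 0, ⟨0, 0⟩, 0⟩ 0 0) (.cut .v 134217728 (.cut .v 100663296 (.cut .v 83886080 (.pos 114 .pp ⟨163297777108, 0, 0, 4474382892, 0, 0, 0, 0, 0, ⟨0, 0⟩, 0⟩ 0 0) (.void 115 ⟨85750, 0, 0, 14250, 0, 0, 0, 0, 0, ⟨0, 0⟩, 0⟩ 0 0)) (.void 113 ⟨85750, 0, 0, 14250, 0, 0, 0, 0, 0, ⟨0, 0⟩, 0⟩ 0 0)) (.void 107 ⟨0, 0, 0, 100000, 0, 0, 0, 0, 0, ⟨0, 0⟩, 0⟩ 0 0))) (.void 87 ⟨0, 0, 0, 100000, 0, 0, 0, 0, 0, ⟨0, 0⟩, 0⟩ 0 0)) (.void 154 ⟨0, 0, 0, 100000, 0, 0, 0, 0, 0, ⟨0, 0⟩, 0⟩ 0 0)))),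
    by decide +kernel⟩

def covers38 : cell.Covers table row38.1 :=
  ⟨(.cut .d 0 (.cut .v 16777216 (.cut .d (-8388608) (.void 1 ⟨0, 0, 54930, 0, 0, 45069, 0, 0, 0, ⟨0, 0⟩, 0⟩ 0 0) (.cut .d (-4194304) (.void 1 ⟨0, 0, 0, 0, 0, 100000, 0, 0, 0, ⟨0, 0⟩, 0⟩ 0 0) (.cut .v 8388608 (.void 2 ⟨0, 0, 86329, 0, 0, 0, 0, 0, 0, ⟨0, 0⟩, 0⟩ 0 0) (.cut .d (-2097152) (.void 3 ⟨100000, 0, 0, 0, 0, 0, 0, 0, 0, ⟨0, 0⟩, 0⟩ 0 0) (.pos 3 .mm ⟨27999511090, 0, 24271255989, 0, 0, 115501392921, 0, 0, 0, ⟨0, 0⟩, 0⟩ 0 0))))) (.cut .v 4294967296 (.cut .v 268435456 (.cut .v 67108864 (.cut .d (-8388608) (.void 48 ⟨100000, 0, 0, 0, 0, 0, 0, 0, 0, ⟨0, 0⟩, 0⟩ 0 0) (.cut .d (-4194304) (.void 48 ⟨100000,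 0, 0, 0, 0, 0, 0, 0, 0, ⟨0, 0⟩, 0⟩ 0 0) (.cut .v 33554432 (.cut .d (-2097152) (.void 26 ⟨100000, 0, 0, 0, 0, 0, 0, 0, 0, ⟨0, 0⟩, 0⟩ 0 0) (.cut .d (-1048576) (.void 26 ⟨100000, 0, 0, 0, 0, 0, 0, 0, 0, ⟨0, 0⟩, 0⟩ 0 0) (.pos 26 .mp ⟨155629159463, 0, 0, 0, 0, 12143000537, 0, 0, 0, ⟨0, 0⟩, 0⟩ 0 0))) (.void 49 ⟨100000, 0, 0, 0, 0, 0, 0, 0, 0, ⟨0, 0⟩, 0⟩ 0 0)))) (.void 62 ⟨100000, 0, 0, 0, 0, 0, 0, 0, 0, ⟨0, 0⟩, 0⟩ 0 0)) (.void 87 ⟨92342, 0, 0, 7658, 0, 0, 0, 0, 0, ⟨0, 0⟩, 0⟩ 0 0)) (.void 154 ⟨92342, 0, 0, 7658, 0, 0, 0, 0, 0, ⟨0, 0⟩, 0⟩ 0 0))) (.cut .v 16777216 (.cut .v 8388608 (.cut .v 4194304 (.cut .v 2097152 (.cut .v 1048576 (.cut .v 524288 (.cut .v 262144 (.cut .v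 131072 (.cut .v 65536 (.cut .v 32768 (.cut .v 16384 (.cut .v 8192 (.pos 159 .pm ⟨0, 0, 51517076, 0, 0, 0, 0, 0, 0, ⟨0, 0⟩, 0⟩ 0 0) (.pos 160 .pm ⟨0, 0, 108323890, 0, 0, 0, 0, 0, 0, ⟨0, 0⟩, 0⟩ 0 0)) (.pos 158 .pm ⟨0, 0, 188541694, 0, 0, 0, 0, 0, 0, ⟨0, 0⟩, 0⟩ 0 0)) (.pos 156 .pm ⟨0, 0, 333451392, 0, 0, 0, 0, 0, 0, ⟨0, 0⟩, 0⟩ 0 0)) (.pos 151 .pm ⟨0, 0, 588914020, 0, 0, 0, 0, 0, 0, ⟨0, 0⟩, 0⟩ 0 0)) (.pos 149 .pm ⟨0, 0, 1044355567, 0, 0, 0, 0, 0, 0, ⟨0, 0⟩, 0⟩ 0 0)) (.pos 147 .pm ⟨0, 0, 1843653350, 0, 0, 0, 0, 0, 0, ⟨0, 0⟩, 0⟩ 0 0)) (.pos 125 .pm ⟨0, 0, 3245713245, 0, 0, 0, 0, 0, 0, ⟨0, 0⟩, 0⟩ 0 0)) (.pos 101 .pm ⟨0, 0, 5960758500, 0, 0, 0, 0, 0, 0, ⟨0, 0⟩, 0⟩ 0 0))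 (.pos 78 .pm ⟨0, 0, 10880718854, 0, 0, 0, 0, 0, 0, ⟨0, 0⟩, 0⟩ 0 0)) (.pos 5 .pm ⟨0, 0, 19560128521, 0, 0, 0, 0, 0, 0, ⟨0, 0⟩, 0⟩ 0 0)) (.pos 3 .pm ⟨0, 0, 14905124643, 0, 0, 0, 0, 0, 0, ⟨0, 0⟩, 0⟩ 0 0)) (.cut .v 4294967296 (.cut .v 268435456 (.cut .v 67108864 (.pos 48 .pp ⟨14892650027, 0, 0, 0, 0, 0, 0, 0, 0, ⟨0, 0⟩, 0⟩ 0 0) (.cut .v 134217728 (.cut .v 100663296 (.cut .v 83886080 (.pos 114 .pp ⟨167772160000, 0, 0, 0, 0, 0, 0, 0, 0, ⟨0, 0⟩, 0⟩ 0 0) (.void 115 ⟨85732, 0, 0, 14268, 0, 0, 0, 0, 0, ⟨0, 0⟩, 0⟩ 0 0)) (.void 113 ⟨85732, 0, 0, 14268, 0, 0, 0, 0, 0, ⟨0, 0⟩, 0⟩ 0 0)) (.void 107 ⟨0, 0, 0, 100000, 0, 0, 0, 0, 0, ⟨0, 0⟩, 0⟩ 0 0))) (.void 87 ⟨0, 0, 0, 100000,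 0, 0, 0, 0, 0, ⟨0, 0⟩, 0⟩ 0 0)) (.void 154 ⟨0, 0, 0, 100000, 0, 0, 0, 0, 0, ⟨0, 0⟩, 0⟩ 0 0)))),
    by decide +kernel⟩

def covers39 : cell.Covers table row39.1 :=
  ⟨(.cut .d 0 (.cut .v 16777216 (.cut .d (-8388608) (.void 1 ⟨0, 0, 0, 0, 0, 100000, 0, 0, 0, ⟨0, 0⟩, 0⟩ 0 0) (.cut .d (-4194304) (.void 1 ⟨0, 0, 0, 0, 0, 69908, 0, 0, 0, ⟨0, 0⟩, 0⟩ 0 0) (.cut .d (-2097152) (.void 1 ⟨0, 0, 0, 0, 0, 101282, 0, 0, 0, ⟨0, 0⟩, 0⟩ 0 0) (.cut .v 8388608 (.pos 2 .mm ⟨0, 0, 167772160000, 0, 0, 0, 0, 0, 0, ⟨0, 0⟩, 0⟩ 0 0) (.cut .v 12582912 (.pos 6 .mm ⟨32776286976, 0, 38875244887, 0, 0, 96120628137, 0, 0, 0, ⟨0, 0⟩, 0⟩ 0 0) (.pos 7 .mm ⟨107583382577, 0, 0, 0, 0, 60188777423,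 0, 0, 0, ⟨0, 0⟩, 0⟩ 0 0)))))) (.cut .v 4294967296 (.cut .v 268435456 (.cut .v 67108864 (.cut .d (-8388608) (.void 48 ⟨100000, 0, 0, 0, 0, 0, 0, 0, 0, ⟨0, 0⟩, 0⟩ 0 0) (.cut .d (-4194304) (.void 48 ⟨100000, 0, 0, 0, 0, 0, 0, 0, 0, ⟨0, 0⟩, 0⟩ 0 0) (.cut .d (-2097152) (.void 48 ⟨100000, 0, 0, 0, 0, 0, 0, 0, 0, ⟨0, 0⟩, 0⟩ 0 0) (.cut .v 33554432 (.cut .d (-1048576) (.void 26 ⟨100000, 0, 0, 0, 0, 0, 0, 0, 0, ⟨0, 0⟩, 0⟩ 0 0) (.cut .v 25165824 (.pos 27 .mp ⟨167772160000, 0, 0, 0, 0, 0, 0, 0, 0, ⟨0, 0⟩, 0⟩ 0 0) (.void 28 ⟨100000, 0, 0, 0, 0, 0, 0, 0, 0, ⟨0, 0⟩, 0⟩ 0 0))) (.void 49 ⟨100000, 0, 0, 0, 0, 0, 0, 0, 0, ⟨0, 0⟩, 0⟩ 0 0))))) (.void 62 ⟨100000, 0, 0, 0, 0, 0, 0, 0,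 0, ⟨0, 0⟩, 0⟩ 0 0)) (.void 87 ⟨92335, 0, 0, 7665, 0, 0, 0, 0, 0, ⟨0, 0⟩, 0⟩ 0 0)) (.void 154 ⟨92335, 0, 0, 7665, 0, 0, 0, 0, 0, ⟨0, 0⟩, 0⟩ 0 0))) (.cut .v 16777216 (.cut .v 8388608 (.cut .v 4194304 (.cut .v 2097152 (.cut .v 1048576 (.cut .v 524288 (.cut .v 262144 (.cut .v 131072 (.cut .v 65536 (.cut .v 32768 (.cut .v 16384 (.cut .v 8192 (.pos 159 .pm ⟨0, 0, 67421392, 0, 0, 0, 0, 0, 0, ⟨0, 0⟩, 0⟩ 0 0) (.pos 160 .pm ⟨0, 0, 151675507, 0, 0, 0, 0, 0, 0, ⟨0, 0⟩, 0⟩ 0 0)) (.pos 158 .pm ⟨0, 0, 270248043, 0, 0, 0, 0, 0, 0, ⟨0, 0⟩, 0⟩ 0 0)) (.pos 156 .pm ⟨0, 0, 490879836, 0, 0, 0, 0, 0, 0, ⟨0, 0⟩, 0⟩ 0 0)) (.pos 151 .pm ⟨0, 0, 884032882, 0, 0, 0, 0, 0, 0, ⟨0, 0⟩, 0⟩ 0 0))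 (.pos 149 .pm ⟨0, 0, 1591201873, 0, 0, 0, 0, 0, 0, ⟨0, 0⟩, 0⟩ 0 0)) (.pos 147 .pm ⟨0, 0, 2848525390, 0, 0, 0, 0, 0, 0, ⟨0, 0⟩, 0⟩ 0 0)) (.pos 125 .pm ⟨0, 0, 5021093643, 0, 0, 0, 0, 0, 0, ⟨0, 0⟩, 0⟩ 0 0)) (.pos 101 .pm ⟨0, 0, 9364367675, 0, 0, 0, 0, 0, 0, ⟨0, 0⟩, 0⟩ 0 0)) (.pos 78 .pm ⟨0, 0, 17596989149, 0, 0, 0, 0, 0, 0, ⟨0, 0⟩, 0⟩ 0 0)) (.pos 5 .pm ⟨0, 0, 34321447374, 0, 0, 0, 0, 0, 0, ⟨0, 0⟩, 0⟩ 0 0)) (.pos 3 .pm ⟨0, 0, 24788899425, 0, 0, 0, 0, 0, 0, ⟨0, 0⟩, 0⟩ 0 0)) (.cut .v 4294967296 (.cut .v 268435456 (.cut .v 67108864 (.pos 48 .pp ⟨42251344547, 0, 0, 0, 0, 0, 0, 0, 0, ⟨0, 0⟩, 0⟩ 0 0) (.cut .v 134217728 (.cut .v 100663296 (.cut .v 83886080 (.cut .s 16703488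 (.pos 114 .pp ⟨167772160000, 0, 0, 0, 0, 0, 0, 0, 0, ⟨0, 0⟩, 0⟩ 0 0) (.cut .s 16707584 (.pos 114 .pp ⟨167772160000, 0, 0, 0, 0, 0, 0, 0, 0, ⟨0, 0⟩, 0⟩ 0 0) (.cut .d 41162 (.cut .d 20581 (.cut .d 10290 (.void 114 ⟨100000, 0, 0, 0, 0, 0, 0, 0, 0, ⟨0, 0⟩, 0⟩ 0 0) (.pos 114 .pp ⟨167772160000, 0, 0, 0, 0, 0, 0, 0, 0, ⟨0, 0⟩, 0⟩ 0 0)) (.pos 114 .pp ⟨0, 0, 0, 33972725338, 0, 0, 0, 0, 0, ⟨0, 0⟩, 0⟩ 0 0)) (.void 114 ⟨0, 0, 0, 100000, 0, 0, 0, 0, 0, ⟨0, 0⟩, 0⟩ 0 0)))) (.void 115 ⟨85732, 0, 0, 14268, 0, 0, 0, 0, 0, ⟨0, 0⟩, 0⟩ 0 0)) (.void 113 ⟨85732, 0, 0, 14268, 0, 0, 0, 0, 0, ⟨0, 0⟩, 0⟩ 0 0)) (.void 107 ⟨0, 0, 0, 100000, 0, 0, 0, 0, 0, ⟨0, 0⟩, 0⟩ 0 0))) (.void 87 ⟨0, 0,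 0, 100000, 0, 0, 0, 0, 0, ⟨0, 0⟩, 0⟩ 0 0)) (.void 154 ⟨0, 0, 0, 100000, 0, 0, 0, 0, 0, ⟨0, 0⟩, 0⟩ 0 0)))),
    by decide +kernel⟩

def covers40 : cell.Covers table row40.1 :=
  ⟨(.cut .d 0 (.cut .v 16777216 (.cut .d (-8388608) (.void 1 ⟨0, 0, 0, 0, 0, 100000, 0, 0, 0, ⟨0, 0⟩, 0⟩ 0 0) (.cut .v 8388608 (.cut .s 16719872 (.void 2 ⟨0, 0, 100000, 0, 0, 0, 0, 0, 0, ⟨0, 0⟩, 0⟩ 0 0) (.void 2 ⟨0, 0, 100000, 0, 0, 0, 0, 0, 0, ⟨0, 0⟩, 0⟩ 0 0)) (.cut .d (-4194304) (.void 3 ⟨100000, 0, 0, 0, 0, 0, 0, 0, 0, ⟨0, 0⟩, 0⟩ 0 0) (.cut .d (-2097152) (.void 3 ⟨100000, 0, 0, 0, 0, 0, 0, 0, 0, ⟨0, 0⟩, 0⟩ 0 0) (.cut .d (-1048576) (.void 3 ⟨100000, 0, 0, 0, 0, 0, 0, 0, 0, ⟨0, 0⟩, 0⟩ 0 0)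 (.cut .d (-524288) (.void 3 ⟨100000, 0, 0, 0, 0, 0, 0, 0, 0, ⟨0, 0⟩, 0⟩ 0 0) (.cut .v 12582912 (.pos 6 .mm ⟨61993938488, 0, 60854083398, 0, 0, 44924138114, 0, 0, 0, ⟨0, 0⟩, 0⟩ 0 0) (.pos 7 .mm ⟨138057039793, 0, 0, 0, 0, 29715120207, 0, 0, 0, ⟨0, 0⟩, 0⟩ 0 0)))))))) (.cut .v 4294967296 (.cut .v 268435456 (.cut .v 67108864 (.cut .d (-8388608) (.void 48 ⟨100000, 0, 0, 0, 0, 0, 0, 0, 0, ⟨0, 0⟩, 0⟩ 0 0) (.cut .d (-4194304) (.void 48 ⟨100000, 0, 0, 0, 0, 0, 0, 0, 0, ⟨0, 0⟩, 0⟩ 0 0) (.cut .d (-2097152) (.void 48 ⟨100000, 0, 0, 0, 0, 0, 0, 0, 0, ⟨0, 0⟩, 0⟩ 0 0) (.cut .v 33554432 (.cut .d (-1048576) (.void 26 ⟨100000, 0, 0, 0, 0, 0, 0, 0, 0, ⟨0, 0⟩, 0⟩ 0 0) (.cut .d (-524288)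 (.void 26 ⟨100000, 0, 0, 0, 0, 0, 0, 0, 0, ⟨0, 0⟩, 0⟩ 0 0) (.cut .d (-262144) (.void 26 ⟨100000, 0, 0, 0, 0, 0, 0, 0, 0, ⟨0, 0⟩, 0⟩ 0 0) (.cut .v 25165824 (.cut .v 20971520 (.cut .d (-131072) (.void 29 ⟨100000, 0, 0, 0, 0, 0, 0, 0, 0, ⟨0, 0⟩, 0⟩ 0 0) (.pos 29 .mp ⟨167772160000, 0, 0, 0, 0, 0, 0, 0, 0, ⟨0, 0⟩, 0⟩ 0 0)) (.void 30 ⟨100000, 0, 0, 0, 0, 0, 0, 0, 0, ⟨0, 0⟩, 0⟩ 0 0)) (.void 28 ⟨100000, 0, 0, 0, 0, 0, 0, 0, 0, ⟨0, 0⟩, 0⟩ 0 0))))) (.void 49 ⟨100000, 0, 0, 0, 0, 0, 0, 0, 0, ⟨0, 0⟩, 0⟩ 0 0))))) (.void 62 ⟨100000, 0, 0, 0, 0, 0, 0, 0, 0, ⟨0, 0⟩, 0⟩ 0 0)) (.void 87 ⟨92328, 0, 0, 7672, 0, 0, 0, 0, 0, ⟨0, 0⟩, 0⟩ 0 0)) (.void 154 ⟨92328, 0, 0, 7672, 0, 0, 0, 0,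 0, ⟨0, 0⟩, 0⟩ 0 0))) (.cut .v 16777216 (.cut .v 8388608 (.cut .v 4194304 (.cut .v 2097152 (.cut .v 1048576 (.cut .v 524288 (.cut .v 262144 (.cut .v 131072 (.cut .v 65536 (.cut .v 32768 (.cut .v 16384 (.cut .v 8192 (.cut .v 4096 (.pos 161 .pm ⟨0, 0, 57239648, 0, 0, 0, 0, 0, 0, ⟨0, 0⟩, 0⟩ 0 0) (.pos 162 .pm ⟨0, 0, 125164954, 0, 0, 0, 0, 0, 0, ⟨0, 0⟩, 0⟩ 0 0)) (.pos 160 .pm ⟨0, 0, 221742786, 0, 0, 0, 0, 0, 0, ⟨0, 0⟩, 0⟩ 0 0)) (.pos 158 .pm ⟨0, 0, 404201963, 0, 0, 0, 0, 0, 0, ⟨0, 0⟩, 0⟩ 0 0)) (.pos 156 .pm ⟨0, 0, 730864094, 0, 0, 0, 0, 0, 0, ⟨0, 0⟩, 0⟩ 0 0)) (.pos 151 .pm ⟨0, 0, 1324931777, 0, 0, 0, 0, 0, 0, ⟨0, 0⟩, 0⟩ 0 0)) (.pos 149 .pm ⟨0, 0, 2392998953, 0, 0, 0,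 0, 0, 0, ⟨0, 0⟩, 0⟩ 0 0)) (.pos 147 .pm ⟨0, 0, 4289853847, 0, 0, 0, 0, 0, 0, ⟨0, 0⟩, 0⟩ 0 0)) (.pos 125 .pm ⟨0, 0, 7642341435, 0, 0, 0, 0, 0, 0, ⟨0, 0⟩, 0⟩ 0 0)) (.pos 101 .pm ⟨0, 0, 14161984177, 0, 0, 0, 0, 0, 0, ⟨0, 0⟩, 0⟩ 0 0)) (.pos 78 .pm ⟨0, 0, 26264454013, 0, 0, 0, 0, 0, 0, ⟨0, 0⟩, 0⟩ 0 0)) (.pos 5 .pm ⟨0, 0, 49685480397, 0, 0, 0, 0, 0, 0, ⟨0, 0⟩, 0⟩ 0 0)) (.pos 3 .pm ⟨0, 0, 34718188289, 0, 0, 0, 0, 0, 0, ⟨0, 0⟩, 0⟩ 0 0)) (.cut .v 4294967296 (.cut .v 268435456 (.cut .v 67108864 (.pos 48 .pp ⟨86786281119, 0, 0, 0, 0, 0, 0, 0, 0, ⟨0, 0⟩, 0⟩ 0 0) (.cut .v 134217728 (.cut .v 100663296 (.cut .v 83886080 (.cut .d 32898 (.cut .d 16449 (.cut .d 8224 (.void 114 ⟨100000,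 0, 0, 0, 0, 0, 0, 0, 0, ⟨0, 0⟩, 0⟩ 0 0) (.pos 114 .pp ⟨167772160000, 0, 0, 0, 0, 0, 0, 0, 0, ⟨0, 0⟩, 0⟩ 0 0)) (.pos 114 .pp ⟨129935133785, 0, 0, 37837026215, 0, 0, 0, 0, 0, ⟨0, 0⟩, 0⟩ 0 0)) (.void 114 ⟨0, 0, 0, 100000, 0, 0, 0, 0, 0, ⟨0, 0⟩, 0⟩ 0 0)) (.void 115 ⟨85726, 0, 0, 14274, 0, 0, 0, 0, 0, ⟨0, 0⟩, 0⟩ 0 0)) (.void 113 ⟨85726, 0, 0, 14274, 0, 0, 0, 0, 0, ⟨0, 0⟩, 0⟩ 0 0)) (.void 107 ⟨0, 0, 0, 100000, 0, 0, 0, 0, 0, ⟨0, 0⟩, 0⟩ 0 0))) (.void 87 ⟨0, 0, 0, 100000, 0, 0, 0, 0, 0, ⟨0, 0⟩, 0⟩ 0 0)) (.void 154 ⟨0, 0, 0, 100000, 0, 0, 0, 0, 0, ⟨0, 0⟩, 0⟩ 0 0)))),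
    by decide +kernel⟩

def covers41 : cell.Covers table row41.1 :=
  ⟨(.cut .d 0 (.cut .v 16777216 (.cut .d (-8388608) (.void 1 ⟨0, 0, 0, 0, 0, 106754, 0, 0, 0, ⟨0, 0⟩, 0⟩ 0 0) (.cut .d (-4194304) (.cut .s 16736256 (.void 1 ⟨0, 0, 0, 0, 0, 100010, 0, 0, 0, ⟨0, 0⟩, 0⟩ 0 0) (.void 1 ⟨0, 0, 0, 6649, 0, 92750, 0, 615, 0, ⟨4918534, 1688776⟩, 0⟩ 127 192)) (.cut .d (-2097152) (.void 1 ⟨0, 0, 0, 0, 0, 100000, 0, 0, 0, ⟨0, 0⟩, 0⟩ 0 0) (.cut .d (-1048576) (.void 1 ⟨0, 0, 0, 0, 0, 100000, 0, 0, 0, ⟨0, 0⟩, 0⟩ 0 0) (.cut .d (-524288) (.void 1 ⟨0, 0, 0, 0, 0, 100000, 0, 0, 0, ⟨0, 0⟩, 0⟩ 0 0) (.cut .d (-262144) (.void 1 ⟨0, 0, 0, 0, 0, 100000, 0, 0, 0, ⟨0, 0⟩, 0⟩ 0 0) (.cut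 .v 8388608 (.void 2 ⟨0, 0, 100000, 0, 0, 0, 0, 0, 0, ⟨0, 0⟩, 0⟩ 0 0) (.pos 3 .mm ⟨120503416888, 0, 47268743112, 0, 0, 0, 0, 0, 0, ⟨0, 0⟩, 0⟩ 0 0)))))))) (.cut .v 4294967296 (.cut .v 268435456 (.cut .v 67108864 (.cut .d (-8388608) (.void 48 ⟨100000, 0, 0, 0, 0, 0, 0, 0, 0, ⟨0, 0⟩, 0⟩ 0 0) (.cut .d (-4194304) (.void 48 ⟨100000, 0, 0, 0, 0, 0, 0, 0, 0, ⟨0, 0⟩, 0⟩ 0 0) (.cut .d (-2097152) (.void 48 ⟨100000, 0, 0, 0, 0, 0, 0, 0, 0, ⟨0, 0⟩, 0⟩ 0 0) (.cut .d (-1048576) (.void 48 ⟨100000, 0, 0, 0, 0, 0, 0, 0, 0, ⟨0, 0⟩, 0⟩ 0 0) (.cut .d (-524288) (.void 48 ⟨100000, 0, 0, 0, 0, 0, 0, 0, 0, ⟨0, 0⟩, 0⟩ 0 0) (.cut .d (-262144) (.void 48 ⟨100000, 0, 0, 0, 0, 0, 0, 0, 0, ⟨0,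 0⟩, 0⟩ 0 0) (.cut .v 33554432 (.cut .v 25165824 (.cut .v 20971520 (.cut .d (-131072) (.void 29 ⟨100000, 0, 0, 0, 0, 0, 0, 0, 0, ⟨0, 0⟩, 0⟩ 0 0) (.pos 29 .mp ⟨167772160000, 0, 0, 0, 0, 0, 0, 0, 0, ⟨0, 0⟩, 0⟩ 0 0)) (.void 30 ⟨100000, 0, 0, 0, 0, 0, 0, 0, 0, ⟨0, 0⟩, 0⟩ 0 0)) (.void 28 ⟨100000, 0, 0, 0, 0, 0, 0, 0, 0, ⟨0, 0⟩, 0⟩ 0 0)) (.void 49 ⟨100000, 0, 0, 0, 0, 0, 0, 0, 0, ⟨0, 0⟩, 0⟩ 0 0)))))))) (.void 62 ⟨93375, 0, 0, 6624, 0, 0, 0, 0, 0, ⟨0, 0⟩, 0⟩ 0 0)) (.void 87 ⟨92322, 0, 0, 7678, 0, 0, 0, 0, 0, ⟨0, 0⟩, 0⟩ 0 0)) (.void 154 ⟨92173, 0, 0, 7827, 0, 0, 0, 0, 0, ⟨0, 0⟩, 0⟩ 0 0))) (.cut .v 16777216 (.cut .v 8388608 (.cut .v 4194304 (.cut .v 2097152 (.cut .v 1048576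 (.cut .v 524288 (.cut .v 262144 (.cut .v 131072 (.cut .v 65536 (.cut .v 32768 (.cut .v 16384 (.cut .v 8192 (.cut .v 4096 (.pos 161 .pm ⟨0, 0, 58982271, 0, 0, 0, 0, 0, 0, ⟨0, 0⟩, 0⟩ 0 0) (.pos 162 .pm ⟨0, 0, 138062973, 0, 0, 0, 0, 0, 0, ⟨0, 0⟩, 0⟩ 0 0)) (.pos 160 .pm ⟨0, 0, 244398150, 0, 0, 0, 0, 0, 0, ⟨0, 0⟩, 0⟩ 0 0)) (.pos 158 .pm ⟨0, 0, 442799128, 0, 0, 0, 0, 0, 0, ⟨0, 0⟩, 0⟩ 0 0)) (.pos 156 .pm ⟨0, 0, 809541294, 0, 0, 0, 0, 0, 0, ⟨0, 0⟩, 0⟩ 0 0)) (.pos 151 .pm ⟨0, 0, 1480535775, 0, 0, 0, 0, 0, 0, ⟨0, 0⟩, 0⟩ 0 0)) (.pos 149 .pm ⟨0, 0, 2695711032, 0, 0, 0, 0, 0, 0, ⟨0, 0⟩, 0⟩ 0 0)) (.pos 147 .pm ⟨0, 0, 4880483091, 0, 0, 0, 0, 0, 0, ⟨0, 0⟩, 0⟩ 0 0)) (.pos 125 .pm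 ⟨0, 0, 8853634204, 0, 0, 0, 0, 0, 0, ⟨0, 0⟩, 0⟩ 0 0)) (.pos 101 .pm ⟨0, 0, 17160926224, 0, 0, 0, 0, 0, 0, ⟨0, 0⟩, 0⟩ 0 0)) (.pos 78 .pm ⟨0, 0, 34130108386, 0, 0, 0, 0, 0, 0, ⟨0, 0⟩, 0⟩ 0 0)) (.pos 5 .pm ⟨0, 0, 78717194075, 0, 0, 0, 0, 0, 0, ⟨0, 0⟩, 0⟩ 0 0)) (.pos 3 .pm ⟨0, 0, 53574946602, 0, 0, 0, 0, 0, 0, ⟨0, 0⟩, 0⟩ 0 0)) (.cut .v 4294967296 (.cut .v 268435456 (.cut .s 16736256 (.cut .v 67108864 (.pos 48 .pp ⟨116537386499, 0, 0, 0, 0, 0, 0, 0, 0, ⟨0, 0⟩, 0⟩ 0 0) (.cut .v 134217728 (.cut .v 100663296 (.cut .v 83886080 (.cut .s 16732160 (.cut .s 16730112 (.cut .s 16729088 (.cut .s 16728576 (.cut .s 16728320 (.cut .d 24649 (.cut .d 12324 (.cut .d 6162 (.void 114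 ⟨100000, 0, 0, 0, 0, 0, 0, 0, 0, ⟨0, 0⟩, 0⟩ 0 0) (.pos 114 .pp ⟨167772160000, 0, 0, 0, 0, 0, 0, 0, 0, ⟨0, 0⟩, 0⟩ 0 0)) (.pos 114 .pp ⟨100842007817, 0, 0, 66930152183, 0, 0, 0, 0, 0, ⟨0, 0⟩, 0⟩ 0 0)) (.void 114 ⟨0, 0, 0, 100000, 0, 0, 0, 0, 0, ⟨0, 0⟩, 0⟩ 0 0)) (.pos 114 .pp ⟨167772160000, 0, 0, 0, 0, 0, 0, 0, 0, ⟨0, 0⟩, 0⟩ 0 0)) (.pos 114 .pp ⟨167772160000, 0, 0, 0, 0, 0, 0, 0, 0, ⟨0, 0⟩, 0⟩ 0 0)) (.pos 114 .pp ⟨167772160000, 0, 0, 0, 0, 0, 0, 0, 0, ⟨0, 0⟩, 0⟩ 0 0)) (.pos 114 .pp ⟨167772160000, 0, 0, 0, 0, 0, 0, 0, 0, ⟨0, 0⟩, 0⟩ 0 0)) (.pos 114 .pp ⟨167772160000, 0, 0, 0, 0, 0, 0, 0, 0, ⟨0, 0⟩, 0⟩ 0 0)) (.void 115 ⟨85726, 0, 0, 14274, 0, 0, 0, 0, 0, ⟨0, 0⟩, 0⟩ 0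 0)) (.void 113 ⟨85726, 0, 0, 14274, 0, 0, 0, 0, 0, ⟨0, 0⟩, 0⟩ 0 0)) (.void 107 ⟨85726, 0, 0, 14274, 0, 0, 0, 0, 0, ⟨0, 0⟩, 0⟩ 0 0))) (.pos 61 .pp ⟨0, 0, 0, 0, 0, 0, 0, 0, 0, ⟨0, 0⟩, 0⟩ 0 0)) (.cut .s 16736256 (.void 87 ⟨0, 0, 0, 1000000000, 0, 0, 0, 0, 0, ⟨0, 0⟩, 0⟩ 0 0) (.void 87 ⟨0, 0, 0, 100000, 0, 0, 0, 0, 0, ⟨0, 0⟩, 0⟩ 0 0))) (.void 154 ⟨0, 0, 0, 100000, 0, 0, 0, 0, 0, ⟨0, 0⟩, 0⟩ 0 0)))),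
    by decide +kernel⟩

def covers42 : cell.Covers table row42.1 :=
  ⟨(.cut .d 0 (.cut .v 16777216 (.cut .d (-8388608) (.void 1 ⟨0, 0, 0, 0, 0, 100000, 0, 0, 0, ⟨0, 0⟩, 0⟩ 0 0) (.cut .d (-4194304) (.void 1 ⟨0, 0, 100000, 0, 0, 0, 0, 0, 0, ⟨0, 0⟩, 0⟩ 0 0) (.cut .d (-2097152) (.void 1 ⟨0, 0, 0, 0, 0, 100000, 0, 0, 0, ⟨0, 0⟩, 0⟩ 0 0) (.cut .d (-1048576) (.void 1 ⟨0, 0, 0, 0, 0, 100000, 0, 0, 0, ⟨0, 0⟩, 0⟩ 0 0) (.cut .d (-524288) (.void 1 ⟨0, 0, 0, 0, 0, 100000, 0, 0, 0, ⟨0, 0⟩, 0⟩ 0 0) (.cut .d (-262144) (.void 1 ⟨0, 0, 0, 0, 0, 100000, 0, 0, 0, ⟨0, 0⟩, 0⟩ 0 0) (.cut .d (-131072) (.void 1 ⟨0, 0, 0, 0, 0, 100000, 0, 0, 0, ⟨0, 0⟩, 0⟩ 0 0) (.pos 1 .mm ⟨0, 0, 167772160000,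 0, 0, 0, 0, 0, 0, ⟨0, 0⟩, 0⟩ 0 0)))))))) (.cut .v 4294967296 (.cut .v 268435456 (.cut .v 67108864 (.cut .d (-8388608) (.void 48 ⟨100000, 0, 0, 0, 0, 0, 0, 0, 0, ⟨0, 0⟩, 0⟩ 0 0) (.cut .d (-4194304) (.void 48 ⟨100000, 0, 0, 0, 0, 0, 0, 0, 0, ⟨0, 0⟩, 0⟩ 0 0) (.cut .d (-2097152) (.void 48 ⟨100000, 0, 0, 0, 0, 0, 0, 0, 0, ⟨0, 0⟩, 0⟩ 0 0) (.cut .d (-1048576) (.void 48 ⟨100000, 0, 0, 0, 0, 0, 0, 0, 0, ⟨0, 0⟩, 0⟩ 0 0) (.cut .d (-524288) (.void 48 ⟨100000, 0, 0, 0, 0, 0, 0, 0, 0, ⟨0, 0⟩, 0⟩ 0 0) (.cut .d (-262144) (.void 48 ⟨1000000000, 0, 0, 0, 0, 0, 0, 0, 0, ⟨0, 0⟩, 0⟩ 0 0) (.cut .d (-131072) (.void 48 ⟨1000000000, 0, 0, 0, 0, 0, 0, 0, 0, ⟨0, 0⟩, 0⟩ 0 0) (.cut .v 33554432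 (.pos 26 .mp ⟨167772160000, 0, 0, 0, 0, 0, 0, 0, 0, ⟨0, 0⟩, 0⟩ 0 0) (.void 49 ⟨1000000000, 0, 0, 0, 0, 0, 0, 0, 0, ⟨0, 0⟩, 0⟩ 0 0))))))))) (.void 62 ⟨100000, 0, 0, 0, 0, 0, 0, 0, 0, ⟨0, 0⟩, 0⟩ 0 0)) (.void 87 ⟨0, 0, 5333, 7692, 0, 86975, 0, 0, 0, ⟨0, 0⟩, 0⟩ 0 0)) (.void 154 ⟨92316, 0, 0, 7684, 0, 0, 0, 0, 0, ⟨0, 0⟩, 0⟩ 0 0))) (.cut .v 16777216 (.pos 1 .pm ⟨0, 0, 19145520, 0, 0, 0, 0, 0, 0, ⟨0, 0⟩, 0⟩ 0 0) (.cut .v 4294967296 (.cut .v 268435456 (.pos 61 .pp ⟨0, 0, 0, 0, 0, 0, 0, 0, 0, ⟨0, 0⟩, 0⟩ 0 0) (.cut .s 16750592 (.void 87 ⟨0, 0, 0, 62242, 0, 0, 0, 0, 0, ⟨0, 0⟩, 0⟩ 0 0) (.void 87 ⟨0, 0, 0, 100000, 0, 0, 0, 0, 0, ⟨0, 0⟩, 0⟩ 0 0))) (.void 154 ⟨0, 0, 0, 100000,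 0, 0, 0, 0, 0, ⟨0, 0⟩, 0⟩ 0 0)))),
    by decide +kernel⟩

def covers43 : cell.Covers table row43.1 :=
  ⟨(.cut .d 0 (.cut .v 16777216 (.cut .d (-8388608) (.void 1 ⟨0, 0, 106656, 0, 0, 0, 0, 0, 0, ⟨0, 0⟩, 0⟩ 0 0) (.cut .d (-4194304) (.void 1 ⟨0, 0, 94017, 0, 0, 0, 0, 0, 0, ⟨0, 0⟩, 0⟩ 0 0) (.cut .d (-2097152) (.void 1 ⟨0, 0, 0, 0, 0, 100000, 0, 0, 0, ⟨0, 0⟩, 0⟩ 0 0) (.cut .d (-1048576) (.void 1 ⟨0, 0, 0, 0, 0, 100000, 0, 0, 0, ⟨0, 0⟩, 0⟩ 0 0) (.cut .d (-524288) (.void 1 ⟨0, 0, 0, 0, 0, 100000, 0, 0, 0, ⟨0, 0⟩, 0⟩ 0 0) (.cut .d (-262144) (.void 1 ⟨0, 0, 0, 0, 0, 100000, 0, 0, 0, ⟨0, 0⟩, 0⟩ 0 0) (.cut .d (-131072) (.void 1 ⟨0, 0, 0, 0, 0, 100000, 0, 0, 0, ⟨0, 0⟩,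 0⟩ 0 0) (.cut .d (-65536) (.void 1 ⟨0, 0, 0, 0, 0, 100000, 0, 0, 0, ⟨0, 0⟩, 0⟩ 0 0) (.cut .d (-32768) (.void 1 ⟨0, 0, 0, 0, 0, 1000000000, 0, 0, 0, ⟨0, 0⟩, 0⟩ 0 0) (.cut .v 8388608 (.void 2 ⟨0, 0, 100890, 0, 0, 0, 0, 0, 0, ⟨0, 0⟩, 0⟩ 0 0) (.pos 3 .mm ⟨167772160000, 0, 0, 0, 0, 0, 0, 0, 0, ⟨0, 0⟩, 0⟩ 0 0))))))))))) (.cut .v 4294967296 (.cut .d (-8388608) (.void 86 ⟨1000000000, 0, 0, 0, 0, 0, 0, 0, 0, ⟨0, 0⟩, 0⟩ 0 0) (.cut .v 268435456 (.cut .v 67108864 (.cut .d (-4194304) (.void 48 ⟨1000000000, 0, 0, 0, 0, 0, 0, 0, 0, ⟨0, 0⟩, 0⟩ 0 0) (.cut .d (-2097152) (.void 48 ⟨1000000000, 0, 0, 0, 0, 0, 0, 0, 0, ⟨0, 0⟩, 0⟩ 0 0) (.cut .d (-1048576) (.void 48 ⟨1000000000, 0, 0,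 0, 0, 0, 0, 0, 0, ⟨0, 0⟩, 0⟩ 0 0) (.cut .d (-524288) (.void 48 ⟨100000, 0, 0, 0, 0, 0, 0, 0, 0, ⟨0, 0⟩, 0⟩ 0 0) (.cut .d (-262144) (.void 48 ⟨100000, 0, 0, 0, 0, 0, 0, 0, 0, ⟨0, 0⟩, 0⟩ 0 0) (.cut .d (-131072) (.void 48 ⟨100000, 0, 0, 0, 0, 0, 0, 0, 0, ⟨0, 0⟩, 0⟩ 0 0) (.cut .d (-65536) (.void 48 ⟨100000, 0, 0, 0, 0, 0, 0, 0, 0, ⟨0, 0⟩, 0⟩ 0 0) (.cut .d (-32768) (.void 48 ⟨100000, 0, 0, 0, 0, 0, 0, 0, 0, ⟨0, 0⟩, 0⟩ 0 0) (.cut .d (-16384) (.void 48 ⟨100000, 0, 0, 0, 0, 0, 0, 0, 0, ⟨0, 0⟩, 0⟩ 0 0) (.pos 48 .mp ⟨167772160000, 0, 0, 0, 0, 0, 0, 0, 0, ⟨0, 0⟩, 0⟩ 0 0)))))))))) (.void 62 ⟨1000000000, 0, 0, 0, 0, 0, 0, 0, 0, ⟨0, 0⟩, 0⟩ 0 0)) (.void 87 ⟨1000000000, 0, 0,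 0, 0, 0, 0, 0, 0, ⟨0, 0⟩, 0⟩ 0 0))) (.void 154 ⟨1000000000, 0, 0, 0, 0, 0, 0, 0, 0, ⟨0, 0⟩, 0⟩ 0 0))) (.cut .v 16777216 (.pos 1 .pm ⟨0, 0, 19106118, 0, 0, 0, 0, 0, 0, ⟨0, 0⟩, 0⟩ 0 0) (.cut .v 4294967296 (.cut .v 268435456 (.pos 61 .pp ⟨122024367254, 0, 0, 45747792746, 0, 0, 0, 0, 0, ⟨0, 0⟩, 0⟩ 0 0) (.void 87 ⟨727321906, 0, 0, 272678094, 0, 0, 0, 0, 0, ⟨0, 0⟩, 0⟩ 0 0)) (.void 154 ⟨0, 0, 0, 100000, 0, 0, 0, 0, 0, ⟨0, 0⟩, 0⟩ 0 0)))),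
    by decide +kernel⟩

def covers44 : cell.Covers table row44.1 :=
  ⟨(.cut .d 0 (.cut .v 16777216 (.cut .d (-8388608) (.void 1 ⟨0, 0, 0, 0, 0, 1000000000, 0, 0, 0, ⟨0, 0⟩, 0⟩ 0 0) (.cut .d (-4194304) (.void 1 ⟨0, 0, 0, 0, 0, 1000000000, 0, 0, 0, ⟨0, 0⟩, 0⟩ 0 0) (.cut .d (-2097152) (.void 1 ⟨0, 0, 0, 0, 0, 1000000000, 0, 0, 0, ⟨0, 0⟩, 0⟩ 0 0) (.cut .d (-1048576) (.void 1 ⟨0, 0, 0, 0, 0, 1000000000, 0, 0, 0, ⟨0, 0⟩, 0⟩ 0 0) (.cut .d (-524288) (.void 1 ⟨0, 0, 0, 0, 0, 1000000000, 0, 0, 0, ⟨0, 0⟩, 0⟩ 0 0) (.cut .d (-262144) (.void 1 ⟨0, 0, 0, 0, 0, 1000000000, 0, 0, 0, ⟨0, 0⟩, 0⟩ 0 0) (.cut .d (-131072) (.void 1 ⟨0, 0, 0, 0, 0, 1000000000, 0, 0, 0, ⟨0, 0⟩, 0⟩ 0 0)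 (.cut .d (-65536) (.void 1 ⟨0, 0, 0, 0, 0, 1000000000, 0, 0, 0, ⟨0, 0⟩, 0⟩ 0 0) (.cut .d (-32768) (.void 1 ⟨0, 0, 0, 0, 0, 1000000000, 0, 0, 0, ⟨0, 0⟩, 0⟩ 0 0) (.cut .d (-16384) (.void 1 ⟨0, 0, 0, 0, 0, 100000, 0, 0, 0, ⟨0, 0⟩, 0⟩ 0 0) (.cut .v 8388608 (.void 2 ⟨0, 0, 1000000000, 0, 0, 0, 0, 0, 0, ⟨0, 0⟩, 0⟩ 0 0) (.pos 3 .mm ⟨167772160000, 0, 0, 0, 0, 0, 0, 0, 0, ⟨0, 0⟩, 0⟩ 0 0)))))))))))) (.cut .v 4294967296 (.cut .v 268435456 (.cut .v 67108864 (.cut .d (-8388608) (.void 48 ⟨95986, 0, 0, 4014, 0, 0, 0, 0, 0, ⟨0, 0⟩, 0⟩ 0 0) (.cut .d (-4194304) (.void 48 ⟨100000, 0, 0, 0, 0, 0, 0, 0, 0, ⟨0, 0⟩, 0⟩ 0 0) (.cut .d (-2097152) (.void 48 ⟨1000000000, 0, 0, 0, 0, 0, 0,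 0, 0, ⟨0, 0⟩, 0⟩ 0 0) (.cut .d (-1048576) (.void 48 ⟨1000000000, 0, 0, 0, 0, 0, 0, 0, 0, ⟨0, 0⟩, 0⟩ 0 0) (.cut .d (-524288) (.void 48 ⟨1000000000, 0, 0, 0, 0, 0, 0, 0, 0, ⟨0, 0⟩, 0⟩ 0 0) (.cut .d (-262144) (.void 48 ⟨1000000000, 0, 0, 0, 0, 0, 0, 0, 0, ⟨0, 0⟩, 0⟩ 0 0) (.cut .d (-131072) (.void 48 ⟨1000000000, 0, 0, 0, 0, 0, 0, 0, 0, ⟨0, 0⟩, 0⟩ 0 0) (.cut .d (-65536) (.void 48 ⟨100000, 0, 0, 0, 0, 0, 0, 0, 0, ⟨0, 0⟩, 0⟩ 0 0) (.cut .d (-32768) (.void 48 ⟨1000000000, 0, 0, 0, 0, 0, 0, 0, 0, ⟨0, 0⟩, 0⟩ 0 0) (.cut .d (-16384) (.void 48 ⟨1000000000, 0, 0, 0, 0, 0, 0, 0, 0, ⟨0, 0⟩, 0⟩ 0 0) (.pos 48 .mp ⟨167772160000, 0, 0, 0, 0, 0, 0, 0, 0, ⟨0, 0⟩, 0⟩ 0 0))))))))))) (.void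 62 ⟨100000, 0, 0, 0, 0, 0, 0, 0, 0, ⟨0, 0⟩, 0⟩ 0 0)) (.void 87 ⟨92310, 0, 0, 7690, 0, 0, 0, 0, 0, ⟨0, 0⟩, 0⟩ 0 0)) (.void 154 ⟨92310, 0, 0, 7690, 0, 0, 0, 0, 0, ⟨0, 0⟩, 0⟩ 0 0))) (.cut .v 16777216 (.pos 1 .pm ⟨0, 0, 19078309, 0, 0, 0, 0, 0, 0, ⟨0, 0⟩, 0⟩ 0 0) (.cut .v 4294967296 (.cut .v 268435456 (.pos 61 .pp ⟨58973163947, 0, 0, 108798996053, 0, 0, 0, 0, 0, ⟨0, 0⟩, 0⟩ 0 0) (.void 87 ⟨351507449, 0, 0, 648492551, 0, 0, 0, 0, 0, ⟨0, 0⟩, 0⟩ 0 0)) (.void 154 ⟨351507449, 0, 0, 648492551, 0, 0, 0, 0, 0, ⟨0, 0⟩, 0⟩ 0 0)))),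
    by decide +kernel⟩

def covers45 : cell.Covers table row45.1 :=
  ⟨(.cut .d 0 (.cut .v 16777216 (.cut .d (-8388608) (.void 1 ⟨0, 0, 2590, 0, 0, 97410, 0, 0, 0, ⟨0, 0⟩, 0⟩ 0 0) (.cut .d (-4194304) (.void 1 ⟨0, 0, 761, 0, 0, 99239, 0, 0, 0, ⟨0, 0⟩, 0⟩ 0 0) (.cut .d (-2097152) (.void 1 ⟨0, 0, 0, 0, 0, 100000, 0, 0, 0, ⟨0, 0⟩, 0⟩ 0 0) (.cut .d (-1048576) (.void 1 ⟨0, 0, 0, 0, 0, 100000, 0, 0, 0, ⟨0, 0⟩, 0⟩ 0 0) (.cut .d (-524288) (.void 1 ⟨0, 0, 0, 0, 0, 100000, 0, 0, 0, ⟨0, 0⟩, 0⟩ 0 0) (.cut .d (-262144) (.void 1 ⟨0, 0, 0, 0, 0, 100000, 0, 0, 0, ⟨0, 0⟩, 0⟩ 0 0) (.cut .d (-131072) (.void 1 ⟨0, 0, 0, 0, 0, 100000, 0, 0, 0, ⟨0, 0⟩, 0⟩ 0 0) (.cut .d (-65536) (.void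 1 ⟨0, 0, 179, 0, 0, 99821, 0, 0, 0, ⟨0, 0⟩, 0⟩ 0 0) (.cut .d (-32768) (.void 1 ⟨0, 0, 0, 0, 0, 100000, 0, 0, 0, ⟨0, 0⟩, 0⟩ 0 0) (.cut .d (-16384) (.void 1 ⟨0, 0, 158, 0, 0, 99842, 0, 0, 0, ⟨0, 0⟩, 0⟩ 0 0) (.cut .d (-8192) (.void 1 ⟨0, 0, 0, 0, 0, 100000, 0, 0, 0, ⟨0, 0⟩, 0⟩ 0 0) (.cut .v 8388608 (.void 2 ⟨0, 0, 100013, 0, 0, 0, 0, 0, 0, ⟨0, 0⟩, 0⟩ 0 0) (.cut .d (-4096) (.void 3 ⟨100000, 0, 0, 0, 0, 0, 0, 0, 0, ⟨0, 0⟩, 0⟩ 0 0) (.pos 3 .mm ⟨167772160000, 0, 0, 0, 0, 0, 0, 0, 0, ⟨0, 0⟩, 0⟩ 0 0)))))))))))))) (.cut .v 4294967296 (.cut .d (-8388608) (.void 86 ⟨0, 0, 0, 0, 0, 40761, 0, 59239, 0, ⟨(-1), 11544164⟩, 0⟩ 0 128) (.cut .v 268435456 (.cut .v 67108864 (.cut .d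 (-4194304) (.void 48 ⟨100000, 0, 0, 0, 0, 0, 0, 0, 0, ⟨0, 0⟩, 0⟩ 0 0) (.cut .d (-2097152) (.void 48 ⟨100000, 0, 0, 0, 0, 0, 0, 0, 0, ⟨0, 0⟩, 0⟩ 0 0) (.cut .d (-1048576) (.void 48 ⟨100000, 0, 0, 0, 0, 0, 0, 0, 0, ⟨0, 0⟩, 0⟩ 0 0) (.cut .d (-524288) (.void 48 ⟨100000, 0, 0, 0, 0, 0, 0, 0, 0, ⟨0, 0⟩, 0⟩ 0 0) (.cut .d (-262144) (.void 48 ⟨100000, 0, 0, 0, 0, 0, 0, 0, 0, ⟨0, 0⟩, 0⟩ 0 0) (.cut .d (-131072) (.void 48 ⟨100000, 0, 0, 0, 0, 0, 0, 0, 0, ⟨0, 0⟩, 0⟩ 0 0) (.cut .d (-65536) (.void 48 ⟨100000, 0, 0, 0, 0, 0, 0, 0, 0, ⟨0, 0⟩, 0⟩ 0 0) (.cut .d (-32768) (.void 48 ⟨100000, 0, 0, 0, 0, 0, 0, 0, 0, ⟨0, 0⟩, 0⟩ 0 0) (.cut .d (-16384) (.void 48 ⟨100000, 0, 0, 0, 0, 0, 0,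 0, 0, ⟨0, 0⟩, 0⟩ 0 0) (.cut .d (-8192) (.void 48 ⟨100000, 0, 0, 0, 0, 0, 0, 0, 0, ⟨0, 0⟩, 0⟩ 0 0) (.cut .d (-4096) (.void 48 ⟨100000, 0, 0, 0, 0, 0, 0, 0, 0, ⟨0, 0⟩, 0⟩ 0 0) (.pos 48 .mp ⟨167772160000, 0, 0, 0, 0, 0, 0, 0, 0, ⟨0, 0⟩, 0⟩ 0 0)))))))))))) (.void 62 ⟨100000, 0, 0, 0, 0, 0, 0, 0, 0, ⟨0, 0⟩, 0⟩ 0 0)) (.void 87 ⟨88892, 0, 0, 11108, 0, 0, 0, 0, 0, ⟨0, 0⟩, 0⟩ 0 0))) (.void 154 ⟨92229, 0, 0, 7683, 0, 0, 0, 0, 0, ⟨0, 0⟩, 0⟩ 0 0))) (.cut .v 16777216 (.cut .v 8388608 (.cut .v 4194304 (.cut .v 2097152 (.cut .d 4099 (.cut .d 2049 (.void 77 ⟨0, 0, 100000, 0, 0, 0, 0, 0, 0, ⟨0, 0⟩, 0⟩ 0 0) (.pos 77 .pm ⟨0, 0, 19050512, 0, 0, 0, 0, 0, 0, ⟨0, 0⟩, 0⟩ 0 0)) (.pos 77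 .pm ⟨0, 0, 0, 2359202, 0, 0, 0, 0, 0, ⟨0, 0⟩, 0⟩ 0 0)) (.pos 78 .pm ⟨0, 0, 167772160000, 0, 0, 0, 0, 0, 0, ⟨0, 0⟩, 0⟩ 0 0)) (.pos 5 .pm ⟨0, 0, 167772160000, 0, 0, 0, 0, 0, 0, ⟨0, 0⟩, 0⟩ 0 0)) (.pos 3 .pm ⟨0, 0, 167772160000, 0, 0, 0, 0, 0, 0, ⟨0, 0⟩, 0⟩ 0 0)) (.cut .v 4294967296 (.cut .v 268435456 (.cut .d 4099 (.cut .v 67108864 (.pos 48 .pp ⟨0, 0, 0, 0, 0, 0, 0, 0, 0, ⟨0, 0⟩, 0⟩ 0 0) (.cut .v 134217728 (.pos 106 .pp ⟨167772160000, 0, 0, 0, 0, 0, 0, 0, 0, ⟨0, 0⟩, 0⟩ 0 0) (.void 107 ⟨0, 0, 0, 100000, 0, 0, 0, 0, 0, ⟨0, 0⟩, 0⟩ 0 0))) (.pos 61 .pp ⟨0, 0, 0, 0, 0, 0, 0, 0, 0, ⟨0, 0⟩, 0⟩ 0 0)) (.void 87 ⟨0, 0, 0, 100000, 0, 0, 0, 0, 0, ⟨0, 0⟩, 0⟩ 0 0)) (.void 154 ⟨0,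 0, 0, 100000, 0, 0, 0, 0, 0, ⟨0, 0⟩, 0⟩ 0 0)))),
    by decide +kernel⟩

end Vale.Agent.P237.Petty.Cor.Grid.N11.Low
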