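import Vale.Agent.P237.Petty.Cor.Grid.N11.MidCert

/-!
# P237: a cell in dimension 11, subdivisions
-/

namespace Vale.Agent.P237.Petty.Cor.Grid.N11.Mid

def covers0 : cell.Covers table row0.1 :=
  ⟨(.cut .d 0 (.cut .v 16777216 (.cut .v 8388608 (.cut .v 4194304 (.pos 4 .mm ⟨0, 0, 33750091, 0, 0, 0, 0, 0, 0, ⟨0, 0⟩, 0⟩ 0 0) (.pos 5 .mm ⟨0, 0, 0, 0, 0, 107183, 0, 0, 0, ⟨0, 0⟩, 0⟩ 0 0)) (.cut .d (-8388608) (.pos 3 .mm ⟨0, 0, 0, 0, 0, 0, 0, 0, 0, ⟨0, 0⟩, 0⟩ 0 0) (.cut .d (-4194304) (.pos 3 .mm ⟨0, 0, 0, 0, 0, 0, 0, 0, 0, ⟨0, 0⟩, 0⟩ 0 0) (.cut .d (-2097152) (.pos 3 .mm ⟨0, 0, 0, 0, 0, 0, 0, 0, 0, ⟨0, 0⟩, 0⟩ 0 0) (.pos 3 .mm ⟨0, 0, 0, 0, 0, 0, 0, 0, 0, ⟨0, 0⟩, 0⟩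 0 0))))) (.cut .v 33554432 (.cut .v 25165824 (.cut .v 20971520 (.cut .v 18874368 (.cut .v 17825792 (.pos 17 .mp ⟨0, 0, 0, 0, 0, 0, 0, 0, 0, ⟨0, 0⟩, 0⟩ 0 0) (.pos 18 .mp ⟨0, 0, 0, 0, 0, 0, 0, 0, 0, ⟨0, 0⟩, 0⟩ 0 0)) (.pos 16 .mp ⟨0, 0, 0, 0, 0, 0, 0, 0, 0, ⟨0, 0⟩, 0⟩ 0 0)) (.pos 14 .mp ⟨566578, 0, 0, 0, 0, 0, 0, 0, 0, ⟨0, 0⟩, 0⟩ 0 0)) (.pos 12 .mp ⟨705143, 0, 0, 0, 0, 0, 0, 0, 0, ⟨0, 0⟩, 0⟩ 0 0)) (.pos 10 .mp ⟨995873, 0, 0, 0, 0, 0, 0, 0, 0, ⟨0, 0⟩, 0⟩ 0 0))) (.cut .v 16777216 (.cut .v 8388608 (.cut .v 4194304 (.pos 4 .pm ⟨0, 0, 34171333, 0, 1506411, 0, 0, 0, 0, ⟨0, 0⟩, 0⟩ 0 0) (.pos 5 .pm ⟨0, 0, 0, 0, 2380297, 0, 0, 0, 0, ⟨0, 0⟩, 0⟩ 0 0)) (.pos 3 .pm ⟨0, 0,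 0, 0, 873181, 0, 0, 0, 0, ⟨0, 0⟩, 0⟩ 0 0)) (.cut .v 33554432 (.cut .v 25165824 (.cut .d 10490364 (.cut .v 20971520 (.cut .d 5245182 (.cut .v 18874368 (.cut .d 2622591 (.cut .v 17825792 (.cut .d 1311295 (.pos 17 .pp ⟨0, 0, 0, 0, 0, 0, 0, 0, 0, ⟨0, 0⟩, 0⟩ 0 0) (.pos 17 .pp ⟨0, 0, 0, 0, 0, 0, 0, 0, 0, ⟨0, 0⟩, 0⟩ 0 0)) (.cut .d 1311295 (.pos 18 .pp ⟨0, 0, 0, 0, 0, 0, 0, 0, 0, ⟨0, 0⟩, 0⟩ 0 0) (.pos 18 .pp ⟨0, 0, 0, 0, 0, 0, 0, 0, 0, ⟨0, 0⟩, 0⟩ 0 0))) (.pos 15 .pp ⟨0, 0, 0, 0, 0, 0, 0, 0, 347588, ⟨0, 0⟩, 17278579⟩ 0 0)) (.cut .d 2622591 (.pos 16 .pp ⟨0, 0, 0, 0, 0, 0, 0, 0, 0, ⟨0, 0⟩, 0⟩ 0 0) (.pos 16 .pp ⟨0, 0, 0, 0, 0, 0, 0, 0, 0, ⟨0, 0⟩, 0⟩ 0 0))) (.pos 13 .pp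 ⟨0, 0, 0, 0, 0, 0, 0, 64387, 658120, ⟨(-1), 16014365⟩, 17739746⟩ 0 43)) (.cut .d 5245182 (.pos 14 .pp ⟨566578, 0, 0, 0, 0, 0, 0, 0, 0, ⟨0, 0⟩, 0⟩ 0 0) (.pos 14 .pp ⟨566578, 0, 0, 0, 0, 0, 0, 0, 0, ⟨0, 0⟩, 0⟩ 0 0))) (.pos 11 .pp ⟨0, 0, 0, 0, 2483449, 0, 192250, 0, 0, ⟨0, 0⟩, 0⟩ 0 0)) (.cut .d 10490364 (.pos 12 .pp ⟨705143, 0, 0, 0, 0, 0, 0, 0, 0, ⟨0, 0⟩, 0⟩ 0 0) (.pos 12 .pp ⟨705140, 0, 0, 0, 0, 0, 0, 4527, 0, ⟨(-1), 15383018⟩, 0⟩ 0 59))) (.cut .v 50331648 (.cut .v 41943040 (.pos 31 .pp ⟨0, 0, 0, 0, 0, 0, 910130, 0, 0, ⟨0, 0⟩, 0⟩ 0 0) (.void 32 ⟨0, 0, 0, 0, 0, 0, 100000, 0, 0, ⟨0, 0⟩, 0⟩ 0 0)) (.void 30 ⟨0, 0, 0, 0, 0, 0, 100000, 0, 0, ⟨0, 0⟩, 0⟩ 0 0))))),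
    by decide +kernel⟩

def covers1 : cell.Covers table row1.1 :=
  ⟨(.cut .d 0 (.cut .v 16777216 (.cut .v 8388608 (.cut .v 4194304 (.void 4 ⟨0, 0, 100000, 0, 0, 0, 0, 0, 0, ⟨0, 0⟩, 0⟩ 0 0) (.pos 5 .mm ⟨0, 0, 0, 0, 0, 554662, 0, 0, 0, ⟨0, 0⟩, 0⟩ 0 0)) (.cut .d (-8388608) (.pos 3 .mm ⟨0, 0, 0, 0, 0, 384009, 0, 0, 0, ⟨0, 0⟩, 0⟩ 0 0) (.cut .v 12582912 (.pos 6 .mm ⟨0, 0, 0, 0, 0, 376387, 0, 0, 0, ⟨0, 0⟩, 0⟩ 0 0) (.cut .v 14680064 (.pos 33 .mm ⟨0, 0, 0, 0, 0, 240034, 0, 0, 0, ⟨0, 0⟩, 0⟩ 0 0) (.cut .v 15728640 (.pos 35 .mm ⟨0, 0, 0, 0, 0, 58977, 0, 0, 0, ⟨0, 0⟩, 0⟩ 0 0) (.pos 36 .mm ⟨0, 0, 0, 0, 0, 0, 0, 0, 0, ⟨0, 0⟩, 0⟩ 0 0)))))) (.cut .v 33554432 (.cut .v 25165824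 (.cut .v 20971520 (.cut .v 18874368 (.cut .v 17825792 (.pos 17 .mp ⟨0, 0, 0, 0, 0, 0, 0, 0, 0, ⟨0, 0⟩, 0⟩ 0 0) (.pos 18 .mp ⟨0, 0, 0, 0, 0, 0, 0, 0, 0, ⟨0, 0⟩, 0⟩ 0 0)) (.pos 16 .mp ⟨0, 0, 0, 0, 0, 0, 0, 0, 0, ⟨0, 0⟩, 0⟩ 0 0)) (.pos 14 .mp ⟨571183, 0, 0, 0, 0, 0, 0, 0, 0, ⟨0, 0⟩, 0⟩ 0 0)) (.pos 12 .mp ⟨710874, 0, 0, 0, 0, 0, 0, 0, 0, ⟨0, 0⟩, 0⟩ 0 0)) (.pos 10 .mp ⟨1003966, 0, 0, 0, 0, 0, 0, 0, 0, ⟨0, 0⟩, 0⟩ 0 0))) (.cut .v 16777216 (.cut .v 8388608 (.void 2 ⟨0, 0, 0, 0, 100000, 0, 0, 0, 0, ⟨0, 0⟩, 0⟩ 0 0) (.cut .v 12582912 (.void 6 ⟨0, 0, 0, 0, 100000, 0, 0, 0, 0, ⟨0, 0⟩, 0⟩ 0 0) (.pos 7 .pm ⟨0, 0, 0, 0, 0, 0, 0, 0, 517326, ⟨0, 0⟩, 15612959⟩ 0 0))) (.cut .v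 33554432 (.cut .d 18324502 (.cut .v 25165824 (.cut .d 9162251 (.cut .v 20971520 (.cut .d 4581125 (.cut .v 18874368 (.cut .d 2290562 (.cut .v 17825792 (.cut .d 1145281 (.pos 17 .pp ⟨0, 0, 0, 0, 0, 0, 0, 0, 0, ⟨0, 0⟩, 0⟩ 0 0) (.pos 17 .pp ⟨0, 0, 0, 0, 0, 0, 0, 0, 0, ⟨0, 0⟩, 0⟩ 0 0)) (.pos 18 .pp ⟨0, 0, 0, 0, 0, 0, 0, 0, 0, ⟨0, 0⟩, 0⟩ 0 0)) (.pos 15 .pp ⟨0, 0, 0, 0, 0, 0, 0, 0, 850907, ⟨0, 0⟩, 17278579⟩ 0 0)) (.pos 16 .pp ⟨0, 0, 0, 0, 0, 0, 0, 0, 0, ⟨0, 0⟩, 0⟩ 0 0)) (.pos 13 .pp ⟨0, 0, 0, 0, 5975170, 0, 0, 0, 1290233, ⟨0, 0⟩, 17739746⟩ 0 0)) (.pos 14 .pp ⟨0, 0, 0, 0, 0, 0, 0, 0, 706681, ⟨0, 0⟩, 19632256⟩ 0 0)) (.pos 11 .pp ⟨0, 0, 0, 0, 25020269, 0, 0, 0, 4374369,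 ⟨0, 0⟩, 18567042⟩ 0 0)) (.cut .d 9162251 (.pos 12 .pp ⟨710874, 0, 0, 0, 0, 0, 0, 0, 0, ⟨0, 0⟩, 0⟩ 0 0) (.pos 12 .pp ⟨0, 0, 0, 0, 258902, 0, 0, 0, 687247, ⟨0, 0⟩, 22080058⟩ 0 0))) (.pos 9 .pp ⟨0, 0, 0, 0, 0, 0, 0, 0, 40523147, ⟨0, 0⟩, 19951585⟩ 0 0)) (.cut .v 50331648 (.cut .d 18324502 (.pos 29 .pp ⟨4349603, 0, 0, 0, 0, 0, 5156313, 0, 0, ⟨0, 0⟩, 0⟩ 0 0) (.cut .v 41943040 (.pos 31 .pp ⟨0, 0, 0, 0, 0, 0, 0, 0, 24313537, ⟨0, 0⟩, 25087789⟩ 0 0) (.cut .d 27486753 (.cut .v 46137344 (.cut .l 7092186 (.void 37 ⟨0, 0, 0, 0, 0, 0, 100000, 0, 0, ⟨0, 0⟩, 0⟩ 0 0) (.cut .l 9646899 (.pos 37 .pp ⟨0, 0, 0, 0, 0, 0, 40289680, 0, 16852083, ⟨0, 0⟩, 27166774⟩ 0 0) (.cut .l 10924255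 (.pos 37 .pp ⟨0, 17115066, 0, 0, 0, 0, 17701790, 0, 11567260, ⟨0, 0⟩, 27166774⟩ 0 0) (.cut .d 22905627 (.cut .s 2359296 (.cut .v 44040192 (.cut .s 2031616 (.pos 39 .pp ⟨0, 0, 0, 0, 0, 0, 15419077, 71159417, 0, ⟨730428, 12134515⟩, 0⟩ 54 74) (.pos 39 .pp ⟨0, 12220310, 0, 0, 0, 0, 1499217, 59357715, 0, ⟨1113091, 10702464⟩, 0⟩ 64 86)) (.pos 40 .pp ⟨0, 49852144, 0, 0, 0, 0, 30987060, 0, 0, ⟨0, 0⟩, 0⟩ 0 0)) (.pos 37 .pp ⟨0, 26417061, 0, 0, 0, 0, 413925, 0, 2220572, ⟨0, 0⟩, 27166774⟩ 0 0)) (.cut .s 2359296 (.cut .s 2031616 (.void 37 ⟨0, 0, 0, 0, 0, 0, 39497, 0, 60503, ⟨0, 0⟩, 27166774⟩ 0 0) (.pos 37 .pp ⟨0, 34474576, 0, 0, 0, 0, 0, 67489053, 12133453, ⟨1489108, 9490688⟩,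 27166774⟩ 73 95)) (.void 37 ⟨0, 45028, 0, 0, 0, 0, 0, 0, 54972, ⟨0, 0⟩, 27166774⟩ 0 0)))))) (.void 38 ⟨0, 76867, 0, 0, 0, 0, 23133, 0, 0, ⟨0, 0⟩, 0⟩ 0 0)) (.void 32 ⟨0, 24221, 0, 0, 0, 0, 9986, 0, 65794, ⟨0, 0⟩, 27764203⟩ 0 0)))) (.void 30 ⟨0, 0, 0, 0, 0, 0, 100000, 0, 0, ⟨0, 0⟩, 0⟩ 0 0))))),
    by decide +kernel⟩

def covers2 : cell.Covers table row2.1 :=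
  ⟨(.cut .d 0 (.cut .v 16777216 (.cut .v 8388608 (.cut .v 4194304 (.void 4 ⟨0, 0, 100000, 0, 0, 0, 0, 0, 0, ⟨0, 0⟩, 0⟩ 0 0) (.pos 5 .mm ⟨0, 0, 0, 0, 0, 147675, 0, 0, 0, ⟨0, 0⟩, 0⟩ 0 0)) (.cut .v 12582912 (.pos 6 .mm ⟨0, 0, 0, 0, 0, 221512, 0, 0, 0, ⟨0, 0⟩, 0⟩ 0 0) (.cut .d (-8388608) (.pos 7 .mm ⟨0, 0, 0, 0, 0, 270737, 0, 0, 0, ⟨0, 0⟩, 0⟩ 0 0) (.cut .v 14680064 (.pos 33 .mm ⟨0, 0, 0, 0, 0, 258431, 0, 0, 0, ⟨0, 0⟩, 0⟩ 0 0) (.cut .v 15728640 (.pos 35 .mm ⟨0, 0, 0, 0, 0, 276890, 0, 0, 0, ⟨0, 0⟩, 0⟩ 0 0) (.pos 36 .mm ⟨0, 0, 0, 0, 0, 5838, 0, 0, 0, ⟨0, 0⟩, 0⟩ 0 0)))))) (.cut .v 33554432 (.cut .v 25165824 (.cut .v 20971520 (.cut .v 18874368 (.pos 15 .mp ⟨0, 0, 0,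 0, 0, 0, 0, 0, 0, ⟨0, 0⟩, 0⟩ 0 0) (.pos 16 .mp ⟨0, 0, 0, 0, 0, 0, 0, 0, 0, ⟨0, 0⟩, 0⟩ 0 0)) (.pos 14 .mp ⟨1206716, 0, 0, 0, 0, 0, 0, 0, 0, ⟨0, 0⟩, 0⟩ 0 0)) (.pos 12 .mp ⟨1787226, 0, 0, 0, 0, 0, 0, 0, 0, ⟨0, 0⟩, 0⟩ 0 0)) (.pos 10 .mp ⟨2259790, 0, 0, 0, 0, 0, 0, 0, 0, ⟨0, 0⟩, 0⟩ 0 0))) (.cut .v 16777216 (.cut .v 8388608 (.void 2 ⟨0, 0, 0, 0, 100000, 0, 0, 0, 0, ⟨0, 0⟩, 0⟩ 0 0) (.cut .v 12582912 (.void 6 ⟨0, 0, 0, 0, 100000, 0, 0, 0, 0, ⟨0, 0⟩, 0⟩ 0 0) (.cut .v 14680064 (.pos 33 .pm ⟨0, 0, 0, 0, 0, 0, 0, 0, 0, ⟨0, 0⟩, 0⟩ 0 0) (.cut .d 38295820 (.cut .d 19147910 (.cut .d 9573955 (.cut .d 4786977 (.cut .d 2393488 (.pos 34 .pm ⟨0, 0, 0, 0, 0, 0, 0, 0, 0, ⟨0, 0⟩,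 0⟩ 0 0) (.pos 34 .pm ⟨0, 0, 0, 0, 0, 0, 0, 0, 336487, ⟨0, 0⟩, 16226390⟩ 0 0)) (.void 34 ⟨0, 0, 0, 0, 100000, 0, 0, 0, 0, ⟨0, 0⟩, 0⟩ 0 0)) (.void 34 ⟨0, 0, 0, 0, 100000, 0, 0, 0, 0, ⟨0, 0⟩, 0⟩ 0 0)) (.void 34 ⟨0, 0, 0, 0, 0, 0, 0, 0, 100000, ⟨0, 0⟩, 16226390⟩ 0 0)) (.void 34 ⟨0, 0, 0, 0, 0, 0, 0, 0, 100000, ⟨0, 0⟩, 16226390⟩ 0 0))))) (.cut .d 38295820 (.cut .v 33554432 (.cut .d 19147910 (.cut .v 25165824 (.cut .d 9573955 (.cut .v 20971520 (.cut .d 4786977 (.cut .v 18874368 (.cut .d 2393488 (.cut .v 17825792 (.cut .d 1196744 (.pos 17 .pp ⟨0, 0, 0, 0, 0, 0, 0, 0, 0, ⟨0, 0⟩, 0⟩ 0 0) (.pos 17 .pp ⟨0, 0, 0, 0, 0, 0, 0, 0, 0, ⟨0, 0⟩, 0⟩ 0 0)) (.pos 18 .pp ⟨0, 0,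 0, 0, 0, 0, 0, 0, 0, ⟨0, 0⟩, 0⟩ 0 0)) (.pos 15 .pp ⟨0, 0, 0, 0, 0, 0, 0, 0, 329714, ⟨0, 0⟩, 17278579⟩ 0 0)) (.pos 16 .pp ⟨0, 0, 0, 0, 0, 0, 0, 0, 0, ⟨0, 0⟩, 0⟩ 0 0)) (.pos 13 .pp ⟨0, 0, 0, 0, 0, 0, 0, 0, 320488, ⟨0, 0⟩, 17739746⟩ 0 0)) (.pos 14 .pp ⟨0, 0, 0, 0, 0, 0, 0, 0, 849775, ⟨0, 0⟩, 19632256⟩ 0 0)) (.pos 11 .pp ⟨0, 0, 0, 0, 9733238, 0, 0, 0, 339443, ⟨0, 0⟩, 18567042⟩ 0 0)) (.pos 12 .pp ⟨0, 0, 0, 0, 0, 0, 0, 0, 1800071, ⟨0, 0⟩, 22080058⟩ 0 0)) (.pos 9 .pp ⟨0, 0, 0, 0, 0, 0, 0, 0, 7715167, ⟨0, 0⟩, 19951585⟩ 0 0)) (.cut .v 50331648 (.cut .d 19147910 (.pos 29 .pp ⟨0, 2326304, 0, 0, 0, 0, 0, 0, 835521, ⟨0, 0⟩, 26257762⟩ 0 0) (.cut .v 41943040 (.cut .v 37748736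 (.pos 43 .pp ⟨0, 0, 0, 0, 0, 0, 0, 0, 11800276, ⟨0, 0⟩, 24435601⟩ 0 0) (.cut .d 28721865 (.pos 44 .pp ⟨0, 26858330, 0, 0, 0, 0, 0, 0, 2684850, ⟨0, 0⟩, 25837502⟩ 0 0) (.void 44 ⟨0, 0, 0, 0, 0, 0, 0, 0, 100000, ⟨0, 0⟩, 25837502⟩ 0 0))) (.pos 32 .pp ⟨0, 51759476, 0, 0, 0, 0, 1082653, 0, 2581218, ⟨0, 0⟩, 27764203⟩ 0 0))) (.pos 30 .pp ⟨91281131, 186743334, 0, 0, 0, 0, 0, 0, 0, ⟨0, 0⟩, 0⟩ 0 0))) (.void 8 ⟨0, 53159, 0, 0, 0, 0, 0, 0, 46841, ⟨0, 0⟩, 23726566⟩ 0 0)))),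
    by decide +kernel⟩

def covers3 : cell.Covers table row3.1 :=
  ⟨(.cut .d 0 (.cut .v 16777216 (.cut .v 8388608 (.cut .v 4194304 (.void 4 ⟨0, 0, 100000, 0, 0, 0, 0, 0, 0, ⟨0, 0⟩, 0⟩ 0 0) (.pos 5 .mm ⟨0, 0, 0, 0, 0, 178357, 0, 0, 0, ⟨0, 0⟩, 0⟩ 0 0)) (.cut .v 12582912 (.pos 6 .mm ⟨0, 0, 0, 0, 0, 267535, 0, 0, 0, ⟨0, 0⟩, 0⟩ 0 0) (.cut .d (-8388608) (.pos 7 .mm ⟨0, 0, 0, 0, 0, 326987, 0, 0, 0, ⟨0, 0⟩, 0⟩ 0 0) (.cut .v 14680064 (.pos 33 .mm ⟨0, 0, 0, 0, 0, 312124, 0, 0, 0, ⟨0, 0⟩, 0⟩ 0 0) (.cut .v 15728640 (.pos 35 .mm ⟨0, 0, 0, 0, 0, 307381, 0, 0, 0, ⟨0, 0⟩, 0⟩ 0 0) (.pos 36 .mm ⟨0, 0, 0, 0, 0, 132154, 0, 0, 0, ⟨0, 0⟩, 0⟩ 0 0)))))) (.cut .v 67108864 (.cut .v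 33554432 (.cut .v 25165824 (.cut .v 20971520 (.pos 13 .mp ⟨0, 0, 0, 0, 0, 0, 0, 0, 0, ⟨0, 0⟩, 0⟩ 0 0) (.pos 14 .mp ⟨607206, 0, 0, 0, 0, 0, 0, 0, 0, ⟨0, 0⟩, 0⟩ 0 0)) (.pos 12 .mp ⟨755707, 0, 0, 0, 0, 0, 0, 0, 0, ⟨0, 0⟩, 0⟩ 0 0)) (.pos 10 .mp ⟨1067284, 0, 0, 0, 0, 0, 0, 0, 0, ⟨0, 0⟩, 0⟩ 0 0)) (.void 49 ⟨100000, 0, 0, 0, 0, 0, 0, 0, 0, ⟨0, 0⟩, 0⟩ 0 0))) (.cut .v 16777216 (.cut .v 8388608 (.void 2 ⟨0, 0, 0, 0, 100000, 0, 0, 0, 0, ⟨0, 0⟩, 0⟩ 0 0) (.cut .v 12582912 (.void 6 ⟨0, 0, 0, 0, 100000, 0, 0, 0, 0, ⟨0, 0⟩, 0⟩ 0 0) (.cut .v 14680064 (.pos 33 .pm ⟨0, 0, 0, 0, 0, 0, 0, 0, 0, ⟨0, 0⟩, 0⟩ 0 0) (.cut .v 15728640 (.pos 35 .pm ⟨0, 0, 0, 0, 0, 0, 0, 0, 0, ⟨0, 0⟩,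 0⟩ 0 0) (.cut .d 28636973 (.cut .d 14318486 (.cut .d 7159243 (.cut .d 3579621 (.cut .d 1789810 (.pos 36 .pm ⟨0, 0, 0, 0, 0, 0, 0, 0, 0, ⟨0, 0⟩, 0⟩ 0 0) (.pos 36 .pm ⟨0, 0, 0, 0, 0, 0, 0, 0, 0, ⟨0, 0⟩, 0⟩ 0 0)) (.pos 36 .pm ⟨0, 0, 0, 0, 0, 0, 0, 0, 296403, ⟨0, 0⟩, 16508694⟩ 0 0)) (.void 36 ⟨0, 0, 0, 0, 100000, 0, 0, 0, 0, ⟨0, 0⟩, 0⟩ 0 0)) (.void 36 ⟨0, 0, 0, 0, 0, 0, 0, 0, 100000, ⟨0, 0⟩, 16508694⟩ 0 0)) (.void 36 ⟨0, 0, 0, 0, 0, 0, 0, 0, 100000, ⟨0, 0⟩, 16508694⟩ 0 0)))))) (.cut .v 67108864 (.cut .d 28636973 (.cut .v 33554432 (.cut .v 25165824 (.cut .d 14318486 (.cut .v 20971520 (.cut .d 7159243 (.cut .v 18874368 (.cut .d 3579621 (.cut .d 1789810 (.pos 15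 .pp ⟨0, 0, 0, 0, 0, 0, 0, 0, 0, ⟨0, 0⟩, 0⟩ 0 0) (.pos 15 .pp ⟨0, 0, 0, 0, 0, 0, 0, 0, 0, ⟨0, 0⟩, 0⟩ 0 0)) (.pos 15 .pp ⟨0, 0, 0, 0, 0, 0, 0, 0, 270637, ⟨0, 0⟩, 17278579⟩ 0 0)) (.pos 16 .pp ⟨0, 0, 0, 0, 0, 0, 0, 0, 317035, ⟨0, 0⟩, 18269873⟩ 0 0)) (.pos 13 .pp ⟨0, 0, 0, 0, 3535566, 0, 0, 0, 287099, ⟨0, 0⟩, 17739746⟩ 0 0)) (.pos 14 .pp ⟨0, 0, 0, 0, 0, 0, 0, 0, 310779, ⟨0, 0⟩, 19632256⟩ 0 0)) (.pos 11 .pp ⟨0, 0, 0, 0, 0, 0, 0, 0, 5784366, ⟨0, 0⟩, 18567042⟩ 0 0)) (.cut .d 14318486 (.pos 12 .pp ⟨0, 0, 0, 0, 0, 0, 0, 0, 270754, ⟨0, 0⟩, 22080058⟩ 0 0) (.pos 12 .pp ⟨0, 0, 0, 0, 0, 0, 0, 0, 8675415, ⟨0, 0⟩, 22080058⟩ 0 0))) (.cut .v 50331648 (.cut .d 14318486 (.pos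 29 .pp ⟨0, 0, 0, 0, 0, 0, 0, 0, 267472, ⟨0, 0⟩, 26257762⟩ 0 0) (.cut .d 21477729 (.cut .v 41943040 (.pos 31 .pp ⟨0, 11417993, 0, 0, 0, 0, 0, 0, 4042653, ⟨0, 0⟩, 25087789⟩ 0 0) (.pos 32 .pp ⟨0, 49500017, 0, 0, 0, 0, 322014, 0, 0, ⟨0, 0⟩, 0⟩ 0 0)) (.pos 29 .pp ⟨0, 38547288, 0, 0, 0, 0, 0, 0, 17645291, ⟨0, 0⟩, 26257762⟩ 0 0))) (.pos 30 .pp ⟨43213653, 135380008, 0, 0, 0, 0, 0, 0, 0, ⟨0, 0⟩, 0⟩ 0 0))) (.void 8 ⟨0, 63258, 0, 0, 0, 0, 0, 0, 36742, ⟨0, 0⟩, 23726566⟩ 0 0)) (.void 49 ⟨40664, 59336, 0, 0, 0, 0, 0, 0, 0, ⟨0, 0⟩, 0⟩ 0 0)))),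
    by decide +kernel⟩

def covers4 : cell.Covers table row4.1 :=
  ⟨(.cut .d 0 (.cut .v 16777216 (.cut .v 8388608 (.cut .v 4194304 (.void 4 ⟨0, 0, 100000, 0, 0, 0, 0, 0, 0, ⟨0, 0⟩, 0⟩ 0 0) (.pos 5 .mm ⟨0, 0, 0, 0, 0, 282384, 0, 0, 0, ⟨0, 0⟩, 0⟩ 0 0)) (.cut .v 12582912 (.pos 6 .mm ⟨0, 0, 0, 0, 0, 303518, 0, 0, 0, ⟨0, 0⟩, 0⟩ 0 0) (.cut .d (-8388608) (.pos 7 .mm ⟨0, 0, 0, 0, 0, 517703, 0, 0, 0, ⟨0, 0⟩, 0⟩ 0 0) (.cut .v 14680064 (.pos 33 .mm ⟨0, 0, 0, 0, 0, 356436, 0, 0, 0, ⟨0, 0⟩, 0⟩ 0 0) (.cut .v 15728640 (.pos 35 .mm ⟨0, 0, 0, 0, 0, 349497, 0, 0, 0, ⟨0, 0⟩, 0⟩ 0 0) (.pos 36 .mm ⟨0, 0, 0, 0, 0, 181165, 0, 0, 0, ⟨0, 0⟩, 0⟩ 0 0)))))) (.cut .v 67108864 (.cut .v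 33554432 (.cut .v 25165824 (.cut .v 20971520 (.pos 13 .mp ⟨0, 0, 0, 0, 0, 0, 0, 0, 0, ⟨0, 0⟩, 0⟩ 0 0) (.pos 14 .mp ⟨676671, 0, 0, 0, 0, 0, 0, 0, 0, ⟨0, 0⟩, 0⟩ 0 0)) (.pos 12 .mp ⟨842161, 0, 0, 0, 0, 0, 0, 0, 0, ⟨0, 0⟩, 0⟩ 0 0)) (.pos 10 .mp ⟨1189382, 0, 0, 0, 0, 0, 0, 0, 0, ⟨0, 0⟩, 0⟩ 0 0)) (.void 49 ⟨100000, 0, 0, 0, 0, 0, 0, 0, 0, ⟨0, 0⟩, 0⟩ 0 0))) (.cut .v 16777216 (.cut .v 8388608 (.void 2 ⟨0, 0, 0, 0, 100000, 0, 0, 0, 0, ⟨0, 0⟩, 0⟩ 0 0) (.cut .v 12582912 (.pos 6 .pm ⟨0, 0, 0, 0, 0, 0, 0, 0, 0, ⟨0, 0⟩, 0⟩ 0 0) (.cut .v 14680064 (.pos 33 .pm ⟨0, 0, 0, 0, 0, 0, 0, 0, 0, ⟨0, 0⟩, 0⟩ 0 0) (.cut .v 15728640 (.pos 35 .pm ⟨0, 0, 0, 0, 0, 0, 0, 0, 0, ⟨0, 0⟩, 0⟩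 0 0) (.cut .v 16252928 (.pos 50 .pm ⟨0, 0, 0, 0, 0, 0, 0, 0, 17290, ⟨0, 0⟩, 16378180⟩ 0 0) (.cut .v 16515072 (.pos 52 .pm ⟨0, 0, 0, 0, 0, 0, 0, 0, 139439, ⟨0, 0⟩, 16579177⟩ 0 0) (.cut .d 22734344 (.cut .d 11367172 (.cut .d 5683586 (.cut .d 2841793 (.pos 53 .pm ⟨0, 0, 0, 0, 0, 0, 0, 0, 0, ⟨0, 0⟩, 0⟩ 0 0) (.pos 53 .pm ⟨0, 0, 0, 0, 0, 0, 0, 0, 276638, ⟨0, 0⟩, 16711292⟩ 0 0)) (.pos 53 .pm ⟨0, 0, 0, 0, 0, 0, 0, 0, 350525, ⟨0, 0⟩, 16711292⟩ 0 0)) (.void 53 ⟨0, 0, 0, 0, 100000, 0, 0, 0, 0, ⟨0, 0⟩, 0⟩ 0 0)) (.void 53 ⟨0, 0, 0, 0, 0, 0, 0, 0, 100000, ⟨0, 0⟩, 16711292⟩ 0 0)))))))) (.cut .v 67108864 (.cut .d 22734344 (.cut .v 33554432 (.cut .v 25165824 (.cut .v 20971520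 (.cut .d 11367172 (.cut .d 5683586 (.cut .v 18874368 (.cut .d 2841793 (.pos 15 .pp ⟨0, 0, 0, 0, 0, 0, 0, 0, 0, ⟨0, 0⟩, 0⟩ 0 0) (.pos 15 .pp ⟨0, 0, 0, 0, 0, 0, 0, 0, 288754, ⟨0, 0⟩, 17278579⟩ 0 0)) (.pos 16 .pp ⟨0, 0, 0, 0, 0, 0, 0, 0, 0, ⟨0, 0⟩, 0⟩ 0 0)) (.pos 13 .pp ⟨0, 0, 0, 0, 0, 0, 0, 0, 266564, ⟨0, 0⟩, 17739746⟩ 0 0)) (.pos 13 .pp ⟨0, 0, 0, 0, 3798726, 0, 0, 0, 356583, ⟨0, 0⟩, 17739746⟩ 0 0)) (.cut .d 11367172 (.pos 14 .pp ⟨0, 0, 0, 0, 0, 0, 0, 0, 332450, ⟨0, 0⟩, 19632256⟩ 0 0) (.pos 14 .pp ⟨0, 0, 0, 0, 0, 0, 0, 0, 3508954, ⟨0, 0⟩, 19632256⟩ 0 0))) (.cut .d 11367172 (.pos 12 .pp ⟨0, 0, 0, 0, 0, 0, 0, 0, 251388, ⟨0, 0⟩, 22080058⟩ 0 0) (.cut .d 17050758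 (.pos 12 .pp ⟨0, 0, 0, 0, 0, 0, 0, 0, 2502853, ⟨0, 0⟩, 22080058⟩ 0 0) (.cut .d 19892551 (.pos 12 .pp ⟨0, 0, 0, 0, 0, 0, 0, 0, 5593652, ⟨0, 0⟩, 22080058⟩ 0 0) (.cut .s 4882432 (.pos 12 .pp ⟨0, 8915587, 0, 0, 0, 0, 0, 0, 7635961, ⟨0, 0⟩, 22080058⟩ 0 0) (.pos 12 .pp ⟨0, 9000045, 0, 0, 0, 0, 0, 0, 8133472, ⟨0, 0⟩, 22080058⟩ 0 0)))))) (.cut .v 50331648 (.cut .s 4882432 (.cut .v 41943040 (.cut .s 4702208 (.cut .v 37748736 (.cut .d 11367172 (.pos 43 .pp ⟨0, 0, 0, 0, 0, 0, 0, 563127, 0, ⟨1852572, 8040580⟩, 0⟩ 69 121) (.cut .d 17050758 (.pos 43 .pp ⟨0, 0, 0, 0, 0, 0, 0, 0, 277483, ⟨0, 0⟩, 24435601⟩ 0 0) (.pos 43 .pp ⟨0, 14413028, 0, 0, 0, 0, 0, 0, 4187398, ⟨0, 0⟩,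 24435601⟩ 0 0))) (.pos 44 .pp ⟨0, 38103256, 0, 0, 0, 0, 0, 0, 283713, ⟨0, 0⟩, 25837502⟩ 0 0)) (.pos 31 .pp ⟨0, 15774284, 0, 0, 0, 0, 0, 0, 3865397, ⟨0, 0⟩, 25087789⟩ 0 0)) (.pos 32 .pp ⟨0, 54745035, 0, 0, 0, 0, 313096, 0, 0, ⟨0, 0⟩, 0⟩ 0 0)) (.pos 29 .pp ⟨0, 26571562, 0, 0, 0, 0, 0, 0, 266891, ⟨0, 0⟩, 26257762⟩ 0 0)) (.pos 30 .pp ⟨0, 86966534, 0, 0, 0, 0, 468886, 0, 0, ⟨0, 0⟩, 0⟩ 0 0))) (.void 8 ⟨0, 70855, 0, 0, 0, 0, 0, 0, 29145, ⟨0, 0⟩, 23726566⟩ 0 0)) (.void 49 ⟨40454, 59546, 0, 0, 0, 0, 0, 0, 0, ⟨0, 0⟩, 0⟩ 0 0)))),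
    by decide +kernel⟩

def covers5 : cell.Covers table row5.1 :=
  ⟨(.cut .d 0 (.cut .v 16777216 (.cut .v 8388608 (.cut .v 4194304 (.void 4 ⟨0, 0, 100000, 0, 0, 0, 0, 0, 0, ⟨0, 0⟩, 0⟩ 0 0) (.pos 5 .mm ⟨0, 0, 0, 0, 0, 1488554, 0, 0, 0, ⟨0, 0⟩, 0⟩ 0 0)) (.cut .v 12582912 (.pos 6 .mm ⟨0, 0, 0, 0, 0, 254462, 0, 0, 0, ⟨0, 0⟩, 0⟩ 0 0) (.cut .v 14680064 (.pos 33 .mm ⟨0, 0, 0, 0, 0, 362630, 0, 0, 0, ⟨0, 0⟩, 0⟩ 0 0) (.cut .v 15728640 (.cut .d (-8388608) (.pos 35 .mm ⟨0, 0, 0, 0, 0, 311009, 0, 0, 0, ⟨0, 0⟩, 0⟩ 0 0) (.pos 35 .mm ⟨0, 0, 0, 0, 0, 296466, 0, 0, 0, ⟨0, 0⟩, 0⟩ 0 0)) (.pos 36 .mm ⟨0, 0, 0, 0, 0, 213373, 0, 0, 0, ⟨0, 0⟩, 0⟩ 0 0))))) (.cut .v 67108864 (.cut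 .v 33554432 (.cut .v 25165824 (.pos 11 .mp ⟨0, 0, 0, 0, 0, 0, 0, 0, 0, ⟨0, 0⟩, 0⟩ 0 0) (.pos 12 .mp ⟨1235704, 0, 0, 0, 0, 0, 0, 0, 0, ⟨0, 0⟩, 0⟩ 0 0)) (.pos 10 .mp ⟨1533227, 0, 0, 0, 0, 0, 0, 0, 0, ⟨0, 0⟩, 0⟩ 0 0)) (.void 49 ⟨100000, 0, 0, 0, 0, 0, 0, 0, 0, ⟨0, 0⟩, 0⟩ 0 0))) (.cut .v 16777216 (.cut .v 8388608 (.void 2 ⟨0, 0, 0, 0, 100000, 0, 0, 0, 0, ⟨0, 0⟩, 0⟩ 0 0) (.cut .v 12582912 (.pos 6 .pm ⟨0, 0, 0, 0, 0, 0, 0, 0, 0, ⟨0, 0⟩, 0⟩ 0 0) (.cut .v 14680064 (.pos 33 .pm ⟨0, 0, 0, 0, 0, 0, 0, 0, 0, ⟨0, 0⟩, 0⟩ 0 0) (.cut .v 15728640 (.pos 35 .pm ⟨0, 0, 0, 0, 0, 0, 0, 0, 0, ⟨0, 0⟩, 0⟩ 0 0) (.cut .v 16252928 (.pos 50 .pm ⟨0, 0, 0, 0, 0, 0, 0, 0, 39838, ⟨0, 0⟩,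 16378180⟩ 0 0) (.cut .v 16515072 (.pos 52 .pm ⟨0, 0, 0, 0, 0, 0, 0, 0, 92458, ⟨0, 0⟩, 16579177⟩ 0 0) (.pos 53 .pm ⟨0, 0, 0, 0, 0, 0, 0, 0, 168898, ⟨0, 0⟩, 16711292⟩ 0 0))))))) (.cut .v 67108864 (.cut .v 33554432 (.cut .d 18454939 (.cut .v 25165824 (.cut .v 20971520 (.cut .d 9227469 (.cut .d 4613734 (.pos 13 .pp ⟨0, 0, 0, 0, 0, 0, 0, 0, 0, ⟨0, 0⟩, 0⟩ 0 0) (.pos 13 .pp ⟨0, 0, 0, 0, 0, 0, 0, 0, 178365, ⟨0, 0⟩, 17739746⟩ 0 0)) (.cut .d 13841204 (.cut .v 18874368 (.pos 15 .pp ⟨0, 0, 0, 0, 654763, 0, 0, 0, 195133, ⟨0, 0⟩, 17278579⟩ 0 0) (.pos 16 .pp ⟨0, 0, 0, 0, 0, 0, 0, 0, 975887, ⟨0, 0⟩, 18269873⟩ 0 0)) (.pos 13 .pp ⟨0, 0, 0, 0, 0, 0, 0, 0, 4804953, ⟨0, 0⟩, 17739746⟩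 0 0))) (.cut .d 9227469 (.pos 14 .pp ⟨0, 0, 0, 0, 0, 0, 0, 0, 218495, ⟨0, 0⟩, 19632256⟩ 0 0) (.cut .d 13841204 (.pos 14 .pp ⟨0, 0, 0, 0, 0, 0, 0, 0, 1761473, ⟨0, 0⟩, 19632256⟩ 0 0) (.pos 14 .pp ⟨0, 0, 0, 0, 0, 0, 0, 0, 3951663, ⟨0, 0⟩, 19632256⟩ 0 0)))) (.cut .s 5636096 (.cut .v 29360128 (.pos 27 .pp ⟨0, 0, 0, 0, 0, 0, 0, 0, 3587309, ⟨0, 0⟩, 21355130⟩ 0 0) (.pos 28 .pp ⟨0, 0, 0, 0, 0, 0, 0, 0, 252394, ⟨0, 0⟩, 22947581⟩ 0 0)) (.pos 12 .pp ⟨0, 0, 0, 0, 0, 0, 0, 0, 3227811, ⟨0, 0⟩, 22080058⟩ 0 0))) (.cut .v 25165824 (.void 11 ⟨0, 0, 0, 0, 0, 0, 0, 0, 100000, ⟨0, 0⟩, 18567042⟩ 0 0) (.cut .d 27682408 (.cut .d 23068673 (.cut .d 20761806 (.cut .d 19608372 (.cut .s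 5636096 (.cut .v 29360128 (.pos 27 .pp ⟨0, 0, 0, 0, 0, 0, 0, 0, 8168967, ⟨0, 0⟩, 21355130⟩ 0 0) (.pos 28 .pp ⟨0, 5091681, 0, 0, 0, 0, 0, 0, 5740790, ⟨0, 0⟩, 22947581⟩ 0 0)) (.pos 12 .pp ⟨0, 0, 0, 0, 0, 0, 0, 0, 6815895, ⟨0, 0⟩, 22080058⟩ 0 0)) (.pos 12 .pp ⟨0, 13213980, 0, 0, 0, 0, 0, 0, 10729199, ⟨0, 0⟩, 22080058⟩ 0 0)) (.void 12 ⟨0, 74421, 0, 0, 0, 0, 0, 0, 25579, ⟨0, 0⟩, 22080058⟩ 0 0)) (.void 12 ⟨0, 49915, 0, 0, 0, 0, 0, 0, 50085, ⟨0, 0⟩, 22080058⟩ 0 0)) (.void 12 ⟨0, 0, 0, 2773, 0, 0, 0, 0, 97227, ⟨0, 0⟩, 22080058⟩ 0 0)))) (.cut .d 18454939 (.pos 10 .pp ⟨0, 0, 0, 0, 0, 0, 0, 0, 288622, ⟨0, 0⟩, 28215802⟩ 0 0) (.pos 10 .pp ⟨0, 69136940, 0, 0, 0, 0, 0, 0,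 288622, ⟨0, 0⟩, 28215802⟩ 0 0))) (.void 49 ⟨39851, 60149, 0, 0, 0, 0, 0, 0, 0, ⟨0, 0⟩, 0⟩ 0 0)))),
    by decide +kernel⟩

def covers6 : cell.Covers table row6.1 :=
  ⟨(.cut .d 0 (.cut .v 16777216 (.cut .d (-8388608) (.void 1 ⟨0, 0, 0, 0, 0, 100000, 0, 0, 0, ⟨0, 0⟩, 0⟩ 0 0) (.cut .v 8388608 (.cut .v 4194304 (.void 4 ⟨0, 0, 100000, 0, 0, 0, 0, 0, 0, ⟨0, 0⟩, 0⟩ 0 0) (.pos 5 .mm ⟨0, 0, 0, 0, 0, 177438, 0, 0, 149545, ⟨0, 0⟩, 9975792⟩ 0 0)) (.cut .v 12582912 (.pos 6 .mm ⟨0, 0, 0, 0, 0, 0, 0, 0, 0, ⟨0, 0⟩, 0⟩ 0 0) (.cut .v 14680064 (.pos 33 .mm ⟨0, 0, 0, 0, 0, 103245, 0, 0, 0, ⟨0, 0⟩, 0⟩ 0 0) (.cut .v 15728640 (.pos 35 .mm ⟨0, 0, 0, 0, 0, 50648, 0, 0, 0, ⟨0, 0⟩,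 0⟩ 0 0) (.pos 36 .mm ⟨0, 0, 0, 0, 0, 12644, 0, 0, 0, ⟨0, 0⟩, 0⟩ 0 0)))))) (.cut .v 67108864 (.cut .v 33554432 (.cut .v 25165824 (.pos 11 .mp ⟨0, 0, 0, 0, 0, 616245, 0, 0, 0, ⟨0, 0⟩, 0⟩ 0 0) (.pos 12 .mp ⟨14820294, 0, 0, 0, 0, 0, 0, 0, 0, ⟨0, 0⟩, 0⟩ 0 0)) (.pos 10 .mp ⟨38381950, 0, 0, 0, 0, 0, 0, 0, 0, ⟨0, 0⟩, 0⟩ 0 0)) (.void 49 ⟨100000, 0, 0, 0, 0, 0, 0, 0, 0, ⟨0, 0⟩, 0⟩ 0 0))) (.cut .v 16777216 (.cut .v 8388608 (.void 2 ⟨0, 0, 0, 0, 100000, 0, 0, 0, 0, ⟨0, 0⟩, 0⟩ 0 0) (.cut .v 12582912 (.pos 6 .pm ⟨0, 0, 0, 0, 0, 0, 0, 0, 178255, ⟨0, 0⟩, 13128881⟩ 0 0) (.cut .v 14680064 (.pos 33 .pm ⟨0, 0, 0, 0, 0, 0, 0, 0, 120294, ⟨0, 0⟩, 15100357⟩ 0 0) (.cut .d 14953607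 (.cut .d 7476803 (.cut .d 3738401 (.cut .v 15728640 (.cut .s 6422528 (.pos 35 .pm ⟨0, 0, 0, 0, 0, 0, 0, 0, 0, ⟨0, 0⟩, 0⟩ 0 0) (.pos 35 .pm ⟨0, 0, 0, 0, 0, 0, 0, 0, 0, ⟨0, 0⟩, 0⟩ 0 0)) (.pos 36 .pm ⟨0, 0, 0, 0, 0, 0, 0, 0, 0, ⟨0, 0⟩, 0⟩ 0 0)) (.pos 34 .pm ⟨0, 0, 0, 0, 0, 0, 0, 0, 115628, ⟨0, 0⟩, 16226390⟩ 0 0)) (.pos 34 .pm ⟨0, 0, 0, 0, 0, 0, 0, 0, 118224, ⟨0, 0⟩, 16226390⟩ 0 0)) (.void 34 ⟨0, 0, 0, 0, 0, 0, 0, 0, 100000, ⟨0, 0⟩, 16226390⟩ 0 0))))) (.cut .v 67108864 (.cut .v 33554432 (.cut .d 14953607 (.cut .v 25165824 (.cut .v 20971520 (.cut .v 18874368 (.pos 15 .pp ⟨0, 0, 0, 0, 0, 0, 0, 0, 153142, ⟨0, 0⟩, 17278579⟩ 0 0) (.pos 16 .pp ⟨0, 0, 0, 0, 0, 0, 0,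 0, 640873, ⟨0, 0⟩, 18269873⟩ 0 0)) (.pos 14 .pp ⟨0, 0, 0, 0, 0, 0, 0, 0, 1221894, ⟨0, 0⟩, 19632256⟩ 0 0)) (.pos 12 .pp ⟨0, 0, 0, 0, 0, 0, 0, 0, 182292, ⟨0, 0⟩, 22080058⟩ 0 0)) (.cut .d 22430410 (.cut .v 25165824 (.cut .v 20971520 (.pos 13 .pp ⟨0, 0, 0, 0, 0, 0, 0, 0, 3809030, ⟨0, 0⟩, 17739746⟩ 0 0) (.pos 14 .pp ⟨0, 0, 0, 0, 0, 0, 0, 0, 4628007, ⟨0, 0⟩, 19632256⟩ 0 0)) (.pos 12 .pp ⟨0, 665496, 0, 0, 0, 0, 0, 0, 5883082, ⟨0, 0⟩, 22080058⟩ 0 0)) (.void 9 ⟨0, 79602, 0, 0, 0, 0, 0, 0, 20398, ⟨0, 0⟩, 19951585⟩ 0 0))) (.pos 10 .pp ⟨0, 24244286, 0, 0, 0, 0, 206006, 0, 0, ⟨0, 0⟩, 0⟩ 0 0)) (.void 49 ⟨39422, 60578, 0, 0, 0, 0, 0, 0, 0, ⟨0, 0⟩, 0⟩ 0 0)))),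
    by decide +kernel⟩

def covers7 : cell.Covers table row7.1 :=
  ⟨(.cut .d 0 (.cut .v 16777216 (.cut .d (-8388608) (.void 1 ⟨0, 0, 0, 0, 0, 100000, 0, 0, 0, ⟨0, 0⟩, 0⟩ 0 0) (.cut .v 8388608 (.cut .v 4194304 (.void 4 ⟨0, 0, 100000, 0, 0, 0, 0, 0, 0, ⟨0, 0⟩, 0⟩ 0 0) (.pos 5 .mm ⟨0, 0, 0, 0, 0, 0, 0, 0, 187984, ⟨0, 0⟩, 9975792⟩ 0 0)) (.cut .v 12582912 (.pos 6 .mm ⟨0, 0, 0, 0, 0, 0, 0, 0, 0, ⟨0, 0⟩, 0⟩ 0 0) (.cut .v 14680064 (.pos 33 .mm ⟨0, 0, 0, 0, 0, 0, 0, 0, 0, ⟨0, 0⟩, 0⟩ 0 0) (.cut .v 15728640 (.cut .s 7176192 (.pos 35 .mm ⟨0, 0, 0, 0, 0, 0, 0, 0, 0, ⟨0, 0⟩, 0⟩ 0 0) (.pos 35 .mm ⟨0, 0, 0, 0, 0, 177046, 0, 0, 0, ⟨0, 0⟩, 0⟩ 0 0)) (.pos 36 .mm ⟨0, 0, 0, 0,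 0, 306321, 0, 0, 0, ⟨0, 0⟩, 0⟩ 0 0)))))) (.cut .v 67108864 (.cut .v 33554432 (.cut .d (-8388608) (.void 9 ⟨0, 0, 0, 0, 0, 100000, 0, 0, 0, ⟨0, 0⟩, 0⟩ 0 0) (.cut .v 25165824 (.cut .v 20971520 (.pos 13 .mp ⟨0, 0, 0, 0, 0, 584291, 0, 0, 0, ⟨0, 0⟩, 0⟩ 0 0) (.pos 14 .mp ⟨7025938, 0, 0, 0, 0, 0, 0, 0, 0, ⟨0, 0⟩, 0⟩ 0 0)) (.pos 12 .mp ⟨16840283, 0, 0, 0, 0, 0, 0, 0, 0, ⟨0, 0⟩, 0⟩ 0 0))) (.pos 10 .mp ⟨157018602, 0, 0, 0, 0, 0, 0, 0, 0, ⟨0, 0⟩, 0⟩ 0 0)) (.void 49 ⟨100000, 0, 0, 0, 0, 0, 0, 0, 0, ⟨0, 0⟩, 0⟩ 0 0))) (.cut .v 16777216 (.cut .v 8388608 (.cut .v 4194304 (.void 4 ⟨0, 0, 50000, 0, 50000, 0, 0, 0, 0, ⟨0, 0⟩, 0⟩ 0 0) (.pos 5 .pm ⟨0, 0, 0, 0, 1219636, 0, 0, 0,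 187984, ⟨0, 0⟩, 9975792⟩ 0 0)) (.cut .v 12582912 (.pos 6 .pm ⟨0, 0, 0, 0, 0, 0, 0, 0, 623282, ⟨0, 0⟩, 13128881⟩ 0 0) (.cut .d 12260274 (.cut .d 6130137 (.cut .v 14680064 (.cut .d 3065068 (.cut .s 7176192 (.pos 33 .pm ⟨0, 0, 0, 0, 0, 0, 0, 0, 0, ⟨0, 0⟩, 0⟩ 0 0) (.pos 33 .pm ⟨0, 0, 0, 0, 0, 0, 0, 0, 0, ⟨0, 0⟩, 0⟩ 0 0)) (.pos 33 .pm ⟨0, 0, 0, 0, 0, 0, 0, 0, 0, ⟨0, 0⟩, 0⟩ 0 0)) (.cut .v 15728640 (.cut .d 3065068 (.cut .l 7092186 (.cut .s 7176192 (.cut .d 1532534 (.pos 35 .pm ⟨0, 0, 0, 0, 0, 0, 0, 0, 0, ⟨0, 0⟩, 0⟩ 0 0) (.pos 35 .pm ⟨0, 0, 0, 0, 0, 0, 0, 0, 0, ⟨0, 0⟩, 0⟩ 0 0)) (.cut .d 1532534 (.pos 35 .pm ⟨0, 0, 0, 0, 0, 0, 0, 0, 0, ⟨0, 0⟩, 0⟩ 0 0) (.pos 35 .pm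 ⟨0, 0, 0, 0, 0, 0, 0, 0, 0, ⟨0, 0⟩, 0⟩ 0 0))) (.pos 35 .pm ⟨0, 0, 0, 0, 0, 0, 0, 0, 0, ⟨0, 0⟩, 0⟩ 0 0)) (.pos 35 .pm ⟨0, 0, 0, 0, 0, 0, 0, 0, 0, ⟨0, 0⟩, 0⟩ 0 0)) (.pos 36 .pm ⟨0, 0, 0, 0, 0, 0, 0, 0, 0, ⟨0, 0⟩, 0⟩ 0 0))) (.pos 7 .pm ⟨0, 0, 0, 0, 0, 0, 0, 0, 92479, ⟨0, 0⟩, 15612959⟩ 0 0)) (.pos 7 .pm ⟨0, 0, 0, 0, 0, 0, 0, 0, 427806, ⟨0, 0⟩, 15612959⟩ 0 0)))) (.cut .v 67108864 (.cut .v 33554432 (.cut .v 25165824 (.cut .d 12260274 (.pos 11 .pp ⟨0, 0, 0, 0, 0, 0, 0, 0, 16786, ⟨0, 0⟩, 18567042⟩ 0 0) (.pos 11 .pp ⟨0, 0, 0, 0, 0, 0, 0, 0, 709914, ⟨0, 0⟩, 18567042⟩ 0 0)) (.pos 12 .pp ⟨0, 3431857, 0, 0, 0, 0, 0, 0, 232039, ⟨0, 0⟩, 22080058⟩ 0 0)) (.pos 10 .pp ⟨0, 6649136,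 0, 0, 0, 0, 130487, 0, 0, ⟨0, 0⟩, 0⟩ 0 0)) (.void 49 ⟨39139, 60861, 0, 0, 0, 0, 0, 0, 0, ⟨0, 0⟩, 0⟩ 0 0)))),
    by decide +kernel⟩

def covers8 : cell.Covers table row8.1 :=
  ⟨(.cut .d 0 (.cut .v 16777216 (.cut .d (-8388608) (.void 1 ⟨0, 0, 0, 0, 0, 100000, 0, 0, 0, ⟨0, 0⟩, 0⟩ 0 0) (.cut .v 8388608 (.cut .v 4194304 (.void 4 ⟨0, 0, 100000, 0, 0, 0, 0, 0, 0, ⟨0, 0⟩, 0⟩ 0 0) (.pos 5 .mm ⟨0, 0, 0, 0, 0, 0, 0, 0, 0, ⟨0, 0⟩, 0⟩ 0 0)) (.cut .v 12582912 (.pos 6 .mm ⟨0, 0, 0, 0, 0, 0, 0, 0, 0, ⟨0, 0⟩, 0⟩ 0 0) (.cut .d (-4194304) (.pos 7 .mm ⟨0, 0, 0, 0, 0, 2024186, 0, 0, 0, ⟨0, 0⟩, 0⟩ 0 0) (.cut .v 14680064 (.pos 33 .mm ⟨0, 0, 0, 0, 0, 586236, 0, 0, 0, ⟨0, 0⟩, 0⟩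 0 0) (.cut .s 7798784 (.cut .v 15728640 (.pos 35 .mm ⟨0, 0, 0, 0, 0, 543262, 0, 0, 0, ⟨0, 0⟩, 0⟩ 0 0) (.pos 36 .mm ⟨0, 0, 0, 0, 0, 690617, 0, 0, 0, ⟨0, 0⟩, 0⟩ 0 0)) (.cut .d (-2097152) (.pos 34 .mm ⟨0, 0, 0, 0, 0, 1654367, 0, 0, 0, ⟨0, 0⟩, 0⟩ 0 0) (.cut .v 15728640 (.cut .v 15204352 (.pos 58 .mm ⟨0, 0, 0, 0, 0, 867700, 0, 0, 0, ⟨0, 0⟩, 0⟩ 0 0) (.pos 59 .mm ⟨0, 0, 0, 0, 0, 1029231, 0, 0, 0, ⟨0, 0⟩, 0⟩ 0 0)) (.pos 36 .mm ⟨0, 0, 0, 0, 0, 1314039, 0, 0, 0, ⟨0, 0⟩, 0⟩ 0 0))))))))) (.cut .v 67108864 (.cut .v 33554432 (.cut .d (-8388608) (.void 9 ⟨0, 0, 0, 0, 0, 100000, 0, 0, 0, ⟨0, 0⟩, 0⟩ 0 0) (.cut .v 25165824 (.cut .v 20971520 (.cut .d (-4194304) (.cut .v 18874368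 (.pos 15 .mp ⟨0, 0, 0, 0, 0, 4912115, 0, 0, 0, ⟨0, 0⟩, 0⟩ 0 0) (.pos 16 .mp ⟨13071131, 0, 0, 0, 0, 0, 0, 0, 0, ⟨0, 0⟩, 0⟩ 0 0)) (.cut .s 7798784 (.pos 13 .mp ⟨0, 0, 0, 0, 0, 1105932, 0, 0, 0, ⟨0, 0⟩, 0⟩ 0 0) (.cut .v 18874368 (.pos 15 .mp ⟨0, 0, 0, 0, 0, 2103424, 0, 0, 0, ⟨0, 0⟩, 0⟩ 0 0) (.pos 16 .mp ⟨5614648, 0, 0, 0, 0, 0, 0, 0, 0, ⟨0, 0⟩, 0⟩ 0 0)))) (.pos 14 .mp ⟨14276623, 0, 0, 0, 0, 0, 0, 0, 0, ⟨0, 0⟩, 0⟩ 0 0)) (.pos 12 .mp ⟨30906319, 0, 0, 0, 0, 0, 0, 0, 0, ⟨0, 0⟩, 0⟩ 0 0))) (.pos 10 .mp ⟨333863359, 0, 0, 0, 0, 0, 0, 0, 0, ⟨0, 0⟩, 0⟩ 0 0)) (.void 49 ⟨100000, 0, 0, 0, 0, 0, 0, 0, 0, ⟨0, 0⟩, 0⟩ 0 0))) (.cut .v 16777216 (.cut .v 8388608 (.cut .v 4194304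 (.void 4 ⟨0, 0, 50000, 0, 50000, 0, 0, 0, 0, ⟨0, 0⟩, 0⟩ 0 0) (.pos 5 .pm ⟨0, 0, 0, 0, 1539590, 0, 0, 0, 609761, ⟨0, 0⟩, 9975792⟩ 0 0)) (.cut .v 12582912 (.pos 6 .pm ⟨0, 0, 0, 0, 0, 0, 0, 0, 313109, ⟨0, 0⟩, 13128881⟩ 0 0) (.cut .d 10285164 (.cut .d 5142582 (.cut .v 14680064 (.cut .d 2571291 (.pos 33 .pm ⟨0, 0, 0, 0, 0, 0, 0, 0, 0, ⟨0, 0⟩, 0⟩ 0 0) (.pos 33 .pm ⟨0, 0, 0, 0, 0, 0, 0, 0, 0, ⟨0, 0⟩, 0⟩ 0 0)) (.cut .v 15728640 (.pos 35 .pm ⟨0, 0, 0, 0, 0, 0, 0, 0, 0, ⟨0, 0⟩, 0⟩ 0 0) (.pos 36 .pm ⟨0, 0, 0, 0, 0, 0, 0, 0, 0, ⟨0, 0⟩, 0⟩ 0 0))) (.pos 7 .pm ⟨0, 0, 0, 0, 0, 0, 0, 0, 158104, ⟨0, 0⟩, 15612959⟩ 0 0)) (.pos 7 .pm ⟨0, 0, 0, 0, 0, 0, 0, 0, 158104, ⟨0, 0⟩, 15612959⟩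 0 0)))) (.cut .v 67108864 (.cut .v 33554432 (.cut .v 25165824 (.pos 11 .pp ⟨0, 0, 0, 0, 0, 0, 0, 0, 0, ⟨0, 0⟩, 0⟩ 0 0) (.pos 12 .pp ⟨3736948, 0, 0, 0, 0, 0, 0, 0, 0, ⟨0, 0⟩, 0⟩ 0 0)) (.pos 10 .pp ⟨5786281, 0, 0, 0, 0, 0, 0, 0, 0, ⟨0, 0⟩, 0⟩ 0 0)) (.pos 49 .pp ⟨249195932, 231968784, 0, 0, 0, 0, 0, 0, 0, ⟨0, 0⟩, 0⟩ 0 0)))),
    by decide +kernel⟩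

def covers9 : cell.Covers table row9.1 :=
  ⟨(.cut .d 0 (.cut .v 16777216 (.cut .d (-8388608) (.void 1 ⟨0, 0, 0, 0, 0, 100000, 0, 0, 0, ⟨0, 0⟩, 0⟩ 0 0) (.cut .v 8388608 (.cut .v 4194304 (.void 4 ⟨0, 0, 100000, 0, 0, 0, 0, 0, 0, ⟨0, 0⟩, 0⟩ 0 0) (.pos 5 .mm ⟨0, 0, 0, 0, 0, 0, 0, 0, 0, ⟨0, 0⟩, 0⟩ 0 0)) (.cut .v 12582912 (.pos 6 .mm ⟨0, 0, 0, 0, 0, 340582, 0, 0, 0, ⟨0, 0⟩, 0⟩ 0 0) (.cut .d (-4194304) (.pos 7 .mm ⟨0, 0, 0, 0, 0, 7272946, 0, 0, 0, ⟨0, 0⟩, 0⟩ 0 0) (.cut .v 14680064 (.cut .s 8323072 (.pos 33 .mm ⟨0, 0, 0, 0, 0, 1668214, 0, 0, 0, ⟨0, 0⟩, 0⟩ 0 0) (.pos 33 .mm ⟨0, 0, 0, 0, 0, 3016178, 0, 0, 0, ⟨0, 0⟩, 0⟩ 0 0)) (.cut .s 8323072 (.cut .s 8192000 (.cut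 .d (-2097152) (.pos 34 .mm ⟨0, 0, 0, 0, 0, 2685503, 0, 0, 0, ⟨0, 0⟩, 0⟩ 0 0) (.cut .v 15728640 (.cut .d (-1048576) (.pos 35 .mm ⟨0, 0, 0, 0, 0, 2297948, 0, 0, 0, ⟨0, 0⟩, 0⟩ 0 0) (.pos 35 .mm ⟨0, 0, 0, 0, 0, 1460828, 0, 0, 0, ⟨0, 0⟩, 0⟩ 0 0)) (.pos 36 .mm ⟨0, 0, 0, 0, 0, 2281708, 0, 0, 0, ⟨0, 0⟩, 0⟩ 0 0))) (.cut .d (-2097152) (.pos 34 .mm ⟨0, 0, 0, 0, 0, 4003661, 0, 0, 0, ⟨0, 0⟩, 0⟩ 0 0) (.cut .v 15728640 (.cut .v 15204352 (.pos 58 .mm ⟨0, 0, 0, 0, 0, 2157095, 0, 0, 0, ⟨0, 0⟩, 0⟩ 0 0) (.pos 59 .mm ⟨0, 0, 0, 0, 0, 2525005, 0, 0, 0, ⟨0, 0⟩, 0⟩ 0 0)) (.pos 36 .mm ⟨0, 0, 0, 0, 0, 3166103, 0, 0, 0, ⟨0, 0⟩, 0⟩ 0 0)))) (.cut .d (-2097152) (.pos 34 .mm ⟨0, 0, 0, 0,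 0, 6551200, 0, 0, 0, ⟨0, 0⟩, 0⟩ 0 0) (.cut .l 7092186 (.cut .l 4537473 (.cut .d (-1048576) (.pos 34 .mm ⟨0, 0, 0, 0, 0, 6175873, 0, 0, 0, ⟨0, 0⟩, 0⟩ 0 0) (.cut .v 15728640 (.cut .d (-524288) (.pos 35 .mm ⟨0, 0, 0, 0, 0, 4657927, 0, 0, 0, ⟨0, 0⟩, 0⟩ 0 0) (.pos 35 .mm ⟨0, 0, 0, 0, 0, 2449364, 0, 0, 0, ⟨0, 0⟩, 0⟩ 0 0)) (.pos 36 .mm ⟨0, 0, 0, 0, 0, 4522036, 0, 0, 0, ⟨0, 0⟩, 0⟩ 0 0))) (.pos 34 .mm ⟨0, 0, 0, 0, 0, 3643340, 0, 0, 0, ⟨0, 0⟩, 0⟩ 0 0)) (.pos 34 .mm ⟨0, 0, 0, 0, 0, 0, 0, 0, 0, ⟨0, 0⟩, 0⟩ 0 0))))))))) (.cut .v 268435456 (.cut .v 67108864 (.cut .v 33554432 (.cut .d (-8388608) (.void 9 ⟨0, 0, 0, 0, 0, 100000, 0, 0, 0, ⟨0, 0⟩, 0⟩ 0 0) (.cut .d (-4194304)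 (.cut .v 25165824 (.cut .v 20971520 (.pos 13 .mp ⟨0, 0, 0, 0, 0, 22252698, 0, 0, 0, ⟨0, 0⟩, 0⟩ 0 0) (.void 14 ⟨100000, 0, 0, 0, 0, 0, 0, 0, 0, ⟨0, 0⟩, 0⟩ 0 0)) (.void 12 ⟨100000, 0, 0, 0, 0, 0, 0, 0, 0, ⟨0, 0⟩, 0⟩ 0 0)) (.cut .v 25165824 (.cut .v 20971520 (.cut .s 8323072 (.cut .d (-2097152) (.cut .l 7092186 (.pos 13 .mp ⟨0, 0, 0, 0, 0, 6322932, 0, 0, 0, ⟨0, 0⟩, 0⟩ 0 0) (.cut .s 8192000 (.pos 13 .mp ⟨0, 0, 0, 0, 0, 3657127, 0, 0, 0, ⟨0, 0⟩, 0⟩ 0 0) (.cut .s 8257536 (.pos 13 .mp ⟨0, 0, 0, 0, 0, 4861377, 0, 0, 0, ⟨0, 0⟩, 0⟩ 0 0) (.pos 13 .mp ⟨340833, 0, 0, 0, 0, 5380401, 0, 0, 0, ⟨0, 0⟩, 0⟩ 0 0)))) (.pos 13 .mp ⟨1783064, 0, 0, 0, 0, 1488851, 0, 0, 0, ⟨0, 0⟩,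 0⟩ 0 0)) (.cut .v 18874368 (.cut .d (-2097152) (.cut .l 7092186 (.pos 15 .mp ⟨0, 0, 0, 0, 0, 11102036, 0, 0, 0, ⟨0, 0⟩, 0⟩ 0 0) (.cut .d (-3145728) (.cut .s 8454144 (.pos 15 .mp ⟨0, 0, 0, 0, 0, 8396714, 0, 0, 0, ⟨0, 0⟩, 0⟩ 0 0) (.pos 15 .mp ⟨13864, 0, 0, 0, 0, 11821718, 0, 0, 0, ⟨0, 0⟩, 0⟩ 0 0)) (.pos 15 .mp ⟨4209290, 0, 0, 0, 0, 2191860, 0, 0, 0, ⟨0, 0⟩, 0⟩ 0 0))) (.cut .s 8454144 (.pos 15 .mp ⟨0, 0, 0, 0, 0, 5410889, 0, 0, 0, ⟨0, 0⟩, 0⟩ 0 0) (.pos 15 .mp ⟨0, 0, 0, 0, 0, 6992627, 0, 0, 0, ⟨0, 0⟩, 0⟩ 0 0))) (.pos 16 .mp ⟨10889482, 0, 0, 0, 0, 0, 0, 0, 0, ⟨0, 0⟩, 0⟩ 0 0))) (.pos 14 .mp ⟨15074445, 0, 0, 0, 0, 0, 0, 0, 0, ⟨0, 0⟩, 0⟩ 0 0)) (.pos 12 .mp ⟨33124326,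 0, 0, 0, 0, 0, 0, 0, 0, ⟨0, 0⟩, 0⟩ 0 0)))) (.pos 10 .mp ⟨565293212, 0, 0, 0, 0, 0, 0, 0, 0, ⟨0, 0⟩, 0⟩ 0 0)) (.void 49 ⟨100000, 0, 0, 0, 0, 0, 0, 0, 0, ⟨0, 0⟩, 0⟩ 0 0)) (.void 64 ⟨0, 100000, 0, 0, 0, 0, 0, 0, 0, ⟨0, 0⟩, 0⟩ 0 0))) (.cut .v 16777216 (.cut .v 8388608 (.cut .v 4194304 (.void 4 ⟨0, 0, 50000, 0, 50000, 0, 0, 0, 0, ⟨0, 0⟩, 0⟩ 0 0) (.pos 5 .pm ⟨0, 0, 0, 0, 543086, 0, 0, 0, 1720274, ⟨0, 0⟩, 9975792⟩ 0 0)) (.cut .v 12582912 (.pos 6 .pm ⟨0, 0, 0, 0, 0, 0, 0, 0, 495738, ⟨0, 0⟩, 13128881⟩ 0 0) (.cut .v 14680064 (.pos 33 .pm ⟨0, 0, 0, 0, 0, 0, 0, 0, 66746, ⟨0, 0⟩, 15100357⟩ 0 0) (.pos 34 .pm ⟨0, 0, 0, 0, 0, 0, 0, 0, 0, ⟨0, 0⟩, 0⟩ 0 0)))) (.cut .v 268435456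 (.cut .v 67108864 (.cut .v 33554432 (.cut .v 25165824 (.pos 11 .pp ⟨0, 0, 0, 0, 0, 0, 0, 0, 0, ⟨0, 0⟩, 0⟩ 0 0) (.pos 12 .pp ⟨8684210, 0, 0, 0, 0, 0, 0, 0, 0, ⟨0, 0⟩, 0⟩ 0 0)) (.pos 10 .pp ⟨19276760, 0, 0, 0, 0, 0, 0, 0, 0, ⟨0, 0⟩, 0⟩ 0 0)) (.pos 49 .pp ⟨478888328, 468979323, 0, 0, 0, 0, 0, 0, 0, ⟨0, 0⟩, 0⟩ 0 0)) (.void 64 ⟨0, 0, 0, 100000, 0, 0, 0, 0, 0, ⟨0, 0⟩, 0⟩ 0 0)))),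
    by decide +kernel⟩

def covers10 : cell.Covers table row10.1 :=
  ⟨(.cut .d 0 (.cut .v 16777216 (.cut .d (-8388608) (.void 1 ⟨0, 0, 0, 0, 0, 100000, 0, 0, 0, ⟨0, 0⟩, 0⟩ 0 0) (.cut .d (-4194304) (.void 1 ⟨0, 0, 0, 0, 0, 100000, 0, 0, 0, ⟨0, 0⟩, 0⟩ 0 0) (.cut .v 8388608 (.cut .v 4194304 (.void 4 ⟨0, 0, 100000, 0, 0, 0, 0, 0, 0, ⟨0, 0⟩, 0⟩ 0 0) (.pos 5 .mm ⟨0, 0, 0, 0, 0, 0, 0, 0, 0, ⟨0, 0⟩, 0⟩ 0 0)) (.cut .v 12582912 (.pos 6 .mm ⟨0, 0, 0, 0, 0, 2869793, 0, 0, 0, ⟨0, 0⟩, 0⟩ 0 0) (.cut .d (-2097152) (.cut .s 8814592 (.pos 7 .mm ⟨0, 0, 0, 0, 0, 10286182, 0, 0, 0, ⟨0, 0⟩, 0⟩ 0 0) (.pos 7 .mm ⟨0, 0, 0, 0, 0, 15167473, 0, 0, 0, ⟨0, 0⟩, 0⟩ 0 0)) (.cut .l 7092186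 (.cut .d (-1048576) (.cut .s 8814592 (.cut .l 4537473 (.pos 7 .mm ⟨0, 0, 0, 0, 0, 9742641, 0, 0, 0, ⟨0, 0⟩, 0⟩ 0 0) (.pos 7 .mm ⟨0, 0, 0, 0, 0, 7762735, 0, 0, 0, ⟨0, 0⟩, 0⟩ 0 0)) (.pos 7 .mm ⟨0, 0, 0, 0, 0, 13876423, 0, 0, 0, ⟨0, 0⟩, 0⟩ 0 0)) (.cut .l 4537473 (.cut .v 14680064 (.cut .d (-524288) (.pos 33 .mm ⟨0, 0, 0, 0, 0, 7700103, 0, 0, 0, ⟨0, 0⟩, 0⟩ 0 0) (.pos 33 .mm ⟨0, 0, 0, 0, 0, 3878883, 0, 0, 0, ⟨0, 0⟩, 0⟩ 0 0)) (.cut .d (-524288) (.cut .l 3260117 (.cut .s 8814592 (.cut .v 15728640 (.pos 35 .mm ⟨0, 0, 0, 0, 0, 8259384, 0, 0, 0, ⟨0, 0⟩, 0⟩ 0 0) (.pos 36 .mm ⟨0, 0, 0, 0, 0, 8803630, 0, 0, 0, ⟨0, 0⟩, 0⟩ 0 0)) (.pos 34 .mm ⟨0, 0, 0, 0, 0, 12760440, 0,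 0, 0, ⟨0, 0⟩, 0⟩ 0 0)) (.pos 34 .mm ⟨0, 0, 0, 0, 0, 7818901, 0, 0, 0, ⟨0, 0⟩, 0⟩ 0 0)) (.cut .d (-262144) (.cut .l 3260117 (.cut .l 2621439 (.cut .l 2302100 (.cut .v 15728640 (.cut .d (-393216) (.pos 35 .mm ⟨0, 0, 0, 0, 0, 8906881, 0, 0, 0, ⟨0, 0⟩, 0⟩ 0 0) (.pos 35 .mm ⟨0, 0, 0, 0, 0, 4628274, 0, 0, 0, ⟨0, 0⟩, 0⟩ 0 0)) (.cut .d (-393216) (.pos 36 .mm ⟨0, 0, 0, 0, 0, 10645486, 0, 0, 0, ⟨0, 0⟩, 0⟩ 0 0) (.pos 36 .mm ⟨0, 0, 0, 0, 0, 7352677, 0, 0, 0, ⟨0, 0⟩, 0⟩ 0 0))) (.pos 34 .mm ⟨0, 0, 0, 0, 0, 4611001, 0, 0, 0, ⟨0, 0⟩, 0⟩ 0 0)) (.pos 34 .mm ⟨0, 0, 0, 0, 0, 0, 0, 0, 0, ⟨0, 0⟩, 0⟩ 0 0)) (.pos 34 .mm ⟨0, 0, 0, 0, 0, 0, 0, 0, 0, ⟨0, 0⟩, 0⟩ 0 0)) (.pos 34 .mm ⟨0,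 0, 0, 0, 0, 0, 0, 0, 0, ⟨0, 0⟩, 0⟩ 0 0)))) (.pos 7 .mm ⟨0, 0, 0, 0, 0, 0, 0, 0, 0, ⟨0, 0⟩, 0⟩ 0 0))) (.pos 7 .mm ⟨0, 0, 0, 0, 0, 4240112, 0, 0, 0, ⟨0, 0⟩, 0⟩ 0 0))))))) (.cut .v 268435456 (.cut .v 67108864 (.cut .v 33554432 (.cut .d (-8388608) (.void 9 ⟨0, 0, 0, 0, 0, 100000, 0, 0, 0, ⟨0, 0⟩, 0⟩ 0 0) (.cut .d (-4194304) (.void 9 ⟨0, 0, 0, 0, 0, 100000, 0, 0, 0, ⟨0, 0⟩, 0⟩ 0 0) (.cut .v 25165824 (.cut .d (-2097152) (.cut .v 20971520 (.cut .l 7092186 (.void 13 ⟨0, 0, 0, 0, 0, 100000, 0, 0, 0, ⟨0, 0⟩, 0⟩ 0 0) (.cut .v 18874368 (.cut .s 8814592 (.cut .d (-3145728) (.cut .s 8699904 (.pos 15 .mp ⟨2801381, 0, 0, 0, 0, 11580111, 0, 0, 0, ⟨0, 0⟩, 0⟩ 0 0) (.pos 15 .mp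 ⟨5480387, 0, 0, 0, 0, 12529036, 0, 0, 0, ⟨0, 0⟩, 0⟩ 0 0)) (.cut .v 17825792 (.pos 17 .mp ⟨0, 0, 0, 0, 0, 10729023, 0, 0, 0, ⟨0, 0⟩, 0⟩ 0 0) (.pos 18 .mp ⟨11816670, 0, 0, 0, 0, 0, 0, 0, 0, ⟨0, 0⟩, 0⟩ 0 0))) (.cut .d (-3145728) (.cut .s 8929280 (.pos 15 .mp ⟨8782843, 0, 0, 0, 0, 13170997, 0, 0, 0, ⟨0, 0⟩, 0⟩ 0 0) (.pos 15 .mp ⟨13527539, 0, 0, 0, 0, 12493679, 0, 0, 0, ⟨0, 0⟩, 0⟩ 0 0)) (.cut .v 17825792 (.pos 17 .mp ⟨0, 0, 0, 0, 0, 16299770, 0, 0, 0, ⟨0, 0⟩, 0⟩ 0 0) (.pos 18 .mp ⟨17481331, 0, 0, 0, 0, 0, 0, 0, 0, ⟨0, 0⟩, 0⟩ 0 0)))) (.cut .d (-3145728) (.pos 16 .mp ⟨29189613, 0, 0, 0, 0, 0, 0, 0, 0, ⟨0, 0⟩, 0⟩ 0 0) (.cut .s 8814592 (.pos 16 .mp ⟨13904274, 0, 0,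 0, 0, 0, 0, 0, 0, ⟨0, 0⟩, 0⟩ 0 0) (.pos 16 .mp ⟨20941127, 0, 0, 0, 0, 0, 0, 0, 0, ⟨0, 0⟩, 0⟩ 0 0))))) (.pos 14 .mp ⟨39861403, 0, 0, 0, 0, 0, 0, 0, 0, ⟨0, 0⟩, 0⟩ 0 0)) (.cut .v 20971520 (.cut .l 7092186 (.cut .v 18874368 (.cut .s 8814592 (.cut .d (-1048576) (.cut .s 8699904 (.pos 15 .mp ⟨370136, 0, 0, 0, 0, 9239146, 0, 0, 0, ⟨0, 0⟩, 0⟩ 0 0) (.pos 15 .mp ⟨4339639, 0, 0, 0, 0, 7126519, 0, 0, 0, ⟨0, 0⟩, 0⟩ 0 0)) (.pos 15 .mp ⟨71189, 0, 0, 0, 0, 8834870, 0, 0, 0, ⟨0, 0⟩, 0⟩ 0 0)) (.cut .v 17825792 (.cut .d (-1048576) (.cut .s 8929280 (.pos 17 .mp ⟨0, 0, 0, 0, 0, 14278470, 0, 0, 0, ⟨0, 0⟩, 0⟩ 0 0) (.pos 17 .mp ⟨0, 0, 0, 0, 0, 17045794, 0, 0, 0, ⟨0, 0⟩, 0⟩ 0 0))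 (.cut .s 8929280 (.pos 17 .mp ⟨0, 0, 0, 0, 0, 11765627, 0, 0, 0, ⟨0, 0⟩, 0⟩ 0 0) (.pos 17 .mp ⟨0, 0, 0, 0, 0, 14056447, 0, 0, 0, ⟨0, 0⟩, 0⟩ 0 0))) (.pos 18 .mp ⟨15747595, 0, 0, 0, 0, 0, 0, 0, 0, ⟨0, 0⟩, 0⟩ 0 0))) (.pos 16 .mp ⟨16931131, 0, 0, 0, 0, 0, 0, 0, 0, ⟨0, 0⟩, 0⟩ 0 0)) (.cut .s 8814592 (.pos 13 .mp ⟨7342566, 0, 0, 0, 0, 169377, 0, 0, 0, ⟨0, 0⟩, 0⟩ 0 0) (.pos 13 .mp ⟨11228090, 0, 0, 0, 0, 0, 0, 0, 0, ⟨0, 0⟩, 0⟩ 0 0))) (.pos 14 .mp ⟨20019214, 0, 0, 0, 0, 0, 0, 0, 0, ⟨0, 0⟩, 0⟩ 0 0))) (.pos 12 .mp ⟨66629689, 0, 0, 0, 0, 0, 0, 0, 0, ⟨0, 0⟩, 0⟩ 0 0)))) (.pos 10 .mp ⟨835474497, 0, 0, 0, 0, 0, 0, 0, 0, ⟨0, 0⟩, 0⟩ 0 0)) (.void 49 ⟨100000, 0, 0, 0, 0, 0, 0,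 0, 0, ⟨0, 0⟩, 0⟩ 0 0)) (.void 64 ⟨0, 100000, 0, 0, 0, 0, 0, 0, 0, ⟨0, 0⟩, 0⟩ 0 0))) (.cut .v 16777216 (.cut .v 8388608 (.cut .v 4194304 (.void 4 ⟨0, 0, 50000, 0, 50000, 0, 0, 0, 0, ⟨0, 0⟩, 0⟩ 0 0) (.pos 5 .pm ⟨0, 0, 0, 0, 0, 0, 0, 0, 1867378, ⟨0, 0⟩, 9975792⟩ 0 0)) (.cut .v 12582912 (.pos 6 .pm ⟨0, 0, 0, 0, 0, 0, 0, 0, 130607, ⟨0, 0⟩, 13128881⟩ 0 0) (.cut .v 14680064 (.pos 33 .pm ⟨0, 0, 0, 0, 0, 0, 0, 0, 0, ⟨0, 0⟩, 0⟩ 0 0) (.pos 34 .pm ⟨0, 0, 0, 0, 0, 0, 0, 0, 0, ⟨0, 0⟩, 0⟩ 0 0)))) (.cut .v 268435456 (.cut .v 67108864 (.cut .v 33554432 (.cut .v 25165824 (.pos 11 .pp ⟨0, 0, 0, 0, 0, 0, 0, 0, 0, ⟨0, 0⟩, 0⟩ 0 0) (.pos 12 .pp ⟨17435589, 0, 0, 0, 0, 0, 0, 0, 0,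 ⟨0, 0⟩, 0⟩ 0 0)) (.pos 10 .pp ⟨38179548, 0, 0, 0, 0, 0, 0, 0, 0, ⟨0, 0⟩, 0⟩ 0 0)) (.pos 49 .pp ⟨748444077, 758251048, 0, 0, 0, 0, 0, 0, 0, ⟨0, 0⟩, 0⟩ 0 0)) (.void 64 ⟨0, 0, 0, 100000, 0, 0, 0, 0, 0, ⟨0, 0⟩, 0⟩ 0 0)))),
    by decide +kernel⟩

def covers11 : cell.Covers table row11.1 :=
  ⟨(.cut .d 0 (.cut .v 16777216 (.cut .d (-8388608) (.void 1 ⟨0, 0, 0, 0, 0, 100000, 0, 0, 0, ⟨0, 0⟩, 0⟩ 0 0) (.cut .d (-4194304) (.void 1 ⟨0, 0, 0, 0, 0, 100000, 0, 0, 0, ⟨0, 0⟩, 0⟩ 0 0) (.cut .v 8388608 (.cut .v 4194304 (.void 4 ⟨0, 0, 100000, 0, 0, 0, 0, 0, 0, ⟨0, 0⟩, 0⟩ 0 0) (.pos 5 .mm ⟨0, 0, 0, 0, 0, 725356, 0, 0, 0, ⟨0, 0⟩, 0⟩ 0 0)) (.cut .v 12582912 (.pos 6 .mm ⟨0, 0,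 0, 0, 0, 11088034, 0, 0, 0, ⟨0, 0⟩, 0⟩ 0 0) (.cut .d (-2097152) (.cut .s 9306112 (.pos 7 .mm ⟨0, 0, 0, 0, 0, 21886421, 0, 0, 0, ⟨0, 0⟩, 0⟩ 0 0) (.pos 7 .mm ⟨0, 0, 0, 0, 0, 31322215, 0, 0, 0, ⟨0, 0⟩, 0⟩ 0 0)) (.cut .l 7092186 (.cut .d (-1048576) (.cut .s 9306112 (.pos 7 .mm ⟨0, 0, 0, 0, 0, 20255068, 0, 0, 0, ⟨0, 0⟩, 0⟩ 0 0) (.pos 7 .mm ⟨0, 0, 0, 0, 0, 29061032, 0, 0, 0, ⟨0, 0⟩, 0⟩ 0 0)) (.cut .l 4537473 (.cut .d (-524288) (.cut .v 14680064 (.pos 33 .mm ⟨0, 0, 0, 0, 0, 16010933, 0, 0, 0, ⟨0, 0⟩, 0⟩ 0 0) (.cut .s 9306112 (.cut .s 9175040 (.pos 34 .mm ⟨0, 0, 0, 0, 0, 16331837, 0, 0, 0, ⟨0, 0⟩, 0⟩ 0 0) (.pos 34 .mm ⟨0, 0, 0, 0, 0, 20087496, 0, 0, 0, ⟨0, 0⟩, 0⟩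 0 0)) (.cut .s 9437184 (.pos 34 .mm ⟨0, 0, 0, 0, 0, 24709839, 0, 0, 0, ⟨0, 0⟩, 0⟩ 0 0) (.pos 34 .mm ⟨0, 0, 0, 0, 0, 29510907, 0, 0, 0, ⟨0, 0⟩, 0⟩ 0 0)))) (.cut .d (-262144) (.cut .v 14680064 (.pos 33 .mm ⟨0, 0, 0, 0, 0, 8044504, 0, 0, 0, ⟨0, 0⟩, 0⟩ 0 0) (.cut .l 3260117 (.cut .l 2621439 (.cut .s 9306112 (.cut .d (-393216) (.pos 34 .mm ⟨0, 0, 0, 0, 0, 15813327, 0, 0, 0, ⟨0, 0⟩, 0⟩ 0 0) (.cut .v 15728640 (.pos 35 .mm ⟨0, 0, 0, 0, 0, 10141491, 0, 0, 0, ⟨0, 0⟩, 0⟩ 0 0) (.pos 36 .mm ⟨0, 0, 0, 0, 0, 11272277, 0, 0, 0, ⟨0, 0⟩, 0⟩ 0 0))) (.cut .s 9437184 (.pos 34 .mm ⟨0, 0, 0, 0, 0, 20543015, 0, 0, 0, ⟨0, 0⟩, 0⟩ 0 0) (.pos 34 .mm ⟨0, 0, 0, 0, 0, 25646208, 0, 0, 0,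 ⟨0, 0⟩, 0⟩ 0 0))) (.pos 34 .mm ⟨0, 0, 0, 0, 0, 10888416, 0, 0, 0, ⟨0, 0⟩, 0⟩ 0 0)) (.pos 34 .mm ⟨0, 0, 0, 0, 0, 0, 0, 0, 0, ⟨0, 0⟩, 0⟩ 0 0))) (.pos 7 .mm ⟨0, 0, 0, 0, 0, 0, 0, 0, 0, ⟨0, 0⟩, 0⟩ 0 0))) (.pos 7 .mm ⟨0, 0, 0, 0, 0, 9338272, 0, 0, 0, ⟨0, 0⟩, 0⟩ 0 0))) (.cut .s 9306112 (.pos 7 .mm ⟨0, 0, 0, 0, 0, 11347216, 0, 0, 0, ⟨0, 0⟩, 0⟩ 0 0) (.cut .d (-1048576) (.pos 7 .mm ⟨0, 0, 0, 0, 0, 23210499, 0, 0, 0, ⟨0, 0⟩, 0⟩ 0 0) (.pos 7 .mm ⟨0, 0, 0, 0, 0, 0, 0, 0, 0, ⟨0, 0⟩, 0⟩ 0 0))))))))) (.cut .v 268435456 (.cut .v 67108864 (.cut .v 33554432 (.cut .d (-8388608) (.void 9 ⟨0, 0, 0, 0, 0, 100000, 0, 0, 0, ⟨0, 0⟩, 0⟩ 0 0) (.cut .d (-4194304) (.void 9 ⟨0, 0, 0, 0,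 0, 100000, 0, 0, 0, ⟨0, 0⟩, 0⟩ 0 0) (.cut .v 25165824 (.cut .d (-2097152) (.cut .v 20971520 (.cut .l 7092186 (.void 13 ⟨0, 0, 0, 0, 0, 100000, 0, 0, 0, ⟨0, 0⟩, 0⟩ 0 0) (.cut .d (-3145728) (.cut .v 18874368 (.pos 15 .mp ⟨16504672, 0, 0, 0, 0, 40097889, 0, 0, 0, ⟨0, 0⟩, 0⟩ 0 0) (.void 16 ⟨100000, 0, 0, 0, 0, 0, 0, 0, 0, ⟨0, 0⟩, 0⟩ 0 0)) (.cut .v 18874368 (.cut .s 9306112 (.cut .v 17825792 (.cut .s 9175040 (.pos 17 .mp ⟨3133801, 0, 0, 0, 0, 17522881, 0, 0, 0, ⟨0, 0⟩, 0⟩ 0 0) (.pos 17 .mp ⟨6394923, 0, 0, 0, 0, 18537451, 0, 0, 0, ⟨0, 0⟩, 0⟩ 0 0)) (.cut .s 9175040 (.pos 18 .mp ⟨21870088, 0, 0, 0, 0, 0, 0, 0, 0, ⟨0, 0⟩, 0⟩ 0 0) (.pos 18 .mp ⟨26319760, 0, 0, 0, 0,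 0, 0, 0, 0, ⟨0, 0⟩, 0⟩ 0 0))) (.cut .l 9646899 (.pos 15 .mp ⟨15166060, 0, 0, 0, 0, 29390362, 0, 0, 0, ⟨0, 0⟩, 0⟩ 0 0) (.cut .v 17825792 (.cut .s 9437184 (.pos 17 .mp ⟨9534339, 0, 0, 0, 0, 20112358, 0, 0, 0, ⟨0, 0⟩, 0⟩ 0 0) (.cut .d (-2621440) (.pos 17 .mp ⟨23039544, 0, 0, 0, 0, 15748971, 0, 0, 0, ⟨0, 0⟩, 0⟩ 0 0) (.pos 17 .mp ⟨13740871, 0, 0, 0, 0, 19500027, 0, 0, 0, ⟨0, 0⟩, 0⟩ 0 0))) (.cut .d (-2621440) (.cut .s 9437184 (.pos 18 .mp ⟨33974059, 0, 0, 0, 0, 0, 0, 0, 0, ⟨0, 0⟩, 0⟩ 0 0) (.pos 18 .mp ⟨41087448, 0, 0, 0, 0, 0, 0, 0, 0, ⟨0, 0⟩, 0⟩ 0 0)) (.pos 18 .mp ⟨31526311, 0, 0, 0, 0, 0, 0, 0, 0, ⟨0, 0⟩, 0⟩ 0 0))))) (.cut .s 9306112 (.pos 16 .mp ⟨30164160, 0,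 0, 0, 0, 0, 0, 0, 0, ⟨0, 0⟩, 0⟩ 0 0) (.cut .d (-2621440) (.pos 16 .mp ⟨50077312, 0, 0, 0, 0, 0, 0, 0, 0, ⟨0, 0⟩, 0⟩ 0 0) (.pos 16 .mp ⟨38927835, 0, 0, 0, 0, 0, 0, 0, 0, ⟨0, 0⟩, 0⟩ 0 0)))))) (.pos 14 .mp ⟨78156846, 0, 0, 0, 0, 0, 0, 0, 0, ⟨0, 0⟩, 0⟩ 0 0)) (.cut .v 20971520 (.cut .d (-1048576) (.cut .s 9306112 (.cut .v 18874368 (.cut .l 7092186 (.cut .d (-1572864) (.pos 15 .mp ⟨6102969, 0, 0, 0, 0, 21126524, 0, 0, 0, ⟨0, 0⟩, 0⟩ 0 0) (.cut .s 9175040 (.pos 15 .mp ⟨10498032, 0, 0, 0, 0, 7788258, 0, 0, 0, ⟨0, 0⟩, 0⟩ 0 0) (.pos 15 .mp ⟨16168960, 0, 0, 0, 0, 5191977, 0, 0, 0, ⟨0, 0⟩, 0⟩ 0 0))) (.pos 15 .mp ⟨16640122, 0, 0, 0, 0, 0, 0, 0, 0, ⟨0, 0⟩, 0⟩ 0 0)) (.pos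 16 .mp ⟨24753380, 0, 0, 0, 0, 0, 0, 0, 0, ⟨0, 0⟩, 0⟩ 0 0)) (.cut .v 18874368 (.cut .l 7092186 (.cut .v 17825792 (.cut .s 9437184 (.pos 17 .mp ⟨1920575, 0, 0, 0, 0, 27099909, 0, 0, 0, ⟨0, 0⟩, 0⟩ 0 0) (.pos 17 .mp ⟨4216234, 0, 0, 0, 0, 29626823, 0, 0, 0, ⟨0, 0⟩, 0⟩ 0 0)) (.pos 18 .mp ⟨32682771, 0, 0, 0, 0, 0, 0, 0, 0, ⟨0, 0⟩, 0⟩ 0 0)) (.cut .s 9437184 (.pos 15 .mp ⟨22653286, 0, 0, 0, 0, 0, 0, 0, 0, ⟨0, 0⟩, 0⟩ 0 0) (.pos 15 .mp ⟨27065102, 0, 0, 0, 0, 0, 0, 0, 0, ⟨0, 0⟩, 0⟩ 0 0))) (.cut .s 9437184 (.pos 16 .mp ⟨31163578, 0, 0, 0, 0, 0, 0, 0, 0, ⟨0, 0⟩, 0⟩ 0 0) (.pos 16 .mp ⟨36412662, 0, 0, 0, 0, 0, 0, 0, 0, ⟨0, 0⟩, 0⟩ 0 0)))) (.cut .l 7092186 (.cut .l 4537473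 (.cut .v 18874368 (.cut .s 9306112 (.cut .v 17825792 (.cut .d (-524288) (.cut .s 9175040 (.pos 17 .mp ⟨0, 0, 0, 0, 0, 18513135, 0, 0, 0, ⟨0, 0⟩, 0⟩ 0 0) (.pos 17 .mp ⟨0, 0, 0, 0, 0, 22671487, 0, 0, 0, ⟨0, 0⟩, 0⟩ 0 0)) (.pos 17 .mp ⟨0, 0, 0, 0, 0, 16307067, 0, 0, 0, ⟨0, 0⟩, 0⟩ 0 0)) (.pos 18 .mp ⟨20141770, 0, 0, 0, 0, 0, 0, 0, 0, ⟨0, 0⟩, 0⟩ 0 0)) (.cut .v 17825792 (.cut .d (-524288) (.cut .s 9437184 (.pos 17 .mp ⟨0, 0, 0, 0, 0, 27304491, 0, 0, 0, ⟨0, 0⟩, 0⟩ 0 0) (.cut .s 9502720 (.pos 17 .mp ⟨0, 0, 0, 0, 0, 30669464, 0, 0, 0, ⟨0, 0⟩, 0⟩ 0 0) (.pos 17 .mp ⟨337285, 0, 0, 0, 0, 32870689, 0, 0, 0, ⟨0, 0⟩, 0⟩ 0 0))) (.cut .d (-262144) (.cut .s 9437184 (.pos 17 .mp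 ⟨66050, 0, 0, 0, 0, 24322284, 0, 0, 0, ⟨0, 0⟩, 0⟩ 0 0) (.cut .d (-393216) (.pos 17 .mp ⟨4193417, 0, 0, 0, 0, 24427735, 0, 0, 0, ⟨0, 0⟩, 0⟩ 0 0) (.pos 17 .mp ⟨1281682, 0, 0, 0, 0, 26051572, 0, 0, 0, ⟨0, 0⟩, 0⟩ 0 0))) (.pos 17 .mp ⟨0, 0, 0, 0, 0, 0, 0, 0, 0, ⟨0, 0⟩, 0⟩ 0 0))) (.pos 18 .mp ⟨27128696, 0, 0, 0, 0, 0, 0, 0, 0, ⟨0, 0⟩, 0⟩ 0 0))) (.pos 16 .mp ⟨29029622, 0, 0, 0, 0, 0, 0, 0, 0, ⟨0, 0⟩, 0⟩ 0 0)) (.pos 13 .mp ⟨14165227, 0, 0, 0, 0, 0, 0, 0, 0, ⟨0, 0⟩, 0⟩ 0 0)) (.pos 13 .mp ⟨0, 0, 0, 0, 0, 0, 0, 0, 0, ⟨0, 0⟩, 0⟩ 0 0))) (.cut .s 9306112 (.pos 14 .mp ⟨31593705, 0, 0, 0, 0, 0, 0, 0, 0, ⟨0, 0⟩, 0⟩ 0 0) (.pos 14 .mp ⟨44230691, 0, 0, 0, 0, 0, 0, 0, 0, ⟨0, 0⟩,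 0⟩ 0 0)))) (.cut .d (-2097152) (.void 12 ⟨100000, 0, 0, 0, 0, 0, 0, 0, 0, ⟨0, 0⟩, 0⟩ 0 0) (.pos 12 .mp ⟨76737208, 0, 0, 0, 0, 0, 0, 0, 0, ⟨0, 0⟩, 0⟩ 0 0))))) (.pos 10 .mp ⟨1258103806, 0, 0, 0, 0, 0, 0, 0, 0, ⟨0, 0⟩, 0⟩ 0 0)) (.void 49 ⟨100000, 0, 0, 0, 0, 0, 0, 0, 0, ⟨0, 0⟩, 0⟩ 0 0)) (.void 64 ⟨63682, 36318, 0, 0, 0, 0, 0, 0, 0, ⟨0, 0⟩, 0⟩ 0 0))) (.cut .v 16777216 (.cut .v 8388608 (.cut .v 4194304 (.void 4 ⟨0, 0, 50000, 0, 50000, 0, 0, 0, 0, ⟨0, 0⟩, 0⟩ 0 0) (.pos 5 .pm ⟨0, 0, 0, 0, 0, 0, 0, 0, 1300869, ⟨0, 0⟩, 9975792⟩ 0 0)) (.cut .v 12582912 (.pos 6 .pm ⟨0, 0, 0, 0, 0, 0, 0, 0, 0, ⟨0, 0⟩, 0⟩ 0 0) (.pos 7 .pm ⟨0, 0, 0, 0, 0, 0, 0, 0, 0, ⟨0, 0⟩, 0⟩ 0 0))) (.cut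 .v 268435456 (.cut .v 67108864 (.cut .d 7172869 (.cut .d 3586434 (.cut .v 33554432 (.cut .v 25165824 (.pos 11 .pp ⟨0, 0, 0, 0, 0, 0, 0, 0, 0, ⟨0, 0⟩, 0⟩ 0 0) (.pos 12 .pp ⟨36116964, 0, 0, 0, 0, 0, 0, 0, 0, ⟨0, 0⟩, 0⟩ 0 0)) (.pos 10 .pp ⟨125847564, 0, 0, 0, 0, 0, 0, 0, 0, ⟨0, 0⟩, 0⟩ 0 0)) (.pos 8 .pp ⟨0, 0, 0, 0, 0, 0, 0, 0, 0, ⟨0, 0⟩, 0⟩ 0 0)) (.pos 8 .pp ⟨0, 0, 0, 0, 0, 0, 0, 0, 0, ⟨0, 0⟩, 0⟩ 0 0)) (.cut .d 7172869 (.pos 49 .pp ⟨1362199658, 1187527371, 0, 0, 0, 0, 0, 0, 0, ⟨0, 0⟩, 0⟩ 0 0) (.void 49 ⟨0, 100000, 0, 0, 0, 0, 0, 0, 0, ⟨0, 0⟩, 0⟩ 0 0))) (.void 64 ⟨0, 0, 0, 100000, 0, 0, 0, 0, 0, ⟨0, 0⟩, 0⟩ 0 0)))),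
    by decide +kernel⟩

def covers12 : cell.Covers table row12.1 :=
  ⟨(.cut .d 0 (.cut .v 16777216 (.cut .d (-8388608) (.void 1 ⟨0, 0, 0, 0, 0, 100000, 0, 0, 0, ⟨0, 0⟩, 0⟩ 0 0) (.cut .d (-4194304) (.void 1 ⟨0, 0, 0, 0, 0, 100000, 0, 0, 0, ⟨0, 0⟩, 0⟩ 0 0) (.cut .v 8388608 (.cut .v 4194304 (.void 4 ⟨0, 0, 100000, 0, 0, 0, 0, 0, 0, ⟨0, 0⟩, 0⟩ 0 0) (.pos 5 .mm ⟨0, 0, 0, 0, 0, 9004281, 0, 0, 0, ⟨0, 0⟩, 0⟩ 0 0)) (.cut .v 12582912 (.pos 6 .mm ⟨0, 0, 0, 0, 0, 26190631, 0, 0, 0, ⟨0, 0⟩, 0⟩ 0 0) (.cut .d (-2097152) (.cut .s 9830400 (.pos 7 .mm ⟨0, 0, 0, 0, 0, 43331732, 0, 0, 0, ⟨0, 0⟩, 0⟩ 0 0) (.pos 7 .mm ⟨0, 0, 0, 0, 0, 61392394, 0, 0, 0, ⟨0, 0⟩, 0⟩ 0 0)) (.cut .d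 (-1048576) (.cut .v 14680064 (.pos 33 .mm ⟨0, 0, 0, 0, 0, 34824040, 0, 0, 0, ⟨0, 0⟩, 0⟩ 0 0) (.cut .s 9830400 (.cut .s 9699328 (.pos 34 .mm ⟨0, 0, 0, 0, 0, 34113793, 0, 0, 0, ⟨0, 0⟩, 0⟩ 0 0) (.pos 34 .mm ⟨0, 0, 0, 0, 0, 39987575, 0, 0, 0, ⟨0, 0⟩, 0⟩ 0 0)) (.cut .s 9961472 (.pos 34 .mm ⟨0, 0, 0, 0, 0, 46513250, 0, 0, 0, ⟨0, 0⟩, 0⟩ 0 0) (.pos 34 .mm ⟨0, 0, 0, 0, 0, 53556028, 0, 0, 0, ⟨0, 0⟩, 0⟩ 0 0)))) (.cut .l 7092186 (.cut .v 14680064 (.pos 33 .mm ⟨0, 0, 0, 0, 0, 26804146, 0, 0, 0, ⟨0, 0⟩, 0⟩ 0 0) (.cut .s 9830400 (.cut .l 4537473 (.cut .d (-524288) (.pos 34 .mm ⟨0, 0, 0, 0, 0, 36561406, 0, 0, 0, ⟨0, 0⟩, 0⟩ 0 0) (.cut .d (-262144) (.cut .s 9699328 (.pos 34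 .mm ⟨0, 0, 0, 0, 0, 29504285, 0, 0, 0, ⟨0, 0⟩, 0⟩ 0 0) (.pos 34 .mm ⟨0, 0, 0, 0, 0, 34822868, 0, 0, 0, ⟨0, 0⟩, 0⟩ 0 0)) (.pos 34 .mm ⟨0, 0, 0, 0, 0, 0, 0, 0, 0, ⟨0, 0⟩, 0⟩ 0 0))) (.pos 34 .mm ⟨0, 0, 0, 0, 0, 25664384, 0, 0, 0, ⟨0, 0⟩, 0⟩ 0 0)) (.cut .l 4537473 (.cut .d (-524288) (.pos 34 .mm ⟨0, 0, 0, 0, 0, 49534334, 0, 0, 0, ⟨0, 0⟩, 0⟩ 0 0) (.cut .d (-262144) (.pos 34 .mm ⟨0, 0, 0, 0, 0, 44390106, 0, 0, 0, ⟨0, 0⟩, 0⟩ 0 0) (.pos 34 .mm ⟨0, 0, 0, 0, 0, 0, 0, 0, 0, ⟨0, 0⟩, 0⟩ 0 0))) (.pos 34 .mm ⟨0, 0, 0, 0, 0, 37497027, 0, 0, 0, ⟨0, 0⟩, 0⟩ 0 0)))) (.pos 7 .mm ⟨0, 0, 0, 0, 0, 0, 0, 0, 0, ⟨0, 0⟩, 0⟩ 0 0)))))))) (.cut .v 268435456 (.cut .v 67108864 (.cut .d (-8388608)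 (.void 8 ⟨0, 0, 0, 0, 0, 100000, 0, 0, 0, ⟨0, 0⟩, 0⟩ 0 0) (.cut .v 33554432 (.cut .d (-4194304) (.void 9 ⟨0, 0, 0, 0, 0, 100000, 0, 0, 0, ⟨0, 0⟩, 0⟩ 0 0) (.cut .v 25165824 (.cut .d (-2097152) (.cut .v 20971520 (.cut .d (-3145728) (.void 13 ⟨0, 0, 0, 0, 0, 100000, 0, 0, 0, ⟨0, 0⟩, 0⟩ 0 0) (.cut .l 7092186 (.void 13 ⟨0, 0, 0, 0, 0, 100000, 0, 0, 0, ⟨0, 0⟩, 0⟩ 0 0) (.cut .v 18874368 (.cut .l 9646899 (.pos 15 .mp ⟨24225601, 0, 0, 0, 0, 66826425, 0, 0, 0, ⟨0, 0⟩, 0⟩ 0 0) (.cut .d (-2621440) (.cut .s 9830400 (.cut .v 17825792 (.cut .s 9699328 (.pos 17 .mp ⟨28671581, 0, 0, 0, 0, 15681885, 0, 0, 0, ⟨0, 0⟩, 0⟩ 0 0) (.pos 17 .mp ⟨34824829, 0, 0, 0, 0, 19221727, 0, 0,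 0, ⟨0, 0⟩, 0⟩ 0 0)) (.pos 18 .mp ⟨54564311, 0, 0, 0, 0, 0, 0, 0, 0, ⟨0, 0⟩, 0⟩ 0 0)) (.void 15 ⟨0, 0, 0, 0, 0, 100000, 0, 0, 0, ⟨0, 0⟩, 0⟩ 0 0)) (.cut .s 9830400 (.cut .v 17825792 (.cut .s 9699328 (.pos 17 .mp ⟨17746627, 0, 0, 0, 0, 20417019, 0, 0, 0, ⟨0, 0⟩, 0⟩ 0 0) (.pos 17 .mp ⟨24457911, 0, 0, 0, 0, 20178512, 0, 0, 0, ⟨0, 0⟩, 0⟩ 0 0)) (.cut .s 9699328 (.pos 18 .mp ⟨38939257, 0, 0, 0, 0, 0, 0, 0, 0, ⟨0, 0⟩, 0⟩ 0 0) (.pos 18 .mp ⟨46189222, 0, 0, 0, 0, 0, 0, 0, 0, ⟨0, 0⟩, 0⟩ 0 0))) (.cut .v 17825792 (.cut .l 10924255 (.pos 17 .mp ⟨31168500, 0, 0, 0, 0, 34769151, 0, 0, 0, ⟨0, 0⟩, 0⟩ 0 0) (.cut .s 9961472 (.cut .v 17301504 (.pos 19 .mp ⟨0, 0, 0, 0, 0, 51319235,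 0, 0, 0, ⟨0, 0⟩, 0⟩ 0 0) (.pos 20 .mp ⟨49671059, 0, 0, 0, 0, 0, 0, 0, 0, ⟨0, 0⟩, 0⟩ 0 0)) (.cut .d (-2359296) (.pos 17 .mp ⟨42892314, 0, 0, 0, 0, 25694758, 0, 0, 0, ⟨0, 0⟩, 0⟩ 0 0) (.pos 17 .mp ⟨51072083, 0, 0, 0, 0, 0, 0, 0, 0, ⟨0, 0⟩, 0⟩ 0 0)))) (.cut .s 9961472 (.pos 18 .mp ⟨55256564, 0, 0, 0, 0, 0, 0, 0, 0, ⟨0, 0⟩, 0⟩ 0 0) (.pos 18 .mp ⟨65077237, 0, 0, 0, 0, 0, 0, 0, 0, ⟨0, 0⟩, 0⟩ 0 0)))))) (.cut .s 9830400 (.cut .d (-2621440) (.void 16 ⟨100000, 0, 0, 0, 0, 0, 0, 0, 0, ⟨0, 0⟩, 0⟩ 0 0) (.pos 16 .mp ⟨53993302, 0, 0, 0, 0, 0, 0, 0, 0, ⟨0, 0⟩, 0⟩ 0 0)) (.pos 16 .mp ⟨85671509, 0, 0, 0, 0, 0, 0, 0, 0, ⟨0, 0⟩, 0⟩ 0 0))))) (.void 14 ⟨100000, 0, 0, 0, 0, 0, 0,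 0, 0, ⟨0, 0⟩, 0⟩ 0 0)) (.cut .v 20971520 (.cut .d (-1048576) (.cut .l 7092186 (.cut .v 18874368 (.cut .d (-1572864) (.void 15 ⟨0, 0, 0, 0, 0, 100000, 0, 0, 0, ⟨0, 0⟩, 0⟩ 0 0) (.cut .l 4537473 (.void 15 ⟨0, 0, 0, 0, 0, 100000, 0, 0, 0, ⟨0, 0⟩, 0⟩ 0 0) (.cut .v 17825792 (.cut .s 9830400 (.cut .s 9699328 (.pos 17 .mp ⟨28211511, 0, 0, 0, 0, 2867371, 0, 0, 0, ⟨0, 0⟩, 0⟩ 0 0) (.pos 17 .mp ⟨34631082, 0, 0, 0, 0, 1463020, 0, 0, 0, ⟨0, 0⟩, 0⟩ 0 0)) (.cut .s 9961472 (.pos 17 .mp ⟨12998975, 0, 0, 0, 0, 37611341, 0, 0, 0, ⟨0, 0⟩, 0⟩ 0 0) (.pos 17 .mp ⟨17075987, 0, 0, 0, 0, 40945954, 0, 0, 0, ⟨0, 0⟩, 0⟩ 0 0))) (.pos 18 .mp ⟨48876137, 0, 0, 0, 0, 0, 0, 0, 0, ⟨0, 0⟩, 0⟩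 0 0)))) (.pos 16 .mp ⟨66731394, 0, 0, 0, 0, 0, 0, 0, 0, ⟨0, 0⟩, 0⟩ 0 0)) (.cut .s 9830400 (.cut .v 18874368 (.cut .d (-1572864) (.cut .s 9699328 (.pos 15 .mp ⟨32333672, 0, 0, 0, 0, 0, 0, 0, 0, ⟨0, 0⟩, 0⟩ 0 0) (.cut .s 9764864 (.pos 15 .mp ⟨36644197, 0, 0, 0, 0, 0, 0, 0, 0, ⟨0, 0⟩, 0⟩ 0 0) (.pos 15 .mp ⟨39595297, 0, 0, 0, 0, 0, 0, 0, 0, ⟨0, 0⟩, 0⟩ 0 0))) (.pos 15 .mp ⟨27875077, 0, 0, 0, 0, 0, 0, 0, 0, ⟨0, 0⟩, 0⟩ 0 0)) (.pos 16 .mp ⟨44265420, 0, 0, 0, 0, 0, 0, 0, 0, ⟨0, 0⟩, 0⟩ 0 0)) (.cut .v 18874368 (.cut .d (-1572864) (.cut .s 9961472 (.cut .l 9646899 (.pos 15 .mp ⟨46111582, 0, 0, 0, 0, 0, 0, 0, 0, ⟨0, 0⟩, 0⟩ 0 0) (.pos 15 .mp ⟨41850559, 0, 0, 0, 0, 0, 0,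 0, 0, ⟨0, 0⟩, 0⟩ 0 0)) (.cut .l 9646899 (.pos 15 .mp ⟨53616443, 0, 0, 0, 0, 0, 0, 0, 0, ⟨0, 0⟩, 0⟩ 0 0) (.pos 15 .mp ⟨48960738, 0, 0, 0, 0, 0, 0, 0, 0, ⟨0, 0⟩, 0⟩ 0 0))) (.pos 15 .mp ⟨40709388, 0, 0, 0, 0, 0, 0, 0, 0, ⟨0, 0⟩, 0⟩ 0 0)) (.cut .s 9961472 (.pos 16 .mp ⟨54883938, 0, 0, 0, 0, 0, 0, 0, 0, ⟨0, 0⟩, 0⟩ 0 0) (.pos 16 .mp ⟨63104603, 0, 0, 0, 0, 0, 0, 0, 0, ⟨0, 0⟩, 0⟩ 0 0))))) (.cut .l 7092186 (.cut .s 9830400 (.cut .v 18874368 (.cut .v 17825792 (.cut .l 4537473 (.cut .d (-524288) (.cut .l 3260117 (.pos 17 .mp ⟨3919954, 0, 0, 0, 0, 39788776, 0, 0, 0, ⟨0, 0⟩, 0⟩ 0 0) (.cut .s 9699328 (.pos 17 .mp ⟨12839600, 0, 0, 0, 0, 19057500, 0, 0, 0, ⟨0, 0⟩, 0⟩ 0 0)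 (.pos 17 .mp ⟨18146521, 0, 0, 0, 0, 18442159, 0, 0, 0, ⟨0, 0⟩, 0⟩ 0 0))) (.cut .d (-262144) (.cut .v 17301504 (.cut .s 9699328 (.pos 19 .mp ⟨0, 0, 0, 0, 0, 33075334, 0, 0, 0, ⟨0, 0⟩, 0⟩ 0 0) (.pos 19 .mp ⟨0, 0, 0, 0, 0, 38845874, 0, 0, 0, ⟨0, 0⟩, 0⟩ 0 0)) (.pos 20 .mp ⟨32080151, 0, 0, 0, 0, 0, 0, 0, 0, ⟨0, 0⟩, 0⟩ 0 0)) (.pos 17 .mp ⟨3268666, 0, 0, 0, 0, 0, 0, 0, 0, ⟨0, 0⟩, 0⟩ 0 0))) (.pos 17 .mp ⟨19737979, 0, 0, 0, 0, 5996279, 0, 0, 0, ⟨0, 0⟩, 0⟩ 0 0)) (.pos 18 .mp ⟨34608213, 0, 0, 0, 0, 0, 0, 0, 0, ⟨0, 0⟩, 0⟩ 0 0)) (.pos 16 .mp ⟨39377360, 0, 0, 0, 0, 0, 0, 0, 0, ⟨0, 0⟩, 0⟩ 0 0)) (.cut .v 18874368 (.cut .v 17825792 (.cut .l 4537473 (.cut .d (-524288) (.cut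 .v 17301504 (.cut .s 9961472 (.pos 19 .mp ⟨5389175, 0, 0, 0, 0, 41988891, 0, 0, 0, ⟨0, 0⟩, 0⟩ 0 0) (.pos 19 .mp ⟨8352122, 0, 0, 0, 0, 45679486, 0, 0, 0, ⟨0, 0⟩, 0⟩ 0 0)) (.pos 20 .mp ⟨46843899, 0, 0, 0, 0, 0, 0, 0, 0, ⟨0, 0⟩, 0⟩ 0 0)) (.cut .d (-262144) (.cut .v 17301504 (.cut .l 3260117 (.cut .s 9961472 (.pos 19 .mp ⟨2374093, 0, 0, 0, 0, 42619809, 0, 0, 0, ⟨0, 0⟩, 0⟩ 0 0) (.pos 19 .mp ⟨4281754, 0, 0, 0, 0, 47284476, 0, 0, 0, ⟨0, 0⟩, 0⟩ 0 0)) (.pos 19 .mp ⟨14833121, 0, 0, 0, 0, 0, 0, 0, 0, ⟨0, 0⟩, 0⟩ 0 0)) (.pos 20 .mp ⟨42308288, 0, 0, 0, 0, 0, 0, 0, 0, ⟨0, 0⟩, 0⟩ 0 0)) (.pos 17 .mp ⟨10604813, 0, 0, 0, 0, 0, 0, 0, 0, ⟨0, 0⟩, 0⟩ 0 0))) (.pos 17 .mp ⟨30811799,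 0, 0, 0, 0, 4064700, 0, 0, 0, ⟨0, 0⟩, 0⟩ 0 0)) (.cut .s 9961472 (.pos 18 .mp ⟨42662090, 0, 0, 0, 0, 0, 0, 0, 0, ⟨0, 0⟩, 0⟩ 0 0) (.pos 18 .mp ⟨48365924, 0, 0, 0, 0, 0, 0, 0, 0, ⟨0, 0⟩, 0⟩ 0 0))) (.pos 16 .mp ⟨51768523, 0, 0, 0, 0, 0, 0, 0, 0, ⟨0, 0⟩, 0⟩ 0 0))) (.pos 13 .mp ⟨19464641, 0, 0, 0, 0, 0, 0, 0, 0, ⟨0, 0⟩, 0⟩ 0 0))) (.cut .d (-1048576) (.cut .s 9830400 (.pos 14 .mp ⟨62643242, 0, 0, 0, 0, 0, 0, 0, 0, ⟨0, 0⟩, 0⟩ 0 0) (.pos 14 .mp ⟨83911549, 0, 0, 0, 0, 0, 0, 0, 0, ⟨0, 0⟩, 0⟩ 0 0)) (.cut .l 7092186 (.pos 14 .mp ⟨64557634, 0, 0, 0, 0, 0, 0, 0, 0, ⟨0, 0⟩, 0⟩ 0 0) (.pos 14 .mp ⟨48703497, 0, 0, 0, 0, 0, 0, 0, 0, ⟨0, 0⟩, 0⟩ 0 0))))) (.cut .d (-2097152) (.void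 12 ⟨100000, 0, 0, 0, 0, 0, 0, 0, 0, ⟨0, 0⟩, 0⟩ 0 0) (.cut .d (-1048576) (.pos 12 .mp ⟨167345193, 0, 0, 0, 0, 0, 0, 0, 0, ⟨0, 0⟩, 0⟩ 0 0) (.pos 12 .mp ⟨101898166, 0, 0, 0, 0, 0, 0, 0, 0, ⟨0, 0⟩, 0⟩ 0 0))))) (.pos 10 .mp ⟨1108894174, 0, 0, 0, 0, 0, 0, 0, 0, ⟨0, 0⟩, 0⟩ 0 0))) (.void 49 ⟨100000, 0, 0, 0, 0, 0, 0, 0, 0, ⟨0, 0⟩, 0⟩ 0 0)) (.void 64 ⟨62439, 37561, 0, 0, 0, 0, 0, 0, 0, ⟨0, 0⟩, 0⟩ 0 0))) (.cut .v 16777216 (.cut .v 8388608 (.cut .v 4194304 (.pos 4 .pm ⟨0, 0, 46721737, 0, 42938480, 0, 0, 0, 8415221, ⟨0, 0⟩, 3966728⟩ 0 0) (.pos 5 .pm ⟨0, 0, 0, 0, 0, 0, 0, 0, 4672405, ⟨0, 0⟩, 9975792⟩ 0 0)) (.cut .v 12582912 (.cut .d 6320185 (.pos 6 .pm ⟨0, 0, 0, 0, 0,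 0, 0, 0, 0, ⟨0, 0⟩, 0⟩ 0 0) (.pos 6 .pm ⟨0, 6215531, 0, 0, 0, 0, 0, 0, 3941364, ⟨0, 0⟩, 13128881⟩ 0 0)) (.cut .d 6320185 (.pos 7 .pm ⟨0, 0, 0, 0, 0, 0, 0, 0, 0, ⟨0, 0⟩, 0⟩ 0 0) (.pos 7 .pm ⟨0, 7219328, 0, 0, 0, 0, 0, 0, 0, ⟨0, 0⟩, 0⟩ 0 0)))) (.cut .v 268435456 (.cut .d 6320185 (.cut .v 67108864 (.cut .d 3160092 (.cut .v 33554432 (.cut .v 25165824 (.pos 11 .pp ⟨4147354, 0, 0, 0, 0, 0, 0, 0, 0, ⟨0, 0⟩, 0⟩ 0 0) (.pos 12 .pp ⟨59419840, 0, 0, 0, 0, 0, 0, 0, 0, ⟨0, 0⟩, 0⟩ 0 0)) (.cut .v 50331648 (.pos 29 .pp ⟨149020821, 0, 0, 0, 0, 0, 0, 0, 0, ⟨0, 0⟩, 0⟩ 0 0) (.pos 30 .pp ⟨444913509, 0, 0, 0, 0, 0, 0, 0, 0, ⟨0, 0⟩, 0⟩ 0 0))) (.pos 8 .pp ⟨0, 0, 0, 0, 0, 0, 0, 0,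 0, ⟨0, 0⟩, 0⟩ 0 0)) (.cut .v 134217728 (.pos 65 .pp ⟨1116198894, 682589502, 0, 0, 0, 0, 0, 0, 0, ⟨0, 0⟩, 0⟩ 0 0) (.void 66 ⟨0, 71929, 0, 28071, 0, 0, 0, 0, 0, ⟨0, 0⟩, 0⟩ 0 0))) (.pos 48 .pp ⟨0, 30645578, 0, 0, 0, 0, 0, 0, 0, ⟨0, 0⟩, 0⟩ 0 0)) (.void 64 ⟨0, 0, 0, 100000, 0, 0, 0, 0, 0, ⟨0, 0⟩, 0⟩ 0 0)))),
    by decide +kernel⟩

def covers13 : cell.Covers table row13.1 :=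
  ⟨(.cut .d 0 (.cut .v 16777216 (.cut .d (-8388608) (.void 1 ⟨0, 0, 0, 0, 0, 100000, 0, 0, 0, ⟨0, 0⟩, 0⟩ 0 0) (.cut .d (-4194304) (.void 1 ⟨0, 0, 0, 0, 0, 100000, 0, 0, 0, ⟨0, 0⟩, 0⟩ 0 0) (.cut .v 8388608 (.cut .v 4194304 (.void 4 ⟨0, 0, 100000, 0, 0, 0, 0, 0, 0, ⟨0, 0⟩, 0⟩ 0 0) (.pos 5 .mm ⟨0, 0, 0, 0, 0, 20469377, 0, 0, 0, ⟨0, 0⟩, 0⟩ 0 0)) (.cut .d (-2097152) (.cut .s 10289152 (.pos 3 .mm ⟨0, 0, 0, 0, 0, 78996832, 0, 0, 0, ⟨0, 0⟩, 0⟩ 0 0) (.pos 3 .mm ⟨0, 0, 0, 0, 0, 100327837, 0, 0, 0, ⟨0, 0⟩, 0⟩ 0 0)) (.cut .v 12582912 (.pos 6 .mm ⟨0, 0, 0, 0, 0, 38488262, 0, 0, 0, ⟨0, 0⟩, 0⟩ 0 0) (.cut .d (-1048576) (.cut .l 7092186 (.pos 7 .mm ⟨0, 0, 0, 0, 0, 80508649,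 0, 0, 0, ⟨0, 0⟩, 0⟩ 0 0) (.cut .s 10289152 (.pos 7 .mm ⟨0, 0, 0, 0, 0, 61343451, 0, 0, 0, ⟨0, 0⟩, 0⟩ 0 0) (.cut .s 10387456 (.pos 7 .mm ⟨0, 0, 0, 0, 0, 72713816, 0, 0, 0, ⟨0, 0⟩, 0⟩ 0 0) (.pos 7 .mm ⟨0, 0, 0, 0, 0, 80614331, 0, 0, 0, ⟨0, 0⟩, 0⟩ 0 0)))) (.cut .l 7092186 (.cut .v 14680064 (.pos 33 .mm ⟨0, 0, 0, 0, 0, 47297765, 0, 0, 0, ⟨0, 0⟩, 0⟩ 0 0) (.cut .d (-524288) (.cut .s 10289152 (.pos 34 .mm ⟨0, 0, 0, 0, 0, 60750358, 0, 0, 0, ⟨0, 0⟩, 0⟩ 0 0) (.pos 34 .mm ⟨0, 0, 0, 0, 0, 74556343, 0, 0, 0, ⟨0, 0⟩, 0⟩ 0 0)) (.cut .d (-262144) (.cut .s 10289152 (.pos 34 .mm ⟨0, 0, 0, 0, 0, 56069701, 0, 0, 0, ⟨0, 0⟩, 0⟩ 0 0) (.pos 34 .mm ⟨0, 0, 0, 0, 0, 69245605, 0, 0,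 0, ⟨0, 0⟩, 0⟩ 0 0)) (.pos 34 .mm ⟨0, 0, 0, 0, 0, 31198555, 0, 0, 0, ⟨0, 0⟩, 0⟩ 0 0)))) (.pos 7 .mm ⟨0, 0, 0, 0, 0, 0, 0, 0, 0, ⟨0, 0⟩, 0⟩ 0 0)))))))) (.cut .v 268435456 (.cut .v 67108864 (.cut .d (-8388608) (.void 8 ⟨0, 0, 0, 0, 0, 100000, 0, 0, 0, ⟨0, 0⟩, 0⟩ 0 0) (.cut .v 33554432 (.cut .d (-4194304) (.void 9 ⟨0, 0, 0, 0, 0, 100000, 0, 0, 0, ⟨0, 0⟩, 0⟩ 0 0) (.cut .v 25165824 (.cut .d (-2097152) (.cut .v 20971520 (.cut .v 18874368 (.cut .d (-3145728) (.void 15 ⟨0, 0, 0, 0, 0, 100000, 0, 0, 0, ⟨0, 0⟩, 0⟩ 0 0) (.cut .d (-2621440) (.void 15 ⟨0, 0, 0, 0, 0, 100000, 0, 0, 0, ⟨0, 0⟩, 0⟩ 0 0) (.cut .l 7092186 (.void 15 ⟨0, 0, 0, 0, 0, 100000, 0, 0, 0, ⟨0, 0⟩, 0⟩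 0 0) (.cut .l 9646899 (.void 15 ⟨0, 0, 0, 0, 0, 100000, 0, 0, 0, ⟨0, 0⟩, 0⟩ 0 0) (.cut .l 10924255 (.pos 15 .mp ⟨49591993, 0, 0, 0, 0, 88176565, 0, 0, 0, ⟨0, 0⟩, 0⟩ 0 0) (.cut .d (-2359296) (.cut .v 17825792 (.pos 17 .mp ⟨50454623, 0, 0, 0, 0, 59482852, 0, 0, 0, ⟨0, 0⟩, 0⟩ 0 0) (.void 18 ⟨100000, 0, 0, 0, 0, 0, 0, 0, 0, ⟨0, 0⟩, 0⟩ 0 0)) (.cut .s 10289152 (.cut .v 17825792 (.cut .s 10190848 (.pos 17 .mp ⟨57373049, 0, 0, 0, 0, 0, 0, 0, 0, ⟨0, 0⟩, 0⟩ 0 0) (.pos 17 .mp ⟨61447398, 0, 0, 0, 0, 4985888, 0, 0, 0, ⟨0, 0⟩, 0⟩ 0 0)) (.pos 18 .mp ⟨72874700, 0, 0, 0, 0, 0, 0, 0, 0, ⟨0, 0⟩, 0⟩ 0 0)) (.cut .v 17825792 (.cut .s 10387456 (.pos 17 .mp ⟨72903849, 0, 0, 0, 0,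 0, 0, 0, 0, ⟨0, 0⟩, 0⟩ 0 0) (.pos 17 .mp ⟨61747260, 0, 0, 0, 0, 37349897, 0, 0, 0, ⟨0, 0⟩, 0⟩ 0 0)) (.pos 18 .mp ⟨94813991, 0, 0, 0, 0, 0, 0, 0, 0, ⟨0, 0⟩, 0⟩ 0 0))))))))) (.void 16 ⟨100000, 0, 0, 0, 0, 0, 0, 0, 0, ⟨0, 0⟩, 0⟩ 0 0)) (.void 14 ⟨100000, 0, 0, 0, 0, 0, 0, 0, 0, ⟨0, 0⟩, 0⟩ 0 0)) (.cut .v 20971520 (.cut .d (-1048576) (.cut .v 18874368 (.cut .l 7092186 (.cut .v 17825792 (.cut .s 10289152 (.cut .s 10190848 (.pos 17 .mp ⟨21817223, 0, 0, 0, 0, 45461113, 0, 0, 0, ⟨0, 0⟩, 0⟩ 0 0) (.pos 17 .mp ⟨25672921, 0, 0, 0, 0, 49127396, 0, 0, 0, ⟨0, 0⟩, 0⟩ 0 0)) (.pos 17 .mp ⟨29945522, 0, 0, 0, 0, 60864587, 0, 0, 0, ⟨0, 0⟩, 0⟩ 0 0)) (.pos 18 .mp ⟨84292800, 0, 0,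 0, 0, 0, 0, 0, 0, ⟨0, 0⟩, 0⟩ 0 0)) (.cut .s 10289152 (.cut .d (-1572864) (.cut .v 17825792 (.cut .s 10190848 (.pos 17 .mp ⟨55428364, 0, 0, 0, 0, 0, 0, 0, 0, ⟨0, 0⟩, 0⟩ 0 0) (.pos 17 .mp ⟨61512203, 0, 0, 0, 0, 0, 0, 0, 0, ⟨0, 0⟩, 0⟩ 0 0)) (.pos 18 .mp ⟨66119150, 0, 0, 0, 0, 0, 0, 0, 0, ⟨0, 0⟩, 0⟩ 0 0)) (.pos 15 .mp ⟨52556109, 0, 0, 0, 0, 0, 0, 0, 0, ⟨0, 0⟩, 0⟩ 0 0)) (.cut .d (-1572864) (.cut .v 17825792 (.cut .l 9646899 (.pos 17 .mp ⟨67376228, 0, 0, 0, 0, 12347580, 0, 0, 0, ⟨0, 0⟩, 0⟩ 0 0) (.cut .s 10387456 (.pos 17 .mp ⟨66540416, 0, 0, 0, 0, 0, 0, 0, 0, ⟨0, 0⟩, 0⟩ 0 0) (.pos 17 .mp ⟨73726166, 0, 0, 0, 0, 0, 0, 0, 0, ⟨0, 0⟩, 0⟩ 0 0))) (.pos 18 .mp ⟨81206740,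 0, 0, 0, 0, 0, 0, 0, 0, ⟨0, 0⟩, 0⟩ 0 0)) (.cut .s 10387456 (.pos 15 .mp ⟨62283105, 0, 0, 0, 0, 0, 0, 0, 0, ⟨0, 0⟩, 0⟩ 0 0) (.pos 15 .mp ⟨68774569, 0, 0, 0, 0, 0, 0, 0, 0, ⟨0, 0⟩, 0⟩ 0 0))))) (.cut .l 7092186 (.void 16 ⟨100000, 0, 0, 0, 0, 0, 0, 0, 0, ⟨0, 0⟩, 0⟩ 0 0) (.cut .s 10289152 (.cut .s 10190848 (.pos 16 .mp ⟨70416825, 0, 0, 0, 0, 0, 0, 0, 0, ⟨0, 0⟩, 0⟩ 0 0) (.pos 16 .mp ⟨77941224, 0, 0, 0, 0, 0, 0, 0, 0, ⟨0, 0⟩, 0⟩ 0 0)) (.cut .d (-1572864) (.pos 16 .mp ⟨96335804, 0, 0, 0, 0, 0, 0, 0, 0, ⟨0, 0⟩, 0⟩ 0 0) (.pos 16 .mp ⟨82498441, 0, 0, 0, 0, 0, 0, 0, 0, ⟨0, 0⟩, 0⟩ 0 0))))) (.cut .l 7092186 (.cut .v 18874368 (.cut .d (-524288) (.cut .s 10289152 (.cut .l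 4537473 (.cut .l 3260117 (.pos 15 .mp ⟨21527964, 0, 0, 0, 0, 57510558, 0, 0, 0, ⟨0, 0⟩, 0⟩ 0 0) (.cut .d (-786432) (.pos 15 .mp ⟨26832090, 0, 0, 0, 0, 52723775, 0, 0, 0, ⟨0, 0⟩, 0⟩ 0 0) (.pos 15 .mp ⟨37061176, 0, 0, 0, 0, 15649594, 0, 0, 0, ⟨0, 0⟩, 0⟩ 0 0))) (.pos 15 .mp ⟨44160922, 0, 0, 0, 0, 4238052, 0, 0, 0, ⟨0, 0⟩, 0⟩ 0 0)) (.cut .l 4537473 (.cut .v 17825792 (.cut .s 10387456 (.pos 17 .mp ⟨18164125, 0, 0, 0, 0, 58479139, 0, 0, 0, ⟨0, 0⟩, 0⟩ 0 0) (.pos 17 .mp ⟨21630126, 0, 0, 0, 0, 62366195, 0, 0, 0, ⟨0, 0⟩, 0⟩ 0 0)) (.pos 18 .mp ⟨74385453, 0, 0, 0, 0, 0, 0, 0, 0, ⟨0, 0⟩, 0⟩ 0 0)) (.pos 15 .mp ⟨57445000, 0, 0, 0, 0, 2189336, 0, 0, 0, ⟨0, 0⟩, 0⟩ 0 0))) (.cut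 .v 17825792 (.cut .l 4537473 (.cut .l 3260117 (.cut .d (-262144) (.cut .s 10289152 (.cut .v 17301504 (.cut .s 10190848 (.pos 19 .mp ⟨10915821, 0, 0, 0, 0, 45247627, 0, 0, 0, ⟨0, 0⟩, 0⟩ 0 0) (.pos 19 .mp ⟨12986650, 0, 0, 0, 0, 49139769, 0, 0, 0, ⟨0, 0⟩, 0⟩ 0 0)) (.pos 20 .mp ⟨53247598, 0, 0, 0, 0, 0, 0, 0, 0, ⟨0, 0⟩, 0⟩ 0 0)) (.cut .v 17301504 (.cut .s 10387456 (.pos 19 .mp ⟨16080630, 0, 0, 0, 0, 52102400, 0, 0, 0, ⟨0, 0⟩, 0⟩ 0 0) (.pos 19 .mp ⟨19283123, 0, 0, 0, 0, 55386453, 0, 0, 0, ⟨0, 0⟩, 0⟩ 0 0)) (.pos 20 .mp ⟨64223721, 0, 0, 0, 0, 0, 0, 0, 0, ⟨0, 0⟩, 0⟩ 0 0))) (.cut .s 10289152 (.pos 17 .mp ⟨17226357, 0, 0, 0, 0, 0, 0, 0, 0, ⟨0, 0⟩, 0⟩ 0 0) (.cut .v 17301504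 (.cut .s 10387456 (.pos 19 .mp ⟨18473429, 0, 0, 0, 0, 35732029, 0, 0, 0, ⟨0, 0⟩, 0⟩ 0 0) (.pos 19 .mp ⟨22220083, 0, 0, 0, 0, 37088054, 0, 0, 0, ⟨0, 0⟩, 0⟩ 0 0)) (.pos 20 .mp ⟨52334755, 0, 0, 0, 0, 0, 0, 0, 0, ⟨0, 0⟩, 0⟩ 0 0)))) (.pos 17 .mp ⟨29774010, 0, 0, 0, 0, 12871108, 0, 0, 0, ⟨0, 0⟩, 0⟩ 0 0)) (.pos 17 .mp ⟨0, 0, 0, 0, 0, 0, 0, 0, 0, ⟨0, 0⟩, 0⟩ 0 0)) (.pos 18 .mp ⟨56858203, 0, 0, 0, 0, 0, 0, 0, 0, ⟨0, 0⟩, 0⟩ 0 0))) (.cut .s 10289152 (.pos 16 .mp ⟨64562343, 0, 0, 0, 0, 0, 0, 0, 0, ⟨0, 0⟩, 0⟩ 0 0) (.pos 16 .mp ⟨78082492, 0, 0, 0, 0, 0, 0, 0, 0, ⟨0, 0⟩, 0⟩ 0 0))) (.pos 13 .mp ⟨44051475, 0, 0, 0, 0, 0, 0, 0, 0, ⟨0, 0⟩, 0⟩ 0 0))) (.cut .d (-1048576) (.cut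 .s 10289152 (.pos 14 .mp ⟨105866223, 0, 0, 0, 0, 0, 0, 0, 0, ⟨0, 0⟩, 0⟩ 0 0) (.pos 14 .mp ⟨130529274, 0, 0, 0, 0, 0, 0, 0, 0, ⟨0, 0⟩, 0⟩ 0 0)) (.cut .l 7092186 (.pos 14 .mp ⟨99294601, 0, 0, 0, 0, 0, 0, 0, 0, ⟨0, 0⟩, 0⟩ 0 0) (.pos 14 .mp ⟨81142937, 0, 0, 0, 0, 0, 0, 0, 0, ⟨0, 0⟩, 0⟩ 0 0))))) (.cut .d (-2097152) (.void 12 ⟨100000, 0, 0, 0, 0, 0, 0, 0, 0, ⟨0, 0⟩, 0⟩ 0 0) (.cut .d (-1048576) (.void 12 ⟨100000, 0, 0, 0, 0, 0, 0, 0, 0, ⟨0, 0⟩, 0⟩ 0 0) (.pos 12 .mp ⟨155182573, 0, 0, 0, 0, 0, 0, 0, 0, ⟨0, 0⟩, 0⟩ 0 0))))) (.pos 10 .mp ⟨1456219374, 0, 0, 0, 0, 0, 0, 0, 0, ⟨0, 0⟩, 0⟩ 0 0))) (.void 49 ⟨100000, 0, 0, 0, 0, 0, 0, 0, 0, ⟨0, 0⟩, 0⟩ 0 0)) (.void 64 ⟨95050,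 0, 0, 4950, 0, 0, 0, 0, 0, ⟨0, 0⟩, 0⟩ 0 0))) (.cut .v 16777216 (.cut .v 8388608 (.cut .v 4194304 (.cut .v 2097152 (.void 71 ⟨0, 0, 50000, 0, 50000, 0, 0, 0, 0, ⟨0, 0⟩, 0⟩ 0 0) (.pos 72 .pm ⟨0, 0, 3017435, 0, 0, 0, 0, 0, 7275020, ⟨0, 0⟩, 7053950⟩ 0 0)) (.cut .d 5556092 (.pos 5 .pm ⟨0, 0, 0, 0, 0, 0, 0, 0, 0, ⟨0, 0⟩, 0⟩ 0 0) (.cut .d 8334138 (.pos 5 .pm ⟨0, 0, 0, 0, 0, 0, 0, 0, 0, ⟨0, 0⟩, 0⟩ 0 0) (.pos 5 .pm ⟨0, 17297197, 0, 0, 0, 0, 0, 0, 7275020, ⟨0, 0⟩, 9975792⟩ 0 0)))) (.cut .d 5556092 (.pos 3 .pm ⟨0, 0, 0, 0, 0, 0, 0, 0, 0, ⟨0, 0⟩, 0⟩ 0 0) (.cut .d 8334138 (.pos 3 .pm ⟨0, 0, 0, 0, 0, 0, 0, 0, 0, ⟨0, 0⟩, 0⟩ 0 0) (.cut .v 12582912 (.cut .v 10485760 (.cut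 .d 9723161 (.pos 69 .pm ⟨0, 20993042, 0, 0, 0, 0, 0, 0, 2654506, ⟨0, 0⟩, 12543895⟩ 0 0) (.pos 69 .pm ⟨0, 47786708, 0, 0, 0, 0, 0, 0, 5199970, ⟨0, 0⟩, 12543895⟩ 0 0)) (.pos 70 .pm ⟨0, 24446648, 0, 0, 0, 0, 0, 0, 0, ⟨0, 0⟩, 0⟩ 0 0)) (.pos 7 .pm ⟨0, 22394702, 0, 0, 0, 0, 0, 0, 0, ⟨0, 0⟩, 0⟩ 0 0))))) (.cut .v 268435456 (.cut .d 5556092 (.cut .v 67108864 (.cut .d 2778046 (.cut .v 33554432 (.cut .v 25165824 (.pos 11 .pp ⟨21806932, 0, 0, 0, 0, 0, 0, 0, 0, ⟨0, 0⟩, 0⟩ 0 0) (.pos 12 .pp ⟨93434101, 0, 0, 0, 0, 0, 0, 0, 0, ⟨0, 0⟩, 0⟩ 0 0)) (.cut .v 50331648 (.cut .v 41943040 (.pos 31 .pp ⟨184729170, 0, 0, 0, 0, 0, 0, 0, 0, ⟨0, 0⟩, 0⟩ 0 0) (.pos 32 .pp ⟨323883207, 0, 0,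 0, 0, 0, 0, 0, 0, ⟨0, 0⟩, 0⟩ 0 0)) (.pos 30 .pp ⟨602243062, 0, 0, 0, 0, 0, 0, 0, 0, ⟨0, 0⟩, 0⟩ 0 0))) (.pos 8 .pp ⟨0, 0, 0, 0, 0, 0, 0, 0, 0, ⟨0, 0⟩, 0⟩ 0 0)) (.cut .v 134217728 (.cut .d 2778046 (.pos 65 .pp ⟨1652062115, 921535974, 0, 0, 0, 0, 0, 0, 0, ⟨0, 0⟩, 0⟩ 0 0) (.void 65 ⟨0, 100000, 0, 0, 0, 0, 0, 0, 0, ⟨0, 0⟩, 0⟩ 0 0)) (.void 66 ⟨0, 0, 0, 100000, 0, 0, 0, 0, 0, ⟨0, 0⟩, 0⟩ 0 0))) (.pos 48 .pp ⟨0, 1593153, 0, 0, 0, 0, 0, 0, 0, ⟨0, 0⟩, 0⟩ 0 0)) (.void 64 ⟨0, 0, 0, 100000, 0, 0, 0, 0, 0, ⟨0, 0⟩, 0⟩ 0 0)))),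
    by decide +kernel⟩

def covers14 : cell.Covers table row14.1 :=
  ⟨(.cut .d 0 (.cut .v 16777216 (.cut .d (-8388608) (.void 1 ⟨0, 0, 0, 0, 0, 100000, 0, 0, 0, ⟨0, 0⟩, 0⟩ 0 0) (.cut .d (-4194304) (.void 1 ⟨0, 0, 0, 0, 0, 100000, 0, 0, 0, ⟨0, 0⟩, 0⟩ 0 0) (.cut .v 8388608 (.cut .v 4194304 (.void 4 ⟨0, 0, 100000, 0, 0, 0, 0, 0, 0, ⟨0, 0⟩, 0⟩ 0 0) (.pos 5 .mm ⟨0, 0, 0, 0, 0, 37796384, 0, 0, 0, ⟨0, 0⟩, 0⟩ 0 0)) (.cut .d (-2097152) (.pos 3 .mm ⟨0, 0, 0, 0, 0, 153031062, 0, 0, 0, ⟨0, 0⟩, 0⟩ 0 0) (.cut .v 12582912 (.pos 6 .mm ⟨0, 0, 0, 0, 0, 58265304, 0, 0, 0, ⟨0, 0⟩, 0⟩ 0 0) (.cut .d (-1048576) (.cut .l 7092186 (.pos 7 .mm ⟨0, 0, 0, 0, 0, 120394840, 0, 0, 0, ⟨0,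 0⟩, 0⟩ 0 0) (.cut .v 14680064 (.pos 33 .mm ⟨0, 0, 0, 0, 0, 82186462, 0, 0, 0, ⟨0, 0⟩, 0⟩ 0 0) (.cut .v 15728640 (.pos 35 .mm ⟨0, 0, 0, 0, 0, 92974331, 0, 0, 0, ⟨0, 0⟩, 0⟩ 0 0) (.cut .s 10682368 (.cut .s 10584064 (.pos 36 .mm ⟨0, 0, 0, 0, 0, 88694857, 0, 0, 0, ⟨0, 0⟩, 0⟩ 0 0) (.pos 36 .mm ⟨0, 0, 0, 0, 0, 98300162, 0, 0, 0, ⟨0, 0⟩, 0⟩ 0 0)) (.cut .s 10780672 (.pos 36 .mm ⟨0, 0, 0, 0, 0, 108689106, 0, 0, 0, ⟨0, 0⟩, 0⟩ 0 0) (.pos 36 .mm ⟨0, 0, 0, 0, 0, 119868992, 0, 0, 0, ⟨0, 0⟩, 0⟩ 0 0)))))) (.cut .l 7092186 (.cut .v 14680064 (.pos 33 .mm ⟨0, 0, 0, 0, 0, 70681411, 0, 0, 0, ⟨0, 0⟩, 0⟩ 0 0) (.cut .d (-524288) (.cut .s 10682368 (.pos 34 .mm ⟨0, 0, 0, 0, 0, 89727351,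 0, 0, 0, ⟨0, 0⟩, 0⟩ 0 0) (.pos 34 .mm ⟨0, 0, 0, 0, 0, 108958303, 0, 0, 0, ⟨0, 0⟩, 0⟩ 0 0)) (.cut .s 10682368 (.pos 34 .mm ⟨0, 0, 0, 0, 0, 77819082, 0, 0, 0, ⟨0, 0⟩, 0⟩ 0 0) (.pos 34 .mm ⟨0, 0, 0, 0, 0, 94728628, 0, 0, 0, ⟨0, 0⟩, 0⟩ 0 0)))) (.pos 7 .mm ⟨0, 0, 0, 0, 0, 0, 0, 0, 0, ⟨0, 0⟩, 0⟩ 0 0)))))))) (.cut .v 268435456 (.cut .v 67108864 (.cut .d (-8388608) (.void 8 ⟨0, 0, 0, 0, 0, 100000, 0, 0, 0, ⟨0, 0⟩, 0⟩ 0 0) (.cut .d (-4194304) (.void 8 ⟨0, 0, 0, 0, 0, 100000, 0, 0, 0, ⟨0, 0⟩, 0⟩ 0 0) (.cut .v 33554432 (.cut .d (-2097152) (.cut .v 25165824 (.cut .v 20971520 (.cut .v 18874368 (.cut .v 17825792 (.cut .s 10682368 (.cut .s 10584064 (.pos 17 .mp ⟨68907356,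 0, 0, 0, 0, 55634407, 0, 0, 0, ⟨0, 0⟩, 0⟩ 0 0) (.void 17 ⟨0, 0, 0, 0, 0, 100000, 0, 0, 0, ⟨0, 0⟩, 0⟩ 0 0)) (.void 17 ⟨0, 0, 0, 0, 0, 100000, 0, 0, 0, ⟨0, 0⟩, 0⟩ 0 0)) (.void 18 ⟨100000, 0, 0, 0, 0, 0, 0, 0, 0, ⟨0, 0⟩, 0⟩ 0 0)) (.void 16 ⟨100000, 0, 0, 0, 0, 0, 0, 0, 0, ⟨0, 0⟩, 0⟩ 0 0)) (.void 14 ⟨100000, 0, 0, 0, 0, 0, 0, 0, 0, ⟨0, 0⟩, 0⟩ 0 0)) (.void 12 ⟨100000, 0, 0, 0, 0, 0, 0, 0, 0, ⟨0, 0⟩, 0⟩ 0 0)) (.cut .v 25165824 (.cut .v 20971520 (.cut .d (-1048576) (.cut .l 7092186 (.cut .s 10682368 (.cut .v 18874368 (.pos 15 .mp ⟨89251826, 0, 0, 0, 0, 11539129, 0, 0, 0, ⟨0, 0⟩, 0⟩ 0 0) (.void 16 ⟨100000, 0, 0, 0, 0, 0, 0, 0, 0, ⟨0, 0⟩, 0⟩ 0 0)) (.pos 13 .mp ⟨134256299,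 0, 0, 0, 0, 0, 0, 0, 0, ⟨0, 0⟩, 0⟩ 0 0)) (.cut .v 18874368 (.cut .d (-1572864) (.cut .s 10682368 (.cut .v 17825792 (.cut .l 9646899 (.pos 17 .mp ⟨54316044, 0, 0, 0, 0, 56992611, 0, 0, 0, ⟨0, 0⟩, 0⟩ 0 0) (.cut .s 10584064 (.pos 17 .mp ⟨80618126, 0, 0, 0, 0, 0, 0, 0, 0, ⟨0, 0⟩, 0⟩ 0 0) (.pos 17 .mp ⟨89290511, 0, 0, 0, 0, 0, 0, 0, 0, ⟨0, 0⟩, 0⟩ 0 0))) (.pos 18 .mp ⟨97513461, 0, 0, 0, 0, 0, 0, 0, 0, ⟨0, 0⟩, 0⟩ 0 0)) (.cut .v 17825792 (.cut .s 10780672 (.pos 17 .mp ⟨99141770, 0, 0, 0, 0, 0, 0, 0, 0, ⟨0, 0⟩, 0⟩ 0 0) (.pos 17 .mp ⟨108643853, 0, 0, 0, 0, 0, 0, 0, 0, ⟨0, 0⟩, 0⟩ 0 0)) (.pos 18 .mp ⟨119650264, 0, 0, 0, 0, 0, 0, 0, 0, ⟨0, 0⟩, 0⟩ 0 0))) (.cut .s 10682368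 (.cut .s 10584064 (.pos 15 .mp ⟨75224905, 0, 0, 0, 0, 0, 0, 0, 0, ⟨0, 0⟩, 0⟩ 0 0) (.pos 15 .mp ⟨82932925, 0, 0, 0, 0, 0, 0, 0, 0, ⟨0, 0⟩, 0⟩ 0 0)) (.cut .s 10780672 (.pos 15 .mp ⟨91193884, 0, 0, 0, 0, 0, 0, 0, 0, ⟨0, 0⟩, 0⟩ 0 0) (.pos 15 .mp ⟨100013448, 0, 0, 0, 0, 0, 0, 0, 0, ⟨0, 0⟩, 0⟩ 0 0)))) (.cut .d (-1572864) (.pos 16 .mp ⟨135625997, 0, 0, 0, 0, 0, 0, 0, 0, ⟨0, 0⟩, 0⟩ 0 0) (.cut .s 10682368 (.pos 16 .mp ⟨99069482, 0, 0, 0, 0, 0, 0, 0, 0, ⟨0, 0⟩, 0⟩ 0 0) (.pos 16 .mp ⟨119904516, 0, 0, 0, 0, 0, 0, 0, 0, ⟨0, 0⟩, 0⟩ 0 0))))) (.cut .l 7092186 (.cut .v 18874368 (.cut .d (-524288) (.cut .s 10682368 (.cut .l 4537473 (.cut .s 10584064 (.cut .v 17825792 (.pos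 17 .mp ⟨25399925, 0, 0, 0, 0, 65793537, 0, 0, 0, ⟨0, 0⟩, 0⟩ 0 0) (.pos 18 .mp ⟨82063784, 0, 0, 0, 0, 0, 0, 0, 0, ⟨0, 0⟩, 0⟩ 0 0)) (.pos 15 .mp ⟨82056759, 0, 0, 0, 0, 0, 0, 0, 0, ⟨0, 0⟩, 0⟩ 0 0)) (.pos 15 .mp ⟨71106149, 0, 0, 0, 0, 0, 0, 0, 0, ⟨0, 0⟩, 0⟩ 0 0)) (.cut .s 10780672 (.pos 15 .mp ⟨89090286, 0, 0, 0, 0, 0, 0, 0, 0, ⟨0, 0⟩, 0⟩ 0 0) (.pos 15 .mp ⟨97323170, 0, 0, 0, 0, 0, 0, 0, 0, ⟨0, 0⟩, 0⟩ 0 0))) (.cut .v 17825792 (.cut .l 4537473 (.cut .l 3260117 (.cut .d (-262144) (.cut .v 17301504 (.cut .s 10682368 (.cut .s 10584064 (.pos 19 .mp ⟨23668062, 0, 0, 0, 0, 56654798, 0, 0, 0, ⟨0, 0⟩, 0⟩ 0 0) (.pos 19 .mp ⟨27138068, 0, 0, 0, 0, 60664592, 0, 0, 0, ⟨0, 0⟩,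 0⟩ 0 0)) (.pos 19 .mp ⟨23397496, 0, 0, 0, 0, 80602554, 0, 0, 0, ⟨0, 0⟩, 0⟩ 0 0)) (.pos 20 .mp ⟨81357864, 0, 0, 0, 0, 0, 0, 0, 0, ⟨0, 0⟩, 0⟩ 0 0)) (.cut .v 17301504 (.pos 19 .mp ⟨23668062, 0, 0, 0, 0, 41708683, 0, 0, 0, ⟨0, 0⟩, 0⟩ 0 0) (.pos 20 .mp ⟨61428325, 0, 0, 0, 0, 0, 0, 0, 0, ⟨0, 0⟩, 0⟩ 0 0))) (.pos 17 .mp ⟨47253350, 0, 0, 0, 0, 14245019, 0, 0, 0, ⟨0, 0⟩, 0⟩ 0 0)) (.pos 17 .mp ⟨6109222, 0, 0, 0, 0, 0, 0, 0, 0, ⟨0, 0⟩, 0⟩ 0 0)) (.pos 18 .mp ⟨79675483, 0, 0, 0, 0, 0, 0, 0, 0, ⟨0, 0⟩, 0⟩ 0 0))) (.cut .d (-524288) (.pos 16 .mp ⟨111964749, 0, 0, 0, 0, 0, 0, 0, 0, ⟨0, 0⟩, 0⟩ 0 0) (.pos 16 .mp ⟨90270653, 0, 0, 0, 0, 0, 0, 0, 0, ⟨0, 0⟩, 0⟩ 0 0))) (.cut .v 18874368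 (.pos 15 .mp ⟨61393824, 0, 0, 0, 0, 0, 0, 0, 0, ⟨0, 0⟩, 0⟩ 0 0) (.pos 16 .mp ⟨86099293, 0, 0, 0, 0, 0, 0, 0, 0, ⟨0, 0⟩, 0⟩ 0 0)))) (.cut .d (-1048576) (.cut .s 10682368 (.pos 14 .mp ⟨156872125, 0, 0, 0, 0, 0, 0, 0, 0, ⟨0, 0⟩, 0⟩ 0 0) (.pos 14 .mp ⟨189480802, 0, 0, 0, 0, 0, 0, 0, 0, ⟨0, 0⟩, 0⟩ 0 0)) (.cut .s 10682368 (.pos 14 .mp ⟨116016510, 0, 0, 0, 0, 0, 0, 0, 0, ⟨0, 0⟩, 0⟩ 0 0) (.pos 14 .mp ⟨138251312, 0, 0, 0, 0, 0, 0, 0, 0, ⟨0, 0⟩, 0⟩ 0 0)))) (.cut .d (-1048576) (.void 12 ⟨100000, 0, 0, 0, 0, 0, 0, 0, 0, ⟨0, 0⟩, 0⟩ 0 0) (.cut .v 29360128 (.pos 27 .mp ⟨184762748, 0, 0, 0, 0, 0, 0, 0, 0, ⟨0, 0⟩, 0⟩ 0 0) (.pos 28 .mp ⟨269685607, 0, 0, 0, 0, 0, 0, 0, 0, ⟨0,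 0⟩, 0⟩ 0 0))))) (.pos 10 .mp ⟨1456668502, 0, 0, 0, 0, 0, 0, 0, 0, ⟨0, 0⟩, 0⟩ 0 0)))) (.void 49 ⟨100000, 0, 0, 0, 0, 0, 0, 0, 0, ⟨0, 0⟩, 0⟩ 0 0)) (.void 64 ⟨94873, 0, 0, 5127, 0, 0, 0, 0, 0, ⟨0, 0⟩, 0⟩ 0 0))) (.cut .v 16777216 (.cut .v 8388608 (.cut .v 4194304 (.cut .v 2097152 (.void 71 ⟨0, 0, 50000, 0, 50000, 0, 0, 0, 0, ⟨0, 0⟩, 0⟩ 0 0) (.pos 72 .pm ⟨0, 0, 225078, 0, 0, 0, 0, 0, 8468362, ⟨0, 0⟩, 7053950⟩ 0 0)) (.cut .d 5033166 (.pos 5 .pm ⟨0, 0, 0, 0, 0, 0, 0, 0, 0, ⟨0, 0⟩, 0⟩ 0 0) (.cut .d 7549749 (.pos 5 .pm ⟨0, 0, 0, 0, 0, 0, 0, 0, 0, ⟨0, 0⟩, 0⟩ 0 0) (.cut .d 8808040 (.cut .d 8178894 (.pos 5 .pm ⟨0, 0, 0, 0, 0, 0, 0, 0, 0, ⟨0, 0⟩, 0⟩ 0 0) (.cut .v 6291456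 (.pos 73 .pm ⟨0, 20737317, 0, 0, 0, 0, 0, 0, 7958395, ⟨0, 0⟩, 9283521⟩ 0 0) (.cut .s 10682368 (.pos 74 .pm ⟨0, 25859511, 0, 0, 0, 0, 0, 0, 901779, ⟨0, 0⟩, 11040029⟩ 0 0) (.cut .v 7340032 (.pos 79 .pm ⟨0, 33685232, 0, 0, 0, 0, 0, 0, 0, ⟨0, 0⟩, 0⟩ 0 0) (.cut .d 8493467 (.pos 80 .pm ⟨0, 32902767, 0, 0, 0, 0, 0, 0, 0, ⟨0, 0⟩, 0⟩ 0 0) (.pos 80 .pm ⟨0, 37827640, 0, 0, 0, 0, 0, 0, 0, ⟨0, 0⟩, 0⟩ 0 0)))))) (.pos 5 .pm ⟨0, 45014229, 0, 0, 0, 0, 0, 0, 2162950, ⟨0, 0⟩, 9975792⟩ 0 0))))) (.cut .d 5033166 (.pos 3 .pm ⟨0, 0, 0, 0, 0, 0, 0, 0, 0, ⟨0, 0⟩, 0⟩ 0 0) (.cut .d 7549749 (.pos 3 .pm ⟨0, 0, 0, 0, 0, 0, 0, 0, 0, ⟨0, 0⟩, 0⟩ 0 0) (.cut .v 12582912 (.cut .d 8808040 (.cut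 .s 10682368 (.pos 6 .pm ⟨0, 22778946, 0, 0, 0, 0, 0, 0, 0, ⟨0, 0⟩, 0⟩ 0 0) (.cut .d 8178894 (.pos 6 .pm ⟨0, 0, 0, 0, 0, 0, 0, 0, 0, ⟨0, 0⟩, 0⟩ 0 0) (.pos 6 .pm ⟨0, 35029071, 0, 0, 0, 0, 0, 0, 0, ⟨0, 0⟩, 0⟩ 0 0))) (.pos 6 .pm ⟨0, 44683663, 0, 0, 0, 0, 0, 0, 0, ⟨0, 0⟩, 0⟩ 0 0)) (.pos 7 .pm ⟨0, 34479866, 0, 0, 0, 0, 0, 0, 0, ⟨0, 0⟩, 0⟩ 0 0))))) (.cut .v 268435456 (.cut .d 5033166 (.cut .v 67108864 (.cut .d 2516583 (.cut .v 33554432 (.cut .v 25165824 (.pos 11 .pp ⟨42554319, 0, 0, 0, 0, 0, 0, 0, 0, ⟨0, 0⟩, 0⟩ 0 0) (.pos 12 .pp ⟨131002730, 0, 0, 0, 0, 0, 0, 0, 0, ⟨0, 0⟩, 0⟩ 0 0)) (.cut .d 1258291 (.cut .v 50331648 (.cut .v 41943040 (.pos 31 .pp ⟨270186862, 0, 0,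 0, 0, 0, 0, 0, 0, ⟨0, 0⟩, 0⟩ 0 0) (.pos 32 .pp ⟨486387938, 0, 0, 0, 0, 0, 0, 0, 0, ⟨0, 0⟩, 0⟩ 0 0)) (.pos 30 .pp ⟨971157442, 0, 0, 0, 0, 0, 0, 0, 0, ⟨0, 0⟩, 0⟩ 0 0)) (.pos 10 .pp ⟨217127453, 0, 0, 0, 0, 0, 0, 0, 0, ⟨0, 0⟩, 0⟩ 0 0))) (.pos 8 .pp ⟨0, 0, 0, 0, 0, 0, 0, 0, 0, ⟨0, 0⟩, 0⟩ 0 0)) (.cut .v 134217728 (.cut .d 2516583 (.cut .d 1258291 (.void 65 ⟨100000, 0, 0, 0, 0, 0, 0, 0, 0, ⟨0, 0⟩, 0⟩ 0 0) (.pos 65 .pp ⟨1402528925, 491103100, 0, 0, 0, 0, 0, 0, 0, ⟨0, 0⟩, 0⟩ 0 0)) (.void 65 ⟨0, 100000, 0, 0, 0, 0, 0, 0, 0, ⟨0, 0⟩, 0⟩ 0 0)) (.void 66 ⟨0, 0, 0, 100000, 0, 0, 0, 0, 0, ⟨0, 0⟩, 0⟩ 0 0))) (.pos 48 .pp ⟨0, 8147775, 0, 0, 0, 0, 0, 0, 0, ⟨0, 0⟩, 0⟩ 0 0)) (.void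 64 ⟨0, 0, 0, 100000, 0, 0, 0, 0, 0, ⟨0, 0⟩, 0⟩ 0 0)))),
    by decide +kernel⟩

def covers15 : cell.Covers table row15.1 :=
  ⟨(.cut .d 0 (.cut .v 16777216 (.cut .d (-8388608) (.void 1 ⟨0, 0, 0, 0, 0, 100000, 0, 0, 0, ⟨0, 0⟩, 0⟩ 0 0) (.cut .d (-4194304) (.void 1 ⟨0, 0, 0, 0, 0, 100000, 0, 0, 0, ⟨0, 0⟩, 0⟩ 0 0) (.cut .d (-2097152) (.void 1 ⟨0, 0, 0, 0, 0, 100000, 0, 0, 0, ⟨0, 0⟩, 0⟩ 0 0) (.cut .v 8388608 (.cut .v 4194304 (.void 4 ⟨0, 0, 100000, 0, 0, 0, 0, 0, 0, ⟨0, 0⟩, 0⟩ 0 0) (.pos 5 .mm ⟨0, 0, 308851, 0, 0, 51845587, 0, 0, 0, ⟨0, 0⟩, 0⟩ 0 0)) (.cut .d (-1048576) (.cut .l 7092186 (.pos 3 .mm ⟨0, 0, 0, 0, 0, 197140311, 0, 0, 0, ⟨0, 0⟩, 0⟩ 0 0) (.cut .v 12582912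 (.pos 6 .mm ⟨0, 0, 0, 0, 0, 103085690, 0, 0, 0, ⟨0, 0⟩, 0⟩ 0 0) (.cut .v 14680064 (.pos 33 .mm ⟨0, 0, 0, 0, 0, 132825736, 0, 0, 0, ⟨0, 0⟩, 0⟩ 0 0) (.cut .s 11108352 (.cut .d (-1572864) (.cut .s 10993664 (.pos 34 .mm ⟨0, 0, 0, 0, 0, 141473032, 0, 0, 0, ⟨0, 0⟩, 0⟩ 0 0) (.pos 34 .mm ⟨0, 0, 0, 0, 0, 161337467, 0, 0, 0, ⟨0, 0⟩, 0⟩ 0 0)) (.pos 34 .mm ⟨0, 0, 0, 0, 0, 133711288, 0, 0, 0, ⟨0, 0⟩, 0⟩ 0 0)) (.cut .v 15728640 (.pos 35 .mm ⟨0, 0, 0, 0, 0, 162042481, 0, 0, 0, ⟨0, 0⟩, 0⟩ 0 0) (.cut .d (-1572864) (.cut .s 11223040 (.pos 36 .mm ⟨0, 0, 0, 0, 0, 182878759, 0, 0, 0, ⟨0, 0⟩, 0⟩ 0 0) (.pos 36 .mm ⟨83725677, 0, 0, 0, 0, 104131918, 0, 0, 0, ⟨0, 0⟩, 0⟩ 0 0)) (.cut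 .s 11223040 (.pos 36 .mm ⟨30844344, 0, 0, 0, 0, 120610833, 0, 0, 0, ⟨0, 0⟩, 0⟩ 0 0) (.pos 36 .mm ⟨36456803, 0, 0, 0, 0, 130982990, 0, 0, 0, ⟨0, 0⟩, 0⟩ 0 0)))))))) (.cut .l 7092186 (.cut .v 12582912 (.pos 6 .mm ⟨0, 0, 0, 0, 0, 81534339, 0, 0, 0, ⟨0, 0⟩, 0⟩ 0 0) (.cut .v 14680064 (.pos 33 .mm ⟨0, 0, 0, 0, 0, 108307711, 0, 0, 0, ⟨0, 0⟩, 0⟩ 0 0) (.cut .d (-524288) (.cut .s 11108352 (.pos 34 .mm ⟨0, 0, 0, 0, 0, 133820941, 0, 0, 0, ⟨0, 0⟩, 0⟩ 0 0) (.pos 34 .mm ⟨0, 0, 0, 0, 0, 165459623, 0, 0, 0, ⟨0, 0⟩, 0⟩ 0 0)) (.cut .s 11108352 (.pos 34 .mm ⟨0, 0, 0, 0, 0, 115023282, 0, 0, 0, ⟨0, 0⟩, 0⟩ 0 0) (.pos 34 .mm ⟨0, 0, 0, 0, 0, 142070580, 0, 0, 0, ⟨0, 0⟩, 0⟩ 0 0)))))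 (.pos 3 .mm ⟨0, 0, 0, 0, 0, 83361980, 0, 0, 0, ⟨0, 0⟩, 0⟩ 0 0))))))) (.cut .v 268435456 (.cut .v 67108864 (.cut .d (-8388608) (.void 8 ⟨0, 0, 0, 0, 0, 100000, 0, 0, 0, ⟨0, 0⟩, 0⟩ 0 0) (.cut .d (-4194304) (.void 8 ⟨100000, 0, 0, 0, 0, 0, 0, 0, 0, ⟨0, 0⟩, 0⟩ 0 0) (.cut .v 33554432 (.cut .d (-2097152) (.void 9 ⟨100000, 0, 0, 0, 0, 0, 0, 0, 0, ⟨0, 0⟩, 0⟩ 0 0) (.cut .v 25165824 (.cut .v 20971520 (.cut .d (-1048576) (.cut .l 7092186 (.pos 13 .mp ⟨111512909, 0, 0, 0, 0, 160214437, 0, 0, 0, ⟨0, 0⟩, 0⟩ 0 0) (.cut .v 18874368 (.cut .d (-1572864) (.cut .l 9646899 (.void 15 ⟨0, 0, 0, 0, 0, 100000, 0, 0, 0, ⟨0, 0⟩, 0⟩ 0 0) (.cut .s 11108352 (.cut .d (-1835008) (.pos 15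 .mp ⟨145056312, 0, 0, 0, 0, 0, 0, 0, 0, ⟨0, 0⟩, 0⟩ 0 0) (.cut .s 10993664 (.pos 15 .mp ⟨117787801, 0, 0, 0, 0, 0, 0, 0, 0, ⟨0, 0⟩, 0⟩ 0 0) (.pos 15 .mp ⟨132159260, 0, 0, 0, 0, 0, 0, 0, 0, ⟨0, 0⟩, 0⟩ 0 0))) (.cut .d (-1835008) (.void 15 ⟨100000, 0, 0, 0, 0, 0, 0, 0, 0, ⟨0, 0⟩, 0⟩ 0 0) (.cut .s 11223040 (.pos 15 .mp ⟨147744066, 0, 0, 0, 0, 0, 0, 0, 0, ⟨0, 0⟩, 0⟩ 0 0) (.pos 15 .mp ⟨164564180, 0, 0, 0, 0, 0, 0, 0, 0, ⟨0, 0⟩, 0⟩ 0 0))))) (.cut .s 11108352 (.cut .s 10993664 (.pos 15 .mp ⟨110345655, 0, 0, 0, 0, 0, 0, 0, 0, ⟨0, 0⟩, 0⟩ 0 0) (.cut .l 9646899 (.pos 15 .mp ⟨126279434, 0, 0, 0, 0, 0, 0, 0, 0, ⟨0, 0⟩, 0⟩ 0 0) (.pos 15 .mp ⟨117478531, 0, 0, 0, 0, 0, 0, 0,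 0, ⟨0, 0⟩, 0⟩ 0 0))) (.cut .v 17825792 (.cut .s 11223040 (.pos 17 .mp ⟨131833395, 0, 0, 0, 0, 0, 0, 0, 0, ⟨0, 0⟩, 0⟩ 0 0) (.pos 17 .mp ⟨145534441, 0, 0, 0, 0, 0, 0, 0, 0, ⟨0, 0⟩, 0⟩ 0 0)) (.pos 18 .mp ⟨155460128, 0, 0, 0, 0, 0, 0, 0, 0, ⟨0, 0⟩, 0⟩ 0 0)))) (.cut .d (-1572864) (.void 16 ⟨100000, 0, 0, 0, 0, 0, 0, 0, 0, ⟨0, 0⟩, 0⟩ 0 0) (.cut .s 11108352 (.pos 16 .mp ⟨146736849, 0, 0, 0, 0, 0, 0, 0, 0, ⟨0, 0⟩, 0⟩ 0 0) (.pos 16 .mp ⟨180353172, 0, 0, 0, 0, 0, 0, 0, 0, ⟨0, 0⟩, 0⟩ 0 0))))) (.cut .l 7092186 (.cut .d (-524288) (.cut .v 18874368 (.cut .s 11108352 (.cut .l 4537473 (.pos 15 .mp ⟨118724144, 0, 0, 0, 0, 0, 0, 0, 0, ⟨0, 0⟩, 0⟩ 0 0) (.pos 15 .mp ⟨106942986,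 0, 0, 0, 0, 0, 0, 0, 0, ⟨0, 0⟩, 0⟩ 0 0)) (.cut .s 11223040 (.pos 15 .mp ⟨130718236, 0, 0, 0, 0, 0, 0, 0, 0, ⟨0, 0⟩, 0⟩ 0 0) (.pos 15 .mp ⟨143880722, 0, 0, 0, 0, 0, 0, 0, 0, ⟨0, 0⟩, 0⟩ 0 0))) (.pos 16 .mp ⟨166421595, 0, 0, 0, 0, 0, 0, 0, 0, ⟨0, 0⟩, 0⟩ 0 0)) (.cut .v 18874368 (.cut .d (-262144) (.cut .s 11108352 (.pos 15 .mp ⟨86029534, 0, 0, 0, 0, 18323975, 0, 0, 0, ⟨0, 0⟩, 0⟩ 0 0) (.pos 15 .mp ⟨108597691, 0, 0, 0, 0, 16748239, 0, 0, 0, ⟨0, 0⟩, 0⟩ 0 0)) (.pos 15 .mp ⟨73365206, 0, 0, 0, 0, 9717556, 0, 0, 0, ⟨0, 0⟩, 0⟩ 0 0)) (.pos 16 .mp ⟨131694021, 0, 0, 0, 0, 0, 0, 0, 0, ⟨0, 0⟩, 0⟩ 0 0))) (.cut .d (-524288) (.cut .v 18874368 (.pos 15 .mp ⟨103212648, 0, 0, 0,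 0, 0, 0, 0, 0, ⟨0, 0⟩, 0⟩ 0 0) (.pos 16 .mp ⟨133819378, 0, 0, 0, 0, 0, 0, 0, 0, ⟨0, 0⟩, 0⟩ 0 0)) (.pos 13 .mp ⟨41774554, 0, 0, 0, 0, 0, 0, 0, 0, ⟨0, 0⟩, 0⟩ 0 0)))) (.cut .d (-1048576) (.pos 14 .mp ⟨272278799, 0, 0, 0, 0, 0, 0, 0, 0, ⟨0, 0⟩, 0⟩ 0 0) (.cut .v 23068672 (.cut .s 11108352 (.pos 25 .mp ⟨155002110, 0, 0, 0, 0, 0, 0, 0, 0, ⟨0, 0⟩, 0⟩ 0 0) (.pos 25 .mp ⟨186543691, 0, 0, 0, 0, 0, 0, 0, 0, ⟨0, 0⟩, 0⟩ 0 0)) (.pos 26 .mp ⟨206421162, 0, 0, 0, 0, 0, 0, 0, 0, ⟨0, 0⟩, 0⟩ 0 0)))) (.cut .d (-1048576) (.void 12 ⟨100000, 0, 0, 0, 0, 0, 0, 0, 0, ⟨0, 0⟩, 0⟩ 0 0) (.cut .v 29360128 (.pos 27 .mp ⟨264929122, 0, 0, 0, 0, 0, 0, 0, 0, ⟨0, 0⟩, 0⟩ 0 0) (.pos 28 .mp ⟨377699198,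 0, 0, 0, 0, 0, 0, 0, 0, ⟨0, 0⟩, 0⟩ 0 0))))) (.pos 10 .mp ⟨1951216195, 0, 0, 0, 0, 0, 0, 0, 0, ⟨0, 0⟩, 0⟩ 0 0)))) (.void 49 ⟨100000, 0, 0, 0, 0, 0, 0, 0, 0, ⟨0, 0⟩, 0⟩ 0 0)) (.void 64 ⟨94669, 0, 0, 5331, 0, 0, 0, 0, 0, ⟨0, 0⟩, 0⟩ 0 0))) (.cut .v 16777216 (.cut .v 8388608 (.cut .v 4194304 (.cut .v 2097152 (.pos 71 .pm ⟨0, 0, 22736032, 0, 19801382, 0, 0, 0, 13410491, ⟨0, 0⟩, 2804900⟩ 0 0) (.pos 72 .pm ⟨0, 4054550, 0, 0, 0, 0, 0, 0, 9612269, ⟨0, 0⟩, 7053950⟩ 0 0)) (.cut .d 4548041 (.pos 5 .pm ⟨0, 0, 0, 0, 0, 0, 0, 0, 0, ⟨0, 0⟩, 0⟩ 0 0) (.cut .d 6822062 (.pos 5 .pm ⟨0, 0, 0, 0, 0, 0, 0, 0, 0, ⟨0, 0⟩, 0⟩ 0 0) (.cut .l 7092186 (.cut .d 7959072 (.cut .l 4537473 (.cut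 .v 6291456 (.cut .s 11108352 (.pos 73 .pm ⟨0, 28864998, 0, 0, 0, 0, 0, 0, 0, ⟨0, 0⟩, 0⟩ 0 0) (.cut .d 7390567 (.pos 73 .pm ⟨0, 0, 0, 0, 0, 0, 0, 0, 0, ⟨0, 0⟩, 0⟩ 0 0) (.pos 73 .pm ⟨0, 44568338, 0, 0, 0, 0, 0, 0, 0, ⟨0, 0⟩, 0⟩ 0 0))) (.cut .l 3260117 (.cut .d 7390567 (.cut .v 7340032 (.pos 79 .pm ⟨0, 0, 0, 0, 0, 0, 0, 0, 0, ⟨0, 0⟩, 0⟩ 0 0) (.pos 80 .pm ⟨0, 29021435, 0, 0, 0, 0, 0, 0, 0, ⟨0, 0⟩, 0⟩ 0 0)) (.cut .s 11108352 (.cut .s 10993664 (.pos 74 .pm ⟨0, 0, 0, 0, 0, 0, 0, 0, 0, ⟨0, 0⟩, 0⟩ 0 0) (.cut .d 7674819 (.pos 74 .pm ⟨0, 0, 0, 0, 0, 0, 0, 0, 0, ⟨0, 0⟩, 0⟩ 0 0) (.cut .l 2621439 (.cut .l 2302100 (.cut .v 7340032 (.cut .s 11051008 (.pos 79 .pm ⟨0, 37477924,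 0, 0, 0, 0, 0, 0, 0, ⟨0, 0⟩, 0⟩ 0 0) (.cut .d 7816945 (.pos 79 .pm ⟨0, 0, 0, 0, 0, 0, 0, 0, 0, ⟨0, 0⟩, 0⟩ 0 0) (.pos 79 .pm ⟨0, 41859865, 0, 0, 0, 0, 0, 0, 0, ⟨0, 0⟩, 0⟩ 0 0))) (.cut .s 11051008 (.pos 80 .pm ⟨0, 38465934, 0, 0, 0, 0, 0, 0, 0, ⟨0, 0⟩, 0⟩ 0 0) (.cut .d 7816945 (.pos 80 .pm ⟨0, 38520549, 0, 0, 0, 0, 0, 0, 0, ⟨0, 0⟩, 0⟩ 0 0) (.pos 80 .pm ⟨0, 42694465, 0, 0, 0, 0, 0, 0, 0, ⟨0, 0⟩, 0⟩ 0 0)))) (.pos 74 .pm ⟨0, 38520959, 0, 0, 0, 0, 0, 0, 0, ⟨0, 0⟩, 0⟩ 0 0)) (.pos 74 .pm ⟨0, 38110168, 0, 0, 0, 0, 0, 0, 0, ⟨0, 0⟩, 0⟩ 0 0)))) (.cut .l 2621439 (.cut .v 7340032 (.cut .s 11223040 (.cut .l 2302100 (.cut .d 7674819 (.cut .v 6815744 (.pos 87 .pm ⟨0, 40156207,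 0, 0, 0, 0, 0, 0, 0, ⟨0, 0⟩, 0⟩ 0 0) (.cut .s 11165696 (.pos 88 .pm ⟨0, 0, 0, 0, 0, 0, 0, 0, 0, ⟨0, 0⟩, 0⟩ 0 0) (.cut .v 7077888 (.pos 89 .pm ⟨0, 42781435, 0, 0, 0, 0, 0, 0, 0, ⟨0, 0⟩, 0⟩ 0 0) (.pos 90 .pm ⟨0, 43075184, 0, 0, 0, 0, 0, 0, 0, ⟨0, 0⟩, 0⟩ 0 0)))) (.cut .v 6815744 (.pos 87 .pm ⟨0, 45158510, 0, 0, 0, 0, 0, 0, 0, ⟨0, 0⟩, 0⟩ 0 0) (.cut .l 2142430 (.cut .l 2062595 (.cut .s 11165696 (.cut .d 7816945 (.cut .s 11137024 (.pos 88 .pm ⟨0, 42084096, 0, 0, 0, 0, 0, 0, 0, ⟨0, 0⟩, 0⟩ 0 0) (.cut .v 7077888 (.pos 89 .pm ⟨0, 43515470, 0, 0, 0, 0, 0, 0, 0, ⟨0, 0⟩, 0⟩ 0 0) (.pos 90 .pm ⟨0, 43959310, 0, 0, 0, 0, 0, 0, 0, ⟨0, 0⟩, 0⟩ 0 0))) (.pos 88 .pm ⟨0, 45549438,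 0, 0, 0, 0, 0, 0, 0, ⟨0, 0⟩, 0⟩ 0 0)) (.cut .s 11194368 (.cut .v 7077888 (.pos 89 .pm ⟨0, 46124443, 0, 0, 0, 0, 0, 0, 0, ⟨0, 0⟩, 0⟩ 0 0) (.pos 90 .pm ⟨0, 46754270, 0, 0, 0, 0, 0, 0, 0, ⟨0, 0⟩, 0⟩ 0 0)) (.pos 88 .pm ⟨0, 48415944, 0, 0, 0, 0, 0, 0, 0, ⟨0, 0⟩, 0⟩ 0 0))) (.pos 88 .pm ⟨0, 46049204, 0, 0, 0, 0, 0, 0, 0, ⟨0, 0⟩, 0⟩ 0 0)) (.pos 88 .pm ⟨0, 45939955, 0, 0, 0, 0, 0, 0, 0, ⟨0, 0⟩, 0⟩ 0 0)))) (.pos 79 .pm ⟨0, 42958756, 0, 0, 0, 0, 0, 0, 0, ⟨0, 0⟩, 0⟩ 0 0)) (.cut .d 7674819 (.cut .v 6815744 (.pos 87 .pm ⟨0, 46810431, 0, 0, 0, 0, 0, 0, 0, ⟨0, 0⟩, 0⟩ 0 0) (.cut .s 11280384 (.cut .s 11251712 (.pos 88 .pm ⟨0, 45698127, 0, 0, 0, 0, 0, 0, 0, ⟨0, 0⟩, 0⟩ 0 0) (.pos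 88 .pm ⟨0, 47355494, 0, 0, 0, 0, 0, 0, 0, ⟨0, 0⟩, 0⟩ 0 0)) (.pos 88 .pm ⟨0, 49651676, 0, 0, 0, 0, 0, 0, 0, ⟨0, 0⟩, 0⟩ 0 0))) (.pos 79 .pm ⟨0, 136299653, 0, 0, 0, 0, 0, 0, 0, ⟨0, 0⟩, 0⟩ 0 0))) (.cut .l 2302100 (.cut .s 11223040 (.cut .d 7674819 (.pos 80 .pm ⟨0, 41185566, 0, 0, 0, 0, 0, 0, 0, ⟨0, 0⟩, 0⟩ 0 0) (.cut .s 11165696 (.cut .d 7816945 (.pos 80 .pm ⟨0, 43311682, 0, 0, 0, 0, 0, 0, 0, ⟨0, 0⟩, 0⟩ 0 0) (.pos 80 .pm ⟨0, 45960772, 0, 0, 0, 0, 0, 0, 0, ⟨0, 0⟩, 0⟩ 0 0)) (.pos 80 .pm ⟨0, 48357802, 0, 0, 0, 0, 0, 0, 0, ⟨0, 0⟩, 0⟩ 0 0))) (.cut .d 7674819 (.pos 80 .pm ⟨0, 48230747, 0, 0, 0, 0, 0, 0, 0, ⟨0, 0⟩, 0⟩ 0 0) (.void 80 ⟨0, 100000, 0, 0, 0, 0, 0, 0, 0, ⟨0,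 0⟩, 0⟩ 0 0))) (.pos 80 .pm ⟨0, 47343825, 0, 0, 0, 0, 0, 0, 0, ⟨0, 0⟩, 0⟩ 0 0))) (.pos 74 .pm ⟨0, 46325546, 0, 0, 0, 0, 0, 0, 0, ⟨0, 0⟩, 0⟩ 0 0)))) (.pos 74 .pm ⟨0, 34905929, 0, 0, 0, 0, 0, 0, 0, ⟨0, 0⟩, 0⟩ 0 0))) (.pos 5 .pm ⟨0, 32789772, 0, 0, 0, 0, 0, 0, 0, ⟨0, 0⟩, 0⟩ 0 0)) (.cut .v 6291456 (.pos 73 .pm ⟨0, 55084943, 0, 0, 0, 0, 0, 0, 2034448, ⟨0, 0⟩, 9283521⟩ 0 0) (.cut .s 11108352 (.cut .d 8527577 (.cut .l 4537473 (.cut .l 3260117 (.cut .l 2621439 (.cut .v 7340032 (.cut .d 8243324 (.cut .s 10993664 (.pos 79 .pm ⟨0, 36584939, 0, 0, 0, 0, 0, 0, 0, ⟨0, 0⟩, 0⟩ 0 0) (.pos 79 .pm ⟨0, 44119759, 0, 0, 0, 0, 0, 0, 0, ⟨0, 0⟩, 0⟩ 0 0)) (.pos 79 .pm ⟨0, 46646590,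 0, 0, 0, 0, 0, 0, 0, ⟨0, 0⟩, 0⟩ 0 0)) (.cut .l 2302100 (.cut .s 10993664 (.cut .d 8243324 (.cut .v 7864320 (.cut .s 10936320 (.pos 81 .pm ⟨0, 35075818, 0, 0, 0, 0, 0, 0, 0, ⟨0, 0⟩, 0⟩ 0 0) (.pos 81 .pm ⟨0, 38339216, 0, 0, 0, 0, 0, 0, 0, ⟨0, 0⟩, 0⟩ 0 0)) (.pos 82 .pm ⟨0, 37209877, 0, 0, 0, 0, 0, 0, 0, ⟨0, 0⟩, 0⟩ 0 0)) (.pos 80 .pm ⟨0, 41591700, 0, 0, 0, 0, 0, 0, 0, ⟨0, 0⟩, 0⟩ 0 0)) (.cut .s 11051008 (.cut .v 7864320 (.cut .s 11022336 (.pos 81 .pm ⟨0, 42066852, 0, 0, 0, 0, 0, 0, 0, ⟨0, 0⟩, 0⟩ 0 0) (.pos 81 .pm ⟨0, 43805347, 0, 0, 0, 0, 0, 0, 0, ⟨0, 0⟩, 0⟩ 0 0)) (.pos 82 .pm ⟨0, 44560440, 0, 0, 0, 0, 0, 0, 0, ⟨0, 0⟩, 0⟩ 0 0)) (.void 80 ⟨0, 100000, 0, 0, 0, 0,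 0, 0, 0, ⟨0, 0⟩, 0⟩ 0 0))) (.pos 80 .pm ⟨0, 43231408, 0, 0, 0, 0, 0, 0, 0, ⟨0, 0⟩, 0⟩ 0 0))) (.pos 74 .pm ⟨0, 42502910, 0, 0, 0, 0, 0, 0, 0, ⟨0, 0⟩, 0⟩ 0 0)) (.pos 74 .pm ⟨0, 41216712, 0, 0, 0, 0, 0, 0, 0, ⟨0, 0⟩, 0⟩ 0 0)) (.pos 74 .pm ⟨0, 39141780, 0, 0, 0, 0, 0, 0, 0, ⟨0, 0⟩, 0⟩ 0 0)) (.void 74 ⟨0, 100000, 0, 0, 0, 0, 0, 0, 0, ⟨0, 0⟩, 0⟩ 0 0)) (.void 74 ⟨0, 100000, 0, 0, 0, 0, 0, 0, 0, ⟨0, 0⟩, 0⟩ 0 0)))) (.pos 5 .pm ⟨0, 40477043, 0, 0, 0, 0, 0, 0, 0, ⟨0, 0⟩, 0⟩ 0 0))))) (.cut .d 4548041 (.pos 3 .pm ⟨0, 0, 0, 0, 0, 0, 0, 0, 0, ⟨0, 0⟩, 0⟩ 0 0) (.cut .d 6822062 (.pos 3 .pm ⟨0, 0, 0, 0, 0, 0, 0, 0, 0, ⟨0, 0⟩, 0⟩ 0 0) (.cut .v 12582912 (.cut .v 10485760 (.cut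 .l 7092186 (.cut .l 4537473 (.cut .d 7959072 (.cut .s 11108352 (.pos 69 .pm ⟨0, 32505377, 0, 0, 0, 0, 0, 0, 0, ⟨0, 0⟩, 0⟩ 0 0) (.pos 69 .pm ⟨0, 46434545, 0, 0, 0, 0, 0, 0, 0, ⟨0, 0⟩, 0⟩ 0 0)) (.cut .s 11108352 (.pos 69 .pm ⟨0, 49353590, 0, 0, 0, 0, 0, 0, 0, ⟨0, 0⟩, 0⟩ 0 0) (.void 69 ⟨0, 100000, 0, 0, 0, 0, 0, 0, 0, ⟨0, 0⟩, 0⟩ 0 0))) (.pos 69 .pm ⟨0, 48318961, 0, 0, 0, 0, 0, 0, 0, ⟨0, 0⟩, 0⟩ 0 0)) (.pos 69 .pm ⟨0, 45713003, 0, 0, 0, 0, 0, 0, 0, ⟨0, 0⟩, 0⟩ 0 0)) (.pos 70 .pm ⟨0, 54078677, 0, 0, 0, 0, 0, 0, 0, ⟨0, 0⟩, 0⟩ 0 0)) (.pos 7 .pm ⟨0, 52376712, 0, 0, 0, 0, 0, 0, 0, ⟨0, 0⟩, 0⟩ 0 0))))) (.cut .v 268435456 (.cut .d 4548041 (.cut .v 67108864 (.cut .d 2274020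 (.cut .v 33554432 (.cut .d 1137010 (.cut .v 25165824 (.cut .v 20971520 (.pos 13 .pp ⟨34809630, 0, 0, 0, 0, 0, 0, 0, 0, ⟨0, 0⟩, 0⟩ 0 0) (.pos 14 .pp ⟨118036294, 0, 0, 0, 0, 0, 0, 0, 0, ⟨0, 0⟩, 0⟩ 0 0)) (.pos 12 .pp ⟨202902900, 0, 0, 0, 0, 0, 0, 0, 0, ⟨0, 0⟩, 0⟩ 0 0)) (.pos 9 .pp ⟨0, 0, 0, 0, 0, 0, 0, 0, 0, ⟨0, 0⟩, 0⟩ 0 0)) (.cut .v 50331648 (.cut .v 41943040 (.cut .v 37748736 (.pos 43 .pp ⟨310375588, 0, 0, 0, 0, 0, 0, 0, 0, ⟨0, 0⟩, 0⟩ 0 0) (.pos 44 .pp ⟨398367300, 0, 0, 0, 0, 0, 0, 0, 0, ⟨0, 0⟩, 0⟩ 0 0)) (.pos 32 .pp ⟨544256726, 0, 0, 0, 0, 0, 0, 0, 0, ⟨0, 0⟩, 0⟩ 0 0)) (.cut .d 1137010 (.pos 30 .pp ⟨1298676234, 0, 0, 0, 0, 0, 0, 0, 0, ⟨0, 0⟩, 0⟩ 0 0) (.pos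 30 .pp ⟨644171155, 0, 0, 0, 0, 0, 0, 0, 0, ⟨0, 0⟩, 0⟩ 0 0)))) (.pos 8 .pp ⟨0, 0, 0, 0, 0, 0, 0, 0, 0, ⟨0, 0⟩, 0⟩ 0 0)) (.cut .v 134217728 (.cut .d 2274020 (.cut .d 1137010 (.void 65 ⟨100000, 0, 0, 0, 0, 0, 0, 0, 0, ⟨0, 0⟩, 0⟩ 0 0) (.pos 65 .pp ⟨1838439855, 773756948, 0, 0, 0, 0, 0, 0, 0, ⟨0, 0⟩, 0⟩ 0 0)) (.void 65 ⟨0, 100000, 0, 0, 0, 0, 0, 0, 0, ⟨0, 0⟩, 0⟩ 0 0)) (.void 66 ⟨0, 0, 0, 100000, 0, 0, 0, 0, 0, ⟨0, 0⟩, 0⟩ 0 0))) (.pos 48 .pp ⟨0, 18117036, 0, 0, 0, 0, 0, 0, 0, ⟨0, 0⟩, 0⟩ 0 0)) (.void 64 ⟨0, 0, 0, 100000, 0, 0, 0, 0, 0, ⟨0, 0⟩, 0⟩ 0 0)))),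
    by decide +kernel⟩

def covers16 : cell.Covers table row16.1 :=
  ⟨(.cut .d 0 (.cut .v 16777216 (.cut .d (-8388608) (.void 1 ⟨0, 0, 0, 0, 0, 100000, 0, 0, 0, ⟨0, 0⟩, 0⟩ 0 0) (.cut .d (-4194304) (.void 1 ⟨0, 0, 0, 0, 0, 100000, 0, 0, 0, ⟨0, 0⟩, 0⟩ 0 0) (.cut .d (-2097152) (.void 1 ⟨0, 0, 0, 0, 0, 100000, 0, 0, 0, ⟨0, 0⟩, 0⟩ 0 0) (.cut .v 8388608 (.cut .v 4194304 (.void 4 ⟨0, 0, 100000, 0, 0, 0, 0, 0, 0, ⟨0, 0⟩, 0⟩ 0 0) (.pos 5 .mm ⟨0, 0, 6824632, 0, 0, 79153778, 0, 0, 0, ⟨0, 0⟩, 0⟩ 0 0)) (.cut .d (-1048576) (.cut .v 12582912 (.pos 6 .mm ⟨0, 0, 0, 0, 0, 169390150, 0, 0, 0, ⟨0, 0⟩, 0⟩ 0 0) (.cut .v 14680064 (.pos 33 .mm ⟨0, 0, 0, 0, 0, 208830557, 0, 0, 0,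 ⟨0, 0⟩, 0⟩ 0 0) (.cut .l 7092186 (.void 34 ⟨0, 0, 0, 0, 0, 100000, 0, 0, 0, ⟨0, 0⟩, 0⟩ 0 0) (.cut .d (-1572864) (.cut .s 11534336 (.cut .s 11436032 (.pos 34 .mm ⟨85380604, 0, 0, 0, 0, 124203225, 0, 0, 0, ⟨0, 0⟩, 0⟩ 0 0) (.pos 34 .mm ⟨95863388, 0, 0, 0, 0, 134576067, 0, 0, 0, ⟨0, 0⟩, 0⟩ 0 0)) (.void 34 ⟨0, 0, 0, 0, 0, 100000, 0, 0, 0, ⟨0, 0⟩, 0⟩ 0 0)) (.cut .v 15728640 (.pos 35 .mm ⟨0, 0, 0, 0, 0, 210966294, 0, 0, 0, ⟨0, 0⟩, 0⟩ 0 0) (.cut .s 11534336 (.cut .s 11436032 (.pos 36 .mm ⟨46578737, 0, 0, 0, 0, 136009772, 0, 0, 0, ⟨0, 0⟩, 0⟩ 0 0) (.pos 36 .mm ⟨61848866, 0, 0, 0, 0, 133762336, 0, 0, 0, ⟨0, 0⟩, 0⟩ 0 0)) (.cut .l 9646899 (.pos 36 .mm ⟨81673481, 0, 0,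 0, 0, 163021912, 0, 0, 0, ⟨0, 0⟩, 0⟩ 0 0) (.cut .d (-1310720) (.cut .v 16252928 (.pos 50 .mm ⟨0, 0, 0, 0, 0, 246172618, 0, 0, 0, ⟨0, 0⟩, 0⟩ 0 0) (.cut .s 11632640 (.pos 51 .mm ⟨142079238, 0, 0, 0, 0, 51739178, 0, 0, 0, ⟨0, 0⟩, 0⟩ 0 0) (.cut .d (-1441792) (.pos 51 .mm ⟨123358913, 0, 0, 0, 0, 125934991, 0, 0, 0, ⟨0, 0⟩, 0⟩ 0 0) (.pos 51 .mm ⟨124511423, 0, 0, 0, 0, 91771732, 0, 0, 0, ⟨0, 0⟩, 0⟩ 0 0)))) (.pos 36 .mm ⟨55940276, 0, 0, 0, 0, 162059271, 0, 0, 0, ⟨0, 0⟩, 0⟩ 0 0))))))))) (.cut .v 12582912 (.pos 6 .mm ⟨0, 0, 0, 0, 0, 114465383, 0, 0, 0, ⟨0, 0⟩, 0⟩ 0 0) (.cut .l 7092186 (.cut .d (-524288) (.cut .s 11534336 (.pos 7 .mm ⟨0, 0, 0, 0, 0, 202295394, 0, 0,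 0, ⟨0, 0⟩, 0⟩ 0 0) (.pos 7 .mm ⟨0, 0, 0, 0, 0, 241135387, 0, 0, 0, ⟨0, 0⟩, 0⟩ 0 0)) (.cut .l 4537473 (.cut .s 11534336 (.pos 7 .mm ⟨0, 0, 0, 0, 0, 181693785, 0, 0, 0, ⟨0, 0⟩, 0⟩ 0 0) (.cut .d (-262144) (.pos 7 .mm ⟨0, 0, 0, 0, 0, 229143623, 0, 0, 0, ⟨0, 0⟩, 0⟩ 0 0) (.pos 7 .mm ⟨0, 0, 0, 0, 0, 207466825, 0, 0, 0, ⟨0, 0⟩, 0⟩ 0 0))) (.pos 7 .mm ⟨0, 0, 0, 0, 0, 156040874, 0, 0, 0, ⟨0, 0⟩, 0⟩ 0 0))) (.cut .d (-524288) (.cut .s 11534336 (.pos 7 .mm ⟨0, 0, 0, 0, 0, 172874114, 0, 0, 0, ⟨0, 0⟩, 0⟩ 0 0) (.cut .d (-786432) (.pos 7 .mm ⟨7801091, 0, 0, 0, 0, 214179492, 0, 0, 0, ⟨0, 0⟩, 0⟩ 0 0) (.pos 7 .mm ⟨0, 0, 0, 0, 0, 0, 0, 0, 0, ⟨0, 0⟩, 0⟩ 0 0))) (.pos 7 .mm ⟨0, 0,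 0, 0, 0, 0, 0, 0, 0, ⟨0, 0⟩, 0⟩ 0 0))))))))) (.cut .v 268435456 (.cut .v 67108864 (.cut .d (-8388608) (.void 8 ⟨0, 0, 0, 0, 0, 100000, 0, 0, 0, ⟨0, 0⟩, 0⟩ 0 0) (.cut .d (-4194304) (.void 8 ⟨100000, 0, 0, 0, 0, 0, 0, 0, 0, ⟨0, 0⟩, 0⟩ 0 0) (.cut .d (-2097152) (.void 8 ⟨100000, 0, 0, 0, 0, 0, 0, 0, 0, ⟨0, 0⟩, 0⟩ 0 0) (.cut .v 33554432 (.cut .v 25165824 (.cut .d (-1048576) (.cut .v 20971520 (.cut .l 7092186 (.void 13 ⟨100000, 0, 0, 0, 0, 0, 0, 0, 0, ⟨0, 0⟩, 0⟩ 0 0) (.cut .d (-1572864) (.cut .s 11534336 (.cut .v 18874368 (.pos 15 .mp ⟨214712275, 0, 0, 0, 0, 0, 0, 0, 0, ⟨0, 0⟩, 0⟩ 0 0) (.void 16 ⟨100000, 0, 0, 0, 0, 0, 0, 0, 0, ⟨0, 0⟩, 0⟩ 0 0)) (.void 13 ⟨100000,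 0, 0, 0, 0, 0, 0, 0, 0, ⟨0, 0⟩, 0⟩ 0 0)) (.cut .v 18874368 (.cut .s 11534336 (.cut .v 17825792 (.cut .s 11436032 (.pos 17 .mp ⟨159798663, 0, 0, 0, 0, 0, 0, 0, 0, ⟨0, 0⟩, 0⟩ 0 0) (.pos 17 .mp ⟨174167809, 0, 0, 0, 0, 0, 0, 0, 0, ⟨0, 0⟩, 0⟩ 0 0)) (.pos 18 .mp ⟨187554061, 0, 0, 0, 0, 0, 0, 0, 0, ⟨0, 0⟩, 0⟩ 0 0)) (.cut .v 17825792 (.cut .s 11632640 (.pos 17 .mp ⟨189523442, 0, 0, 0, 0, 0, 0, 0, 0, ⟨0, 0⟩, 0⟩ 0 0) (.cut .d (-1310720) (.pos 17 .mp ⟨212546091, 0, 0, 0, 0, 0, 0, 0, 0, ⟨0, 0⟩, 0⟩ 0 0) (.pos 17 .mp ⟨196197838, 0, 0, 0, 0, 0, 0, 0, 0, ⟨0, 0⟩, 0⟩ 0 0))) (.pos 18 .mp ⟨222290908, 0, 0, 0, 0, 0, 0, 0, 0, ⟨0, 0⟩, 0⟩ 0 0))) (.pos 16 .mp ⟨247483413, 0, 0, 0,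 0, 0, 0, 0, 0, ⟨0, 0⟩, 0⟩ 0 0)))) (.pos 14 .mp ⟨387954602, 0, 0, 0, 0, 0, 0, 0, 0, ⟨0, 0⟩, 0⟩ 0 0)) (.cut .v 20971520 (.cut .d (-524288) (.cut .l 7092186 (.cut .v 18874368 (.cut .d (-786432) (.pos 15 .mp ⟨203341697, 0, 0, 0, 0, 0, 0, 0, 0, ⟨0, 0⟩, 0⟩ 0 0) (.cut .s 11534336 (.pos 15 .mp ⟨160212425, 0, 0, 0, 0, 0, 0, 0, 0, ⟨0, 0⟩, 0⟩ 0 0) (.cut .l 4537473 (.pos 15 .mp ⟨100116936, 0, 0, 0, 0, 353110652, 0, 0, 0, ⟨0, 0⟩, 0⟩ 0 0) (.pos 15 .mp ⟨170339641, 0, 0, 0, 0, 8883007, 0, 0, 0, ⟨0, 0⟩, 0⟩ 0 0)))) (.pos 16 .mp ⟨238264172, 0, 0, 0, 0, 0, 0, 0, 0, ⟨0, 0⟩, 0⟩ 0 0)) (.cut .v 18874368 (.cut .s 11534336 (.pos 15 .mp ⟨146208510, 0, 0, 0, 0, 0, 0, 0, 0, ⟨0, 0⟩, 0⟩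 0 0) (.pos 15 .mp ⟨173610265, 0, 0, 0, 0, 0, 0, 0, 0, ⟨0, 0⟩, 0⟩ 0 0)) (.pos 16 .mp ⟨198678148, 0, 0, 0, 0, 0, 0, 0, 0, ⟨0, 0⟩, 0⟩ 0 0))) (.cut .l 7092186 (.cut .v 18874368 (.cut .l 4537473 (.cut .d (-262144) (.cut .s 11534336 (.pos 15 .mp ⟨129469635, 0, 0, 0, 0, 28311223, 0, 0, 0, ⟨0, 0⟩, 0⟩ 0 0) (.cut .s 11632640 (.pos 15 .mp ⟨133259146, 0, 0, 0, 0, 50613842, 0, 0, 0, ⟨0, 0⟩, 0⟩ 0 0) (.cut .v 17825792 (.pos 17 .mp ⟨122686818, 0, 0, 0, 0, 81678616, 0, 0, 0, ⟨0, 0⟩, 0⟩ 0 0) (.pos 18 .mp ⟨205055133, 0, 0, 0, 0, 0, 0, 0, 0, ⟨0, 0⟩, 0⟩ 0 0)))) (.cut .d (-131072) (.cut .s 11534336 (.pos 15 .mp ⟨92999200, 0, 0, 0, 0, 63966781, 0, 0, 0, ⟨0, 0⟩, 0⟩ 0 0) (.cut .v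 17825792 (.cut .v 17301504 (.cut .s 11632640 (.pos 19 .mp ⟨68395604, 0, 0, 0, 0, 125681239, 0, 0, 0, ⟨0, 0⟩, 0⟩ 0 0) (.cut .d (-196608) (.pos 19 .mp ⟨85590292, 0, 0, 0, 0, 125054911, 0, 0, 0, ⟨0, 0⟩, 0⟩ 0 0) (.pos 19 .mp ⟨74854125, 0, 0, 0, 0, 133437104, 0, 0, 0, ⟨0, 0⟩, 0⟩ 0 0))) (.pos 20 .mp ⟨172698958, 0, 0, 0, 0, 0, 0, 0, 0, ⟨0, 0⟩, 0⟩ 0 0)) (.pos 18 .mp ⟨187806809, 0, 0, 0, 0, 0, 0, 0, 0, ⟨0, 0⟩, 0⟩ 0 0))) (.pos 15 .mp ⟨89426635, 0, 0, 0, 0, 0, 0, 0, 0, ⟨0, 0⟩, 0⟩ 0 0))) (.pos 15 .mp ⟨122499399, 0, 0, 0, 0, 7375675, 0, 0, 0, ⟨0, 0⟩, 0⟩ 0 0)) (.pos 16 .mp ⟨191064381, 0, 0, 0, 0, 0, 0, 0, 0, ⟨0, 0⟩, 0⟩ 0 0)) (.pos 13 .mp ⟨89686173, 0, 0, 0, 0, 0, 0, 0,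 0, ⟨0, 0⟩, 0⟩ 0 0))) (.cut .v 23068672 (.cut .d (-524288) (.pos 25 .mp ⟨258627354, 0, 0, 0, 0, 0, 0, 0, 0, ⟨0, 0⟩, 0⟩ 0 0) (.pos 25 .mp ⟨220775733, 0, 0, 0, 0, 0, 0, 0, 0, ⟨0, 0⟩, 0⟩ 0 0)) (.pos 26 .mp ⟨287982710, 0, 0, 0, 0, 0, 0, 0, 0, ⟨0, 0⟩, 0⟩ 0 0)))) (.cut .d (-1048576) (.void 12 ⟨100000, 0, 0, 0, 0, 0, 0, 0, 0, ⟨0, 0⟩, 0⟩ 0 0) (.cut .v 29360128 (.pos 27 .mp ⟨365435092, 0, 0, 0, 0, 0, 0, 0, 0, ⟨0, 0⟩, 0⟩ 0 0) (.pos 28 .mp ⟨506551062, 0, 0, 0, 0, 0, 0, 0, 0, ⟨0, 0⟩, 0⟩ 0 0)))) (.pos 10 .mp ⟨2136403402, 0, 0, 0, 0, 0, 0, 0, 0, ⟨0, 0⟩, 0⟩ 0 0))))) (.void 49 ⟨100000, 0, 0, 0, 0, 0, 0, 0, 0, ⟨0, 0⟩, 0⟩ 0 0)) (.void 64 ⟨94494, 0, 0, 5506, 0, 0, 0, 0, 0, ⟨0,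 0⟩, 0⟩ 0 0))) (.cut .v 16777216 (.cut .v 8388608 (.cut .v 4194304 (.cut .v 2097152 (.cut .v 1048576 (.void 95 ⟨0, 0, 50000, 0, 50000, 0, 0, 0, 0, ⟨0, 0⟩, 0⟩ 0 0) (.pos 96 .pm ⟨0, 0, 2032083, 0, 0, 0, 0, 0, 10551946, ⟨0, 0⟩, 4987896⟩ 0 0)) (.cut .d 4024593 (.pos 72 .pm ⟨0, 0, 3735535, 0, 0, 0, 0, 0, 0, ⟨0, 0⟩, 0⟩ 0 0) (.pos 72 .pm ⟨0, 30109718, 0, 0, 0, 0, 0, 0, 0, ⟨0, 0⟩, 0⟩ 0 0))) (.cut .d 4024593 (.pos 5 .pm ⟨0, 0, 0, 0, 0, 0, 0, 0, 0, ⟨0, 0⟩, 0⟩ 0 0) (.cut .d 6036890 (.pos 5 .pm ⟨0, 0, 0, 0, 0, 0, 0, 0, 0, ⟨0, 0⟩, 0⟩ 0 0) (.cut .l 7092186 (.cut .d 7043038 (.cut .d 6539964 (.pos 5 .pm ⟨0, 0, 0, 0, 0, 0, 0, 0, 0, ⟨0, 0⟩, 0⟩ 0 0) (.cut .l 4537473 (.cut .v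 6291456 (.cut .s 11534336 (.pos 73 .pm ⟨0, 0, 0, 0, 0, 0, 0, 0, 0, ⟨0, 0⟩, 0⟩ 0 0) (.pos 73 .pm ⟨0, 54849403, 0, 0, 0, 0, 0, 0, 0, ⟨0, 0⟩, 0⟩ 0 0)) (.cut .v 7340032 (.cut .s 11534336 (.pos 79 .pm ⟨0, 17345925, 0, 0, 0, 0, 0, 0, 0, ⟨0, 0⟩, 0⟩ 0 0) (.cut .s 11632640 (.pos 79 .pm ⟨0, 54907772, 0, 0, 0, 0, 0, 0, 0, ⟨0, 0⟩, 0⟩ 0 0) (.pos 79 .pm ⟨0, 61861686, 0, 0, 0, 0, 0, 0, 0, ⟨0, 0⟩, 0⟩ 0 0))) (.pos 80 .pm ⟨0, 49902814, 0, 0, 0, 0, 0, 0, 0, ⟨0, 0⟩, 0⟩ 0 0))) (.pos 5 .pm ⟨0, 43088460, 0, 0, 0, 0, 0, 0, 0, ⟨0, 0⟩, 0⟩ 0 0))) (.cut .l 4537473 (.cut .v 6291456 (.cut .s 11534336 (.cut .s 11436032 (.pos 73 .pm ⟨0, 52235065, 0, 0, 0, 0, 0, 0, 0, ⟨0, 0⟩, 0⟩ 0 0) (.pos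 73 .pm ⟨0, 59666721, 0, 0, 0, 0, 0, 0, 0, ⟨0, 0⟩, 0⟩ 0 0)) (.pos 73 .pm ⟨0, 73944608, 0, 0, 0, 0, 0, 0, 0, ⟨0, 0⟩, 0⟩ 0 0)) (.cut .s 11534336 (.cut .d 7546112 (.cut .v 7340032 (.cut .l 3260117 (.cut .l 2621439 (.cut .l 2302100 (.cut .s 11436032 (.cut .d 7294575 (.pos 79 .pm ⟨0, 47806237, 0, 0, 0, 0, 0, 0, 0, ⟨0, 0⟩, 0⟩ 0 0) (.pos 79 .pm ⟨0, 53685266, 0, 0, 0, 0, 0, 0, 0, ⟨0, 0⟩, 0⟩ 0 0)) (.cut .d 7294575 (.pos 79 .pm ⟨0, 55326897, 0, 0, 0, 0, 0, 0, 0, ⟨0, 0⟩, 0⟩ 0 0) (.void 79 ⟨0, 100000, 0, 0, 0, 0, 0, 0, 0, ⟨0, 0⟩, 0⟩ 0 0))) (.pos 79 .pm ⟨0, 54271572, 0, 0, 0, 0, 0, 0, 0, ⟨0, 0⟩, 0⟩ 0 0)) (.pos 79 .pm ⟨0, 53604431, 0, 0, 0, 0, 0, 0, 0, ⟨0, 0⟩, 0⟩ 0 0)) (.pos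 79 .pm ⟨0, 52632632, 0, 0, 0, 0, 0, 0, 0, ⟨0, 0⟩, 0⟩ 0 0)) (.pos 80 .pm ⟨0, 57134007, 0, 0, 0, 0, 0, 0, 0, ⟨0, 0⟩, 0⟩ 0 0)) (.void 74 ⟨0, 100000, 0, 0, 0, 0, 0, 0, 0, ⟨0, 0⟩, 0⟩ 0 0)) (.pos 74 .pm ⟨0, 93813315, 0, 0, 0, 0, 0, 0, 0, ⟨0, 0⟩, 0⟩ 0 0))) (.pos 5 .pm ⟨0, 63514853, 0, 0, 0, 0, 0, 0, 0, ⟨0, 0⟩, 0⟩ 0 0))) (.pos 5 .pm ⟨0, 49428439, 0, 0, 0, 0, 0, 0, 0, ⟨0, 0⟩, 0⟩ 0 0))))) (.cut .d 4024593 (.pos 3 .pm ⟨0, 0, 0, 0, 0, 0, 0, 0, 0, ⟨0, 0⟩, 0⟩ 0 0) (.cut .d 6036890 (.pos 3 .pm ⟨0, 0, 0, 0, 0, 0, 0, 0, 0, ⟨0, 0⟩, 0⟩ 0 0) (.cut .d 7043038 (.pos 3 .pm ⟨0, 48255524, 0, 0, 0, 0, 0, 0, 0, ⟨0, 0⟩, 0⟩ 0 0) (.pos 3 .pm ⟨0, 79278709, 0, 0, 0, 0, 0, 0, 0, ⟨0, 0⟩, 0⟩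 0 0))))) (.cut .v 268435456 (.cut .d 4024593 (.cut .v 67108864 (.cut .d 2012296 (.cut .v 33554432 (.cut .d 1006148 (.cut .d 503074 (.cut .v 25165824 (.cut .v 20971520 (.pos 13 .pp ⟨74902963, 0, 0, 0, 0, 0, 0, 0, 0, ⟨0, 0⟩, 0⟩ 0 0) (.pos 14 .pp ⟨188269962, 0, 0, 0, 0, 0, 0, 0, 0, ⟨0, 0⟩, 0⟩ 0 0)) (.pos 12 .pp ⟨302268057, 0, 0, 0, 0, 0, 0, 0, 0, ⟨0, 0⟩, 0⟩ 0 0)) (.pos 9 .pp ⟨73665147, 0, 0, 0, 0, 0, 0, 0, 0, ⟨0, 0⟩, 0⟩ 0 0)) (.pos 9 .pp ⟨0, 0, 0, 0, 0, 0, 0, 0, 0, ⟨0, 0⟩, 0⟩ 0 0)) (.cut .v 50331648 (.cut .d 1006148 (.cut .v 41943040 (.pos 31 .pp ⟨508911526, 0, 0, 0, 0, 0, 0, 0, 0, ⟨0, 0⟩, 0⟩ 0 0) (.pos 32 .pp ⟨835957793, 0, 0, 0, 0, 0, 0, 0, 0, ⟨0, 0⟩, 0⟩ 0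 0)) (.pos 29 .pp ⟨344374718, 0, 0, 0, 0, 0, 0, 0, 0, ⟨0, 0⟩, 0⟩ 0 0)) (.cut .d 1006148 (.pos 30 .pp ⟨1655381055, 0, 0, 0, 0, 0, 0, 0, 0, ⟨0, 0⟩, 0⟩ 0 0) (.pos 30 .pp ⟨890773562, 0, 0, 0, 0, 0, 0, 0, 0, ⟨0, 0⟩, 0⟩ 0 0)))) (.pos 8 .pp ⟨0, 0, 0, 0, 0, 0, 0, 0, 0, ⟨0, 0⟩, 0⟩ 0 0)) (.cut .v 134217728 (.cut .d 2012296 (.cut .d 1006148 (.void 65 ⟨100000, 0, 0, 0, 0, 0, 0, 0, 0, ⟨0, 0⟩, 0⟩ 0 0) (.cut .v 100663296 (.pos 77 .pp ⟨1967331973, 583752012, 0, 0, 0, 0, 0, 0, 0, ⟨0, 0⟩, 0⟩ 0 0) (.void 78 ⟨0, 100000, 0, 0, 0, 0, 0, 0, 0, ⟨0, 0⟩, 0⟩ 0 0))) (.void 65 ⟨0, 100000, 0, 0, 0, 0, 0, 0, 0, ⟨0, 0⟩, 0⟩ 0 0)) (.void 66 ⟨0, 0, 0, 100000, 0, 0, 0, 0, 0, ⟨0, 0⟩, 0⟩ 0 0)))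 (.pos 48 .pp ⟨0, 29192104, 0, 0, 0, 0, 0, 0, 0, ⟨0, 0⟩, 0⟩ 0 0)) (.void 64 ⟨0, 0, 0, 100000, 0, 0, 0, 0, 0, ⟨0, 0⟩, 0⟩ 0 0)))),
    by decide +kernel⟩

def covers17 : cell.Covers table row17.1 :=
  ⟨(.cut .d 0 (.cut .v 16777216 (.cut .d (-8388608) (.void 1 ⟨0, 0, 0, 0, 0, 100000, 0, 0, 0, ⟨0, 0⟩, 0⟩ 0 0) (.cut .d (-4194304) (.void 1 ⟨0, 0, 0, 0, 0, 100000, 0, 0, 0, ⟨0, 0⟩, 0⟩ 0 0) (.cut .d (-2097152) (.void 1 ⟨0, 0, 0, 0, 0, 100000, 0, 0, 0, ⟨0, 0⟩, 0⟩ 0 0) (.cut .v 8388608 (.cut .v 4194304 (.void 4 ⟨0, 0, 100000, 0, 0, 0, 0, 0, 0, ⟨0, 0⟩, 0⟩ 0 0) (.pos 5 .mm ⟨0, 0, 21982681, 0, 0, 124182838, 0, 0, 0, ⟨0, 0⟩, 0⟩ 0 0)) (.cut .d (-1048576) (.cut .d (-1572864)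 (.void 3 ⟨0, 0, 0, 0, 0, 100000, 0, 0, 0, ⟨0, 0⟩, 0⟩ 0 0) (.cut .v 12582912 (.pos 6 .mm ⟨0, 0, 0, 0, 0, 255299852, 0, 0, 0, ⟨0, 0⟩, 0⟩ 0 0) (.cut .l 7092186 (.void 7 ⟨0, 0, 0, 0, 0, 100000, 0, 0, 0, ⟨0, 0⟩, 0⟩ 0 0) (.cut .v 14680064 (.pos 33 .mm ⟨0, 0, 0, 0, 0, 302894967, 0, 0, 0, ⟨0, 0⟩, 0⟩ 0 0) (.cut .s 11993088 (.cut .v 15728640 (.pos 35 .mm ⟨0, 0, 0, 0, 0, 281991161, 0, 0, 0, ⟨0, 0⟩, 0⟩ 0 0) (.cut .l 9646899 (.pos 36 .mm ⟨102380009, 0, 0, 0, 0, 205039006, 0, 0, 0, ⟨0, 0⟩, 0⟩ 0 0) (.cut .d (-1310720) (.cut .v 16252928 (.pos 50 .mm ⟨0, 0, 0, 0, 0, 318365303, 0, 0, 0, ⟨0, 0⟩, 0⟩ 0 0) (.cut .l 10924255 (.void 51 ⟨0, 0, 0, 0, 0, 100000, 0, 0, 0, ⟨0, 0⟩, 0⟩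 0 0) (.cut .d (-1441792) (.cut .s 11862016 (.pos 51 .mm ⟨138058917, 0, 0, 0, 0, 142896165, 0, 0, 0, ⟨0, 0⟩, 0⟩ 0 0) (.void 51 ⟨0, 0, 0, 0, 0, 100000, 0, 0, 0, ⟨0, 0⟩, 0⟩ 0 0)) (.cut .s 11862016 (.cut .s 11796480 (.pos 51 .mm ⟨147466784, 0, 0, 0, 0, 75440713, 0, 0, 0, ⟨0, 0⟩, 0⟩ 0 0) (.pos 51 .mm ⟨159735763, 0, 0, 0, 0, 80072295, 0, 0, 0, ⟨0, 0⟩, 0⟩ 0 0)) (.cut .l 11562933 (.pos 51 .mm ⟨145236912, 0, 0, 0, 0, 163532720, 0, 0, 0, ⟨0, 0⟩, 0⟩ 0 0) (.cut .l 11882272 (.pos 51 .mm ⟨140878669, 0, 0, 0, 0, 163225493, 0, 0, 0, ⟨0, 0⟩, 0⟩ 0 0) (.cut .d (-1376256) (.cut .s 11927552 (.pos 51 .mm ⟨148100378, 0, 0, 0, 0, 142966907, 0, 0, 0, ⟨0, 0⟩, 0⟩ 0 0) (.pos 51 .mm ⟨159359054,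 0, 0, 0, 0, 159213133, 0, 0, 0, ⟨0, 0⟩, 0⟩ 0 0)) (.cut .s 11927552 (.pos 51 .mm ⟨159359054, 0, 0, 0, 0, 87513040, 0, 0, 0, ⟨0, 0⟩, 0⟩ 0 0) (.pos 51 .mm ⟨171406921, 0, 0, 0, 0, 97247220, 0, 0, 0, ⟨0, 0⟩, 0⟩ 0 0))))))))) (.cut .v 16252928 (.pos 50 .mm ⟨0, 0, 0, 0, 0, 276137822, 0, 0, 0, ⟨0, 0⟩, 0⟩ 0 0) (.cut .s 11862016 (.pos 51 .mm ⟨172061787, 0, 0, 0, 0, 36547789, 0, 0, 0, ⟨0, 0⟩, 0⟩ 0 0) (.cut .s 11927552 (.pos 51 .mm ⟨158718978, 0, 0, 0, 0, 82105445, 0, 0, 0, ⟨0, 0⟩, 0⟩ 0 0) (.pos 51 .mm ⟨169816834, 0, 0, 0, 0, 83856296, 0, 0, 0, ⟨0, 0⟩, 0⟩ 0 0))))))) (.cut .v 15728640 (.pos 35 .mm ⟨0, 0, 0, 0, 0, 362603685, 0, 0, 0, ⟨0, 0⟩, 0⟩ 0 0) (.cut .l 9646899 (.pos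 36 .mm ⟨136267217, 0, 0, 0, 0, 252631512, 0, 0, 0, ⟨0, 0⟩, 0⟩ 0 0) (.cut .d (-1310720) (.cut .s 12124160 (.cut .s 12058624 (.cut .v 16252928 (.pos 50 .mm ⟨0, 0, 0, 0, 0, 361873693, 0, 0, 0, ⟨0, 0⟩, 0⟩ 0 0) (.cut .v 16515072 (.pos 52 .mm ⟨153803167, 0, 0, 0, 0, 167383691, 0, 0, 0, ⟨0, 0⟩, 0⟩ 0 0) (.pos 53 .mm ⟨279982849, 0, 0, 0, 0, 0, 0, 0, 0, ⟨0, 0⟩, 0⟩ 0 0))) (.pos 36 .mm ⟨160836309, 0, 0, 0, 0, 190687369, 0, 0, 0, ⟨0, 0⟩, 0⟩ 0 0)) (.void 36 ⟨0, 0, 0, 0, 0, 100000, 0, 0, 0, ⟨0, 0⟩, 0⟩ 0 0)) (.cut .s 12124160 (.cut .v 16252928 (.pos 50 .mm ⟨0, 0, 0, 0, 0, 333473039, 0, 0, 0, ⟨0, 0⟩, 0⟩ 0 0) (.cut .s 12058624 (.pos 51 .mm ⟨180813795, 0, 0, 0, 0, 86575604,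 0, 0, 0, ⟨0, 0⟩, 0⟩ 0 0) (.pos 51 .mm ⟨184894765, 0, 0, 0, 0, 100248896, 0, 0, 0, ⟨0, 0⟩, 0⟩ 0 0))) (.cut .v 16252928 (.pos 50 .mm ⟨0, 0, 0, 0, 0, 378483597, 0, 0, 0, ⟨0, 0⟩, 0⟩ 0 0) (.cut .s 12189696 (.pos 51 .mm ⟨196568709, 0, 0, 0, 0, 104802783, 0, 0, 0, ⟨0, 0⟩, 0⟩ 0 0) (.cut .s 12222464 (.pos 51 .mm ⟨203680189, 0, 0, 0, 0, 114439624, 0, 0, 0, ⟨0, 0⟩, 0⟩ 0 0) (.pos 51 .mm ⟨211009417, 0, 0, 0, 0, 115079248, 0, 0, 0, ⟨0, 0⟩, 0⟩ 0 0))))))))))))) (.cut .v 12582912 (.cut .d (-524288) (.pos 6 .mm ⟨0, 0, 0, 0, 0, 198937733, 0, 0, 0, ⟨0, 0⟩, 0⟩ 0 0) (.pos 6 .mm ⟨0, 0, 0, 0, 0, 146102185, 0, 0, 0, ⟨0, 0⟩, 0⟩ 0 0)) (.cut .d (-524288) (.cut .l 7092186 (.cut .d (-786432)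 (.pos 7 .mm ⟨64568535, 0, 0, 0, 0, 299765410, 0, 0, 0, ⟨0, 0⟩, 0⟩ 0 0) (.cut .l 4537473 (.void 7 ⟨0, 0, 0, 0, 0, 100000, 0, 0, 0, ⟨0, 0⟩, 0⟩ 0 0) (.cut .s 11993088 (.pos 7 .mm ⟨33465644, 0, 0, 0, 0, 235517682, 0, 0, 0, ⟨0, 0⟩, 0⟩ 0 0) (.pos 7 .mm ⟨44808957, 0, 0, 0, 0, 291831027, 0, 0, 0, ⟨0, 0⟩, 0⟩ 0 0)))) (.cut .v 14680064 (.pos 33 .mm ⟨0, 0, 0, 0, 0, 230183468, 0, 0, 0, ⟨0, 0⟩, 0⟩ 0 0) (.cut .s 11993088 (.cut .s 11862016 (.pos 34 .mm ⟨0, 0, 0, 0, 0, 255569483, 0, 0, 0, ⟨0, 0⟩, 0⟩ 0 0) (.cut .s 11927552 (.pos 34 .mm ⟨0, 0, 0, 0, 0, 282308881, 0, 0, 0, ⟨0, 0⟩, 0⟩ 0 0) (.pos 34 .mm ⟨0, 0, 0, 0, 0, 298875960, 0, 0, 0, ⟨0, 0⟩, 0⟩ 0 0))) (.cut .d (-786432) (.cut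 .v 15728640 (.pos 35 .mm ⟨0, 0, 0, 0, 0, 315226388, 0, 0, 0, ⟨0, 0⟩, 0⟩ 0 0) (.cut .l 9646899 (.cut .s 12124160 (.pos 36 .mm ⟨86407537, 0, 0, 0, 0, 222427765, 0, 0, 0, ⟨0, 0⟩, 0⟩ 0 0) (.pos 36 .mm ⟨100023656, 0, 0, 0, 0, 243075849, 0, 0, 0, ⟨0, 0⟩, 0⟩ 0 0)) (.pos 36 .mm ⟨179877700, 0, 0, 0, 0, 55547304, 0, 0, 0, ⟨0, 0⟩, 0⟩ 0 0))) (.pos 34 .mm ⟨0, 0, 0, 0, 0, 314025673, 0, 0, 0, ⟨0, 0⟩, 0⟩ 0 0))))) (.cut .l 7092186 (.cut .v 14680064 (.pos 33 .mm ⟨0, 0, 0, 0, 0, 218590466, 0, 0, 0, ⟨0, 0⟩, 0⟩ 0 0) (.cut .s 11993088 (.cut .d (-262144) (.cut .s 11862016 (.pos 34 .mm ⟨0, 0, 0, 0, 0, 255033754, 0, 0, 0, ⟨0, 0⟩, 0⟩ 0 0) (.pos 34 .mm ⟨0, 0, 0, 0, 0, 284245182, 0,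 0, 0, ⟨0, 0⟩, 0⟩ 0 0)) (.pos 34 .mm ⟨0, 0, 0, 0, 0, 238540479, 0, 0, 0, ⟨0, 0⟩, 0⟩ 0 0)) (.cut .l 4537473 (.cut .d (-262144) (.cut .s 12124160 (.pos 34 .mm ⟨0, 0, 0, 0, 0, 321850569, 0, 0, 0, ⟨0, 0⟩, 0⟩ 0 0) (.pos 34 .mm ⟨0, 0, 0, 0, 0, 358106614, 0, 0, 0, ⟨0, 0⟩, 0⟩ 0 0)) (.pos 34 .mm ⟨0, 0, 0, 0, 0, 303650324, 0, 0, 0, ⟨0, 0⟩, 0⟩ 0 0)) (.pos 34 .mm ⟨0, 0, 0, 0, 0, 291603157, 0, 0, 0, ⟨0, 0⟩, 0⟩ 0 0)))) (.pos 7 .mm ⟨0, 0, 0, 0, 0, 0, 0, 0, 0, ⟨0, 0⟩, 0⟩ 0 0))))))))) (.cut .v 268435456 (.cut .v 67108864 (.cut .d (-8388608) (.void 8 ⟨0, 0, 0, 0, 0, 100000, 0, 0, 0, ⟨0, 0⟩, 0⟩ 0 0) (.cut .d (-4194304) (.void 8 ⟨100000, 0, 0, 0, 0, 0, 0, 0, 0, ⟨0, 0⟩, 0⟩ 0 0)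 (.cut .d (-2097152) (.void 8 ⟨100000, 0, 0, 0, 0, 0, 0, 0, 0, ⟨0, 0⟩, 0⟩ 0 0) (.cut .v 33554432 (.cut .v 25165824 (.cut .d (-1048576) (.cut .v 20971520 (.cut .v 18874368 (.cut .d (-1572864) (.void 15 ⟨100000, 0, 0, 0, 0, 0, 0, 0, 0, ⟨0, 0⟩, 0⟩ 0 0) (.cut .l 7092186 (.void 15 ⟨100000, 0, 0, 0, 0, 0, 0, 0, 0, ⟨0, 0⟩, 0⟩ 0 0) (.cut .s 11993088 (.cut .v 17825792 (.cut .l 9646899 (.pos 17 .mp ⟨261408556, 0, 0, 0, 0, 0, 0, 0, 0, ⟨0, 0⟩, 0⟩ 0 0) (.cut .d (-1310720) (.cut .s 11862016 (.pos 17 .mp ⟨235304033, 0, 0, 0, 0, 0, 0, 0, 0, ⟨0, 0⟩, 0⟩ 0 0) (.pos 17 .mp ⟨266790943, 0, 0, 0, 0, 0, 0, 0, 0, ⟨0, 0⟩, 0⟩ 0 0)) (.cut .s 11862016 (.pos 17 .mp ⟨210727261, 0, 0, 0,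 0, 0, 0, 0, 0, ⟨0, 0⟩, 0⟩ 0 0) (.pos 17 .mp ⟨235473086, 0, 0, 0, 0, 0, 0, 0, 0, ⟨0, 0⟩, 0⟩ 0 0)))) (.pos 18 .mp ⟨272476497, 0, 0, 0, 0, 0, 0, 0, 0, ⟨0, 0⟩, 0⟩ 0 0)) (.cut .d (-1310720) (.void 15 ⟨100000, 0, 0, 0, 0, 0, 0, 0, 0, ⟨0, 0⟩, 0⟩ 0 0) (.cut .s 12124160 (.cut .s 12058624 (.pos 15 .mp ⟨266438463, 0, 0, 0, 0, 0, 0, 0, 0, ⟨0, 0⟩, 0⟩ 0 0) (.pos 15 .mp ⟨280998563, 0, 0, 0, 0, 0, 0, 0, 0, ⟨0, 0⟩, 0⟩ 0 0)) (.pos 15 .mp ⟨308359841, 0, 0, 0, 0, 0, 0, 0, 0, ⟨0, 0⟩, 0⟩ 0 0)))))) (.pos 16 .mp ⟨427391625, 0, 0, 0, 0, 0, 0, 0, 0, ⟨0, 0⟩, 0⟩ 0 0)) (.void 14 ⟨100000, 0, 0, 0, 0, 0, 0, 0, 0, ⟨0, 0⟩, 0⟩ 0 0)) (.cut .v 20971520 (.cut .d (-524288) (.cut .l 7092186 (.cut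 .v 18874368 (.cut .d (-786432) (.pos 15 .mp ⟨306852599, 0, 0, 0, 0, 0, 0, 0, 0, ⟨0, 0⟩, 0⟩ 0 0) (.cut .l 4537473 (.void 15 ⟨0, 0, 0, 0, 0, 100000, 0, 0, 0, ⟨0, 0⟩, 0⟩ 0 0) (.cut .s 11993088 (.pos 15 .mp ⟨213096833, 0, 0, 0, 0, 0, 0, 0, 0, ⟨0, 0⟩, 0⟩ 0 0) (.pos 15 .mp ⟨264592268, 0, 0, 0, 0, 0, 0, 0, 0, ⟨0, 0⟩, 0⟩ 0 0)))) (.pos 16 .mp ⟨352732161, 0, 0, 0, 0, 0, 0, 0, 0, ⟨0, 0⟩, 0⟩ 0 0)) (.cut .v 18874368 (.cut .s 11993088 (.cut .s 11862016 (.pos 15 .mp ⟨199729559, 0, 0, 0, 0, 0, 0, 0, 0, ⟨0, 0⟩, 0⟩ 0 0) (.pos 15 .mp ⟨222328665, 0, 0, 0, 0, 0, 0, 0, 0, ⟨0, 0⟩, 0⟩ 0 0)) (.cut .s 12124160 (.pos 15 .mp ⟨247106231, 0, 0, 0, 0, 0, 0, 0, 0, ⟨0, 0⟩, 0⟩ 0 0) (.cut .s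 12189696 (.pos 15 .mp ⟨267802425, 0, 0, 0, 0, 0, 0, 0, 0, ⟨0, 0⟩, 0⟩ 0 0) (.pos 15 .mp ⟨281798508, 0, 0, 0, 0, 0, 0, 0, 0, ⟨0, 0⟩, 0⟩ 0 0)))) (.cut .s 11993088 (.pos 16 .mp ⟨259709761, 0, 0, 0, 0, 0, 0, 0, 0, ⟨0, 0⟩, 0⟩ 0 0) (.pos 16 .mp ⟨320024003, 0, 0, 0, 0, 0, 0, 0, 0, ⟨0, 0⟩, 0⟩ 0 0)))) (.cut .l 7092186 (.cut .v 18874368 (.cut .s 11993088 (.cut .v 17825792 (.cut .l 4537473 (.cut .d (-262144) (.cut .d (-393216) (.pos 17 .mp ⟨182181874, 0, 0, 0, 0, 49275892, 0, 0, 0, ⟨0, 0⟩, 0⟩ 0 0) (.cut .l 3260117 (.cut .s 11862016 (.pos 17 .mp ⟨94591589, 0, 0, 0, 0, 156946088, 0, 0, 0, ⟨0, 0⟩, 0⟩ 0 0) (.pos 17 .mp ⟨107397789, 0, 0, 0, 0, 170775506, 0, 0, 0, ⟨0, 0⟩, 0⟩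 0 0)) (.pos 17 .mp ⟨134533301, 0, 0, 0, 0, 69866405, 0, 0, 0, ⟨0, 0⟩, 0⟩ 0 0))) (.cut .d (-131072) (.cut .v 17301504 (.cut .l 3260117 (.cut .l 2621439 (.cut .s 11862016 (.cut .d (-196608) (.pos 19 .mp ⟨76861565, 0, 0, 0, 0, 170139436, 0, 0, 0, ⟨0, 0⟩, 0⟩ 0 0) (.cut .d (-163840) (.cut .s 11796480 (.pos 19 .mp ⟨80667064, 0, 0, 0, 0, 139164794, 0, 0, 0, ⟨0, 0⟩, 0⟩ 0 0) (.pos 19 .mp ⟨85969431, 0, 0, 0, 0, 145254981, 0, 0, 0, ⟨0, 0⟩, 0⟩ 0 0)) (.pos 19 .mp ⟨90177851, 0, 0, 0, 0, 0, 0, 0, 0, ⟨0, 0⟩, 0⟩ 0 0))) (.cut .d (-196608) (.pos 19 .mp ⟨86541731, 0, 0, 0, 0, 188433746, 0, 0, 0, ⟨0, 0⟩, 0⟩ 0 0) (.cut .v 17039360 (.pos 67 .mp ⟨0, 0, 0, 0, 0, 272947089, 0, 0, 0,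 ⟨0, 0⟩, 0⟩ 0 0) (.cut .d (-163840) (.pos 68 .mp ⟨98657331, 0, 0, 0, 0, 155331351, 0, 0, 0, ⟨0, 0⟩, 0⟩ 0 0) (.pos 68 .mp ⟨103838865, 0, 0, 0, 0, 111726517, 0, 0, 0, ⟨0, 0⟩, 0⟩ 0 0))))) (.pos 19 .mp ⟨110637184, 0, 0, 0, 0, 77176426, 0, 0, 0, ⟨0, 0⟩, 0⟩ 0 0)) (.pos 19 .mp ⟨0, 0, 0, 0, 0, 0, 0, 0, 0, ⟨0, 0⟩, 0⟩ 0 0)) (.pos 20 .mp ⟨202198485, 0, 0, 0, 0, 0, 0, 0, 0, ⟨0, 0⟩, 0⟩ 0 0)) (.pos 17 .mp ⟨92504924, 0, 0, 0, 0, 0, 0, 0, 0, ⟨0, 0⟩, 0⟩ 0 0))) (.pos 17 .mp ⟨141238035, 0, 0, 0, 0, 40388821, 0, 0, 0, ⟨0, 0⟩, 0⟩ 0 0)) (.pos 18 .mp ⟨214978702, 0, 0, 0, 0, 0, 0, 0, 0, ⟨0, 0⟩, 0⟩ 0 0)) (.cut .v 17825792 (.cut .l 4537473 (.cut .d (-262144) (.cut .l 3260117 (.pos 17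 .mp ⟨106295696, 0, 0, 0, 0, 250491474, 0, 0, 0, ⟨0, 0⟩, 0⟩ 0 0) (.cut .d (-393216) (.pos 17 .mp ⟨206013771, 0, 0, 0, 0, 71247072, 0, 0, 0, ⟨0, 0⟩, 0⟩ 0 0) (.pos 17 .mp ⟨169149595, 0, 0, 0, 0, 87774498, 0, 0, 0, ⟨0, 0⟩, 0⟩ 0 0))) (.cut .d (-131072) (.cut .v 17301504 (.cut .l 3260117 (.cut .l 2621439 (.cut .d (-196608) (.pos 19 .mp ⟨97011629, 0, 0, 0, 0, 228498523, 0, 0, 0, ⟨0, 0⟩, 0⟩ 0 0) (.cut .v 17039360 (.pos 67 .mp ⟨0, 0, 0, 0, 0, 318886180, 0, 0, 0, ⟨0, 0⟩, 0⟩ 0 0) (.cut .l 2302100 (.cut .d (-163840) (.cut .s 12124160 (.pos 68 .mp ⟨112840508, 0, 0, 0, 0, 166910989, 0, 0, 0, ⟨0, 0⟩, 0⟩ 0 0) (.pos 68 .mp ⟨127125439, 0, 0, 0, 0, 181169982, 0, 0, 0, ⟨0, 0⟩,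 0⟩ 0 0)) (.cut .s 12124160 (.cut .s 12058624 (.pos 68 .mp ⟨109651019, 0, 0, 0, 0, 131784109, 0, 0, 0, ⟨0, 0⟩, 0⟩ 0 0) (.pos 68 .mp ⟨115687065, 0, 0, 0, 0, 138876071, 0, 0, 0, ⟨0, 0⟩, 0⟩ 0 0)) (.pos 68 .mp ⟨128468096, 0, 0, 0, 0, 140087627, 0, 0, 0, ⟨0, 0⟩, 0⟩ 0 0))) (.pos 68 .mp ⟨130791003, 0, 0, 0, 0, 106894190, 0, 0, 0, ⟨0, 0⟩, 0⟩ 0 0)))) (.pos 19 .mp ⟨138030562, 0, 0, 0, 0, 97604495, 0, 0, 0, ⟨0, 0⟩, 0⟩ 0 0)) (.pos 19 .mp ⟨122957301, 0, 0, 0, 0, 0, 0, 0, 0, ⟨0, 0⟩, 0⟩ 0 0)) (.pos 20 .mp ⟨246599752, 0, 0, 0, 0, 0, 0, 0, 0, ⟨0, 0⟩, 0⟩ 0 0)) (.pos 17 .mp ⟨116877416, 0, 0, 0, 0, 0, 0, 0, 0, ⟨0, 0⟩, 0⟩ 0 0))) (.pos 17 .mp ⟨179275264, 0, 0, 0, 0, 44209780, 0,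 0, 0, ⟨0, 0⟩, 0⟩ 0 0)) (.pos 18 .mp ⟨261258884, 0, 0, 0, 0, 0, 0, 0, 0, ⟨0, 0⟩, 0⟩ 0 0))) (.cut .s 11993088 (.pos 16 .mp ⟨242308333, 0, 0, 0, 0, 0, 0, 0, 0, ⟨0, 0⟩, 0⟩ 0 0) (.pos 16 .mp ⟨294263276, 0, 0, 0, 0, 0, 0, 0, 0, ⟨0, 0⟩, 0⟩ 0 0))) (.pos 13 .mp ⟨148362300, 0, 0, 0, 0, 0, 0, 0, 0, ⟨0, 0⟩, 0⟩ 0 0))) (.cut .d (-524288) (.cut .s 11993088 (.pos 14 .mp ⟨355752756, 0, 0, 0, 0, 0, 0, 0, 0, ⟨0, 0⟩, 0⟩ 0 0) (.pos 14 .mp ⟨434115577, 0, 0, 0, 0, 0, 0, 0, 0, ⟨0, 0⟩, 0⟩ 0 0)) (.cut .s 11993088 (.pos 14 .mp ⟨299121878, 0, 0, 0, 0, 0, 0, 0, 0, ⟨0, 0⟩, 0⟩ 0 0) (.pos 14 .mp ⟨362561829, 0, 0, 0, 0, 0, 0, 0, 0, ⟨0, 0⟩, 0⟩ 0 0))))) (.cut .d (-1048576) (.void 12 ⟨100000,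 0, 0, 0, 0, 0, 0, 0, 0, ⟨0, 0⟩, 0⟩ 0 0) (.cut .v 29360128 (.cut .s 11993088 (.pos 27 .mp ⟨452604452, 0, 0, 0, 0, 0, 0, 0, 0, ⟨0, 0⟩, 0⟩ 0 0) (.pos 27 .mp ⟨545139507, 0, 0, 0, 0, 0, 0, 0, 0, ⟨0, 0⟩, 0⟩ 0 0)) (.pos 28 .mp ⟨700407511, 0, 0, 0, 0, 0, 0, 0, 0, ⟨0, 0⟩, 0⟩ 0 0)))) (.pos 10 .mp ⟨2897164052, 0, 0, 0, 0, 0, 0, 0, 0, ⟨0, 0⟩, 0⟩ 0 0))))) (.void 49 ⟨100000, 0, 0, 0, 0, 0, 0, 0, 0, ⟨0, 0⟩, 0⟩ 0 0)) (.void 64 ⟨94262, 0, 0, 5738, 0, 0, 0, 0, 0, ⟨0, 0⟩, 0⟩ 0 0))) (.cut .v 16777216 (.cut .v 8388608 (.cut .v 4194304 (.cut .v 2097152 (.cut .v 1048576 (.pos 95 .pm ⟨0, 0, 12751654, 0, 8310744, 0, 0, 0, 15600689, ⟨0, 0⟩, 1983364⟩ 0 0) (.pos 96 .pm ⟨0, 2454926, 0,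 0, 0, 0, 0, 0, 11182142, ⟨0, 0⟩, 4987896⟩ 0 0)) (.cut .d 3608508 (.pos 72 .pm ⟨0, 0, 7663707, 0, 0, 0, 0, 0, 0, ⟨0, 0⟩, 0⟩ 0 0) (.cut .d 5412762 (.pos 72 .pm ⟨0, 0, 0, 0, 0, 0, 0, 0, 0, ⟨0, 0⟩, 0⟩ 0 0) (.cut .d 6314889 (.pos 72 .pm ⟨0, 46175545, 0, 0, 0, 0, 0, 0, 0, ⟨0, 0⟩, 0⟩ 0 0) (.pos 72 .pm ⟨0, 69699957, 0, 0, 0, 0, 0, 0, 0, ⟨0, 0⟩, 0⟩ 0 0))))) (.cut .d 3608508 (.pos 5 .pm ⟨0, 0, 0, 0, 0, 0, 0, 0, 0, ⟨0, 0⟩, 0⟩ 0 0) (.cut .d 5412762 (.pos 5 .pm ⟨0, 0, 0, 0, 0, 0, 0, 0, 0, ⟨0, 0⟩, 0⟩ 0 0) (.cut .l 7092186 (.cut .d 6314889 (.cut .v 6291456 (.cut .s 11993088 (.pos 73 .pm ⟨0, 46690480, 0, 0, 0, 0, 0, 0, 0, ⟨0, 0⟩, 0⟩ 0 0) (.pos 73 .pm ⟨0, 65046512, 0, 0, 0,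 0, 0, 0, 0, ⟨0, 0⟩, 0⟩ 0 0)) (.pos 74 .pm ⟨0, 56696715, 0, 0, 0, 0, 0, 0, 0, ⟨0, 0⟩, 0⟩ 0 0)) (.cut .s 11993088 (.cut .l 4537473 (.cut .v 6291456 (.cut .d 6765953 (.cut .s 11862016 (.pos 73 .pm ⟨0, 57863344, 0, 0, 0, 0, 0, 0, 0, ⟨0, 0⟩, 0⟩ 0 0) (.pos 73 .pm ⟨0, 69821103, 0, 0, 0, 0, 0, 0, 0, ⟨0, 0⟩, 0⟩ 0 0)) (.pos 73 .pm ⟨0, 176426104, 0, 0, 0, 0, 0, 0, 0, ⟨0, 0⟩, 0⟩ 0 0)) (.cut .d 6765953 (.pos 74 .pm ⟨0, 66842531, 0, 0, 0, 0, 0, 0, 0, ⟨0, 0⟩, 0⟩ 0 0) (.void 74 ⟨0, 100000, 0, 0, 0, 0, 0, 0, 0, ⟨0, 0⟩, 0⟩ 0 0))) (.pos 5 .pm ⟨0, 68714634, 0, 0, 0, 0, 0, 0, 0, ⟨0, 0⟩, 0⟩ 0 0)) (.pos 5 .pm ⟨0, 387331096, 0, 0, 0, 0, 0, 0, 0, ⟨0, 0⟩, 0⟩ 0 0))) (.pos 5 .pm ⟨0,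 68528417, 0, 0, 0, 0, 0, 0, 0, ⟨0, 0⟩, 0⟩ 0 0))))) (.cut .d 3608508 (.pos 3 .pm ⟨0, 0, 0, 0, 0, 0, 0, 0, 0, ⟨0, 0⟩, 0⟩ 0 0) (.cut .d 5412762 (.pos 3 .pm ⟨0, 0, 0, 0, 0, 0, 0, 0, 0, ⟨0, 0⟩, 0⟩ 0 0) (.pos 3 .pm ⟨0, 93120548, 0, 0, 0, 0, 0, 0, 0, ⟨0, 0⟩, 0⟩ 0 0)))) (.cut .v 268435456 (.cut .d 3608508 (.cut .v 67108864 (.cut .d 1804254 (.cut .v 33554432 (.cut .d 902127 (.cut .d 451063 (.cut .v 25165824 (.cut .v 20971520 (.pos 13 .pp ⟨95539896, 0, 0, 0, 0, 0, 0, 0, 0, ⟨0, 0⟩, 0⟩ 0 0) (.pos 14 .pp ⟨255949228, 0, 0, 0, 0, 0, 0, 0, 0, ⟨0, 0⟩, 0⟩ 0 0)) (.cut .v 29360128 (.pos 27 .pp ⟨368684744, 0, 0, 0, 0, 0, 0, 0, 0, ⟨0, 0⟩, 0⟩ 0 0) (.pos 28 .pp ⟨500679706, 0, 0,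 0, 0, 0, 0, 0, 0, ⟨0, 0⟩, 0⟩ 0 0))) (.pos 9 .pp ⟨119241777, 0, 0, 0, 0, 0, 0, 0, 0, ⟨0, 0⟩, 0⟩ 0 0)) (.pos 9 .pp ⟨0, 0, 0, 0, 0, 0, 0, 0, 0, ⟨0, 0⟩, 0⟩ 0 0)) (.cut .v 50331648 (.cut .d 902127 (.cut .v 41943040 (.cut .v 37748736 (.pos 43 .pp ⟨615148564, 0, 0, 0, 0, 0, 0, 0, 0, ⟨0, 0⟩, 0⟩ 0 0) (.pos 44 .pp ⟨776467132, 0, 0, 0, 0, 0, 0, 0, 0, ⟨0, 0⟩, 0⟩ 0 0)) (.pos 32 .pp ⟨1081462827, 0, 0, 0, 0, 0, 0, 0, 0, ⟨0, 0⟩, 0⟩ 0 0)) (.pos 29 .pp ⟨471889285, 0, 0, 0, 0, 0, 0, 0, 0, ⟨0, 0⟩, 0⟩ 0 0)) (.cut .d 902127 (.cut .v 58720256 (.pos 93 .pp ⟨1732993788, 0, 0, 0, 0, 0, 0, 0, 0, ⟨0, 0⟩, 0⟩ 0 0) (.pos 94 .pp ⟨2450074383, 0, 0, 0, 0, 0, 0, 0, 0, ⟨0, 0⟩, 0⟩ 0 0)) (.pos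 30 .pp ⟨1196018837, 0, 0, 0, 0, 0, 0, 0, 0, ⟨0, 0⟩, 0⟩ 0 0)))) (.pos 8 .pp ⟨0, 0, 0, 0, 0, 0, 0, 0, 0, ⟨0, 0⟩, 0⟩ 0 0)) (.cut .v 134217728 (.cut .v 100663296 (.cut .d 1804254 (.cut .d 902127 (.pos 77 .pp ⟨5538891389, 0, 0, 0, 0, 0, 0, 0, 0, ⟨0, 0⟩, 0⟩ 0 0) (.cut .v 83886080 (.cut .v 75497472 (.pos 105 .pp ⟨2065891836, 0, 0, 0, 0, 0, 0, 0, 0, ⟨0, 0⟩, 0⟩ 0 0) (.void 106 ⟨38778, 61222, 0, 0, 0, 0, 0, 0, 0, ⟨0, 0⟩, 0⟩ 0 0)) (.void 104 ⟨0, 100000, 0, 0, 0, 0, 0, 0, 0, ⟨0, 0⟩, 0⟩ 0 0))) (.void 77 ⟨0, 100000, 0, 0, 0, 0, 0, 0, 0, ⟨0, 0⟩, 0⟩ 0 0)) (.void 78 ⟨38196, 61804, 0, 0, 0, 0, 0, 0, 0, ⟨0, 0⟩, 0⟩ 0 0)) (.void 66 ⟨0, 0, 0, 100000, 0, 0, 0, 0, 0, ⟨0, 0⟩, 0⟩ 0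 0))) (.pos 48 .pp ⟨0, 43928956, 0, 0, 0, 0, 0, 0, 0, ⟨0, 0⟩, 0⟩ 0 0)) (.void 64 ⟨0, 0, 0, 100000, 0, 0, 0, 0, 0, ⟨0, 0⟩, 0⟩ 0 0)))),
    by decide +kernel⟩

def covers18 : cell.Covers table row18.1 :=
  ⟨(.cut .d 0 (.cut .v 16777216 (.cut .d (-8388608) (.void 1 ⟨0, 0, 0, 0, 0, 100000, 0, 0, 0, ⟨0, 0⟩, 0⟩ 0 0) (.cut .d (-4194304) (.void 1 ⟨0, 0, 0, 0, 0, 100000, 0, 0, 0, ⟨0, 0⟩, 0⟩ 0 0) (.cut .d (-2097152) (.void 1 ⟨0, 0, 0, 0, 0, 100000, 0, 0, 0, ⟨0, 0⟩, 0⟩ 0 0) (.cut .v 8388608 (.cut .v 4194304 (.void 4 ⟨0, 0, 100000, 0, 0, 0, 0, 0, 0, ⟨0, 0⟩, 0⟩ 0 0) (.pos 5 .mm ⟨0, 0, 43600284, 0, 0, 188065899, 0, 0, 0, ⟨0, 0⟩, 0⟩ 0 0)) (.cut .d (-1048576) (.cut .d (-1572864)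 (.void 3 ⟨0, 0, 0, 0, 0, 100000, 0, 0, 0, ⟨0, 0⟩, 0⟩ 0 0) (.cut .d (-1310720) (.void 3 ⟨0, 0, 0, 0, 0, 100000, 0, 0, 0, ⟨0, 0⟩, 0⟩ 0 0) (.cut .v 12582912 (.pos 6 .mm ⟨0, 0, 0, 0, 0, 382391494, 0, 0, 0, ⟨0, 0⟩, 0⟩ 0 0) (.cut .v 14680064 (.pos 33 .mm ⟨0, 0, 0, 0, 0, 459501767, 0, 0, 0, ⟨0, 0⟩, 0⟩ 0 0) (.cut .l 7092186 (.void 34 ⟨0, 0, 0, 0, 0, 100000, 0, 0, 0, ⟨0, 0⟩, 0⟩ 0 0) (.cut .l 9646899 (.void 34 ⟨0, 0, 0, 0, 0, 100000, 0, 0, 0, ⟨0, 0⟩, 0⟩ 0 0) (.cut .s 12484608 (.cut .v 15728640 (.pos 35 .mm ⟨0, 0, 0, 0, 0, 438726890, 0, 0, 0, ⟨0, 0⟩, 0⟩ 0 0) (.cut .l 10924255 (.pos 36 .mm ⟨157036295, 0, 0, 0, 0, 297414716, 0, 0, 0, ⟨0, 0⟩, 0⟩ 0 0) (.cut .d (-1179648)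 (.cut .v 16252928 (.pos 50 .mm ⟨0, 0, 0, 0, 0, 497250668, 0, 0, 0, ⟨0, 0⟩, 0⟩ 0 0) (.cut .s 12369920 (.cut .s 12312576 (.pos 51 .mm ⟨224931680, 0, 0, 0, 0, 125416385, 0, 0, 0, ⟨0, 0⟩, 0⟩ 0 0) (.pos 51 .mm ⟨239717855, 0, 0, 0, 0, 128002771, 0, 0, 0, ⟨0, 0⟩, 0⟩ 0 0)) (.pos 51 .mm ⟨208788877, 0, 0, 0, 0, 242726110, 0, 0, 0, ⟨0, 0⟩, 0⟩ 0 0))) (.cut .v 16252928 (.cut .s 12369920 (.pos 50 .mm ⟨0, 0, 0, 0, 0, 396927932, 0, 0, 0, ⟨0, 0⟩, 0⟩ 0 0) (.pos 50 .mm ⟨0, 0, 0, 0, 0, 466954220, 0, 0, 0, ⟨0, 0⟩, 0⟩ 0 0)) (.cut .s 12369920 (.pos 51 .mm ⟨223974275, 0, 0, 0, 0, 103195808, 0, 0, 0, ⟨0, 0⟩, 0⟩ 0 0) (.cut .s 12427264 (.pos 51 .mm ⟨215314471, 0, 0, 0, 0, 155136463,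 0, 0, 0, ⟨0, 0⟩, 0⟩ 0 0) (.pos 51 .mm ⟨229536616, 0, 0, 0, 0, 158613763, 0, 0, 0, ⟨0, 0⟩, 0⟩ 0 0))))))) (.cut .d (-1179648) (.void 34 ⟨0, 0, 0, 0, 0, 100000, 0, 0, 0, ⟨0, 0⟩, 0⟩ 0 0) (.cut .v 15728640 (.pos 35 .mm ⟨0, 0, 0, 0, 0, 524052448, 0, 0, 0, ⟨0, 0⟩, 0⟩ 0 0) (.cut .l 10924255 (.void 36 ⟨0, 0, 0, 0, 0, 100000, 0, 0, 0, ⟨0, 0⟩, 0⟩ 0 0) (.cut .v 16252928 (.cut .v 15990784 (.pos 107 .mm ⟨0, 0, 0, 0, 0, 539090509, 0, 0, 0, ⟨0, 0⟩, 0⟩ 0 0) (.cut .l 11562933 (.pos 108 .mm ⟨0, 0, 0, 0, 0, 578953182, 0, 0, 0, ⟨0, 0⟩, 0⟩ 0 0) (.cut .s 12599296 (.cut .d (-1114112) (.pos 108 .mm ⟨0, 0, 0, 0, 0, 540049646, 0, 0, 0, ⟨0, 0⟩, 0⟩ 0 0) (.pos 108 .mm ⟨171092900, 0, 0,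 0, 0, 259342423, 0, 0, 0, ⟨0, 0⟩, 0⟩ 0 0)) (.cut .d (-1114112) (.void 108 ⟨0, 0, 0, 0, 0, 100000, 0, 0, 0, ⟨0, 0⟩, 0⟩ 0 0) (.pos 108 .mm ⟨195176626, 0, 0, 0, 0, 280667008, 0, 0, 0, ⟨0, 0⟩, 0⟩ 0 0))))) (.cut .s 12599296 (.cut .d (-1114112) (.cut .s 12541952 (.pos 51 .mm ⟨244572198, 0, 0, 0, 0, 170934590, 0, 0, 0, ⟨0, 0⟩, 0⟩ 0 0) (.pos 51 .mm ⟨260452169, 0, 0, 0, 0, 174974358, 0, 0, 0, ⟨0, 0⟩, 0⟩ 0 0)) (.pos 51 .mm ⟨331956119, 0, 0, 0, 0, 27459974, 0, 0, 0, ⟨0, 0⟩, 0⟩ 0 0)) (.pos 51 .mm ⟨401913454, 0, 0, 0, 0, 0, 0, 0, 0, ⟨0, 0⟩, 0⟩ 0 0))))))))))))) (.cut .v 12582912 (.cut .d (-524288) (.pos 6 .mm ⟨0, 0, 0, 0, 0, 308148083, 0, 0, 0, ⟨0, 0⟩, 0⟩ 0 0) (.pos 6 .mm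 ⟨0, 0, 0, 0, 0, 224158885, 0, 0, 0, ⟨0, 0⟩, 0⟩ 0 0)) (.cut .d (-524288) (.cut .l 7092186 (.cut .d (-786432) (.void 7 ⟨0, 0, 0, 0, 0, 100000, 0, 0, 0, ⟨0, 0⟩, 0⟩ 0 0) (.cut .s 12484608 (.pos 7 .mm ⟨59353704, 0, 0, 0, 0, 359479080, 0, 0, 0, ⟨0, 0⟩, 0⟩ 0 0) (.pos 7 .mm ⟨76489225, 0, 0, 0, 0, 423417660, 0, 0, 0, ⟨0, 0⟩, 0⟩ 0 0))) (.cut .v 14680064 (.pos 33 .mm ⟨0, 0, 0, 0, 0, 373524541, 0, 0, 0, ⟨0, 0⟩, 0⟩ 0 0) (.cut .s 12484608 (.cut .v 15728640 (.pos 35 .mm ⟨0, 0, 0, 0, 0, 383370491, 0, 0, 0, ⟨0, 0⟩, 0⟩ 0 0) (.cut .d (-786432) (.cut .s 12369920 (.cut .l 9646899 (.pos 36 .mm ⟨115347435, 0, 0, 0, 0, 270474966, 0, 0, 0, ⟨0, 0⟩, 0⟩ 0 0) (.pos 36 .mm ⟨203439763,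 0, 0, 0, 0, 93327130, 0, 0, 0, ⟨0, 0⟩, 0⟩ 0 0)) (.cut .v 16252928 (.pos 50 .mm ⟨0, 0, 0, 0, 0, 429198878, 0, 0, 0, ⟨0, 0⟩, 0⟩ 0 0) (.cut .s 12427264 (.pos 51 .mm ⟨283670589, 0, 0, 0, 0, 34887011, 0, 0, 0, ⟨0, 0⟩, 0⟩ 0 0) (.pos 51 .mm ⟨300206562, 0, 0, 0, 0, 30542447, 0, 0, 0, ⟨0, 0⟩, 0⟩ 0 0)))) (.cut .s 12369920 (.pos 36 .mm ⟨168556943, 0, 0, 0, 0, 130382183, 0, 0, 0, ⟨0, 0⟩, 0⟩ 0 0) (.pos 36 .mm ⟨198097852, 0, 0, 0, 0, 121014495, 0, 0, 0, ⟨0, 0⟩, 0⟩ 0 0)))) (.cut .v 15728640 (.pos 35 .mm ⟨0, 0, 0, 0, 0, 465340334, 0, 0, 0, ⟨0, 0⟩, 0⟩ 0 0) (.cut .d (-786432) (.cut .l 9646899 (.pos 36 .mm ⟨148849353, 0, 0, 0, 0, 351745884, 0, 0, 0, ⟨0, 0⟩, 0⟩ 0 0) (.cut .d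 (-917504) (.cut .v 16252928 (.cut .s 12599296 (.pos 50 .mm ⟨0, 0, 0, 0, 0, 469383986, 0, 0, 0, ⟨0, 0⟩, 0⟩ 0 0) (.pos 50 .mm ⟨43364744, 0, 0, 0, 0, 456379369, 0, 0, 0, ⟨0, 0⟩, 0⟩ 0 0)) (.cut .s 12599296 (.pos 51 .mm ⟨273027795, 0, 0, 0, 0, 97300253, 0, 0, 0, ⟨0, 0⟩, 0⟩ 0 0) (.pos 51 .mm ⟨307033052, 0, 0, 0, 0, 93898894, 0, 0, 0, ⟨0, 0⟩, 0⟩ 0 0))) (.pos 36 .mm ⟨240363669, 0, 0, 0, 0, 108756664, 0, 0, 0, ⟨0, 0⟩, 0⟩ 0 0))) (.cut .s 12599296 (.pos 36 .mm ⟨227114936, 0, 0, 0, 0, 115420965, 0, 0, 0, ⟨0, 0⟩, 0⟩ 0 0) (.pos 36 .mm ⟨253867591, 0, 0, 0, 0, 116509102, 0, 0, 0, ⟨0, 0⟩, 0⟩ 0 0))))))) (.cut .l 7092186 (.cut .v 14680064 (.pos 33 .mm ⟨0, 0, 0, 0, 0, 336556497,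 0, 0, 0, ⟨0, 0⟩, 0⟩ 0 0) (.cut .s 12484608 (.cut .v 15728640 (.pos 35 .mm ⟨0, 0, 0, 0, 0, 354127021, 0, 0, 0, ⟨0, 0⟩, 0⟩ 0 0) (.cut .l 4537473 (.cut .d (-262144) (.pos 36 .mm ⟨0, 0, 0, 0, 0, 423202240, 0, 0, 0, ⟨0, 0⟩, 0⟩ 0 0) (.pos 36 .mm ⟨0, 0, 0, 0, 0, 376867220, 0, 0, 0, ⟨0, 0⟩, 0⟩ 0 0)) (.pos 36 .mm ⟨0, 0, 0, 0, 0, 371232051, 0, 0, 0, ⟨0, 0⟩, 0⟩ 0 0))) (.cut .v 15728640 (.pos 35 .mm ⟨0, 0, 0, 0, 0, 424426682, 0, 0, 0, ⟨0, 0⟩, 0⟩ 0 0) (.cut .d (-262144) (.cut .s 12599296 (.pos 36 .mm ⟨0, 0, 0, 0, 0, 465494079, 0, 0, 0, ⟨0, 0⟩, 0⟩ 0 0) (.pos 36 .mm ⟨51409325, 0, 0, 0, 0, 437496679, 0, 0, 0, ⟨0, 0⟩, 0⟩ 0 0)) (.cut .s 12599296 (.pos 36 .mm ⟨0, 0, 0, 0, 0,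 432408414, 0, 0, 0, ⟨0, 0⟩, 0⟩ 0 0) (.pos 36 .mm ⟨0, 0, 0, 0, 0, 473006406, 0, 0, 0, ⟨0, 0⟩, 0⟩ 0 0)))))) (.pos 7 .mm ⟨0, 0, 0, 0, 0, 0, 0, 0, 0, ⟨0, 0⟩, 0⟩ 0 0))))))))) (.cut .v 268435456 (.cut .v 67108864 (.cut .d (-8388608) (.void 8 ⟨100000, 0, 0, 0, 0, 0, 0, 0, 0, ⟨0, 0⟩, 0⟩ 0 0) (.cut .d (-4194304) (.void 8 ⟨100000, 0, 0, 0, 0, 0, 0, 0, 0, ⟨0, 0⟩, 0⟩ 0 0) (.cut .d (-2097152) (.void 8 ⟨100000, 0, 0, 0, 0, 0, 0, 0, 0, ⟨0, 0⟩, 0⟩ 0 0) (.cut .v 33554432 (.cut .v 25165824 (.cut .d (-1048576) (.cut .v 20971520 (.cut .d (-1572864) (.void 13 ⟨100000, 0, 0, 0, 0, 0, 0, 0, 0, ⟨0, 0⟩, 0⟩ 0 0) (.cut .s 12484608 (.cut .v 18874368 (.cut .s 12369920 (.pos 15 .mp ⟨362047990,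 0, 0, 0, 0, 0, 0, 0, 0, ⟨0, 0⟩, 0⟩ 0 0) (.pos 15 .mp ⟨399966205, 0, 0, 0, 0, 0, 0, 0, 0, ⟨0, 0⟩, 0⟩ 0 0)) (.void 16 ⟨100000, 0, 0, 0, 0, 0, 0, 0, 0, ⟨0, 0⟩, 0⟩ 0 0)) (.pos 13 .mp ⟨524779666, 0, 0, 0, 0, 0, 0, 0, 0, ⟨0, 0⟩, 0⟩ 0 0))) (.void 14 ⟨100000, 0, 0, 0, 0, 0, 0, 0, 0, ⟨0, 0⟩, 0⟩ 0 0)) (.cut .v 20971520 (.cut .d (-524288) (.cut .v 18874368 (.cut .l 7092186 (.cut .s 12484608 (.cut .s 12369920 (.pos 15 .mp ⟨331140300, 0, 0, 0, 0, 0, 0, 0, 0, ⟨0, 0⟩, 0⟩ 0 0) (.pos 15 .mp ⟨361046900, 0, 0, 0, 0, 0, 0, 0, 0, ⟨0, 0⟩, 0⟩ 0 0)) (.pos 15 .mp ⟨423818474, 0, 0, 0, 0, 0, 0, 0, 0, ⟨0, 0⟩, 0⟩ 0 0)) (.cut .s 12484608 (.cut .d (-786432) (.cut .l 9646899 (.pos 15 .mp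 ⟨341554910, 0, 0, 0, 0, 0, 0, 0, 0, ⟨0, 0⟩, 0⟩ 0 0) (.pos 15 .mp ⟨310062220, 0, 0, 0, 0, 0, 0, 0, 0, ⟨0, 0⟩, 0⟩ 0 0)) (.pos 15 .mp ⟨293591561, 0, 0, 0, 0, 0, 0, 0, 0, ⟨0, 0⟩, 0⟩ 0 0)) (.cut .d (-786432) (.cut .s 12599296 (.pos 15 .mp ⟨370862958, 0, 0, 0, 0, 0, 0, 0, 0, ⟨0, 0⟩, 0⟩ 0 0) (.pos 15 .mp ⟨405172507, 0, 0, 0, 0, 0, 0, 0, 0, ⟨0, 0⟩, 0⟩ 0 0)) (.pos 15 .mp ⟨347494395, 0, 0, 0, 0, 0, 0, 0, 0, ⟨0, 0⟩, 0⟩ 0 0)))) (.cut .s 12484608 (.pos 16 .mp ⟨403408253, 0, 0, 0, 0, 0, 0, 0, 0, ⟨0, 0⟩, 0⟩ 0 0) (.pos 16 .mp ⟨477055997, 0, 0, 0, 0, 0, 0, 0, 0, ⟨0, 0⟩, 0⟩ 0 0))) (.cut .l 7092186 (.cut .v 18874368 (.cut .s 12484608 (.cut .v 17825792 (.cut .d (-262144) (.cut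 .l 4537473 (.cut .s 12369920 (.pos 17 .mp ⟨224029038, 0, 0, 0, 0, 95636950, 0, 0, 0, ⟨0, 0⟩, 0⟩ 0 0) (.pos 17 .mp ⟨248458455, 0, 0, 0, 0, 96794175, 0, 0, 0, ⟨0, 0⟩, 0⟩ 0 0)) (.pos 17 .mp ⟨220470562, 0, 0, 0, 0, 83155545, 0, 0, 0, ⟨0, 0⟩, 0⟩ 0 0)) (.cut .d (-131072) (.cut .v 17301504 (.cut .l 4537473 (.cut .l 3260117 (.cut .s 12369920 (.cut .s 12312576 (.pos 19 .mp ⟨116512503, 0, 0, 0, 0, 215815825, 0, 0, 0, ⟨0, 0⟩, 0⟩ 0 0) (.pos 19 .mp ⟨122036964, 0, 0, 0, 0, 224945624, 0, 0, 0, ⟨0, 0⟩, 0⟩ 0 0)) (.cut .v 17039360 (.pos 67 .mp ⟨77493325, 0, 0, 0, 0, 314843710, 0, 0, 0, ⟨0, 0⟩, 0⟩ 0 0) (.cut .s 12427264 (.pos 68 .mp ⟨132304370, 0, 0, 0, 0, 227880273, 0, 0, 0,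 ⟨0, 0⟩, 0⟩ 0 0) (.pos 68 .mp ⟨138316211, 0, 0, 0, 0, 237747671, 0, 0, 0, ⟨0, 0⟩, 0⟩ 0 0)))) (.pos 19 .mp ⟨151743675, 0, 0, 0, 0, 121235794, 0, 0, 0, ⟨0, 0⟩, 0⟩ 0 0)) (.pos 19 .mp ⟨0, 0, 0, 0, 0, 0, 0, 0, 0, ⟨0, 0⟩, 0⟩ 0 0)) (.pos 20 .mp ⟨299850130, 0, 0, 0, 0, 0, 0, 0, 0, ⟨0, 0⟩, 0⟩ 0 0)) (.pos 17 .mp ⟨147256654, 0, 0, 0, 0, 0, 0, 0, 0, ⟨0, 0⟩, 0⟩ 0 0))) (.pos 18 .mp ⟨313587010, 0, 0, 0, 0, 0, 0, 0, 0, ⟨0, 0⟩, 0⟩ 0 0)) (.cut .v 17825792 (.cut .d (-262144) (.cut .s 12599296 (.pos 17 .mp ⟨286497693, 0, 0, 0, 0, 75506131, 0, 0, 0, ⟨0, 0⟩, 0⟩ 0 0) (.pos 17 .mp ⟨315164327, 0, 0, 0, 0, 75936136, 0, 0, 0, ⟨0, 0⟩, 0⟩ 0 0)) (.cut .l 4537473 (.cut .l 3260117 (.cut .d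 (-131072) (.cut .v 17301504 (.cut .s 12599296 (.cut .s 12541952 (.cut .v 17039360 (.pos 67 .mp ⟨0, 0, 0, 0, 0, 450100186, 0, 0, 0, ⟨0, 0⟩, 0⟩ 0 0) (.pos 68 .mp ⟨144436446, 0, 0, 0, 0, 248174756, 0, 0, 0, ⟨0, 0⟩, 0⟩ 0 0)) (.pos 19 .mp ⟨145134061, 0, 0, 0, 0, 274019875, 0, 0, 0, ⟨0, 0⟩, 0⟩ 0 0)) (.cut .s 12656640 (.pos 19 .mp ⟨151324818, 0, 0, 0, 0, 285790377, 0, 0, 0, ⟨0, 0⟩, 0⟩ 0 0) (.pos 19 .mp ⟨157657907, 0, 0, 0, 0, 298283392, 0, 0, 0, ⟨0, 0⟩, 0⟩ 0 0))) (.pos 20 .mp ⟨351348330, 0, 0, 0, 0, 0, 0, 0, 0, ⟨0, 0⟩, 0⟩ 0 0)) (.cut .v 17301504 (.cut .v 17039360 (.pos 67 .mp ⟨0, 0, 0, 0, 0, 419464153, 0, 0, 0, ⟨0, 0⟩, 0⟩ 0 0) (.cut .s 12599296 (.pos 68 .mp ⟨155536895,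 0, 0, 0, 0, 184619345, 0, 0, 0, ⟨0, 0⟩, 0⟩ 0 0) (.pos 68 .mp ⟨168713076, 0, 0, 0, 0, 203224819, 0, 0, 0, ⟨0, 0⟩, 0⟩ 0 0))) (.pos 20 .mp ⟨292236933, 0, 0, 0, 0, 0, 0, 0, 0, ⟨0, 0⟩, 0⟩ 0 0))) (.pos 17 .mp ⟨193304667, 0, 0, 0, 0, 129833710, 0, 0, 0, ⟨0, 0⟩, 0⟩ 0 0)) (.pos 17 .mp ⟨0, 0, 0, 0, 0, 0, 0, 0, 0, ⟨0, 0⟩, 0⟩ 0 0))) (.pos 18 .mp ⟨368346852, 0, 0, 0, 0, 0, 0, 0, 0, ⟨0, 0⟩, 0⟩ 0 0))) (.cut .s 12484608 (.pos 16 .mp ⟨352077887, 0, 0, 0, 0, 0, 0, 0, 0, ⟨0, 0⟩, 0⟩ 0 0) (.pos 16 .mp ⟨413323251, 0, 0, 0, 0, 0, 0, 0, 0, ⟨0, 0⟩, 0⟩ 0 0))) (.pos 13 .mp ⟨251238364, 0, 0, 0, 0, 0, 0, 0, 0, ⟨0, 0⟩, 0⟩ 0 0))) (.cut .d (-524288) (.pos 14 .mp ⟨592818668, 0, 0, 0, 0, 0,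 0, 0, 0, ⟨0, 0⟩, 0⟩ 0 0) (.cut .l 7092186 (.pos 14 .mp ⟨509115098, 0, 0, 0, 0, 0, 0, 0, 0, ⟨0, 0⟩, 0⟩ 0 0) (.pos 14 .mp ⟨419090935, 0, 0, 0, 0, 0, 0, 0, 0, ⟨0, 0⟩, 0⟩ 0 0))))) (.cut .d (-1048576) (.void 12 ⟨100000, 0, 0, 0, 0, 0, 0, 0, 0, ⟨0, 0⟩, 0⟩ 0 0) (.cut .v 29360128 (.cut .s 12484608 (.pos 27 .mp ⟨643974121, 0, 0, 0, 0, 0, 0, 0, 0, ⟨0, 0⟩, 0⟩ 0 0) (.pos 27 .mp ⟨752138730, 0, 0, 0, 0, 0, 0, 0, 0, ⟨0, 0⟩, 0⟩ 0 0)) (.pos 28 .mp ⟨956373101, 0, 0, 0, 0, 0, 0, 0, 0, ⟨0, 0⟩, 0⟩ 0 0)))) (.pos 10 .mp ⟨3756527632, 0, 0, 0, 0, 0, 0, 0, 0, ⟨0, 0⟩, 0⟩ 0 0))))) (.void 49 ⟨100000, 0, 0, 0, 0, 0, 0, 0, 0, ⟨0, 0⟩, 0⟩ 0 0)) (.void 64 ⟨94060, 0, 0, 5940, 0, 0, 0, 0, 0,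 ⟨0, 0⟩, 0⟩ 0 0))) (.cut .v 16777216 (.cut .v 8388608 (.cut .v 4194304 (.cut .v 2097152 (.cut .v 1048576 (.pos 95 .pm ⟨0, 0, 6055529, 0, 0, 0, 0, 0, 14235290, ⟨0, 0⟩, 1983364⟩ 0 0) (.pos 96 .pm ⟨0, 11763702, 0, 0, 0, 0, 0, 0, 0, ⟨0, 0⟩, 0⟩ 0 0)) (.cut .d 3095263 (.pos 72 .pm ⟨0, 0, 17784709, 0, 0, 0, 0, 0, 0, ⟨0, 0⟩, 0⟩ 0 0) (.cut .d 4642894 (.pos 72 .pm ⟨0, 0, 0, 0, 0, 0, 0, 0, 0, ⟨0, 0⟩, 0⟩ 0 0) (.pos 72 .pm ⟨0, 73569553, 0, 0, 0, 0, 0, 0, 0, ⟨0, 0⟩, 0⟩ 0 0)))) (.cut .d 3095263 (.pos 5 .pm ⟨0, 0, 3057278, 0, 0, 0, 0, 0, 0, ⟨0, 0⟩, 0⟩ 0 0) (.cut .d 4642894 (.pos 5 .pm ⟨0, 0, 0, 0, 0, 0, 0, 0, 0, ⟨0, 0⟩, 0⟩ 0 0) (.cut .d 5416710 (.pos 5 .pm ⟨0, 64843681, 0,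 0, 0, 0, 0, 0, 0, ⟨0, 0⟩, 0⟩ 0 0) (.cut .v 6291456 (.pos 73 .pm ⟨0, 101207172, 0, 0, 0, 0, 0, 0, 0, ⟨0, 0⟩, 0⟩ 0 0) (.pos 74 .pm ⟨0, 113147021, 0, 0, 0, 0, 0, 0, 0, ⟨0, 0⟩, 0⟩ 0 0)))))) (.cut .d 3095263 (.pos 3 .pm ⟨0, 0, 0, 0, 0, 0, 0, 0, 0, ⟨0, 0⟩, 0⟩ 0 0) (.pos 3 .pm ⟨0, 87460345, 0, 0, 0, 0, 0, 0, 0, ⟨0, 0⟩, 0⟩ 0 0))) (.cut .v 268435456 (.cut .d 3095263 (.cut .v 67108864 (.cut .d 1547631 (.cut .v 33554432 (.cut .d 773815 (.cut .d 386907 (.cut .l 7092186 (.cut .v 25165824 (.cut .v 20971520 (.pos 13 .pp ⟨139697279, 0, 0, 0, 0, 0, 0, 0, 0, ⟨0, 0⟩, 0⟩ 0 0) (.pos 14 .pp ⟨355931381, 0, 0, 0, 0, 0, 0, 0, 0, ⟨0, 0⟩, 0⟩ 0 0)) (.pos 12 .pp ⟨627463519, 0, 0, 0, 0,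 0, 0, 0, 0, ⟨0, 0⟩, 0⟩ 0 0)) (.pos 9 .pp ⟨241390499, 0, 0, 0, 0, 0, 0, 0, 0, ⟨0, 0⟩, 0⟩ 0 0)) (.pos 9 .pp ⟨190478548, 0, 0, 0, 0, 0, 0, 0, 0, ⟨0, 0⟩, 0⟩ 0 0)) (.pos 9 .pp ⟨0, 0, 0, 0, 0, 0, 0, 0, 0, ⟨0, 0⟩, 0⟩ 0 0)) (.cut .v 50331648 (.cut .d 773815 (.cut .v 41943040 (.cut .v 37748736 (.pos 43 .pp ⟨839321156, 0, 0, 0, 0, 0, 0, 0, 0, ⟨0, 0⟩, 0⟩ 0 0) (.pos 44 .pp ⟨1046642473, 0, 0, 0, 0, 0, 0, 0, 0, ⟨0, 0⟩, 0⟩ 0 0)) (.pos 32 .pp ⟨1438445588, 0, 0, 0, 0, 0, 0, 0, 0, ⟨0, 0⟩, 0⟩ 0 0)) (.pos 29 .pp ⟨687255349, 0, 0, 0, 0, 0, 0, 0, 0, ⟨0, 0⟩, 0⟩ 0 0)) (.cut .d 773815 (.cut .v 58720256 (.pos 93 .pp ⟨2214591046, 0, 0, 0, 0, 0, 0, 0, 0, ⟨0, 0⟩, 0⟩ 0 0) (.pos 94 .pp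 ⟨3107476003, 0, 0, 0, 0, 0, 0, 0, 0, ⟨0, 0⟩, 0⟩ 0 0)) (.cut .v 58720256 (.pos 93 .pp ⟨1406539460, 0, 0, 0, 0, 0, 0, 0, 0, ⟨0, 0⟩, 0⟩ 0 0) (.pos 94 .pp ⟨1937210035, 0, 0, 0, 0, 0, 0, 0, 0, ⟨0, 0⟩, 0⟩ 0 0))))) (.pos 8 .pp ⟨0, 0, 0, 0, 0, 0, 0, 0, 0, ⟨0, 0⟩, 0⟩ 0 0)) (.cut .v 134217728 (.cut .v 100663296 (.cut .d 1547631 (.cut .d 773815 (.pos 77 .pp ⟨7416164201, 0, 0, 0, 0, 0, 0, 0, 0, ⟨0, 0⟩, 0⟩ 0 0) (.cut .v 83886080 (.cut .d 1160723 (.cut .v 75497472 (.pos 105 .pp ⟨3030687134, 0, 0, 0, 0, 0, 0, 0, 0, ⟨0, 0⟩, 0⟩ 0 0) (.pos 106 .pp ⟨3996899154, 804895061, 0, 0, 0, 0, 0, 0, 0, ⟨0, 0⟩, 0⟩ 0 0)) (.pos 103 .pp ⟨1927127497, 501768565, 0, 0, 0, 0, 0, 0, 0, ⟨0, 0⟩,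 0⟩ 0 0)) (.void 104 ⟨4487, 95513, 0, 0, 0, 0, 0, 0, 0, ⟨0, 0⟩, 0⟩ 0 0))) (.pos 77 .pp ⟨1525243657, 404256761, 0, 0, 0, 0, 0, 0, 0, ⟨0, 0⟩, 0⟩ 0 0)) (.void 78 ⟨37659, 62341, 0, 0, 0, 0, 0, 0, 0, ⟨0, 0⟩, 0⟩ 0 0)) (.void 66 ⟨0, 0, 0, 100000, 0, 0, 0, 0, 0, ⟨0, 0⟩, 0⟩ 0 0))) (.pos 48 .pp ⟨0, 54180110, 0, 0, 0, 0, 0, 0, 0, ⟨0, 0⟩, 0⟩ 0 0)) (.void 64 ⟨0, 0, 0, 100000, 0, 0, 0, 0, 0, ⟨0, 0⟩, 0⟩ 0 0)))),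
    by decide +kernel⟩

def covers19 : cell.Covers table row19.1 :=
  ⟨(.cut .d 0 (.cut .v 16777216 (.cut .v 8388608 (.pos 2 .mm ⟨0, 0, 1204065379, 0, 0, 0, 0, 0, 0, ⟨0, 0⟩, 0⟩ 0 0) (.cut .d (-8388608) (.void 3 ⟨0, 0, 0, 0, 0, 100000, 0, 0, 0, ⟨0, 0⟩, 0⟩ 0 0) (.cut .d (-4194304) (.void 3 ⟨0, 0, 0, 0, 0, 100000, 0, 0, 0, ⟨0, 0⟩, 0⟩ 0 0) (.cut .d (-2097152) (.void 3 ⟨0, 0, 0, 0, 0, 100000, 0, 0, 0, ⟨0, 0⟩, 0⟩ 0 0) (.cut .d (-1048576) (.cut .v 12582912 (.pos 6 .mm ⟨0, 0, 0, 0, 0, 698406582, 0, 0, 0, ⟨0, 0⟩, 0⟩ 0 0) (.cut .v 14680064 (.pos 33 .mm ⟨0, 0, 0, 0, 0, 857077643, 0, 0, 0, ⟨0, 0⟩, 0⟩ 0 0) (.cut .v 15728640 (.pos 35 .mm ⟨0, 0, 0, 0, 0, 941520858, 0, 0,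 0, ⟨0, 0⟩, 0⟩ 0 0) (.cut .s 12976128 (.cut .v 16252928 (.pos 50 .mm ⟨215550640, 0, 0, 0, 0, 502480776, 0, 0, 0, ⟨0, 0⟩, 0⟩ 0 0) (.pos 51 .mm ⟨583749877, 0, 0, 0, 0, 0, 0, 0, 0, ⟨0, 0⟩, 0⟩ 0 0)) (.void 36 ⟨0, 0, 0, 0, 0, 100000, 0, 0, 0, ⟨0, 0⟩, 0⟩ 0 0))))) (.cut .d (-524288) (.cut .v 12582912 (.cut .s 12976128 (.pos 6 .mm ⟨0, 0, 0, 0, 0, 411749535, 0, 0, 0, ⟨0, 0⟩, 0⟩ 0 0) (.pos 6 .mm ⟨0, 0, 0, 0, 0, 516291622, 0, 0, 0, ⟨0, 0⟩, 0⟩ 0 0)) (.cut .s 12976128 (.cut .l 7092186 (.pos 7 .mm ⟨97466029, 0, 0, 0, 0, 550627828, 0, 0, 0, ⟨0, 0⟩, 0⟩ 0 0) (.cut .v 14680064 (.pos 33 .mm ⟨0, 0, 0, 0, 0, 514696781, 0, 0, 0, ⟨0, 0⟩, 0⟩ 0 0) (.cut .d (-786432) (.cut .v 15728640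 (.pos 35 .mm ⟨0, 0, 0, 0, 0, 591207103, 0, 0, 0, ⟨0, 0⟩, 0⟩ 0 0) (.cut .l 9646899 (.pos 36 .mm ⟨190138254, 0, 0, 0, 0, 431310723, 0, 0, 0, ⟨0, 0⟩, 0⟩ 0 0) (.cut .s 12845056 (.cut .v 16252928 (.pos 50 .mm ⟨119875667, 0, 0, 0, 0, 405746493, 0, 0, 0, ⟨0, 0⟩, 0⟩ 0 0) (.pos 51 .mm ⟨407278303, 0, 0, 0, 0, 0, 0, 0, 0, ⟨0, 0⟩, 0⟩ 0 0)) (.cut .v 16252928 (.pos 50 .mm ⟨140174321, 0, 0, 0, 0, 446271735, 0, 0, 0, ⟨0, 0⟩, 0⟩ 0 0) (.pos 51 .mm ⟨450321514, 0, 0, 0, 0, 0, 0, 0, 0, ⟨0, 0⟩, 0⟩ 0 0))))) (.cut .l 9646899 (.cut .s 12845056 (.pos 34 .mm ⟨75241382, 0, 0, 0, 0, 467023533, 0, 0, 0, ⟨0, 0⟩, 0⟩ 0 0) (.pos 34 .mm ⟨87709717, 0, 0, 0, 0, 512971739, 0, 0, 0, ⟨0, 0⟩, 0⟩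 0 0)) (.pos 34 .mm ⟨200836179, 0, 0, 0, 0, 171785034, 0, 0, 0, ⟨0, 0⟩, 0⟩ 0 0))))) (.cut .l 7092186 (.pos 7 .mm ⟨127408119, 0, 0, 0, 0, 668722828, 0, 0, 0, ⟨0, 0⟩, 0⟩ 0 0) (.cut .v 14680064 (.pos 33 .mm ⟨0, 0, 0, 0, 0, 644245867, 0, 0, 0, ⟨0, 0⟩, 0⟩ 0 0) (.cut .d (-786432) (.cut .v 15728640 (.pos 35 .mm ⟨0, 0, 0, 0, 0, 737491110, 0, 0, 0, ⟨0, 0⟩, 0⟩ 0 0) (.cut .s 13107200 (.cut .v 16252928 (.pos 50 .mm ⟨163578895, 0, 0, 0, 0, 487985159, 0, 0, 0, ⟨0, 0⟩, 0⟩ 0 0) (.pos 51 .mm ⟨502135517, 0, 0, 0, 0, 0, 0, 0, 0, ⟨0, 0⟩, 0⟩ 0 0)) (.pos 36 .mm ⟨268637892, 0, 0, 0, 0, 426944229, 0, 0, 0, ⟨0, 0⟩, 0⟩ 0 0))) (.cut .v 15728640 (.pos 35 .mm ⟨0, 0, 0, 0, 0, 665357755,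 0, 0, 0, ⟨0, 0⟩, 0⟩ 0 0) (.cut .s 13107200 (.cut .v 16252928 (.pos 50 .mm ⟨0, 0, 0, 0, 0, 666014339, 0, 0, 0, ⟨0, 0⟩, 0⟩ 0 0) (.pos 51 .mm ⟨389203456, 0, 0, 0, 0, 110143236, 0, 0, 0, ⟨0, 0⟩, 0⟩ 0 0)) (.pos 36 .mm ⟨419181796, 0, 0, 0, 0, 103220586, 0, 0, 0, ⟨0, 0⟩, 0⟩ 0 0)))))))) (.cut .l 7092186 (.cut .v 12582912 (.cut .d (-262144) (.pos 6 .mm ⟨0, 0, 0, 0, 0, 427397301, 0, 0, 0, ⟨0, 0⟩, 0⟩ 0 0) (.pos 6 .mm ⟨0, 0, 0, 0, 0, 304175412, 0, 0, 0, ⟨0, 0⟩, 0⟩ 0 0)) (.cut .d (-262144) (.cut .v 14680064 (.pos 33 .mm ⟨0, 0, 0, 0, 0, 563252244, 0, 0, 0, ⟨0, 0⟩, 0⟩ 0 0) (.cut .s 12976128 (.cut .s 12845056 (.pos 34 .mm ⟨43006577, 0, 0, 0, 0, 500133380, 0, 0, 0, ⟨0, 0⟩,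 0⟩ 0 0) (.pos 34 .mm ⟨48891379, 0, 0, 0, 0, 551719496, 0, 0, 0, ⟨0, 0⟩, 0⟩ 0 0)) (.cut .s 13107200 (.pos 34 .mm ⟨54997536, 0, 0, 0, 0, 609599476, 0, 0, 0, ⟨0, 0⟩, 0⟩ 0 0) (.pos 34 .mm ⟨61351278, 0, 0, 0, 0, 674091393, 0, 0, 0, ⟨0, 0⟩, 0⟩ 0 0)))) (.cut .l 4537473 (.cut .d (-131072) (.cut .s 12976128 (.cut .s 12845056 (.pos 7 .mm ⟨0, 0, 0, 0, 0, 539921107, 0, 0, 0, ⟨0, 0⟩, 0⟩ 0 0) (.pos 7 .mm ⟨0, 0, 0, 0, 0, 597306263, 0, 0, 0, ⟨0, 0⟩, 0⟩ 0 0)) (.pos 7 .mm ⟨0, 0, 0, 0, 0, 688108886, 0, 0, 0, ⟨0, 0⟩, 0⟩ 0 0)) (.pos 7 .mm ⟨0, 0, 0, 0, 0, 503682294, 0, 0, 0, ⟨0, 0⟩, 0⟩ 0 0)) (.pos 7 .mm ⟨0, 0, 0, 0, 0, 0, 0, 0, 0, ⟨0, 0⟩, 0⟩ 0 0)))) (.pos 3 .mm ⟨0, 0, 0, 0, 0,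 318070807, 0, 0, 0, ⟨0, 0⟩, 0⟩ 0 0)))))))) (.cut .v 268435456 (.cut .v 67108864 (.cut .d (-8388608) (.void 8 ⟨100000, 0, 0, 0, 0, 0, 0, 0, 0, ⟨0, 0⟩, 0⟩ 0 0) (.cut .d (-4194304) (.void 8 ⟨100000, 0, 0, 0, 0, 0, 0, 0, 0, ⟨0, 0⟩, 0⟩ 0 0) (.cut .v 33554432 (.cut .d (-2097152) (.void 9 ⟨100000, 0, 0, 0, 0, 0, 0, 0, 0, ⟨0, 0⟩, 0⟩ 0 0) (.cut .d (-1048576) (.void 9 ⟨100000, 0, 0, 0, 0, 0, 0, 0, 0, ⟨0, 0⟩, 0⟩ 0 0) (.cut .v 25165824 (.cut .v 20971520 (.cut .d (-524288) (.cut .l 7092186 (.cut .s 12976128 (.pos 13 .mp ⟨568209537, 0, 0, 0, 0, 0, 0, 0, 0, ⟨0, 0⟩, 0⟩ 0 0) (.void 13 ⟨100000, 0, 0, 0, 0, 0, 0, 0, 0, ⟨0, 0⟩, 0⟩ 0 0)) (.cut .v 18874368 (.cut .s 12976128 (.cut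 .d (-786432) (.cut .s 12845056 (.pos 15 .mp ⟨446989997, 0, 0, 0, 0, 0, 0, 0, 0, ⟨0, 0⟩, 0⟩ 0 0) (.pos 15 .mp ⟨495253083, 0, 0, 0, 0, 0, 0, 0, 0, ⟨0, 0⟩, 0⟩ 0 0)) (.pos 15 .mp ⟨418846288, 0, 0, 0, 0, 0, 0, 0, 0, ⟨0, 0⟩, 0⟩ 0 0)) (.cut .d (-786432) (.pos 15 .mp ⟨590554625, 0, 0, 0, 0, 0, 0, 0, 0, ⟨0, 0⟩, 0⟩ 0 0) (.pos 15 .mp ⟨511873482, 0, 0, 0, 0, 0, 0, 0, 0, ⟨0, 0⟩, 0⟩ 0 0))) (.cut .s 12976128 (.pos 16 .mp ⟨558091715, 0, 0, 0, 0, 0, 0, 0, 0, ⟨0, 0⟩, 0⟩ 0 0) (.pos 16 .mp ⟨678007038, 0, 0, 0, 0, 0, 0, 0, 0, ⟨0, 0⟩, 0⟩ 0 0)))) (.cut .l 7092186 (.cut .d (-262144) (.cut .v 18874368 (.cut .s 12976128 (.cut .s 12845056 (.pos 15 .mp ⟨398333817, 0, 0, 0, 0, 7998149,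 0, 0, 0, ⟨0, 0⟩, 0⟩ 0 0) (.pos 15 .mp ⟨441534757, 0, 0, 0, 0, 2750617, 0, 0, 0, ⟨0, 0⟩, 0⟩ 0 0)) (.cut .s 13107200 (.pos 15 .mp ⟨487290054, 0, 0, 0, 0, 0, 0, 0, 0, ⟨0, 0⟩, 0⟩ 0 0) (.pos 15 .mp ⟨535195588, 0, 0, 0, 0, 802152, 0, 0, 0, ⟨0, 0⟩, 0⟩ 0 0))) (.pos 16 .mp ⟨598387145, 0, 0, 0, 0, 0, 0, 0, 0, ⟨0, 0⟩, 0⟩ 0 0)) (.cut .v 18874368 (.cut .l 4537473 (.cut .d (-131072) (.cut .v 17825792 (.cut .s 12976128 (.cut .l 3260117 (.cut .v 17301504 (.cut .d (-196608) (.pos 19 .mp ⟨155598877, 0, 0, 0, 0, 406886646, 0, 0, 0, ⟨0, 0⟩, 0⟩ 0 0) (.cut .s 12845056 (.cut .v 17039360 (.pos 67 .mp ⟨124533574, 0, 0, 0, 0, 373569661, 0, 0, 0, ⟨0, 0⟩, 0⟩ 0 0) (.pos 68 .mp ⟨187449599,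 0, 0, 0, 0, 289285912, 0, 0, 0, ⟨0, 0⟩, 0⟩ 0 0)) (.pos 19 .mp ⟨202972640, 0, 0, 0, 0, 312869915, 0, 0, 0, ⟨0, 0⟩, 0⟩ 0 0))) (.pos 20 .mp ⟨417674210, 0, 0, 0, 0, 0, 0, 0, 0, ⟨0, 0⟩, 0⟩ 0 0)) (.pos 17 .mp ⟨236380119, 0, 0, 0, 0, 161505240, 0, 0, 0, ⟨0, 0⟩, 0⟩ 0 0)) (.cut .s 13107200 (.cut .s 13041664 (.pos 17 .mp ⟨236219563, 0, 0, 0, 0, 327951966, 0, 0, 0, ⟨0, 0⟩, 0⟩ 0 0) (.pos 17 .mp ⟨245273545, 0, 0, 0, 0, 348390507, 0, 0, 0, ⟨0, 0⟩, 0⟩ 0 0)) (.pos 17 .mp ⟨297395636, 0, 0, 0, 0, 311622043, 0, 0, 0, ⟨0, 0⟩, 0⟩ 0 0))) (.pos 18 .mp ⟨477159002, 0, 0, 0, 0, 0, 0, 0, 0, ⟨0, 0⟩, 0⟩ 0 0)) (.cut .v 17825792 (.cut .v 17301504 (.cut .d (-65536) (.cut .d (-98304) (.cut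 .s 12976128 (.cut .s 12845056 (.cut .v 17039360 (.pos 67 .mp ⟨0, 0, 0, 0, 0, 512202859, 0, 0, 0, ⟨0, 0⟩, 0⟩ 0 0) (.pos 68 .mp ⟨185342003, 0, 0, 0, 0, 229162012, 0, 0, 0, ⟨0, 0⟩, 0⟩ 0 0)) (.pos 19 .mp ⟨164696829, 0, 0, 0, 0, 336034832, 0, 0, 0, ⟨0, 0⟩, 0⟩ 0 0)) (.pos 19 .mp ⟨179429555, 0, 0, 0, 0, 392197876, 0, 0, 0, ⟨0, 0⟩, 0⟩ 0 0)) (.pos 19 .mp ⟨178466099, 0, 0, 0, 0, 0, 0, 0, 0, ⟨0, 0⟩, 0⟩ 0 0)) (.pos 19 .mp ⟨0, 0, 0, 0, 0, 0, 0, 0, 0, ⟨0, 0⟩, 0⟩ 0 0)) (.pos 20 .mp ⟨356669341, 0, 0, 0, 0, 0, 0, 0, 0, ⟨0, 0⟩, 0⟩ 0 0)) (.pos 18 .mp ⟨393049063, 0, 0, 0, 0, 0, 0, 0, 0, ⟨0, 0⟩, 0⟩ 0 0))) (.pos 15 .mp ⟨230452151, 0, 0, 0, 0, 0, 0, 0, 0, ⟨0, 0⟩, 0⟩ 0 0)) (.pos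 16 .mp ⟨492154358, 0, 0, 0, 0, 0, 0, 0, 0, ⟨0, 0⟩, 0⟩ 0 0))) (.cut .s 12976128 (.pos 13 .mp ⟨340725990, 0, 0, 0, 0, 0, 0, 0, 0, ⟨0, 0⟩, 0⟩ 0 0) (.pos 13 .mp ⟨417387389, 0, 0, 0, 0, 0, 0, 0, 0, ⟨0, 0⟩, 0⟩ 0 0)))) (.cut .d (-524288) (.pos 14 .mp ⟨860032117, 0, 0, 0, 0, 0, 0, 0, 0, ⟨0, 0⟩, 0⟩ 0 0) (.cut .l 7092186 (.pos 14 .mp ⟨716117969, 0, 0, 0, 0, 0, 0, 0, 0, ⟨0, 0⟩, 0⟩ 0 0) (.pos 14 .mp ⟨587450970, 0, 0, 0, 0, 0, 0, 0, 0, ⟨0, 0⟩, 0⟩ 0 0)))) (.cut .v 29360128 (.cut .s 12976128 (.pos 27 .mp ⟨892781650, 0, 0, 0, 0, 0, 0, 0, 0, ⟨0, 0⟩, 0⟩ 0 0) (.pos 27 .mp ⟨1063759636, 0, 0, 0, 0, 0, 0, 0, 0, ⟨0, 0⟩, 0⟩ 0 0)) (.pos 28 .mp ⟨1309883514, 0, 0, 0, 0, 0, 0, 0, 0,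 ⟨0, 0⟩, 0⟩ 0 0))))) (.pos 10 .mp ⟨6045610714, 0, 0, 0, 0, 0, 0, 0, 0, ⟨0, 0⟩, 0⟩ 0 0)))) (.void 49 ⟨100000, 0, 0, 0, 0, 0, 0, 0, 0, ⟨0, 0⟩, 0⟩ 0 0)) (.void 64 ⟨93830, 0, 0, 6170, 0, 0, 0, 0, 0, ⟨0, 0⟩, 0⟩ 0 0))) (.cut .v 16777216 (.cut .v 8388608 (.cut .v 4194304 (.cut .v 2097152 (.cut .v 1048576 (.pos 95 .pm ⟨0, 0, 531477, 0, 0, 0, 0, 0, 0, ⟨0, 0⟩, 0⟩ 0 0) (.pos 96 .pm ⟨0, 16189529, 0, 0, 0, 0, 0, 0, 0, ⟨0, 0⟩, 0⟩ 0 0)) (.cut .d 2680896 (.pos 72 .pm ⟨0, 0, 41868147, 0, 0, 0, 0, 0, 0, ⟨0, 0⟩, 0⟩ 0 0) (.cut .d 4021344 (.pos 72 .pm ⟨0, 0, 0, 0, 0, 0, 0, 0, 0, ⟨0, 0⟩, 0⟩ 0 0) (.pos 72 .pm ⟨0, 89814951, 0, 0, 0, 0, 0, 0, 0, ⟨0, 0⟩, 0⟩ 0 0)))) (.cut .d 2680896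 (.pos 5 .pm ⟨0, 0, 8342727, 0, 0, 0, 0, 0, 0, ⟨0, 0⟩, 0⟩ 0 0) (.cut .d 4021344 (.pos 5 .pm ⟨0, 0, 0, 0, 0, 0, 0, 0, 0, ⟨0, 0⟩, 0⟩ 0 0) (.cut .d 4691568 (.pos 5 .pm ⟨0, 70420138, 0, 0, 0, 0, 0, 0, 0, ⟨0, 0⟩, 0⟩ 0 0) (.pos 5 .pm ⟨0, 133696731, 0, 0, 0, 0, 0, 0, 0, ⟨0, 0⟩, 0⟩ 0 0))))) (.cut .d 2680896 (.pos 3 .pm ⟨0, 0, 0, 0, 0, 0, 0, 0, 0, ⟨0, 0⟩, 0⟩ 0 0) (.pos 3 .pm ⟨0, 112096102, 0, 0, 0, 0, 0, 0, 0, ⟨0, 0⟩, 0⟩ 0 0))) (.cut .v 268435456 (.cut .d 2680896 (.cut .v 67108864 (.cut .d 1340448 (.cut .v 33554432 (.cut .d 670224 (.cut .d 335112 (.cut .v 25165824 (.cut .v 20971520 (.pos 13 .pp ⟨183140055, 0, 0, 0, 0, 0, 0, 0, 0, ⟨0, 0⟩, 0⟩ 0 0) (.pos 14 .pp ⟨473396712,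 0, 0, 0, 0, 0, 0, 0, 0, ⟨0, 0⟩, 0⟩ 0 0)) (.pos 12 .pp ⟨787972630, 0, 0, 0, 0, 0, 0, 0, 0, ⟨0, 0⟩, 0⟩ 0 0)) (.pos 9 .pp ⟨265367514, 0, 0, 0, 0, 0, 0, 0, 0, ⟨0, 0⟩, 0⟩ 0 0)) (.pos 9 .pp ⟨0, 0, 0, 0, 0, 0, 0, 0, 0, ⟨0, 0⟩, 0⟩ 0 0)) (.cut .v 50331648 (.cut .d 670224 (.cut .v 41943040 (.cut .v 37748736 (.pos 43 .pp ⟨1122817655, 0, 0, 0, 0, 0, 0, 0, 0, ⟨0, 0⟩, 0⟩ 0 0) (.pos 44 .pp ⟨1396118685, 0, 0, 0, 0, 0, 0, 0, 0, ⟨0, 0⟩, 0⟩ 0 0)) (.cut .d 335112 (.pos 32 .pp ⟨2106260347, 0, 0, 0, 0, 0, 0, 0, 0, ⟨0, 0⟩, 0⟩ 0 0) (.pos 32 .pp ⟨1696176648, 0, 0, 0, 0, 0, 0, 0, 0, ⟨0, 0⟩, 0⟩ 0 0))) (.pos 29 .pp ⟨932691991, 0, 0, 0, 0, 0, 0, 0, 0, ⟨0, 0⟩, 0⟩ 0 0)) (.cut .d 670224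 (.cut .v 58720256 (.pos 93 .pp ⟨2766220894, 0, 0, 0, 0, 0, 0, 0, 0, ⟨0, 0⟩, 0⟩ 0 0) (.pos 94 .pp ⟨3924109086, 0, 0, 0, 0, 0, 0, 0, 0, ⟨0, 0⟩, 0⟩ 0 0)) (.cut .v 58720256 (.pos 93 .pp ⟨1834959094, 0, 0, 0, 0, 0, 0, 0, 0, ⟨0, 0⟩, 0⟩ 0 0) (.pos 94 .pp ⟨2524160814, 0, 0, 0, 0, 0, 0, 0, 0, ⟨0, 0⟩, 0⟩ 0 0))))) (.pos 8 .pp ⟨0, 0, 0, 0, 0, 0, 0, 0, 0, ⟨0, 0⟩, 0⟩ 0 0)) (.cut .v 134217728 (.cut .v 100663296 (.cut .d 1340448 (.cut .v 83886080 (.cut .d 670224 (.pos 103 .pp ⟨6961578047, 0, 0, 0, 0, 0, 0, 0, 0, ⟨0, 0⟩, 0⟩ 0 0) (.cut .d 1005336 (.cut .l 7092186 (.pos 103 .pp ⟨5344940629, 0, 0, 0, 0, 0, 0, 0, 0, ⟨0, 0⟩, 0⟩ 0 0) (.cut .v 75497472 (.cut .d 837780 (.cut .s 12976128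 (.pos 105 .pp ⟨4119134474, 0, 0, 0, 0, 0, 0, 0, 0, ⟨0, 0⟩, 0⟩ 0 0) (.pos 105 .pp ⟨4310283358, 0, 0, 0, 0, 0, 0, 0, 0, ⟨0, 0⟩, 0⟩ 0 0)) (.pos 105 .pp ⟨2873312109, 0, 0, 0, 0, 0, 0, 0, 0, ⟨0, 0⟩, 0⟩ 0 0)) (.cut .v 79691776 (.cut .d 837780 (.cut .s 12976128 (.pos 113 .pp ⟨4865807812, 279662009, 0, 0, 0, 0, 0, 0, 0, ⟨0, 0⟩, 0⟩ 0 0) (.cut .v 77594624 (.cut .s 13107200 (.pos 115 .pp ⟨4806633952, 226113832, 0, 0, 0, 0, 0, 0, 0, ⟨0, 0⟩, 0⟩ 0 0) (.cut .d 754002 (.pos 115 .pp ⟨5218356730, 418383378, 0, 0, 0, 0, 0, 0, 0, ⟨0, 0⟩, 0⟩ 0 0) (.pos 115 .pp ⟨4782112233, 550951789, 0, 0, 0, 0, 0, 0, 0, ⟨0, 0⟩, 0⟩ 0 0))) (.void 116 ⟨37749, 62251, 0, 0, 0, 0, 0, 0, 0, ⟨0, 0⟩,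 0⟩ 0 0))) (.pos 113 .pp ⟨3176082298, 922344188, 0, 0, 0, 0, 0, 0, 0, ⟨0, 0⟩, 0⟩ 0 0)) (.void 114 ⟨37637, 62363, 0, 0, 0, 0, 0, 0, 0, ⟨0, 0⟩, 0⟩ 0 0)))) (.pos 103 .pp ⟨3017095426, 353441541, 0, 0, 0, 0, 0, 0, 0, ⟨0, 0⟩, 0⟩ 0 0))) (.void 104 ⟨37862, 62138, 0, 0, 0, 0, 0, 0, 0, ⟨0, 0⟩, 0⟩ 0 0)) (.pos 77 .pp ⟨2093126239, 715805953, 0, 0, 0, 0, 0, 0, 0, ⟨0, 0⟩, 0⟩ 0 0)) (.void 78 ⟨36979, 63021, 0, 0, 0, 0, 0, 0, 0, ⟨0, 0⟩, 0⟩ 0 0)) (.void 66 ⟨0, 0, 0, 100000, 0, 0, 0, 0, 0, ⟨0, 0⟩, 0⟩ 0 0))) (.pos 48 .pp ⟨0, 69969709, 0, 0, 0, 0, 0, 0, 0, ⟨0, 0⟩, 0⟩ 0 0)) (.void 64 ⟨0, 0, 0, 100000, 0, 0, 0, 0, 0, ⟨0, 0⟩, 0⟩ 0 0)))),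
    by decide +kernel⟩

def covers20 : cell.Covers table row20.1 :=
  ⟨(.cut .d 0 (.cut .v 16777216 (.cut .v 8388608 (.void 2 ⟨0, 0, 100000, 0, 0, 0, 0, 0, 0, ⟨0, 0⟩, 0⟩ 0 0) (.cut .d (-8388608) (.void 3 ⟨76456, 0, 23544, 0, 0, 0, 0, 0, 0, ⟨0, 0⟩, 0⟩ 0 0) (.cut .d (-4194304) (.void 3 ⟨76456, 0, 23544, 0, 0, 0, 0, 0, 0, ⟨0, 0⟩, 0⟩ 0 0) (.cut .d (-2097152) (.void 3 ⟨0, 0, 0, 0, 0, 100000, 0, 0, 0, ⟨0, 0⟩, 0⟩ 0 0) (.cut .d (-1048576) (.void 3 ⟨0, 0, 0, 0, 0, 100000, 0, 0, 0, ⟨0, 0⟩, 0⟩ 0 0) (.cut .d (-524288) (.cut .l 7092186 (.void 3 ⟨0, 0, 0, 0, 0, 100000, 0, 0, 0, ⟨0, 0⟩, 0⟩ 0 0) (.cut .v 12582912 (.cut .s 13500416 (.pos 6 .mm ⟨0, 0, 0, 0, 0, 624493958, 0,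 0, 0, ⟨0, 0⟩, 0⟩ 0 0) (.pos 6 .mm ⟨0, 0, 25219825, 0, 0, 824453746, 0, 0, 0, ⟨0, 0⟩, 0⟩ 0 0)) (.cut .s 13500416 (.cut .v 14680064 (.pos 33 .mm ⟨0, 0, 0, 0, 0, 816918084, 0, 0, 0, ⟨0, 0⟩, 0⟩ 0 0) (.cut .d (-786432) (.pos 34 .mm ⟨204581282, 0, 0, 0, 0, 745837473, 0, 0, 0, ⟨0, 0⟩, 0⟩ 0 0) (.cut .s 13369344 (.pos 34 .mm ⟨54000490, 0, 0, 0, 0, 785798151, 0, 0, 0, ⟨0, 0⟩, 0⟩ 0 0) (.pos 34 .mm ⟨69452401, 0, 0, 0, 0, 854901412, 0, 0, 0, ⟨0, 0⟩, 0⟩ 0 0)))) (.cut .d (-786432) (.void 7 ⟨0, 0, 0, 0, 0, 100000, 0, 0, 0, ⟨0, 0⟩, 0⟩ 0 0) (.cut .s 13631488 (.pos 7 .mm ⟨38951964, 0, 0, 0, 0, 1002859817, 0, 0, 0, ⟨0, 0⟩, 0⟩ 0 0) (.pos 7 .mm ⟨52168443, 0, 0, 0, 0, 1098307249,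 0, 0, 0, ⟨0, 0⟩, 0⟩ 0 0)))))) (.cut .v 12582912 (.cut .v 10485760 (.pos 69 .mm ⟨0, 0, 0, 0, 0, 462590863, 0, 0, 0, ⟨0, 0⟩, 0⟩ 0 0) (.cut .s 13500416 (.pos 70 .mm ⟨0, 0, 0, 0, 0, 540189014, 0, 0, 0, ⟨0, 0⟩, 0⟩ 0 0) (.pos 70 .mm ⟨0, 0, 0, 0, 0, 662304931, 0, 0, 0, ⟨0, 0⟩, 0⟩ 0 0))) (.cut .l 7092186 (.cut .d (-262144) (.cut .l 4537473 (.pos 7 .mm ⟨109555721, 0, 0, 0, 0, 968697896, 0, 0, 0, ⟨0, 0⟩, 0⟩ 0 0) (.cut .s 13500416 (.cut .s 13369344 (.pos 7 .mm ⟨32130420, 0, 0, 0, 0, 791472880, 0, 0, 0, ⟨0, 0⟩, 0⟩ 0 0) (.pos 7 .mm ⟨38671724, 0, 0, 0, 0, 868682393, 0, 0, 0, ⟨0, 0⟩, 0⟩ 0 0)) (.pos 7 .mm ⟨45201868, 0, 0, 0, 0, 1013486603, 0, 0, 0, ⟨0, 0⟩, 0⟩ 0 0))) (.cut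 .l 4537473 (.cut .v 14680064 (.pos 33 .mm ⟨0, 0, 0, 0, 0, 727811152, 0, 0, 0, ⟨0, 0⟩, 0⟩ 0 0) (.cut .s 13500416 (.cut .s 13369344 (.pos 34 .mm ⟨0, 0, 0, 0, 0, 785742716, 0, 0, 0, ⟨0, 0⟩, 0⟩ 0 0) (.pos 34 .mm ⟨0, 0, 0, 0, 0, 864417500, 0, 0, 0, ⟨0, 0⟩, 0⟩ 0 0)) (.cut .d (-131072) (.pos 34 .mm ⟨0, 0, 0, 0, 0, 1048221069, 0, 0, 0, ⟨0, 0⟩, 0⟩ 0 0) (.pos 34 .mm ⟨0, 0, 0, 0, 0, 927355806, 0, 0, 0, ⟨0, 0⟩, 0⟩ 0 0)))) (.pos 7 .mm ⟨0, 0, 0, 0, 0, 669788463, 0, 0, 0, ⟨0, 0⟩, 0⟩ 0 0))) (.cut .v 14680064 (.pos 33 .mm ⟨0, 0, 0, 0, 0, 621258896, 0, 0, 0, ⟨0, 0⟩, 0⟩ 0 0) (.cut .s 13500416 (.pos 34 .mm ⟨112726333, 0, 0, 0, 0, 538533019, 0, 0, 0, ⟨0, 0⟩, 0⟩ 0 0) (.cut .s 13631488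 (.pos 34 .mm ⟨105821329, 0, 0, 0, 0, 697101475, 0, 0, 0, ⟨0, 0⟩, 0⟩ 0 0) (.pos 34 .mm ⟨108512552, 0, 0, 0, 0, 784140659, 0, 0, 0, ⟨0, 0⟩, 0⟩ 0 0)))))))))))) (.cut .v 268435456 (.cut .v 67108864 (.cut .d (-8388608) (.void 8 ⟨100000, 0, 0, 0, 0, 0, 0, 0, 0, ⟨0, 0⟩, 0⟩ 0 0) (.cut .d (-4194304) (.void 8 ⟨100000, 0, 0, 0, 0, 0, 0, 0, 0, ⟨0, 0⟩, 0⟩ 0 0) (.cut .v 33554432 (.cut .d (-2097152) (.void 9 ⟨100000, 0, 0, 0, 0, 0, 0, 0, 0, ⟨0, 0⟩, 0⟩ 0 0) (.cut .d (-1048576) (.void 9 ⟨100000, 0, 0, 0, 0, 0, 0, 0, 0, ⟨0, 0⟩, 0⟩ 0 0) (.cut .v 25165824 (.cut .d (-524288) (.cut .v 20971520 (.cut .v 18874368 (.cut .d (-786432) (.pos 15 .mp ⟨892592674, 0, 0, 0, 0, 0, 0, 0, 0,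 ⟨0, 0⟩, 0⟩ 0 0) (.cut .s 13500416 (.cut .l 7092186 (.void 15 ⟨100000, 0, 0, 0, 0, 0, 0, 0, 0, ⟨0, 0⟩, 0⟩ 0 0) (.pos 15 .mp ⟨637327220, 0, 0, 0, 0, 0, 0, 0, 0, ⟨0, 0⟩, 0⟩ 0 0)) (.pos 15 .mp ⟨826793049, 0, 0, 0, 0, 0, 0, 0, 0, ⟨0, 0⟩, 0⟩ 0 0))) (.pos 16 .mp ⟨989610067, 0, 0, 0, 0, 0, 0, 0, 0, ⟨0, 0⟩, 0⟩ 0 0)) (.pos 14 .mp ⟨1269775100, 0, 0, 0, 0, 0, 0, 0, 0, ⟨0, 0⟩, 0⟩ 0 0)) (.cut .v 20971520 (.cut .l 7092186 (.cut .d (-262144) (.cut .l 4537473 (.pos 13 .mp ⟨822282468, 0, 0, 0, 0, 0, 0, 0, 0, ⟨0, 0⟩, 0⟩ 0 0) (.cut .s 13500416 (.pos 13 .mp ⟨621773654, 0, 0, 0, 0, 0, 0, 0, 0, ⟨0, 0⟩, 0⟩ 0 0) (.pos 13 .mp ⟨750998012, 0, 0, 0, 0, 0, 0, 0, 0, ⟨0, 0⟩, 0⟩ 0 0))) (.cut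 .v 18874368 (.cut .l 4537473 (.cut .d (-131072) (.cut .v 17825792 (.cut .v 17301504 (.cut .s 13500416 (.cut .s 13369344 (.pos 19 .mp ⟨264897445, 0, 0, 0, 0, 443461401, 0, 0, 0, ⟨0, 0⟩, 0⟩ 0 0) (.pos 19 .mp ⟨290173739, 0, 0, 0, 0, 486301042, 0, 0, 0, ⟨0, 0⟩, 0⟩ 0 0)) (.cut .s 13631488 (.pos 19 .mp ⟨309777189, 0, 0, 0, 0, 547977146, 0, 0, 0, ⟨0, 0⟩, 0⟩ 0 0) (.pos 19 .mp ⟨327320688, 0, 0, 0, 0, 624933766, 0, 0, 0, ⟨0, 0⟩, 0⟩ 0 0))) (.pos 20 .mp ⟨672647887, 0, 0, 0, 0, 0, 0, 0, 0, ⟨0, 0⟩, 0⟩ 0 0)) (.pos 18 .mp ⟨710957906, 0, 0, 0, 0, 0, 0, 0, 0, ⟨0, 0⟩, 0⟩ 0 0)) (.cut .d (-65536) (.cut .v 17825792 (.cut .v 17301504 (.cut .l 3260117 (.cut .l 2621439 (.cut .s 13500416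 (.cut .d (-98304) (.pos 19 .mp ⟨277952785, 0, 0, 0, 0, 425832001, 0, 0, 0, ⟨0, 0⟩, 0⟩ 0 0) (.pos 19 .mp ⟨249518617, 0, 0, 0, 0, 367266009, 0, 0, 0, ⟨0, 0⟩, 0⟩ 0 0)) (.cut .d (-98304) (.pos 19 .mp ⟨219251977, 0, 0, 0, 0, 730890573, 0, 0, 0, ⟨0, 0⟩, 0⟩ 0 0) (.pos 19 .mp ⟨290423988, 0, 0, 0, 0, 427528927, 0, 0, 0, ⟨0, 0⟩, 0⟩ 0 0))) (.pos 19 .mp ⟨290405832, 0, 0, 0, 0, 264984852, 0, 0, 0, ⟨0, 0⟩, 0⟩ 0 0)) (.pos 19 .mp ⟨0, 0, 0, 0, 0, 0, 0, 0, 0, ⟨0, 0⟩, 0⟩ 0 0)) (.pos 20 .mp ⟨604149736, 0, 0, 0, 0, 0, 0, 0, 0, ⟨0, 0⟩, 0⟩ 0 0)) (.pos 18 .mp ⟨641270987, 0, 0, 0, 0, 0, 0, 0, 0, ⟨0, 0⟩, 0⟩ 0 0)) (.pos 15 .mp ⟨295174548, 0, 0, 0, 0, 0, 0, 0, 0, ⟨0, 0⟩, 0⟩ 0 0))) (.pos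 15 .mp ⟨470839301, 0, 0, 0, 0, 0, 0, 0, 0, ⟨0, 0⟩, 0⟩ 0 0)) (.pos 16 .mp ⟨715259293, 0, 0, 0, 0, 0, 0, 0, 0, ⟨0, 0⟩, 0⟩ 0 0))) (.cut .s 13500416 (.pos 13 .mp ⟨518495025, 0, 0, 0, 0, 0, 0, 0, 0, ⟨0, 0⟩, 0⟩ 0 0) (.pos 13 .mp ⟨625491588, 0, 0, 0, 0, 0, 0, 0, 0, ⟨0, 0⟩, 0⟩ 0 0))) (.cut .l 7092186 (.pos 14 .mp ⟨1023341248, 0, 0, 0, 0, 0, 0, 0, 0, ⟨0, 0⟩, 0⟩ 0 0) (.pos 14 .mp ⟨857167500, 0, 0, 0, 0, 0, 0, 0, 0, ⟨0, 0⟩, 0⟩ 0 0)))) (.cut .v 29360128 (.cut .s 13500416 (.pos 27 .mp ⟨1271510503, 0, 0, 0, 0, 0, 0, 0, 0, ⟨0, 0⟩, 0⟩ 0 0) (.pos 27 .mp ⟨1509376333, 0, 0, 0, 0, 0, 0, 0, 0, ⟨0, 0⟩, 0⟩ 0 0)) (.pos 28 .mp ⟨1842918226, 0, 0, 0, 0, 0, 0, 0, 0, ⟨0, 0⟩, 0⟩ 0 0)))))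 (.pos 10 .mp ⟨8267056411, 0, 0, 0, 0, 0, 0, 0, 0, ⟨0, 0⟩, 0⟩ 0 0)))) (.void 49 ⟨100000, 0, 0, 0, 0, 0, 0, 0, 0, ⟨0, 0⟩, 0⟩ 0 0)) (.void 64 ⟨93601, 0, 0, 6399, 0, 0, 0, 0, 0, ⟨0, 0⟩, 0⟩ 0 0))) (.cut .v 16777216 (.cut .v 8388608 (.cut .v 4194304 (.cut .v 2097152 (.cut .d 2242500 (.void 71 ⟨0, 0, 100000, 0, 0, 0, 0, 0, 0, ⟨0, 0⟩, 0⟩ 0 0) (.cut .v 1048576 (.cut .v 524288 (.pos 121 .pm ⟨0, 1658378, 0, 0, 0, 0, 0, 0, 0, ⟨0, 0⟩, 0⟩ 0 0) (.pos 122 .pm ⟨0, 26987507, 0, 0, 0, 0, 0, 0, 0, ⟨0, 0⟩, 0⟩ 0 0)) (.pos 96 .pm ⟨0, 50295976, 0, 0, 0, 0, 0, 0, 0, ⟨0, 0⟩, 0⟩ 0 0))) (.cut .d 2242500 (.pos 72 .pm ⟨0, 0, 111493931, 0, 0, 0, 0, 0, 0, ⟨0, 0⟩, 0⟩ 0 0) (.cut .d 3363750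 (.pos 72 .pm ⟨0, 0, 0, 0, 0, 0, 0, 0, 0, ⟨0, 0⟩, 0⟩ 0 0) (.pos 72 .pm ⟨0, 103434956, 0, 0, 0, 0, 0, 0, 0, ⟨0, 0⟩, 0⟩ 0 0)))) (.cut .d 2242500 (.pos 5 .pm ⟨0, 0, 142023138, 0, 0, 0, 0, 0, 0, ⟨0, 0⟩, 0⟩ 0 0) (.cut .d 3363750 (.pos 5 .pm ⟨0, 0, 0, 0, 0, 0, 0, 0, 0, ⟨0, 0⟩, 0⟩ 0 0) (.pos 5 .pm ⟨0, 133959629, 0, 0, 0, 0, 0, 0, 0, ⟨0, 0⟩, 0⟩ 0 0)))) (.pos 3 .pm ⟨0, 18004656, 0, 0, 0, 0, 0, 0, 0, ⟨0, 0⟩, 0⟩ 0 0)) (.cut .v 268435456 (.cut .d 2242500 (.cut .v 67108864 (.cut .d 1121250 (.cut .v 33554432 (.cut .d 560625 (.cut .d 280312 (.cut .v 25165824 (.cut .v 20971520 (.pos 13 .pp ⟨251536058, 0, 0, 0, 0, 0, 0, 0, 0, ⟨0, 0⟩, 0⟩ 0 0) (.pos 14 .pp ⟨645933867, 0, 0, 0,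 0, 0, 0, 0, 0, ⟨0, 0⟩, 0⟩ 0 0)) (.pos 12 .pp ⟨1092023688, 0, 0, 0, 0, 0, 0, 0, 0, ⟨0, 0⟩, 0⟩ 0 0)) (.pos 9 .pp ⟨365949231, 0, 0, 0, 0, 0, 0, 0, 0, ⟨0, 0⟩, 0⟩ 0 0)) (.pos 9 .pp ⟨0, 0, 0, 0, 0, 0, 0, 0, 0, ⟨0, 0⟩, 0⟩ 0 0)) (.cut .v 50331648 (.cut .d 560625 (.cut .v 41943040 (.pos 31 .pp ⟨1716114861, 0, 0, 0, 0, 0, 0, 0, 0, ⟨0, 0⟩, 0⟩ 0 0) (.pos 32 .pp ⟨2576921872, 0, 0, 0, 0, 0, 0, 0, 0, ⟨0, 0⟩, 0⟩ 0 0)) (.pos 29 .pp ⟨1286826012, 0, 0, 0, 0, 0, 0, 0, 0, ⟨0, 0⟩, 0⟩ 0 0)) (.cut .d 560625 (.cut .v 58720256 (.pos 93 .pp ⟨3595945420, 0, 0, 0, 0, 0, 0, 0, 0, ⟨0, 0⟩, 0⟩ 0 0) (.pos 94 .pp ⟨4948141687, 0, 0, 0, 0, 0, 0, 0, 0, ⟨0, 0⟩, 0⟩ 0 0)) (.cut .v 58720256 (.pos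 93 .pp ⟨2490859477, 0, 0, 0, 0, 0, 0, 0, 0, ⟨0, 0⟩, 0⟩ 0 0) (.pos 94 .pp ⟨3372338432, 0, 0, 0, 0, 0, 0, 0, 0, ⟨0, 0⟩, 0⟩ 0 0))))) (.pos 8 .pp ⟨0, 0, 0, 0, 0, 0, 0, 0, 0, ⟨0, 0⟩, 0⟩ 0 0)) (.cut .v 134217728 (.cut .v 100663296 (.cut .v 83886080 (.cut .d 1121250 (.cut .d 560625 (.pos 103 .pp ⟨9024319198, 0, 0, 0, 0, 0, 0, 0, 0, ⟨0, 0⟩, 0⟩ 0 0) (.cut .v 75497472 (.cut .d 840937 (.cut .d 700781 (.cut .s 13500416 (.pos 105 .pp ⟨5115890163, 0, 0, 0, 0, 0, 0, 0, 0, ⟨0, 0⟩, 0⟩ 0 0) (.pos 105 .pp ⟨5428850874, 0, 0, 0, 0, 0, 0, 0, 0, ⟨0, 0⟩, 0⟩ 0 0)) (.pos 105 .pp ⟨4300888363, 0, 0, 0, 0, 0, 0, 0, 0, ⟨0, 0⟩, 0⟩ 0 0)) (.pos 105 .pp ⟨3786578381, 280402440, 0, 0, 0, 0,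 0, 0, 0, ⟨0, 0⟩, 0⟩ 0 0)) (.cut .d 840937 (.cut .v 79691776 (.cut .l 7092186 (.void 113 ⟨36912, 63088, 0, 0, 0, 0, 0, 0, 0, ⟨0, 0⟩, 0⟩ 0 0) (.cut .l 9646899 (.pos 113 .pp ⟨6245934648, 1587264689, 0, 0, 0, 0, 0, 0, 0, ⟨0, 0⟩, 0⟩ 0 0) (.cut .d 700781 (.cut .d 630703 (.pos 113 .pp ⟨8326633730, 153696592, 0, 0, 0, 0, 0, 0, 0, ⟨0, 0⟩, 0⟩ 0 0) (.cut .l 10924255 (.pos 113 .pp ⟨7992529238, 75799690, 0, 0, 0, 0, 0, 0, 0, ⟨0, 0⟩, 0⟩ 0 0) (.cut .s 13500416 (.cut .d 665742 (.pos 113 .pp ⟨8091175309, 0, 0, 0, 0, 0, 0, 0, 0, ⟨0, 0⟩, 0⟩ 0 0) (.cut .l 11562933 (.pos 113 .pp ⟨6455165927, 494913724, 0, 0, 0, 0, 0, 0, 0, ⟨0, 0⟩, 0⟩ 0 0) (.cut .l 11882272 (.pos 113 .pp ⟨6524832622,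 409150570, 0, 0, 0, 0, 0, 0, 0, ⟨0, 0⟩, 0⟩ 0 0) (.cut .s 13369344 (.cut .v 77594624 (.pos 115 .pp ⟨7151700091, 0, 0, 0, 0, 0, 0, 0, 0, ⟨0, 0⟩, 0⟩ 0 0) (.void 116 ⟨100000, 0, 0, 0, 0, 0, 0, 0, 0, ⟨0, 0⟩, 0⟩ 0 0)) (.cut .v 77594624 (.pos 115 .pp ⟨5491791793, 0, 0, 0, 0, 0, 0, 0, 0, ⟨0, 0⟩, 0⟩ 0 0) (.cut .s 13434880 (.pos 116 .pp ⟨5947016291, 878838522, 0, 0, 0, 0, 0, 0, 0, ⟨0, 0⟩, 0⟩ 0 0) (.pos 116 .pp ⟨6022707952, 879494712, 0, 0, 0, 0, 0, 0, 0, ⟨0, 0⟩, 0⟩ 0 0))))))) (.cut .v 77594624 (.pos 115 .pp ⟨5669358918, 0, 0, 0, 0, 0, 0, 0, 0, ⟨0, 0⟩, 0⟩ 0 0) (.pos 116 .pp ⟨6266934881, 999886282, 0, 0, 0, 0, 0, 0, 0, ⟨0, 0⟩, 0⟩ 0 0))))) (.cut .v 77594624 (.cut .s 13500416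 (.cut .s 13369344 (.cut .s 13303808 (.pos 115 .pp ⟨5117808553, 121078869, 0, 0, 0, 0, 0, 0, 0, ⟨0, 0⟩, 0⟩ 0 0) (.cut .d 770859 (.pos 115 .pp ⟨5399813944, 320282534, 0, 0, 0, 0, 0, 0, 0, ⟨0, 0⟩, 0⟩ 0 0) (.pos 115 .pp ⟨3664439645, 1199857013, 0, 0, 0, 0, 0, 0, 0, ⟨0, 0⟩, 0⟩ 0 0))) (.pos 115 .pp ⟨5383598562, 657547736, 0, 0, 0, 0, 0, 0, 0, ⟨0, 0⟩, 0⟩ 0 0)) (.pos 115 .pp ⟨4340393924, 1082542569, 0, 0, 0, 0, 0, 0, 0, ⟨0, 0⟩, 0⟩ 0 0)) (.void 116 ⟨24666, 75334, 0, 0, 0, 0, 0, 0, 0, ⟨0, 0⟩, 0⟩ 0 0))))) (.void 114 ⟨36912, 63088, 0, 0, 0, 0, 0, 0, 0, ⟨0, 0⟩, 0⟩ 0 0)) (.void 106 ⟨0, 100000, 0, 0, 0, 0, 0, 0, 0, ⟨0, 0⟩, 0⟩ 0 0)))) (.pos 103 .pp ⟨3045712377, 561618754,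 0, 0, 0, 0, 0, 0, 0, ⟨0, 0⟩, 0⟩ 0 0)) (.void 104 ⟨36360, 63640, 0, 0, 0, 0, 0, 0, 0, ⟨0, 0⟩, 0⟩ 0 0)) (.void 78 ⟨36360, 63640, 0, 0, 0, 0, 0, 0, 0, ⟨0, 0⟩, 0⟩ 0 0)) (.void 66 ⟨0, 0, 0, 100000, 0, 0, 0, 0, 0, ⟨0, 0⟩, 0⟩ 0 0))) (.pos 48 .pp ⟨0, 83956578, 0, 0, 0, 0, 0, 0, 0, ⟨0, 0⟩, 0⟩ 0 0)) (.void 64 ⟨0, 0, 0, 100000, 0, 0, 0, 0, 0, ⟨0, 0⟩, 0⟩ 0 0)))),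
    by decide +kernel⟩

def covers21 : cell.Covers table row21.1 :=
  ⟨(.cut .d 0 (.cut .v 16777216 (.cut .v 8388608 (.void 2 ⟨0, 0, 100000, 0, 0, 0, 0, 0, 0, ⟨0, 0⟩, 0⟩ 0 0) (.cut .d (-8388608) (.void 3 ⟨75885, 0, 24115, 0, 0, 0, 0, 0, 0, ⟨0, 0⟩, 0⟩ 0 0) (.cut .d (-4194304) (.void 3 ⟨75885, 0, 24115, 0, 0, 0, 0, 0, 0, ⟨0, 0⟩, 0⟩ 0 0) (.cut .d (-2097152) (.void 3 ⟨0, 0, 0, 0, 0, 100000, 0, 0, 0, ⟨0, 0⟩, 0⟩ 0 0) (.cut .d (-1048576) (.void 3 ⟨0, 0, 0, 0, 0, 100000, 0, 0, 0, ⟨0, 0⟩, 0⟩ 0 0) (.cut .d (-524288) (.cut .d (-786432) (.void 3 ⟨0, 0, 0, 0, 0, 100000, 0, 0, 0, ⟨0, 0⟩, 0⟩ 0 0) (.cut .v 12582912 (.pos 6 .mm ⟨0, 0, 25517697, 0, 0, 1110149328, 0, 0, 0, ⟨0,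 0⟩, 0⟩ 0 0) (.cut .d (-655360) (.pos 7 .mm ⟨179428624, 0, 0, 0, 0, 1622089651, 0, 0, 0, ⟨0, 0⟩, 0⟩ 0 0) (.cut .v 14680064 (.pos 33 .mm ⟨0, 0, 0, 0, 0, 1317670205, 0, 0, 0, ⟨0, 0⟩, 0⟩ 0 0) (.cut .s 13959168 (.pos 34 .mm ⟨199610415, 0, 0, 0, 0, 1033431226, 0, 0, 0, ⟨0, 0⟩, 0⟩ 0 0) (.cut .v 15728640 (.pos 35 .mm ⟨0, 0, 0, 0, 0, 1491202056, 0, 0, 0, ⟨0, 0⟩, 0⟩ 0 0) (.cut .s 14057472 (.pos 36 .mm ⟨387554541, 0, 0, 0, 0, 835384813, 0, 0, 0, ⟨0, 0⟩, 0⟩ 0 0) (.pos 36 .mm ⟨450435993, 0, 0, 0, 0, 827951779, 0, 0, 0, ⟨0, 0⟩, 0⟩ 0 0)))))))) (.cut .v 12582912 (.cut .l 7092186 (.cut .d (-262144) (.pos 6 .mm ⟨0, 0, 20661857, 0, 0, 1049425089, 0, 0, 0, ⟨0, 0⟩, 0⟩ 0 0) (.pos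 6 .mm ⟨0, 0, 0, 0, 0, 714212292, 0, 0, 0, ⟨0, 0⟩, 0⟩ 0 0)) (.pos 6 .mm ⟨0, 0, 0, 0, 0, 667937839, 0, 0, 0, ⟨0, 0⟩, 0⟩ 0 0)) (.cut .d (-262144) (.cut .l 7092186 (.cut .s 13959168 (.pos 7 .mm ⟨58228485, 0, 0, 0, 0, 1241840881, 0, 0, 0, ⟨0, 0⟩, 0⟩ 0 0) (.pos 7 .mm ⟨87059505, 0, 0, 0, 0, 1386517787, 0, 0, 0, ⟨0, 0⟩, 0⟩ 0 0)) (.cut .v 14680064 (.pos 33 .mm ⟨0, 0, 0, 0, 0, 1085195480, 0, 0, 0, ⟨0, 0⟩, 0⟩ 0 0) (.cut .d (-393216) (.cut .v 15728640 (.pos 35 .mm ⟨0, 0, 0, 0, 0, 1292593032, 0, 0, 0, ⟨0, 0⟩, 0⟩ 0 0) (.cut .s 13959168 (.pos 36 .mm ⟨517343733, 0, 0, 0, 0, 418390773, 0, 0, 0, ⟨0, 0⟩, 0⟩ 0 0) (.cut .l 9646899 (.pos 36 .mm ⟨235491495, 0, 0, 0, 0, 1142045155,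 0, 0, 0, ⟨0, 0⟩, 0⟩ 0 0) (.pos 36 .mm ⟨477007945, 0, 0, 0, 0, 587978768, 0, 0, 0, ⟨0, 0⟩, 0⟩ 0 0)))) (.cut .v 15728640 (.pos 35 .mm ⟨0, 0, 0, 0, 0, 1156047279, 0, 0, 0, ⟨0, 0⟩, 0⟩ 0 0) (.pos 36 .mm ⟨429017035, 0, 0, 0, 0, 525737406, 0, 0, 0, ⟨0, 0⟩, 0⟩ 0 0))))) (.cut .l 7092186 (.cut .v 14680064 (.pos 33 .mm ⟨0, 0, 0, 0, 0, 1012953737, 0, 0, 0, ⟨0, 0⟩, 0⟩ 0 0) (.cut .d (-131072) (.cut .s 13959168 (.pos 34 .mm ⟨0, 0, 0, 0, 0, 1236501909, 0, 0, 0, ⟨0, 0⟩, 0⟩ 0 0) (.cut .s 14057472 (.pos 34 .mm ⟨0, 0, 0, 0, 0, 1346501590, 0, 0, 0, ⟨0, 0⟩, 0⟩ 0 0) (.pos 34 .mm ⟨0, 0, 0, 0, 0, 1432804977, 0, 0, 0, ⟨0, 0⟩, 0⟩ 0 0))) (.cut .s 13959168 (.pos 34 .mm ⟨0, 0, 0, 0, 0,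 1120358753, 0, 0, 0, ⟨0, 0⟩, 0⟩ 0 0) (.cut .s 14057472 (.pos 34 .mm ⟨0, 0, 0, 0, 0, 1234733101, 0, 0, 0, ⟨0, 0⟩, 0⟩ 0 0) (.pos 34 .mm ⟨0, 0, 0, 0, 0, 1309268212, 0, 0, 0, ⟨0, 0⟩, 0⟩ 0 0))))) (.pos 7 .mm ⟨0, 0, 0, 0, 0, 0, 0, 0, 0, ⟨0, 0⟩, 0⟩ 0 0)))))))))) (.cut .v 268435456 (.cut .v 67108864 (.cut .d (-8388608) (.void 8 ⟨100000, 0, 0, 0, 0, 0, 0, 0, 0, ⟨0, 0⟩, 0⟩ 0 0) (.cut .v 33554432 (.cut .d (-4194304) (.void 9 ⟨100000, 0, 0, 0, 0, 0, 0, 0, 0, ⟨0, 0⟩, 0⟩ 0 0) (.cut .d (-2097152) (.void 9 ⟨100000, 0, 0, 0, 0, 0, 0, 0, 0, ⟨0, 0⟩, 0⟩ 0 0) (.cut .d (-1048576) (.void 9 ⟨100000, 0, 0, 0, 0, 0, 0, 0, 0, ⟨0, 0⟩, 0⟩ 0 0) (.cut .v 25165824 (.cut .d (-524288) (.cut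 .v 20971520 (.cut .s 13959168 (.pos 13 .mp ⟨1121451899, 0, 0, 0, 0, 0, 0, 0, 0, ⟨0, 0⟩, 0⟩ 0 0) (.pos 13 .mp ⟨1280465364, 0, 0, 0, 0, 0, 0, 0, 0, ⟨0, 0⟩, 0⟩ 0 0)) (.void 14 ⟨100000, 0, 0, 0, 0, 0, 0, 0, 0, ⟨0, 0⟩, 0⟩ 0 0)) (.cut .v 20971520 (.cut .d (-262144) (.cut .v 18874368 (.cut .l 7092186 (.pos 15 .mp ⟨995722781, 0, 0, 0, 0, 0, 0, 0, 0, ⟨0, 0⟩, 0⟩ 0 0) (.pos 15 .mp ⟨879082369, 0, 0, 0, 0, 0, 0, 0, 0, ⟨0, 0⟩, 0⟩ 0 0)) (.pos 16 .mp ⟨1130273505, 0, 0, 0, 0, 0, 0, 0, 0, ⟨0, 0⟩, 0⟩ 0 0)) (.cut .v 18874368 (.cut .v 17825792 (.cut .l 7092186 (.cut .l 4537473 (.cut .d (-131072) (.cut .s 13959168 (.pos 17 .mp ⟨455746594, 0, 0, 0, 0, 597002685, 0, 0, 0, ⟨0, 0⟩,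 0⟩ 0 0) (.pos 17 .mp ⟨597021899, 0, 0, 0, 0, 512278378, 0, 0, 0, ⟨0, 0⟩, 0⟩ 0 0)) (.cut .d (-65536) (.cut .l 3260117 (.cut .v 17301504 (.cut .l 2621439 (.cut .d (-98304) (.pos 19 .mp ⟨253718038, 0, 0, 0, 0, 1076598675, 0, 0, 0, ⟨0, 0⟩, 0⟩ 0 0) (.cut .s 13959168 (.pos 19 .mp ⟨269942525, 0, 0, 0, 0, 811475785, 0, 0, 0, ⟨0, 0⟩, 0⟩ 0 0) (.cut .s 14057472 (.pos 19 .mp ⟨281968209, 0, 0, 0, 0, 880510936, 0, 0, 0, ⟨0, 0⟩, 0⟩ 0 0) (.pos 19 .mp ⟨295621533, 0, 0, 0, 0, 938950145, 0, 0, 0, ⟨0, 0⟩, 0⟩ 0 0)))) (.pos 19 .mp ⟨373874939, 0, 0, 0, 0, 615214854, 0, 0, 0, ⟨0, 0⟩, 0⟩ 0 0)) (.pos 20 .mp ⟨863477259, 0, 0, 0, 0, 0, 0, 0, 0, ⟨0, 0⟩, 0⟩ 0 0)) (.pos 17 .mp ⟨352728750,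 0, 0, 0, 0, 0, 0, 0, 0, ⟨0, 0⟩, 0⟩ 0 0)) (.pos 17 .mp ⟨331029290, 0, 0, 0, 0, 0, 0, 0, 0, ⟨0, 0⟩, 0⟩ 0 0))) (.pos 17 .mp ⟨731137317, 0, 0, 0, 0, 0, 0, 0, 0, ⟨0, 0⟩, 0⟩ 0 0)) (.pos 17 .mp ⟨0, 0, 0, 0, 0, 0, 0, 0, 0, ⟨0, 0⟩, 0⟩ 0 0)) (.pos 18 .mp ⟨887785561, 0, 0, 0, 0, 0, 0, 0, 0, ⟨0, 0⟩, 0⟩ 0 0)) (.pos 16 .mp ⟨976641628, 0, 0, 0, 0, 0, 0, 0, 0, ⟨0, 0⟩, 0⟩ 0 0))) (.pos 14 .mp ⟨1301108634, 0, 0, 0, 0, 0, 0, 0, 0, ⟨0, 0⟩, 0⟩ 0 0))) (.cut .v 29360128 (.pos 27 .mp ⟨1929602476, 0, 0, 0, 0, 0, 0, 0, 0, ⟨0, 0⟩, 0⟩ 0 0) (.pos 28 .mp ⟨2433789186, 0, 0, 0, 0, 0, 0, 0, 0, ⟨0, 0⟩, 0⟩ 0 0)))))) (.pos 10 .mp ⟨16116803589, 0, 0, 0, 0, 0, 0, 0, 0, ⟨0, 0⟩, 0⟩ 0 0))) (.void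 49 ⟨100000, 0, 0, 0, 0, 0, 0, 0, 0, ⟨0, 0⟩, 0⟩ 0 0)) (.void 64 ⟨93431, 0, 0, 6569, 0, 0, 0, 0, 0, ⟨0, 0⟩, 0⟩ 0 0))) (.cut .v 16777216 (.cut .v 8388608 (.cut .v 4194304 (.cut .v 2097152 (.cut .v 1048576 (.cut .v 524288 (.pos 121 .pm ⟨0, 0, 4612358, 0, 0, 0, 0, 0, 0, ⟨0, 0⟩, 0⟩ 0 0) (.pos 122 .pm ⟨0, 3303887, 0, 0, 0, 0, 0, 0, 0, ⟨0, 0⟩, 0⟩ 0 0)) (.pos 96 .pm ⟨0, 11936422, 0, 0, 0, 0, 0, 0, 0, ⟨0, 0⟩, 0⟩ 0 0)) (.cut .d 1837506 (.pos 72 .pm ⟨0, 0, 189628087, 0, 0, 0, 0, 0, 0, ⟨0, 0⟩, 0⟩ 0 0) (.pos 72 .pm ⟨0, 68918481, 0, 0, 0, 0, 0, 0, 0, ⟨0, 0⟩, 0⟩ 0 0))) (.cut .d 1837506 (.pos 5 .pm ⟨0, 0, 230986171, 0, 0, 0, 0, 0, 0, ⟨0, 0⟩, 0⟩ 0 0) (.pos 5 .pm ⟨0, 103548311,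 0, 0, 0, 0, 0, 0, 0, ⟨0, 0⟩, 0⟩ 0 0))) (.pos 3 .pm ⟨0, 0, 0, 0, 0, 0, 0, 0, 0, ⟨0, 0⟩, 0⟩ 0 0)) (.cut .v 268435456 (.cut .d 1837506 (.cut .v 67108864 (.cut .d 918753 (.cut .v 33554432 (.cut .v 25165824 (.pos 11 .pp ⟨509067584, 0, 0, 0, 0, 0, 0, 0, 0, ⟨0, 0⟩, 0⟩ 0 0) (.cut .d 459376 (.pos 12 .pp ⟨1365956766, 0, 0, 0, 0, 0, 0, 0, 0, ⟨0, 0⟩, 0⟩ 0 0) (.pos 12 .pp ⟨0, 0, 0, 0, 0, 0, 0, 0, 0, ⟨0, 0⟩, 0⟩ 0 0))) (.cut .v 50331648 (.cut .d 459376 (.cut .v 41943040 (.pos 31 .pp ⟨2252104811, 0, 0, 0, 0, 0, 0, 0, 0, ⟨0, 0⟩, 0⟩ 0 0) (.pos 32 .pp ⟨3314894121, 0, 0, 0, 0, 0, 0, 0, 0, ⟨0, 0⟩, 0⟩ 0 0)) (.pos 29 .pp ⟨1710984213, 0, 0, 0, 0, 0, 0, 0, 0, ⟨0, 0⟩, 0⟩ 0 0)) (.cut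 .d 459376 (.pos 30 .pp ⟨5701541496, 0, 0, 0, 0, 0, 0, 0, 0, ⟨0, 0⟩, 0⟩ 0 0) (.cut .v 58720256 (.pos 93 .pp ⟨3351542248, 0, 0, 0, 0, 0, 0, 0, 0, ⟨0, 0⟩, 0⟩ 0 0) (.pos 94 .pp ⟨4446066715, 0, 0, 0, 0, 0, 0, 0, 0, ⟨0, 0⟩, 0⟩ 0 0))))) (.pos 8 .pp ⟨0, 0, 0, 0, 0, 0, 0, 0, 0, ⟨0, 0⟩, 0⟩ 0 0)) (.cut .v 134217728 (.cut .v 100663296 (.cut .v 83886080 (.cut .d 918753 (.cut .d 459376 (.pos 103 .pp ⟨11551027251, 0, 0, 0, 0, 0, 0, 0, 0, ⟨0, 0⟩, 0⟩ 0 0) (.cut .v 75497472 (.cut .d 689064 (.pos 105 .pp ⟨6331011390, 0, 0, 0, 0, 0, 0, 0, 0, ⟨0, 0⟩, 0⟩ 0 0) (.pos 105 .pp ⟨5171666586, 0, 0, 0, 0, 0, 0, 0, 0, ⟨0, 0⟩, 0⟩ 0 0)) (.cut .d 689064 (.cut .v 79691776 (.cut .l 7092186 (.void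 113 ⟨36426, 63574, 0, 0, 0, 0, 0, 0, 0, ⟨0, 0⟩, 0⟩ 0 0) (.cut .l 9646899 (.pos 113 .pp ⟨7729531782, 403044560, 0, 0, 0, 0, 0, 0, 0, ⟨0, 0⟩, 0⟩ 0 0) (.cut .d 574220 (.cut .l 10924255 (.pos 113 .pp ⟨9036080792, 618876276, 0, 0, 0, 0, 0, 0, 0, ⟨0, 0⟩, 0⟩ 0 0) (.cut .s 13959168 (.cut .v 77594624 (.pos 115 .pp ⟨7093816439, 0, 0, 0, 0, 0, 0, 0, 0, ⟨0, 0⟩, 0⟩ 0 0) (.pos 116 .pp ⟨7993796779, 921090723, 0, 0, 0, 0, 0, 0, 0, ⟨0, 0⟩, 0⟩ 0 0)) (.cut .v 77594624 (.pos 115 .pp ⟨7390476276, 0, 0, 0, 0, 0, 0, 0, 0, ⟨0, 0⟩, 0⟩ 0 0) (.cut .d 516798 (.pos 116 .pp ⟨9296443060, 965676150, 0, 0, 0, 0, 0, 0, 0, ⟨0, 0⟩, 0⟩ 0 0) (.cut .d 545509 (.cut .l 11562933 (.pos 116 .pp ⟨9219441485,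 848886517, 0, 0, 0, 0, 0, 0, 0, ⟨0, 0⟩, 0⟩ 0 0) (.cut .l 11882272 (.pos 116 .pp ⟨8374136110, 1111216774, 0, 0, 0, 0, 0, 0, 0, ⟨0, 0⟩, 0⟩ 0 0) (.cut .s 14057472 (.cut .v 78643200 (.pos 123 .pp ⟨7401275845, 0, 0, 0, 0, 0, 0, 0, 0, ⟨0, 0⟩, 0⟩ 0 0) (.cut .s 14008320 (.pos 124 .pp ⟨8259516095, 1162227909, 0, 0, 0, 0, 0, 0, 0, ⟨0, 0⟩, 0⟩ 0 0) (.cut .d 531153 (.pos 124 .pp ⟨11764252686, 0, 0, 0, 0, 0, 0, 0, 0, ⟨0, 0⟩, 0⟩ 0 0) (.pos 124 .pp ⟨8223800774, 1309022154, 0, 0, 0, 0, 0, 0, 0, ⟨0, 0⟩, 0⟩ 0 0)))) (.cut .v 78643200 (.pos 123 .pp ⟨7555583714, 0, 0, 0, 0, 0, 0, 0, 0, ⟨0, 0⟩, 0⟩ 0 0) (.cut .s 14106624 (.pos 124 .pp ⟨8394395979, 1392289723, 0, 0, 0, 0, 0, 0, 0,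 ⟨0, 0⟩, 0⟩ 0 0) (.pos 124 .pp ⟨8495064652, 1362077612, 0, 0, 0, 0, 0, 0, 0, ⟨0, 0⟩, 0⟩ 0 0)))))) (.pos 116 .pp ⟨7298278028, 1411176346, 0, 0, 0, 0, 0, 0, 0, ⟨0, 0⟩, 0⟩ 0 0)))))) (.cut .s 13959168 (.pos 113 .pp ⟨6954762123, 1119224694, 0, 0, 0, 0, 0, 0, 0, ⟨0, 0⟩, 0⟩ 0 0) (.pos 113 .pp ⟨5935185962, 1528723689, 0, 0, 0, 0, 0, 0, 0, ⟨0, 0⟩, 0⟩ 0 0))))) (.void 114 ⟨36426, 63574, 0, 0, 0, 0, 0, 0, 0, ⟨0, 0⟩, 0⟩ 0 0)) (.pos 106 .pp ⟨5257681008, 2697022298, 0, 0, 0, 0, 0, 0, 0, ⟨0, 0⟩, 0⟩ 0 0)))) (.pos 103 .pp ⟨0, 2357238825, 0, 0, 0, 0, 0, 0, 0, ⟨0, 0⟩, 0⟩ 0 0)) (.void 104 ⟨35972, 64028, 0, 0, 0, 0, 0, 0, 0, ⟨0, 0⟩, 0⟩ 0 0)) (.void 78 ⟨87083, 0, 0, 12917, 0, 0,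 0, 0, 0, ⟨0, 0⟩, 0⟩ 0 0)) (.void 66 ⟨0, 0, 0, 100000, 0, 0, 0, 0, 0, ⟨0, 0⟩, 0⟩ 0 0))) (.pos 48 .pp ⟨0, 61721661, 0, 0, 0, 0, 0, 0, 0, ⟨0, 0⟩, 0⟩ 0 0)) (.void 64 ⟨0, 0, 0, 100000, 0, 0, 0, 0, 0, ⟨0, 0⟩, 0⟩ 0 0)))),
    by decide +kernel⟩

def covers22 : cell.Covers table row22.1 :=
  ⟨(.cut .d 0 (.cut .v 16777216 (.cut .v 8388608 (.void 2 ⟨0, 0, 100000, 0, 0, 0, 0, 0, 0, ⟨0, 0⟩, 0⟩ 0 0) (.cut .d (-8388608) (.void 3 ⟨100000, 0, 0, 0, 0, 0, 0, 0, 0, ⟨0, 0⟩, 0⟩ 0 0) (.cut .d (-4194304) (.void 3 ⟨100000, 0, 0, 0, 0, 0, 0, 0, 0, ⟨0, 0⟩, 0⟩ 0 0) (.cut .d (-2097152) (.void 3 ⟨75462, 0, 24538, 0, 0, 0, 0, 0, 0, ⟨0, 0⟩, 0⟩ 0 0) (.cut .d (-1048576) (.void 3 ⟨0, 0, 0,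 0, 0, 100000, 0, 0, 0, ⟨0, 0⟩, 0⟩ 0 0) (.cut .d (-524288) (.cut .v 12582912 (.pos 6 .mm ⟨0, 0, 6272822, 0, 0, 1601780770, 0, 0, 0, ⟨0, 0⟩, 0⟩ 0 0) (.cut .d (-786432) (.void 7 ⟨0, 0, 0, 0, 0, 100000, 0, 0, 0, ⟨0, 0⟩, 0⟩ 0 0) (.cut .v 14680064 (.pos 33 .mm ⟨0, 0, 0, 0, 0, 1827270698, 0, 0, 0, ⟨0, 0⟩, 0⟩ 0 0) (.cut .d (-655360) (.void 34 ⟨0, 0, 0, 0, 0, 100000, 0, 0, 0, ⟨0, 0⟩, 0⟩ 0 0) (.cut .d (-589824) (.void 34 ⟨0, 0, 0, 0, 0, 100000, 0, 0, 0, ⟨0, 0⟩, 0⟩ 0 0) (.cut .l 7092186 (.void 34 ⟨0, 0, 0, 0, 0, 100000, 0, 0, 0, ⟨0, 0⟩, 0⟩ 0 0) (.cut .l 9646899 (.void 34 ⟨0, 0, 0, 0, 0, 100000, 0, 0, 0, ⟨0, 0⟩, 0⟩ 0 0) (.cut .l 10924255 (.void 34 ⟨0, 0, 0, 0, 0, 100000,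 0, 0, 0, ⟨0, 0⟩, 0⟩ 0 0) (.cut .v 15728640 (.cut .s 14319616 (.pos 35 .mm ⟨0, 0, 0, 0, 0, 1742808698, 0, 0, 0, ⟨0, 0⟩, 0⟩ 0 0) (.cut .s 14401536 (.pos 35 .mm ⟨0, 0, 0, 0, 0, 1843940662, 0, 0, 0, ⟨0, 0⟩, 0⟩ 0 0) (.void 35 ⟨0, 0, 0, 0, 0, 100000, 0, 0, 0, ⟨0, 0⟩, 0⟩ 0 0))) (.cut .v 16252928 (.cut .v 15990784 (.cut .s 14319616 (.pos 107 .mm ⟨494793990, 0, 0, 0, 0, 916164938, 0, 0, 0, ⟨0, 0⟩, 0⟩ 0 0) (.cut .s 14401536 (.cut .d (-557056) (.void 107 ⟨100000, 0, 0, 0, 0, 0, 0, 0, 0, ⟨0, 0⟩, 0⟩ 0 0) (.cut .s 14360576 (.pos 107 .mm ⟨462277621, 0, 0, 0, 0, 1016545089, 0, 0, 0, ⟨0, 0⟩, 0⟩ 0 0) (.cut .s 14381056 (.pos 107 .mm ⟨476017875, 0, 0, 0, 0, 1022306474, 0, 0,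 0, ⟨0, 0⟩, 0⟩ 0 0) (.pos 107 .mm ⟨412964858, 0, 0, 0, 0, 1192653149, 0, 0, 0, ⟨0, 0⟩, 0⟩ 0 0)))) (.void 107 ⟨100000, 0, 0, 0, 0, 0, 0, 0, 0, ⟨0, 0⟩, 0⟩ 0 0))) (.pos 108 .mm ⟨1139251476, 0, 0, 0, 0, 0, 0, 0, 0, ⟨0, 0⟩, 0⟩ 0 0)) (.pos 51 .mm ⟨1169963274, 0, 0, 0, 0, 0, 0, 0, 0, ⟨0, 0⟩, 0⟩ 0 0))))))))))) (.cut .v 12582912 (.cut .d (-262144) (.cut .v 10485760 (.pos 69 .mm ⟨0, 0, 89179967, 0, 0, 1016935447, 0, 0, 0, ⟨0, 0⟩, 0⟩ 0 0) (.cut .s 14319616 (.pos 70 .mm ⟨0, 0, 0, 0, 0, 1122688537, 0, 0, 0, ⟨0, 0⟩, 0⟩ 0 0) (.pos 70 .mm ⟨0, 0, 0, 0, 0, 1263594164, 0, 0, 0, ⟨0, 0⟩, 0⟩ 0 0))) (.cut .v 10485760 (.pos 69 .mm ⟨0, 0, 0, 0, 0, 798625546, 0, 0, 0, ⟨0, 0⟩, 0⟩ 0 0)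 (.pos 70 .mm ⟨0, 0, 0, 0, 0, 1011105997, 0, 0, 0, ⟨0, 0⟩, 0⟩ 0 0))) (.cut .d (-262144) (.cut .l 7092186 (.cut .s 14319616 (.pos 7 .mm ⟨117145026, 0, 0, 0, 0, 1562776012, 0, 0, 0, ⟨0, 0⟩, 0⟩ 0 0) (.cut .s 14401536 (.pos 7 .mm ⟨149731434, 0, 0, 0, 0, 1626370266, 0, 0, 0, ⟨0, 0⟩, 0⟩ 0 0) (.pos 7 .mm ⟨166350205, 0, 0, 0, 0, 1710803965, 0, 0, 0, ⟨0, 0⟩, 0⟩ 0 0))) (.cut .v 14680064 (.cut .d (-393216) (.pos 33 .mm ⟨0, 0, 0, 0, 0, 1528538920, 0, 0, 0, ⟨0, 0⟩, 0⟩ 0 0) (.pos 33 .mm ⟨0, 0, 0, 0, 0, 1324576143, 0, 0, 0, ⟨0, 0⟩, 0⟩ 0 0)) (.cut .d (-393216) (.cut .v 15728640 (.cut .s 14319616 (.pos 35 .mm ⟨0, 0, 0, 0, 0, 1535462347, 0, 0, 0, ⟨0, 0⟩, 0⟩ 0 0) (.cut .s 14401536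 (.pos 35 .mm ⟨0, 0, 0, 0, 0, 1698945809, 0, 0, 0, ⟨0, 0⟩, 0⟩ 0 0) (.pos 35 .mm ⟨121568351, 0, 0, 0, 0, 1592847315, 0, 0, 0, ⟨0, 0⟩, 0⟩ 0 0))) (.cut .s 14319616 (.cut .l 9646899 (.pos 36 .mm ⟨448181000, 0, 0, 0, 0, 976693841, 0, 0, 0, ⟨0, 0⟩, 0⟩ 0 0) (.cut .s 14237696 (.pos 36 .mm ⟨530643278, 0, 0, 0, 0, 656766558, 0, 0, 0, ⟨0, 0⟩, 0⟩ 0 0) (.pos 36 .mm ⟨587942942, 0, 0, 0, 0, 642498837, 0, 0, 0, ⟨0, 0⟩, 0⟩ 0 0))) (.cut .l 9646899 (.pos 36 .mm ⟨342043013, 0, 0, 0, 0, 1431556837, 0, 0, 0, ⟨0, 0⟩, 0⟩ 0 0) (.cut .d (-458752) (.cut .l 10924255 (.pos 36 .mm ⟨496526610, 0, 0, 0, 0, 1095413281, 0, 0, 0, ⟨0, 0⟩, 0⟩ 0 0) (.cut .s 14401536 (.pos 36 .mm ⟨550502052, 0,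 0, 0, 0, 805543363, 0, 0, 0, ⟨0, 0⟩, 0⟩ 0 0) (.pos 36 .mm ⟨614661315, 0, 0, 0, 0, 789120292, 0, 0, 0, ⟨0, 0⟩, 0⟩ 0 0))) (.pos 36 .mm ⟨565363597, 0, 0, 0, 0, 753080760, 0, 0, 0, ⟨0, 0⟩, 0⟩ 0 0))))) (.cut .l 9646899 (.cut .v 15728640 (.pos 35 .mm ⟨0, 0, 0, 0, 0, 1567853268, 0, 0, 0, ⟨0, 0⟩, 0⟩ 0 0) (.cut .s 14319616 (.pos 36 .mm ⟨514917297, 0, 0, 0, 0, 664595158, 0, 0, 0, ⟨0, 0⟩, 0⟩ 0 0) (.cut .s 14401536 (.pos 36 .mm ⟨561821080, 0, 0, 0, 0, 708784659, 0, 0, 0, ⟨0, 0⟩, 0⟩ 0 0) (.pos 36 .mm ⟨611740993, 0, 0, 0, 0, 716269575, 0, 0, 0, ⟨0, 0⟩, 0⟩ 0 0)))) (.pos 34 .mm ⟨362634620, 0, 0, 0, 0, 732735935, 0, 0, 0, ⟨0, 0⟩, 0⟩ 0 0))))) (.cut .l 7092186 (.cut .d (-131072)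 (.cut .v 14680064 (.pos 33 .mm ⟨0, 0, 0, 0, 0, 1403288621, 0, 0, 0, ⟨0, 0⟩, 0⟩ 0 0) (.cut .s 14319616 (.cut .s 14237696 (.pos 34 .mm ⟨1030902, 0, 0, 0, 0, 1522593735, 0, 0, 0, ⟨0, 0⟩, 0⟩ 0 0) (.pos 34 .mm ⟨4480334, 0, 0, 0, 0, 1597169860, 0, 0, 0, ⟨0, 0⟩, 0⟩ 0 0)) (.cut .s 14401536 (.pos 34 .mm ⟨6371482, 0, 0, 0, 0, 1683125944, 0, 0, 0, ⟨0, 0⟩, 0⟩ 0 0) (.pos 34 .mm ⟨6557726, 0, 0, 0, 0, 1781284455, 0, 0, 0, ⟨0, 0⟩, 0⟩ 0 0)))) (.cut .v 14680064 (.pos 33 .mm ⟨0, 0, 0, 0, 0, 1203454770, 0, 0, 0, ⟨0, 0⟩, 0⟩ 0 0) (.cut .l 4537473 (.cut .d (-65536) (.cut .s 14319616 (.pos 34 .mm ⟨0, 0, 0, 0, 0, 1522897346, 0, 0, 0, ⟨0, 0⟩, 0⟩ 0 0) (.pos 34 .mm ⟨0, 0, 0, 0, 0, 1684203348,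 0, 0, 0, ⟨0, 0⟩, 0⟩ 0 0)) (.pos 34 .mm ⟨0, 0, 0, 0, 0, 1411185318, 0, 0, 0, ⟨0, 0⟩, 0⟩ 0 0)) (.pos 34 .mm ⟨0, 0, 0, 0, 0, 0, 0, 0, 0, ⟨0, 0⟩, 0⟩ 0 0)))) (.pos 7 .mm ⟨183226870, 0, 0, 0, 0, 0, 0, 0, 0, ⟨0, 0⟩, 0⟩ 0 0)))))))))) (.cut .v 268435456 (.cut .v 67108864 (.cut .d (-8388608) (.void 8 ⟨100000, 0, 0, 0, 0, 0, 0, 0, 0, ⟨0, 0⟩, 0⟩ 0 0) (.cut .d (-4194304) (.void 8 ⟨100000, 0, 0, 0, 0, 0, 0, 0, 0, ⟨0, 0⟩, 0⟩ 0 0) (.cut .v 33554432 (.cut .d (-2097152) (.void 9 ⟨100000, 0, 0, 0, 0, 0, 0, 0, 0, ⟨0, 0⟩, 0⟩ 0 0) (.cut .d (-1048576) (.void 9 ⟨100000, 0, 0, 0, 0, 0, 0, 0, 0, ⟨0, 0⟩, 0⟩ 0 0) (.cut .d (-524288) (.pos 9 .mp ⟨2799367998, 0, 0, 0, 0, 0, 0, 0, 0, ⟨0,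 0⟩, 0⟩ 0 0) (.cut .v 25165824 (.cut .v 20971520 (.cut .d (-262144) (.cut .l 7092186 (.pos 13 .mp ⟨1338082788, 0, 0, 0, 0, 0, 0, 0, 0, ⟨0, 0⟩, 0⟩ 0 0) (.cut .d (-393216) (.pos 13 .mp ⟨1208559510, 0, 0, 0, 0, 0, 0, 0, 0, ⟨0, 0⟩, 0⟩ 0 0) (.pos 13 .mp ⟨1051438729, 0, 0, 0, 0, 0, 0, 0, 0, ⟨0, 0⟩, 0⟩ 0 0))) (.cut .v 18874368 (.cut .v 17825792 (.cut .l 7092186 (.cut .d (-131072) (.cut .s 14319616 (.pos 17 .mp ⟨701961190, 0, 0, 0, 0, 496634465, 0, 0, 0, ⟨0, 0⟩, 0⟩ 0 0) (.pos 17 .mp ⟨838199650, 0, 0, 0, 0, 438582553, 0, 0, 0, ⟨0, 0⟩, 0⟩ 0 0)) (.cut .l 4537473 (.cut .l 3260117 (.cut .d (-65536) (.cut .v 17301504 (.cut .s 14319616 (.cut .s 14237696 (.pos 19 .mp ⟨321021321,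 0, 0, 0, 0, 1013536189, 0, 0, 0, ⟨0, 0⟩, 0⟩ 0 0) (.cut .v 17039360 (.pos 67 .mp ⟨126147958, 0, 0, 0, 0, 1399571905, 0, 0, 0, ⟨0, 0⟩, 0⟩ 0 0) (.pos 68 .mp ⟨342654971, 0, 0, 0, 0, 1080426782, 0, 0, 0, ⟨0, 0⟩, 0⟩ 0 0))) (.cut .s 14401536 (.cut .v 17039360 (.pos 67 .mp ⟨180983062, 0, 0, 0, 0, 1397267568, 0, 0, 0, ⟨0, 0⟩, 0⟩ 0 0) (.pos 68 .mp ⟨344348747, 0, 0, 0, 0, 1157025335, 0, 0, 0, ⟨0, 0⟩, 0⟩ 0 0)) (.pos 19 .mp ⟨383465902, 0, 0, 0, 0, 1161699106, 0, 0, 0, ⟨0, 0⟩, 0⟩ 0 0))) (.pos 20 .mp ⟨1066095850, 0, 0, 0, 0, 0, 0, 0, 0, ⟨0, 0⟩, 0⟩ 0 0)) (.cut .v 17301504 (.cut .d (-32768) (.cut .d (-49152) (.cut .v 17039360 (.pos 67 .mp ⟨0, 0, 0, 0, 0, 1510800445, 0, 0,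 0, ⟨0, 0⟩, 0⟩ 0 0) (.cut .d (-57344) (.cut .d (-61440) (.cut .v 17170432 (.cut .s 14319616 (.pos 99 .mp ⟨338387038, 0, 0, 0, 0, 981096559, 0, 0, 0, ⟨0, 0⟩, 0⟩ 0 0) (.cut .d (-63488) (.pos 99 .mp ⟨334318832, 0, 0, 0, 0, 1078200883, 0, 0, 0, ⟨0, 0⟩, 0⟩ 0 0) (.pos 99 .mp ⟨340824512, 0, 0, 0, 0, 1008966711, 0, 0, 0, ⟨0, 0⟩, 0⟩ 0 0))) (.pos 100 .mp ⟨1014913601, 0, 0, 0, 0, 0, 0, 0, 0, ⟨0, 0⟩, 0⟩ 0 0)) (.pos 68 .mp ⟨356209012, 0, 0, 0, 0, 764476041, 0, 0, 0, ⟨0, 0⟩, 0⟩ 0 0)) (.pos 68 .mp ⟨346448405, 0, 0, 0, 0, 0, 0, 0, 0, ⟨0, 0⟩, 0⟩ 0 0))) (.pos 19 .mp ⟨0, 0, 0, 0, 0, 0, 0, 0, 0, ⟨0, 0⟩, 0⟩ 0 0)) (.pos 19 .mp ⟨0, 0, 0, 0, 0, 0, 0, 0, 0, ⟨0, 0⟩, 0⟩ 0 0)) (.pos 20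 .mp ⟨876423299, 0, 0, 0, 0, 0, 0, 0, 0, ⟨0, 0⟩, 0⟩ 0 0))) (.pos 17 .mp ⟨428865310, 0, 0, 0, 0, 718474678, 0, 0, 0, ⟨0, 0⟩, 0⟩ 0 0)) (.pos 17 .mp ⟨321906065, 0, 0, 0, 0, 0, 0, 0, 0, ⟨0, 0⟩, 0⟩ 0 0))) (.pos 17 .mp ⟨861623613, 0, 0, 0, 0, 0, 0, 0, 0, ⟨0, 0⟩, 0⟩ 0 0)) (.pos 18 .mp ⟨1096159708, 0, 0, 0, 0, 0, 0, 0, 0, ⟨0, 0⟩, 0⟩ 0 0)) (.pos 16 .mp ⟨1195051576, 0, 0, 0, 0, 0, 0, 0, 0, ⟨0, 0⟩, 0⟩ 0 0))) (.pos 14 .mp ⟨1602052930, 0, 0, 0, 0, 0, 0, 0, 0, ⟨0, 0⟩, 0⟩ 0 0)) (.pos 12 .mp ⟨2397672297, 0, 0, 0, 0, 0, 0, 0, 0, ⟨0, 0⟩, 0⟩ 0 0))))) (.pos 10 .mp ⟨13078290553, 0, 0, 0, 0, 0, 0, 0, 0, ⟨0, 0⟩, 0⟩ 0 0)))) (.void 49 ⟨100000, 0, 0, 0, 0, 0, 0, 0, 0, ⟨0, 0⟩, 0⟩ 0 0))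 (.void 64 ⟨93289, 0, 0, 6711, 0, 0, 0, 0, 0, ⟨0, 0⟩, 0⟩ 0 0))) (.cut .v 16777216 (.cut .v 8388608 (.cut .v 4194304 (.cut .v 2097152 (.cut .v 1048576 (.cut .v 524288 (.pos 121 .pm ⟨0, 0, 5263194, 0, 0, 0, 0, 0, 0, ⟨0, 0⟩, 0⟩ 0 0) (.pos 122 .pm ⟨0, 0, 55820, 0, 0, 0, 0, 0, 0, ⟨0, 0⟩, 0⟩ 0 0)) (.pos 96 .pm ⟨0, 4040197, 0, 0, 0, 0, 0, 0, 0, ⟨0, 0⟩, 0⟩ 0 0)) (.pos 72 .pm ⟨0, 5246754, 0, 0, 0, 0, 0, 0, 0, ⟨0, 0⟩, 0⟩ 0 0)) (.pos 5 .pm ⟨0, 0, 1484856, 0, 0, 0, 0, 0, 0, ⟨0, 0⟩, 0⟩ 0 0)) (.pos 3 .pm ⟨0, 0, 5713097, 0, 0, 0, 0, 0, 0, ⟨0, 0⟩, 0⟩ 0 0)) (.cut .v 268435456 (.cut .d 1553447 (.cut .v 67108864 (.cut .d 776723 (.cut .v 33554432 (.cut .v 25165824 (.pos 11 .pp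 ⟨586422666, 0, 0, 0, 0, 0, 0, 0, 0, ⟨0, 0⟩, 0⟩ 0 0) (.pos 12 .pp ⟨1396085302, 0, 0, 0, 0, 0, 0, 0, 0, ⟨0, 0⟩, 0⟩ 0 0)) (.cut .v 50331648 (.cut .v 41943040 (.pos 31 .pp ⟨2381765400, 0, 0, 0, 0, 0, 0, 0, 0, ⟨0, 0⟩, 0⟩ 0 0) (.cut .d 388361 (.pos 32 .pp ⟨3915374000, 0, 0, 0, 0, 0, 0, 0, 0, ⟨0, 0⟩, 0⟩ 0 0) (.pos 32 .pp ⟨2830157245, 0, 0, 0, 0, 0, 0, 0, 0, ⟨0, 0⟩, 0⟩ 0 0))) (.cut .d 388361 (.pos 30 .pp ⟨6616781970, 0, 0, 0, 0, 0, 0, 0, 0, ⟨0, 0⟩, 0⟩ 0 0) (.cut .v 58720256 (.pos 93 .pp ⟨4037099004, 0, 0, 0, 0, 0, 0, 0, 0, ⟨0, 0⟩, 0⟩ 0 0) (.pos 94 .pp ⟨5280810881, 0, 0, 0, 0, 0, 0, 0, 0, ⟨0, 0⟩, 0⟩ 0 0))))) (.pos 8 .pp ⟨0, 0, 0, 0, 0, 0, 0, 0, 0, ⟨0, 0⟩, 0⟩ 0 0))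 (.cut .v 134217728 (.cut .v 100663296 (.cut .v 83886080 (.cut .d 776723 (.cut .d 388361 (.pos 103 .pp ⟨13649975731, 0, 0, 0, 0, 0, 0, 0, 0, ⟨0, 0⟩, 0⟩ 0 0) (.cut .v 75497472 (.cut .d 582542 (.pos 105 .pp ⟨7462133832, 0, 0, 0, 0, 0, 0, 0, 0, ⟨0, 0⟩, 0⟩ 0 0) (.pos 105 .pp ⟨6195103278, 0, 0, 0, 0, 0, 0, 0, 0, ⟨0, 0⟩, 0⟩ 0 0)) (.cut .d 582542 (.cut .l 7092186 (.pos 106 .pp ⟨10653909531, 967801781, 0, 0, 0, 0, 0, 0, 0, ⟨0, 0⟩, 0⟩ 0 0) (.cut .l 9646899 (.pos 106 .pp ⟨9628169038, 3061882507, 0, 0, 0, 0, 0, 0, 0, ⟨0, 0⟩, 0⟩ 0 0) (.cut .v 79691776 (.cut .s 14319616 (.cut .v 77594624 (.pos 115 .pp ⟨7955804547, 0, 0, 0, 0, 0, 0, 0, 0, ⟨0, 0⟩, 0⟩ 0 0) (.cut .v 78643200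 (.pos 123 .pp ⟨8170484799, 0, 0, 0, 0, 0, 0, 0, 0, ⟨0, 0⟩, 0⟩ 0 0) (.cut .d 485451 (.pos 124 .pp ⟨10596692125, 938425367, 0, 0, 0, 0, 0, 0, 0, ⟨0, 0⟩, 0⟩ 0 0) (.cut .s 14237696 (.cut .s 14196736 (.pos 124 .pp ⟨8807555810, 1581832095, 0, 0, 0, 0, 0, 0, 0, ⟨0, 0⟩, 0⟩ 0 0) (.pos 124 .pp ⟨8891918083, 1558862752, 0, 0, 0, 0, 0, 0, 0, ⟨0, 0⟩, 0⟩ 0 0)) (.pos 124 .pp ⟨8997558095, 1524050487, 0, 0, 0, 0, 0, 0, 0, ⟨0, 0⟩, 0⟩ 0 0))))) (.pos 113 .pp ⟨8831187461, 196242325, 0, 0, 0, 0, 0, 0, 0, ⟨0, 0⟩, 0⟩ 0 0)) (.cut .s 14319616 (.void 114 ⟨36279, 63721, 0, 0, 0, 0, 0, 0, 0, ⟨0, 0⟩, 0⟩ 0 0) (.pos 114 .pp ⟨16473161049, 13188014649, 0, 0, 0, 0, 0, 0, 0, ⟨0, 0⟩, 0⟩ 0 0)))))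 (.pos 106 .pp ⟨6182938068, 3400199134, 0, 0, 0, 0, 0, 0, 0, ⟨0, 0⟩, 0⟩ 0 0)))) (.pos 103 .pp ⟨0, 3079047958, 0, 0, 0, 0, 0, 0, 0, ⟨0, 0⟩, 0⟩ 0 0)) (.void 104 ⟨35632, 64368, 0, 0, 0, 0, 0, 0, 0, ⟨0, 0⟩, 0⟩ 0 0)) (.void 78 ⟨86916, 0, 0, 13084, 0, 0, 0, 0, 0, ⟨0, 0⟩, 0⟩ 0 0)) (.void 66 ⟨0, 0, 0, 100000, 0, 0, 0, 0, 0, ⟨0, 0⟩, 0⟩ 0 0))) (.pos 48 .pp ⟨0, 31192032, 0, 0, 0, 0, 0, 0, 0, ⟨0, 0⟩, 0⟩ 0 0)) (.void 64 ⟨0, 0, 0, 100000, 0, 0, 0, 0, 0, ⟨0, 0⟩, 0⟩ 0 0)))),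
    by decide +kernel⟩

def covers23 : cell.Covers table row23.1 :=
  ⟨(.cut .d 0 (.cut .v 16777216 (.cut .d (-8388608) (.void 1 ⟨0, 0, 0, 0, 0, 100000, 0, 0, 0, ⟨0, 0⟩, 0⟩ 0 0) (.cut .v 8388608 (.void 2 ⟨0, 0, 100000, 0, 0, 0, 0, 0, 0, ⟨0, 0⟩, 0⟩ 0 0) (.cut .d (-4194304) (.void 3 ⟨100000, 0, 0, 0, 0, 0, 0, 0, 0, ⟨0, 0⟩, 0⟩ 0 0) (.cut .d (-2097152) (.void 3 ⟨75112, 0, 24888, 0, 0, 0, 0, 0, 0, ⟨0, 0⟩, 0⟩ 0 0) (.cut .d (-1048576) (.void 3 ⟨0, 0, 0, 0, 0, 100000, 0, 0, 0, ⟨0, 0⟩, 0⟩ 0 0) (.cut .d (-524288) (.void 3 ⟨0, 0, 0, 0, 0, 100000, 0, 0, 0, ⟨0, 0⟩, 0⟩ 0 0) (.cut .d (-262144) (.cut .l 7092186 (.cut .s 14647296 (.pos 3 .mm ⟨58478859, 0, 0, 0, 0, 2160645974,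 0, 0, 0, ⟨0, 0⟩, 0⟩ 0 0) (.void 3 ⟨0, 0, 0, 0, 0, 100000, 0, 0, 0, ⟨0, 0⟩, 0⟩ 0 0)) (.cut .v 12582912 (.cut .d (-393216) (.pos 6 .mm ⟨0, 0, 34123964, 0, 0, 1673533184, 0, 0, 0, ⟨0, 0⟩, 0⟩ 0 0) (.cut .v 10485760 (.pos 69 .mm ⟨0, 0, 99007204, 0, 0, 1215372030, 0, 0, 0, ⟨0, 0⟩, 0⟩ 0 0) (.pos 70 .mm ⟨0, 0, 0, 0, 0, 1413417913, 0, 0, 0, ⟨0, 0⟩, 0⟩ 0 0))) (.cut .d (-393216) (.cut .v 14680064 (.pos 33 .mm ⟨0, 0, 0, 0, 0, 2002238803, 0, 0, 0, ⟨0, 0⟩, 0⟩ 0 0) (.cut .l 9646899 (.void 34 ⟨0, 0, 0, 0, 0, 100000, 0, 0, 0, ⟨0, 0⟩, 0⟩ 0 0) (.cut .v 15728640 (.cut .s 14647296 (.cut .v 15204352 (.pos 58 .mm ⟨0, 0, 0, 0, 0, 1949934264, 0, 0, 0, ⟨0, 0⟩, 0⟩ 0 0) (.cut .l 10924255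 (.pos 59 .mm ⟨0, 0, 0, 0, 0, 2097789604, 0, 0, 0, ⟨0, 0⟩, 0⟩ 0 0) (.cut .d (-458752) (.cut .d (-491520) (.pos 59 .mm ⟨364881701, 0, 0, 0, 0, 1577502482, 0, 0, 0, ⟨0, 0⟩, 0⟩ 0 0) (.cut .v 15466496 (.pos 133 .mm ⟨0, 0, 0, 0, 0, 2044922698, 0, 0, 0, ⟨0, 0⟩, 0⟩ 0 0) (.cut .v 15597568 (.pos 135 .mm ⟨0, 0, 0, 0, 0, 2064140610, 0, 0, 0, ⟨0, 0⟩, 0⟩ 0 0) (.cut .l 11562933 (.pos 136 .mm ⟨0, 0, 0, 0, 0, 2162807838, 0, 0, 0, ⟨0, 0⟩, 0⟩ 0 0) (.cut .l 11882272 (.pos 136 .mm ⟨0, 0, 0, 0, 0, 2122568296, 0, 0, 0, ⟨0, 0⟩, 0⟩ 0 0) (.cut .s 14565376 (.cut .d (-475136) (.pos 136 .mm ⟨404415136, 0, 0, 0, 0, 1366613146, 0, 0, 0, ⟨0, 0⟩, 0⟩ 0 0) (.pos 136 .mm ⟨404415136, 0, 0, 0,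 0, 1199338390, 0, 0, 0, ⟨0, 0⟩, 0⟩ 0 0)) (.cut .l 12041942 (.pos 136 .mm ⟨378342575, 0, 0, 0, 0, 1478402865, 0, 0, 0, ⟨0, 0⟩, 0⟩ 0 0) (.cut .d (-475136) (.cut .s 14606336 (.pos 136 .mm ⟨404415136, 0, 0, 0, 0, 1422063132, 0, 0, 0, ⟨0, 0⟩, 0⟩ 0 0) (.void 136 ⟨0, 0, 0, 0, 0, 100000, 0, 0, 0, ⟨0, 0⟩, 0⟩ 0 0)) (.cut .s 14606336 (.cut .d (-466944) (.cut .v 15663104 (.pos 137 .mm ⟨0, 0, 0, 0, 0, 2072831914, 0, 0, 0, ⟨0, 0⟩, 0⟩ 0 0) (.cut .v 15695872 (.pos 139 .mm ⟨0, 0, 0, 0, 0, 2077634703, 0, 0, 0, ⟨0, 0⟩, 0⟩ 0 0) (.cut .s 14585856 (.pos 140 .mm ⟨423681540, 0, 0, 0, 0, 1337358823, 0, 0, 0, ⟨0, 0⟩, 0⟩ 0 0) (.cut .d (-471040) (.pos 140 .mm ⟨437616502, 0, 0, 0, 0,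 1338442585, 0, 0, 0, ⟨0, 0⟩, 0⟩ 0 0) (.pos 140 .mm ⟨427725979, 0, 0, 0, 0, 1339552629, 0, 0, 0, ⟨0, 0⟩, 0⟩ 0 0))))) (.pos 136 .mm ⟨412228707, 0, 0, 0, 0, 1237976222, 0, 0, 0, ⟨0, 0⟩, 0⟩ 0 0)) (.pos 136 .mm ⟨392614514, 0, 0, 0, 0, 1436473219, 0, 0, 0, ⟨0, 0⟩, 0⟩ 0 0)))))))))) (.cut .s 14565376 (.pos 59 .mm ⟨0, 0, 0, 0, 0, 1812193920, 0, 0, 0, ⟨0, 0⟩, 0⟩ 0 0) (.pos 59 .mm ⟨278806344, 0, 0, 0, 0, 1495734987, 0, 0, 0, ⟨0, 0⟩, 0⟩ 0 0))))) (.cut .d (-458752) (.void 35 ⟨0, 0, 0, 0, 0, 100000, 0, 0, 0, ⟨0, 0⟩, 0⟩ 0 0) (.cut .s 14729216 (.pos 35 .mm ⟨258688666, 0, 0, 0, 0, 1637226723, 0, 0, 0, ⟨0, 0⟩, 0⟩ 0 0) (.pos 35 .mm ⟨246855549, 0, 0, 0, 0, 1846788420, 0, 0, 0,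 ⟨0, 0⟩, 0⟩ 0 0)))) (.cut .v 16252928 (.cut .s 14647296 (.cut .v 15990784 (.cut .d (-458752) (.cut .d (-491520) (.pos 107 .mm ⟨1278536355, 0, 0, 0, 0, 0, 0, 0, 0, ⟨0, 0⟩, 0⟩ 0 0) (.cut .s 14565376 (.pos 107 .mm ⟨1140308118, 0, 0, 0, 0, 84157371, 0, 0, 0, ⟨0, 0⟩, 0⟩ 0 0) (.pos 107 .mm ⟨1001912356, 0, 0, 0, 0, 394839864, 0, 0, 0, ⟨0, 0⟩, 0⟩ 0 0))) (.cut .s 14565376 (.pos 107 .mm ⟨578266704, 0, 0, 0, 0, 933774994, 0, 0, 0, ⟨0, 0⟩, 0⟩ 0 0) (.pos 107 .mm ⟨643038039, 0, 0, 0, 0, 926075524, 0, 0, 0, ⟨0, 0⟩, 0⟩ 0 0))) (.pos 108 .mm ⟨1244671007, 0, 0, 0, 0, 0, 0, 0, 0, ⟨0, 0⟩, 0⟩ 0 0)) (.cut .d (-458752) (.void 50 ⟨100000, 0, 0, 0, 0, 0, 0, 0, 0, ⟨0, 0⟩, 0⟩ 0 0) (.cut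 .s 14729216 (.pos 50 .mm ⟨731673118, 0, 0, 0, 0, 890867256, 0, 0, 0, ⟨0, 0⟩, 0⟩ 0 0) (.pos 50 .mm ⟨1352513582, 0, 0, 0, 0, 0, 0, 0, 0, ⟨0, 0⟩, 0⟩ 0 0)))) (.pos 51 .mm ⟨1351375091, 0, 0, 0, 0, 0, 0, 0, 0, ⟨0, 0⟩, 0⟩ 0 0))))) (.cut .v 14680064 (.cut .l 9646899 (.pos 33 .mm ⟨0, 0, 0, 0, 0, 1858884397, 0, 0, 0, ⟨0, 0⟩, 0⟩ 0 0) (.pos 33 .mm ⟨0, 0, 0, 0, 0, 1629655343, 0, 0, 0, ⟨0, 0⟩, 0⟩ 0 0)) (.cut .l 9646899 (.cut .s 14647296 (.cut .v 15728640 (.pos 35 .mm ⟨0, 0, 0, 0, 0, 1899011600, 0, 0, 0, ⟨0, 0⟩, 0⟩ 0 0) (.cut .d (-327680) (.pos 36 .mm ⟨289179105, 0, 0, 0, 0, 1613602806, 0, 0, 0, ⟨0, 0⟩, 0⟩ 0 0) (.pos 36 .mm ⟨556329502, 0, 0, 0, 0, 941707061, 0, 0, 0, ⟨0,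 0⟩, 0⟩ 0 0))) (.cut .d (-327680) (.pos 34 .mm ⟨291642960, 0, 0, 0, 0, 1844723409, 0, 0, 0, ⟨0, 0⟩, 0⟩ 0 0) (.cut .v 15728640 (.pos 35 .mm ⟨0, 0, 0, 0, 0, 2044313144, 0, 0, 0, ⟨0, 0⟩, 0⟩ 0 0) (.pos 36 .mm ⟨658775301, 0, 0, 0, 0, 962256419, 0, 0, 0, ⟨0, 0⟩, 0⟩ 0 0)))) (.cut .d (-327680) (.cut .v 15728640 (.pos 35 .mm ⟨0, 0, 0, 0, 0, 1889775193, 0, 0, 0, ⟨0, 0⟩, 0⟩ 0 0) (.cut .s 14647296 (.pos 36 .mm ⟨520210942, 0, 0, 0, 0, 993166180, 0, 0, 0, ⟨0, 0⟩, 0⟩ 0 0) (.pos 36 .mm ⟨632483941, 0, 0, 0, 0, 990171035, 0, 0, 0, ⟨0, 0⟩, 0⟩ 0 0))) (.pos 34 .mm ⟨358956400, 0, 0, 0, 0, 885436852, 0, 0, 0, ⟨0, 0⟩, 0⟩ 0 0))))))) (.cut .l 7092186 (.cut .v 12582912 (.cut .d (-131072)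 (.cut .v 10485760 (.pos 69 .mm ⟨0, 0, 60577464, 0, 0, 1252906497, 0, 0, 0, ⟨0, 0⟩, 0⟩ 0 0) (.pos 70 .mm ⟨0, 0, 0, 0, 0, 1483636251, 0, 0, 0, ⟨0, 0⟩, 0⟩ 0 0)) (.cut .v 10485760 (.pos 69 .mm ⟨0, 0, 0, 0, 0, 974181583, 0, 0, 0, ⟨0, 0⟩, 0⟩ 0 0) (.pos 70 .mm ⟨0, 0, 0, 0, 0, 1236231957, 0, 0, 0, ⟨0, 0⟩, 0⟩ 0 0))) (.cut .d (-131072) (.cut .v 14680064 (.pos 33 .mm ⟨0, 0, 0, 0, 0, 1798019532, 0, 0, 0, ⟨0, 0⟩, 0⟩ 0 0) (.cut .s 14647296 (.cut .s 14565376 (.pos 34 .mm ⟨4932921, 0, 0, 0, 0, 1900306389, 0, 0, 0, ⟨0, 0⟩, 0⟩ 0 0) (.cut .s 14606336 (.pos 34 .mm ⟨7178229, 0, 0, 0, 0, 1969537922, 0, 0, 0, ⟨0, 0⟩, 0⟩ 0 0) (.pos 34 .mm ⟨7294985, 0, 0, 0, 0, 2027573080, 0, 0, 0,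 ⟨0, 0⟩, 0⟩ 0 0))) (.cut .s 14729216 (.cut .s 14688256 (.pos 34 .mm ⟨6693347, 0, 0, 0, 0, 2090275155, 0, 0, 0, ⟨0, 0⟩, 0⟩ 0 0) (.pos 34 .mm ⟨5333935, 0, 0, 0, 0, 2157832649, 0, 0, 0, ⟨0, 0⟩, 0⟩ 0 0)) (.pos 34 .mm ⟨3174203, 0, 0, 0, 0, 2271461628, 0, 0, 0, ⟨0, 0⟩, 0⟩ 0 0)))) (.cut .v 14680064 (.pos 33 .mm ⟨0, 0, 0, 0, 0, 1514142867, 0, 0, 0, ⟨0, 0⟩, 0⟩ 0 0) (.cut .l 4537473 (.cut .d (-65536) (.cut .l 3260117 (.cut .s 14647296 (.pos 34 .mm ⟨0, 0, 0, 0, 0, 1944693203, 0, 0, 0, ⟨0, 0⟩, 0⟩ 0 0) (.pos 34 .mm ⟨0, 0, 0, 0, 0, 2164114455, 0, 0, 0, ⟨0, 0⟩, 0⟩ 0 0)) (.pos 34 .mm ⟨51650300, 0, 0, 0, 0, 1818767219, 0, 0, 0, ⟨0, 0⟩, 0⟩ 0 0)) (.pos 34 .mm ⟨0, 0, 0, 0, 0,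 1770266505, 0, 0, 0, ⟨0, 0⟩, 0⟩ 0 0)) (.pos 34 .mm ⟨0, 0, 0, 0, 0, 0, 0, 0, 0, ⟨0, 0⟩, 0⟩ 0 0))))) (.cut .v 12582912 (.pos 6 .mm ⟨0, 0, 0, 0, 0, 857621694, 0, 0, 0, ⟨0, 0⟩, 0⟩ 0 0) (.cut .v 14680064 (.pos 33 .mm ⟨0, 0, 0, 0, 0, 1387600737, 0, 0, 0, ⟨0, 0⟩, 0⟩ 0 0) (.pos 34 .mm ⟨384534812, 0, 0, 0, 0, 881406312, 0, 0, 0, ⟨0, 0⟩, 0⟩ 0 0))))))))))) (.cut .v 268435456 (.cut .v 67108864 (.cut .d (-8388608) (.void 8 ⟨100000, 0, 0, 0, 0, 0, 0, 0, 0, ⟨0, 0⟩, 0⟩ 0 0) (.cut .d (-4194304) (.void 8 ⟨100000, 0, 0, 0, 0, 0, 0, 0, 0, ⟨0, 0⟩, 0⟩ 0 0) (.cut .v 33554432 (.cut .d (-2097152) (.void 9 ⟨100000, 0, 0, 0, 0, 0, 0, 0, 0, ⟨0, 0⟩, 0⟩ 0 0) (.cut .d (-1048576) (.void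 9 ⟨100000, 0, 0, 0, 0, 0, 0, 0, 0, ⟨0, 0⟩, 0⟩ 0 0) (.cut .d (-524288) (.void 9 ⟨100000, 0, 0, 0, 0, 0, 0, 0, 0, ⟨0, 0⟩, 0⟩ 0 0) (.cut .v 25165824 (.cut .v 20971520 (.cut .d (-262144) (.cut .l 7092186 (.void 13 ⟨100000, 0, 0, 0, 0, 0, 0, 0, 0, ⟨0, 0⟩, 0⟩ 0 0) (.cut .d (-393216) (.pos 13 .mp ⟨1562566347, 0, 0, 0, 0, 0, 0, 0, 0, ⟨0, 0⟩, 0⟩ 0 0) (.pos 13 .mp ⟨1321843064, 0, 0, 0, 0, 0, 0, 0, 0, ⟨0, 0⟩, 0⟩ 0 0))) (.cut .v 18874368 (.cut .l 7092186 (.cut .v 17825792 (.cut .d (-131072) (.cut .l 4537473 (.pos 17 .mp ⟨1371980184, 0, 0, 0, 0, 0, 0, 0, 0, ⟨0, 0⟩, 0⟩ 0 0) (.pos 17 .mp ⟨1253499122, 0, 0, 0, 0, 0, 0, 0, 0, ⟨0, 0⟩, 0⟩ 0 0)) (.cut .l 4537473 (.cut .d (-65536)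 (.cut .l 3260117 (.cut .d (-98304) (.pos 17 .mp ⟨647140025, 0, 0, 0, 0, 1128723114, 0, 0, 0, ⟨0, 0⟩, 0⟩ 0 0) (.cut .v 17301504 (.cut .v 17039360 (.cut .s 14647296 (.cut .s 14565376 (.pos 67 .mp ⟨236155209, 0, 0, 0, 0, 1540936280, 0, 0, 0, ⟨0, 0⟩, 0⟩ 0 0) (.pos 67 .mp ⟨242288449, 0, 0, 0, 0, 1622338648, 0, 0, 0, ⟨0, 0⟩, 0⟩ 0 0)) (.cut .s 14729216 (.pos 67 .mp ⟨246206104, 0, 0, 0, 0, 1722617281, 0, 0, 0, ⟨0, 0⟩, 0⟩ 0 0) (.pos 67 .mp ⟨247664106, 0, 0, 0, 0, 1844955203, 0, 0, 0, ⟨0, 0⟩, 0⟩ 0 0))) (.pos 68 .mp ⟨1275214279, 0, 0, 0, 0, 0, 0, 0, 0, ⟨0, 0⟩, 0⟩ 0 0)) (.pos 20 .mp ⟨1312232981, 0, 0, 0, 0, 0, 0, 0, 0, ⟨0, 0⟩, 0⟩ 0 0))) (.pos 17 .mp ⟨515466334, 0, 0,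 0, 0, 1046685406, 0, 0, 0, ⟨0, 0⟩, 0⟩ 0 0)) (.cut .d (-32768) (.cut .d (-49152) (.cut .v 17301504 (.cut .l 3260117 (.cut .l 2621439 (.cut .l 2302100 (.cut .s 14647296 (.cut .l 2142430 (.cut .v 17039360 (.cut .d (-57344) (.pos 67 .mp ⟨0, 0, 0, 0, 0, 1993065787, 0, 0, 0, ⟨0, 0⟩, 0⟩ 0 0) (.pos 67 .mp ⟨0, 0, 0, 0, 0, 1909552911, 0, 0, 0, ⟨0, 0⟩, 0⟩ 0 0)) (.cut .d (-57344) (.pos 68 .mp ⟨365390712, 0, 0, 0, 0, 1412622221, 0, 0, 0, ⟨0, 0⟩, 0⟩ 0 0) (.cut .d (-53248) (.cut .s 14565376 (.pos 68 .mp ⟨356753384, 0, 0, 0, 0, 1260389292, 0, 0, 0, ⟨0, 0⟩, 0⟩ 0 0) (.cut .s 14606336 (.pos 68 .mp ⟨361284790, 0, 0, 0, 0, 1305074125, 0, 0, 0, ⟨0, 0⟩, 0⟩ 0 0) (.pos 68 .mp ⟨365390712,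 0, 0, 0, 0, 1332744273, 0, 0, 0, ⟨0, 0⟩, 0⟩ 0 0))) (.pos 68 .mp ⟨353694107, 0, 0, 0, 0, 0, 0, 0, 0, ⟨0, 0⟩, 0⟩ 0 0)))) (.pos 19 .mp ⟨360298260, 0, 0, 0, 0, 1224925835, 0, 0, 0, ⟨0, 0⟩, 0⟩ 0 0)) (.cut .d (-57344) (.pos 19 .mp ⟨340005927, 0, 0, 0, 0, 1564383186, 0, 0, 0, ⟨0, 0⟩, 0⟩ 0 0) (.cut .v 17039360 (.pos 67 .mp ⟨0, 0, 0, 0, 0, 2007752889, 0, 0, 0, ⟨0, 0⟩, 0⟩ 0 0) (.cut .d (-53248) (.pos 68 .mp ⟨353694107, 0, 0, 0, 0, 1438233550, 0, 0, 0, ⟨0, 0⟩, 0⟩ 0 0) (.pos 68 .mp ⟨360628239, 0, 0, 0, 0, 1242732841, 0, 0, 0, ⟨0, 0⟩, 0⟩ 0 0))))) (.pos 19 .mp ⟨350260866, 0, 0, 0, 0, 1028969100, 0, 0, 0, ⟨0, 0⟩, 0⟩ 0 0)) (.pos 19 .mp ⟨324542534, 0, 0, 0, 0, 0, 0, 0, 0,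 ⟨0, 0⟩, 0⟩ 0 0)) (.pos 19 .mp ⟨0, 0, 0, 0, 0, 0, 0, 0, 0, ⟨0, 0⟩, 0⟩ 0 0)) (.pos 20 .mp ⟨1278547714, 0, 0, 0, 0, 0, 0, 0, 0, ⟨0, 0⟩, 0⟩ 0 0)) (.pos 17 .mp ⟨363089326, 0, 0, 0, 0, 736021710, 0, 0, 0, ⟨0, 0⟩, 0⟩ 0 0)) (.pos 17 .mp ⟨313582142, 0, 0, 0, 0, 0, 0, 0, 0, ⟨0, 0⟩, 0⟩ 0 0))) (.pos 17 .mp ⟨382027655, 0, 0, 0, 0, 0, 0, 0, 0, ⟨0, 0⟩, 0⟩ 0 0))) (.pos 18 .mp ⟨1346197063, 0, 0, 0, 0, 0, 0, 0, 0, ⟨0, 0⟩, 0⟩ 0 0)) (.pos 15 .mp ⟨1074924034, 0, 0, 0, 0, 0, 0, 0, 0, ⟨0, 0⟩, 0⟩ 0 0)) (.pos 16 .mp ⟨1464614134, 0, 0, 0, 0, 0, 0, 0, 0, ⟨0, 0⟩, 0⟩ 0 0))) (.cut .d (-262144) (.pos 14 .mp ⟨2182981227, 0, 0, 0, 0, 0, 0, 0, 0, ⟨0, 0⟩, 0⟩ 0 0) (.pos 14 .mp ⟨1772990715, 0,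 0, 0, 0, 0, 0, 0, 0, ⟨0, 0⟩, 0⟩ 0 0))) (.pos 12 .mp ⟨2933859601, 0, 0, 0, 0, 0, 0, 0, 0, ⟨0, 0⟩, 0⟩ 0 0))))) (.pos 10 .mp ⟨16358109510, 0, 0, 0, 0, 0, 0, 0, 0, ⟨0, 0⟩, 0⟩ 0 0)))) (.void 49 ⟨100000, 0, 0, 0, 0, 0, 0, 0, 0, ⟨0, 0⟩, 0⟩ 0 0)) (.void 64 ⟨93147, 0, 0, 6853, 0, 0, 0, 0, 0, ⟨0, 0⟩, 0⟩ 0 0))) (.cut .v 16777216 (.cut .v 8388608 (.cut .v 4194304 (.cut .v 2097152 (.cut .v 1048576 (.cut .v 524288 (.pos 121 .pm ⟨0, 0, 5917592, 0, 0, 0, 0, 0, 0, ⟨0, 0⟩, 0⟩ 0 0) (.pos 122 .pm ⟨0, 0, 3182948, 0, 0, 0, 0, 0, 0, ⟨0, 0⟩, 0⟩ 0 0)) (.pos 96 .pm ⟨0, 0, 3330541, 0, 0, 0, 0, 0, 0, ⟨0, 0⟩, 0⟩ 0 0)) (.pos 72 .pm ⟨0, 0, 5172344, 0, 0, 0, 0, 0, 0, ⟨0, 0⟩, 0⟩ 0 0)) (.pos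 5 .pm ⟨0, 0, 19504522, 0, 0, 0, 0, 0, 0, ⟨0, 0⟩, 0⟩ 0 0)) (.pos 3 .pm ⟨0, 0, 16328730, 0, 0, 0, 0, 0, 0, ⟨0, 0⟩, 0⟩ 0 0)) (.cut .v 268435456 (.cut .d 1328514 (.cut .v 67108864 (.cut .d 664257 (.cut .v 33554432 (.cut .v 25165824 (.pos 11 .pp ⟨629689051, 0, 0, 0, 0, 0, 0, 0, 0, ⟨0, 0⟩, 0⟩ 0 0) (.pos 12 .pp ⟨1646692509, 0, 0, 0, 0, 0, 0, 0, 0, ⟨0, 0⟩, 0⟩ 0 0)) (.cut .v 50331648 (.cut .v 41943040 (.pos 31 .pp ⟨2815754991, 0, 0, 0, 0, 0, 0, 0, 0, ⟨0, 0⟩, 0⟩ 0 0) (.pos 32 .pp ⟨4076105920, 0, 0, 0, 0, 0, 0, 0, 0, ⟨0, 0⟩, 0⟩ 0 0)) (.cut .d 332128 (.pos 30 .pp ⟨7683652036, 0, 0, 0, 0, 0, 0, 0, 0, ⟨0, 0⟩, 0⟩ 0 0) (.pos 30 .pp ⟨5438567849, 0, 0, 0, 0, 0, 0, 0, 0, ⟨0,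 0⟩, 0⟩ 0 0)))) (.pos 8 .pp ⟨0, 0, 0, 0, 0, 0, 0, 0, 0, ⟨0, 0⟩, 0⟩ 0 0)) (.cut .v 134217728 (.cut .v 100663296 (.cut .v 83886080 (.cut .d 664257 (.cut .d 332128 (.pos 103 .pp ⟨15636338685, 0, 0, 0, 0, 0, 0, 0, 0, ⟨0, 0⟩, 0⟩ 0 0) (.cut .v 75497472 (.pos 105 .pp ⟨7854072426, 0, 0, 0, 0, 0, 0, 0, 0, ⟨0, 0⟩, 0⟩ 0 0) (.cut .v 79691776 (.pos 113 .pp ⟨9066107895, 0, 0, 0, 0, 0, 0, 0, 0, ⟨0, 0⟩, 0⟩ 0 0) (.pos 114 .pp ⟨11369921101, 3495468967, 0, 0, 0, 0, 0, 0, 0, ⟨0, 0⟩, 0⟩ 0 0)))) (.pos 103 .pp ⟨0, 3765143105, 0, 0, 0, 0, 0, 0, 0, ⟨0, 0⟩, 0⟩ 0 0)) (.void 104 ⟨35267, 64733, 0, 0, 0, 0, 0, 0, 0, ⟨0, 0⟩, 0⟩ 0 0)) (.void 78 ⟨86733, 0, 0, 13267, 0, 0, 0, 0, 0, ⟨0, 0⟩,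 0⟩ 0 0)) (.void 66 ⟨0, 0, 0, 100000, 0, 0, 0, 0, 0, ⟨0, 0⟩, 0⟩ 0 0))) (.pos 48 .pp ⟨0, 6232754, 0, 0, 0, 0, 0, 0, 0, ⟨0, 0⟩, 0⟩ 0 0)) (.void 64 ⟨0, 0, 0, 100000, 0, 0, 0, 0, 0, ⟨0, 0⟩, 0⟩ 0 0)))),
    by decide +kernel⟩

def covers24 : cell.Covers table row24.1 :=
  ⟨(.cut .d 0 (.cut .v 16777216 (.cut .d (-8388608) (.void 1 ⟨0, 0, 0, 0, 0, 100000, 0, 0, 0, ⟨0, 0⟩, 0⟩ 0 0) (.cut .v 8388608 (.void 2 ⟨0, 0, 100000, 0, 0, 0, 0, 0, 0, ⟨0, 0⟩, 0⟩ 0 0) (.cut .d (-4194304) (.void 3 ⟨100000, 0, 0, 0, 0, 0, 0, 0, 0, ⟨0, 0⟩, 0⟩ 0 0) (.cut .d (-2097152) (.void 3 ⟨74765, 0, 25235, 0, 0, 0, 0, 0, 0, ⟨0, 0⟩, 0⟩ 0 0) (.cut .d (-1048576) (.void 3 ⟨0, 0, 0, 0, 0, 100000, 0,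 0, 0, ⟨0, 0⟩, 0⟩ 0 0) (.cut .d (-524288) (.void 3 ⟨0, 0, 0, 0, 0, 100000, 0, 0, 0, ⟨0, 0⟩, 0⟩ 0 0) (.cut .d (-262144) (.cut .l 7092186 (.void 3 ⟨0, 0, 0, 0, 0, 100000, 0, 0, 0, ⟨0, 0⟩, 0⟩ 0 0) (.cut .v 12582912 (.cut .v 10485760 (.pos 69 .mm ⟨0, 0, 109240773, 0, 0, 1658600165, 0, 0, 0, ⟨0, 0⟩, 0⟩ 0 0) (.cut .d (-393216) (.pos 70 .mm ⟨0, 0, 0, 0, 0, 2493432405, 0, 0, 0, ⟨0, 0⟩, 0⟩ 0 0) (.pos 70 .mm ⟨0, 0, 0, 0, 0, 1901938467, 0, 0, 0, ⟨0, 0⟩, 0⟩ 0 0))) (.cut .d (-393216) (.cut .v 14680064 (.pos 33 .mm ⟨0, 0, 0, 0, 0, 2852207441, 0, 0, 0, ⟨0, 0⟩, 0⟩ 0 0) (.cut .v 15728640 (.pos 35 .mm ⟨282310469, 0, 0, 0, 0, 2538175647, 0, 0, 0, ⟨0, 0⟩, 0⟩ 0 0) (.pos 36 .mm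 ⟨1726150259, 0, 0, 0, 0, 0, 0, 0, 0, ⟨0, 0⟩, 0⟩ 0 0))) (.cut .v 14680064 (.cut .d (-327680) (.pos 33 .mm ⟨0, 0, 0, 0, 0, 2458638264, 0, 0, 0, ⟨0, 0⟩, 0⟩ 0 0) (.cut .l 9646899 (.pos 33 .mm ⟨0, 0, 0, 0, 0, 2459236127, 0, 0, 0, ⟨0, 0⟩, 0⟩ 0 0) (.pos 33 .mm ⟨0, 0, 0, 0, 0, 2150050831, 0, 0, 0, ⟨0, 0⟩, 0⟩ 0 0))) (.cut .v 15728640 (.cut .l 9646899 (.pos 35 .mm ⟨0, 0, 0, 0, 0, 2724995878, 0, 0, 0, ⟨0, 0⟩, 0⟩ 0 0) (.cut .d (-327680) (.cut .v 15204352 (.pos 58 .mm ⟨0, 0, 0, 0, 0, 2569859466, 0, 0, 0, ⟨0, 0⟩, 0⟩ 0 0) (.cut .s 14942208 (.pos 59 .mm ⟨422302060, 0, 0, 0, 0, 1723496801, 0, 0, 0, ⟨0, 0⟩, 0⟩ 0 0) (.cut .l 10924255 (.pos 59 .mm ⟨0, 0, 0, 0, 0, 2820577454,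 0, 0, 0, ⟨0, 0⟩, 0⟩ 0 0) (.cut .d (-360448) (.cut .d (-376832) (.pos 59 .mm ⟨365594843, 0, 0, 0, 0, 2193225323, 0, 0, 0, ⟨0, 0⟩, 0⟩ 0 0) (.cut .v 15466496 (.pos 133 .mm ⟨0, 0, 0, 0, 0, 2694319854, 0, 0, 0, ⟨0, 0⟩, 0⟩ 0 0) (.cut .l 11562933 (.pos 134 .mm ⟨380990208, 0, 0, 0, 0, 2178651596, 0, 0, 0, ⟨0, 0⟩, 0⟩ 0 0) (.cut .l 11882272 (.pos 134 .mm ⟨352514247, 0, 0, 0, 0, 2164137219, 0, 0, 0, ⟨0, 0⟩, 0⟩ 0 0) (.cut .s 15007744 (.cut .v 15597568 (.pos 135 .mm ⟨0, 0, 0, 0, 0, 2690380002, 0, 0, 0, ⟨0, 0⟩, 0⟩ 0 0) (.cut .d (-368640) (.cut .s 14974976 (.pos 136 .mm ⟨416811658, 0, 0, 0, 0, 1925047055, 0, 0, 0, ⟨0, 0⟩, 0⟩ 0 0) (.pos 136 .mm ⟨444723547, 0, 0, 0, 0, 1933778856,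 0, 0, 0, ⟨0, 0⟩, 0⟩ 0 0)) (.pos 136 .mm ⟨413356259, 0, 0, 0, 0, 1942915567, 0, 0, 0, ⟨0, 0⟩, 0⟩ 0 0))) (.cut .d (-368640) (.void 134 ⟨0, 0, 0, 0, 0, 100000, 0, 0, 0, ⟨0, 0⟩, 0⟩ 0 0) (.cut .v 15597568 (.pos 135 .mm ⟨0, 0, 0, 0, 0, 2711968182, 0, 0, 0, ⟨0, 0⟩, 0⟩ 0 0) (.pos 136 .mm ⟨418641929, 0, 0, 0, 0, 1978547765, 0, 0, 0, ⟨0, 0⟩, 0⟩ 0 0)))))))) (.cut .s 15007744 (.pos 59 .mm ⟨325365863, 0, 0, 0, 0, 1956978175, 0, 0, 0, ⟨0, 0⟩, 0⟩ 0 0) (.pos 59 .mm ⟨317508277, 0, 0, 0, 0, 2082799631, 0, 0, 0, ⟨0, 0⟩, 0⟩ 0 0)))))) (.cut .l 10924255 (.pos 35 .mm ⟨0, 0, 0, 0, 0, 2510522869, 0, 0, 0, ⟨0, 0⟩, 0⟩ 0 0) (.pos 35 .mm ⟨0, 0, 0, 0, 0, 2372174187, 0, 0, 0, ⟨0, 0⟩, 0⟩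 0 0)))) (.cut .v 16252928 (.cut .s 14942208 (.cut .d (-327680) (.pos 50 .mm ⟨1053150506, 0, 0, 0, 0, 726286671, 0, 0, 0, ⟨0, 0⟩, 0⟩ 0 0) (.pos 50 .mm ⟨741129719, 0, 0, 0, 0, 1154966576, 0, 0, 0, ⟨0, 0⟩, 0⟩ 0 0)) (.cut .l 9646899 (.pos 50 .mm ⟨252633768, 0, 0, 0, 0, 2420461461, 0, 0, 0, ⟨0, 0⟩, 0⟩ 0 0) (.cut .d (-327680) (.cut .s 15007744 (.pos 50 .mm ⟨1552167744, 0, 0, 0, 0, 0, 0, 0, 0, ⟨0, 0⟩, 0⟩ 0 0) (.pos 50 .mm ⟨1613712026, 0, 0, 0, 0, 0, 0, 0, 0, ⟨0, 0⟩, 0⟩ 0 0)) (.pos 50 .mm ⟨597676810, 0, 0, 0, 0, 1521865580, 0, 0, 0, ⟨0, 0⟩, 0⟩ 0 0)))) (.pos 51 .mm ⟨1605531509, 0, 0, 0, 0, 0, 0, 0, 0, ⟨0, 0⟩, 0⟩ 0 0))))))) (.cut .v 12582912 (.cut .l 7092186 (.cut .d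 (-131072) (.cut .v 10485760 (.pos 69 .mm ⟨0, 0, 46493858, 0, 0, 1565662110, 0, 0, 0, ⟨0, 0⟩, 0⟩ 0 0) (.pos 70 .mm ⟨0, 0, 0, 0, 0, 1888644816, 0, 0, 0, ⟨0, 0⟩, 0⟩ 0 0)) (.cut .l 4537473 (.cut .v 10485760 (.cut .d (-65536) (.pos 69 .mm ⟨0, 0, 38869653, 0, 0, 1475314279, 0, 0, 0, ⟨0, 0⟩, 0⟩ 0 0) (.cut .d (-32768) (.cut .v 9437184 (.cut .v 8912896 (.pos 145 .mm ⟨0, 0, 1585252141, 0, 0, 0, 0, 0, 0, ⟨0, 0⟩, 0⟩ 0 0) (.pos 146 .mm ⟨0, 0, 24631591, 0, 0, 1184354873, 0, 0, 0, ⟨0, 0⟩, 0⟩ 0 0)) (.pos 76 .mm ⟨0, 0, 0, 0, 0, 1292936155, 0, 0, 0, ⟨0, 0⟩, 0⟩ 0 0)) (.pos 69 .mm ⟨0, 0, 46990445, 0, 0, 0, 0, 0, 0, ⟨0, 0⟩, 0⟩ 0 0))) (.pos 70 .mm ⟨0, 0, 0, 0, 0, 1611983442, 0,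 0, 0, ⟨0, 0⟩, 0⟩ 0 0)) (.pos 6 .mm ⟨0, 0, 19574826, 0, 0, 1110661194, 0, 0, 0, ⟨0, 0⟩, 0⟩ 0 0))) (.cut .v 10485760 (.pos 69 .mm ⟨0, 0, 0, 0, 0, 1153851899, 0, 0, 0, ⟨0, 0⟩, 0⟩ 0 0) (.pos 70 .mm ⟨0, 0, 0, 0, 0, 1484452492, 0, 0, 0, ⟨0, 0⟩, 0⟩ 0 0))) (.cut .l 7092186 (.cut .d (-131072) (.cut .v 14680064 (.pos 33 .mm ⟨0, 0, 0, 0, 0, 2276487057, 0, 0, 0, ⟨0, 0⟩, 0⟩ 0 0) (.cut .d (-196608) (.pos 34 .mm ⟨187838385, 0, 0, 0, 0, 2472387112, 0, 0, 0, ⟨0, 0⟩, 0⟩ 0 0) (.cut .s 14942208 (.pos 34 .mm ⟨0, 0, 0, 0, 0, 2471731391, 0, 0, 0, ⟨0, 0⟩, 0⟩ 0 0) (.cut .s 15007744 (.pos 34 .mm ⟨6691605, 0, 0, 0, 0, 2590151738, 0, 0, 0, ⟨0, 0⟩, 0⟩ 0 0) (.pos 34 .mm ⟨7845993, 0, 0,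 0, 0, 2709799451, 0, 0, 0, ⟨0, 0⟩, 0⟩ 0 0))))) (.cut .l 4537473 (.cut .d (-65536) (.cut .l 3260117 (.pos 7 .mm ⟨0, 0, 0, 0, 0, 2638224688, 0, 0, 0, ⟨0, 0⟩, 0⟩ 0 0) (.cut .d (-98304) (.pos 7 .mm ⟨47583537, 0, 0, 0, 0, 2509035295, 0, 0, 0, ⟨0, 0⟩, 0⟩ 0 0) (.pos 7 .mm ⟨0, 0, 0, 0, 0, 2304398271, 0, 0, 0, ⟨0, 0⟩, 0⟩ 0 0))) (.cut .v 14680064 (.pos 33 .mm ⟨0, 0, 0, 0, 0, 1852159318, 0, 0, 0, ⟨0, 0⟩, 0⟩ 0 0) (.cut .d (-32768) (.cut .s 14942208 (.pos 34 .mm ⟨0, 0, 0, 0, 0, 2284013827, 0, 0, 0, ⟨0, 0⟩, 0⟩ 0 0) (.cut .l 3260117 (.pos 34 .mm ⟨0, 0, 0, 0, 0, 2523138505, 0, 0, 0, ⟨0, 0⟩, 0⟩ 0 0) (.pos 34 .mm ⟨0, 0, 0, 0, 0, 0, 0, 0, 0, ⟨0, 0⟩, 0⟩ 0 0))) (.pos 34 .mm ⟨0,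 0, 0, 0, 0, 0, 0, 0, 0, ⟨0, 0⟩, 0⟩ 0 0)))) (.pos 7 .mm ⟨0, 0, 0, 0, 0, 1864509628, 0, 0, 0, ⟨0, 0⟩, 0⟩ 0 0))) (.cut .d (-131072) (.cut .v 14680064 (.pos 33 .mm ⟨0, 0, 0, 0, 0, 1941406941, 0, 0, 0, ⟨0, 0⟩, 0⟩ 0 0) (.cut .d (-196608) (.cut .l 9646899 (.cut .v 15728640 (.pos 35 .mm ⟨0, 0, 0, 0, 0, 2396999119, 0, 0, 0, ⟨0, 0⟩, 0⟩ 0 0) (.cut .s 14942208 (.pos 36 .mm ⟨530745958, 0, 0, 0, 0, 1442411456, 0, 0, 0, ⟨0, 0⟩, 0⟩ 0 0) (.pos 36 .mm ⟨620580736, 0, 0, 0, 0, 1454392742, 0, 0, 0, ⟨0, 0⟩, 0⟩ 0 0))) (.pos 34 .mm ⟨285713819, 0, 0, 0, 0, 0, 0, 0, 0, ⟨0, 0⟩, 0⟩ 0 0)) (.pos 34 .mm ⟨272028436, 0, 0, 0, 0, 1605313409, 0, 0, 0, ⟨0, 0⟩, 0⟩ 0 0))) (.pos 7 .mm ⟨0, 0, 0,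 0, 0, 0, 0, 0, 0, ⟨0, 0⟩, 0⟩ 0 0))))))))))) (.cut .v 268435456 (.cut .v 67108864 (.cut .d (-8388608) (.void 8 ⟨100000, 0, 0, 0, 0, 0, 0, 0, 0, ⟨0, 0⟩, 0⟩ 0 0) (.cut .v 33554432 (.cut .d (-4194304) (.void 9 ⟨100000, 0, 0, 0, 0, 0, 0, 0, 0, ⟨0, 0⟩, 0⟩ 0 0) (.cut .d (-2097152) (.void 9 ⟨100000, 0, 0, 0, 0, 0, 0, 0, 0, ⟨0, 0⟩, 0⟩ 0 0) (.cut .d (-1048576) (.void 9 ⟨100000, 0, 0, 0, 0, 0, 0, 0, 0, ⟨0, 0⟩, 0⟩ 0 0) (.cut .v 25165824 (.cut .d (-524288) (.void 11 ⟨100000, 0, 0, 0, 0, 0, 0, 0, 0, ⟨0, 0⟩, 0⟩ 0 0) (.cut .v 20971520 (.cut .d (-262144) (.cut .s 14942208 (.pos 13 .mp ⟨1831327720, 0, 0, 0, 0, 0, 0, 0, 0, ⟨0, 0⟩, 0⟩ 0 0) (.pos 13 .mp ⟨2006962964, 0, 0, 0, 0,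 0, 0, 0, 0, ⟨0, 0⟩, 0⟩ 0 0)) (.cut .v 18874368 (.cut .v 17825792 (.cut .l 7092186 (.cut .d (-131072) (.pos 17 .mp ⟨1648136679, 0, 0, 0, 0, 0, 0, 0, 0, ⟨0, 0⟩, 0⟩ 0 0) (.cut .l 4537473 (.cut .d (-65536) (.cut .l 3260117 (.cut .s 14942208 (.pos 17 .mp ⟨539528254, 0, 0, 0, 0, 1623274118, 0, 0, 0, ⟨0, 0⟩, 0⟩ 0 0) (.cut .s 15007744 (.pos 17 .mp ⟨562586677, 0, 0, 0, 0, 1696638668, 0, 0, 0, ⟨0, 0⟩, 0⟩ 0 0) (.pos 17 .mp ⟨600826621, 0, 0, 0, 0, 1738517448, 0, 0, 0, ⟨0, 0⟩, 0⟩ 0 0))) (.pos 17 .mp ⟨895758117, 0, 0, 0, 0, 978818967, 0, 0, 0, ⟨0, 0⟩, 0⟩ 0 0)) (.cut .d (-32768) (.cut .v 17301504 (.cut .l 3260117 (.cut .l 2621439 (.cut .d (-49152) (.cut .s 14942208 (.pos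 19 .mp ⟨339929851, 0, 0, 0, 0, 1906768625, 0, 0, 0, ⟨0, 0⟩, 0⟩ 0 0) (.cut .s 15007744 (.pos 19 .mp ⟨339760263, 0, 0, 0, 0, 2008227750, 0, 0, 0, ⟨0, 0⟩, 0⟩ 0 0) (.pos 19 .mp ⟨330181174, 0, 0, 0, 0, 2130608948, 0, 0, 0, ⟨0, 0⟩, 0⟩ 0 0))) (.cut .d (-40960) (.cut .l 2302100 (.cut .l 2142430 (.cut .s 14942208 (.cut .v 17039360 (.pos 67 .mp ⟨0, 0, 0, 0, 0, 2422252625, 0, 0, 0, ⟨0, 0⟩, 0⟩ 0 0) (.pos 68 .mp ⟨354538626, 0, 0, 0, 0, 1790208926, 0, 0, 0, ⟨0, 0⟩, 0⟩ 0 0)) (.cut .v 17039360 (.pos 67 .mp ⟨0, 0, 0, 0, 0, 2514713636, 0, 0, 0, ⟨0, 0⟩, 0⟩ 0 0) (.cut .d (-45056) (.pos 68 .mp ⟨338071710, 0, 0, 0, 0, 2037766214, 0, 0, 0, ⟨0, 0⟩, 0⟩ 0 0) (.cut .s 15007744 (.pos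 68 .mp ⟨337749145, 0, 0, 0, 0, 1862476420, 0, 0, 0, ⟨0, 0⟩, 0⟩ 0 0) (.pos 68 .mp ⟨336159169, 0, 0, 0, 0, 1942499884, 0, 0, 0, ⟨0, 0⟩, 0⟩ 0 0))))) (.pos 19 .mp ⟨327130884, 0, 0, 0, 0, 1634337413, 0, 0, 0, ⟨0, 0⟩, 0⟩ 0 0)) (.pos 19 .mp ⟨297541190, 0, 0, 0, 0, 0, 0, 0, 0, ⟨0, 0⟩, 0⟩ 0 0)) (.pos 19 .mp ⟨297480808, 0, 0, 0, 0, 0, 0, 0, 0, ⟨0, 0⟩, 0⟩ 0 0))) (.pos 19 .mp ⟨335965467, 0, 0, 0, 0, 1699428814, 0, 0, 0, ⟨0, 0⟩, 0⟩ 0 0)) (.pos 19 .mp ⟨0, 0, 0, 0, 0, 0, 0, 0, 0, ⟨0, 0⟩, 0⟩ 0 0)) (.pos 20 .mp ⟨1458060556, 0, 0, 0, 0, 0, 0, 0, 0, ⟨0, 0⟩, 0⟩ 0 0)) (.pos 17 .mp ⟨288178402, 0, 0, 0, 0, 0, 0, 0, 0, ⟨0, 0⟩, 0⟩ 0 0))) (.pos 17 .mp ⟨1295762881, 0, 0, 0, 0, 0, 0,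 0, 0, ⟨0, 0⟩, 0⟩ 0 0))) (.pos 17 .mp ⟨1387086916, 0, 0, 0, 0, 0, 0, 0, 0, ⟨0, 0⟩, 0⟩ 0 0)) (.pos 18 .mp ⟨1639511599, 0, 0, 0, 0, 0, 0, 0, 0, ⟨0, 0⟩, 0⟩ 0 0)) (.pos 16 .mp ⟨1797321961, 0, 0, 0, 0, 0, 0, 0, 0, ⟨0, 0⟩, 0⟩ 0 0))) (.pos 14 .mp ⟨2414684297, 0, 0, 0, 0, 0, 0, 0, 0, ⟨0, 0⟩, 0⟩ 0 0))) (.pos 12 .mp ⟨4176536747, 0, 0, 0, 0, 0, 0, 0, 0, ⟨0, 0⟩, 0⟩ 0 0))))) (.pos 10 .mp ⟨33050471466, 0, 0, 0, 0, 0, 0, 0, 0, ⟨0, 0⟩, 0⟩ 0 0))) (.void 49 ⟨100000, 0, 0, 0, 0, 0, 0, 0, 0, ⟨0, 0⟩, 0⟩ 0 0)) (.void 64 ⟨93035, 0, 0, 6965, 0, 0, 0, 0, 0, ⟨0, 0⟩, 0⟩ 0 0))) (.cut .v 16777216 (.cut .v 8388608 (.cut .v 4194304 (.cut .v 2097152 (.cut .v 1048576 (.cut .v 524288 (.cut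 .v 262144 (.pos 147 .pm ⟨0, 0, 7957188, 0, 0, 0, 0, 0, 0, ⟨0, 0⟩, 0⟩ 0 0) (.pos 148 .pm ⟨0, 0, 8869264, 0, 0, 0, 0, 0, 0, ⟨0, 0⟩, 0⟩ 0 0)) (.pos 122 .pm ⟨0, 0, 11418887, 0, 0, 0, 0, 0, 0, ⟨0, 0⟩, 0⟩ 0 0)) (.pos 96 .pm ⟨0, 0, 19083628, 0, 0, 0, 0, 0, 0, ⟨0, 0⟩, 0⟩ 0 0)) (.pos 72 .pm ⟨0, 0, 27832158, 0, 0, 0, 0, 0, 0, ⟨0, 0⟩, 0⟩ 0 0)) (.pos 5 .pm ⟨0, 0, 63443306, 0, 0, 0, 0, 0, 0, ⟨0, 0⟩, 0⟩ 0 0)) (.pos 3 .pm ⟨0, 0, 33027421, 0, 0, 0, 0, 0, 0, ⟨0, 0⟩, 0⟩ 0 0)) (.cut .v 268435456 (.cut .d 1113533 (.cut .v 67108864 (.cut .d 556766 (.cut .v 33554432 (.cut .v 25165824 (.pos 11 .pp ⟨636090552, 0, 0, 0, 0, 0, 0, 0, 0, ⟨0, 0⟩, 0⟩ 0 0) (.pos 12 .pp ⟨1933880433, 0, 0,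 0, 0, 0, 0, 0, 0, ⟨0, 0⟩, 0⟩ 0 0)) (.cut .v 50331648 (.cut .v 41943040 (.pos 31 .pp ⟨3273119363, 0, 0, 0, 0, 0, 0, 0, 0, ⟨0, 0⟩, 0⟩ 0 0) (.pos 32 .pp ⟨4813205863, 0, 0, 0, 0, 0, 0, 0, 0, ⟨0, 0⟩, 0⟩ 0 0)) (.cut .d 278383 (.pos 30 .pp ⟨8875367399, 0, 0, 0, 0, 0, 0, 0, 0, ⟨0, 0⟩, 0⟩ 0 0) (.pos 30 .pp ⟨6449072685, 0, 0, 0, 0, 0, 0, 0, 0, ⟨0, 0⟩, 0⟩ 0 0)))) (.pos 8 .pp ⟨0, 0, 0, 0, 0, 0, 0, 0, 0, ⟨0, 0⟩, 0⟩ 0 0)) (.cut .v 134217728 (.cut .v 100663296 (.cut .v 83886080 (.cut .d 556766 (.cut .d 278383 (.pos 103 .pp ⟨17538778293, 0, 0, 0, 0, 0, 0, 0, 0, ⟨0, 0⟩, 0⟩ 0 0) (.cut .v 75497472 (.pos 105 .pp ⟨9322143262, 0, 0, 0, 0, 0, 0, 0, 0, ⟨0, 0⟩, 0⟩ 0 0) (.pos 106 .pp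 ⟨11937027107, 3756527510, 0, 0, 0, 0, 0, 0, 0, ⟨0, 0⟩, 0⟩ 0 0))) (.pos 103 .pp ⟨0, 4517717554, 0, 0, 0, 0, 0, 0, 0, ⟨0, 0⟩, 0⟩ 0 0)) (.void 104 ⟨35008, 64992, 0, 0, 0, 0, 0, 0, 0, ⟨0, 0⟩, 0⟩ 0 0)) (.void 78 ⟨86602, 0, 0, 13398, 0, 0, 0, 0, 0, ⟨0, 0⟩, 0⟩ 0 0)) (.void 66 ⟨0, 0, 0, 100000, 0, 0, 0, 0, 0, ⟨0, 0⟩, 0⟩ 0 0))) (.pos 48 .pp ⟨0, 0, 0, 0, 0, 0, 0, 0, 0, ⟨0, 0⟩, 0⟩ 0 0)) (.void 64 ⟨0, 0, 0, 100000, 0, 0, 0, 0, 0, ⟨0, 0⟩, 0⟩ 0 0)))),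
    by decide +kernel⟩

def covers25 : cell.Covers table row25.1 :=
  ⟨(.cut .d 0 (.cut .v 16777216 (.cut .d (-8388608) (.void 1 ⟨0, 0, 0, 0, 0, 100000, 0, 0, 0, ⟨0, 0⟩, 0⟩ 0 0) (.cut .v 8388608 (.void 2 ⟨0, 0, 100000, 0, 0, 0, 0, 0, 0, ⟨0, 0⟩, 0⟩ 0 0) (.cut .d (-4194304) (.void 3 ⟨100000, 0, 0, 0, 0, 0, 0, 0, 0, ⟨0, 0⟩, 0⟩ 0 0) (.cut .d (-2097152) (.void 3 ⟨100000, 0, 0, 0, 0, 0, 0, 0, 0, ⟨0, 0⟩, 0⟩ 0 0) (.cut .d (-1048576) (.void 3 ⟨74489, 0, 25511, 0, 0, 0, 0, 0, 0, ⟨0, 0⟩, 0⟩ 0 0) (.cut .d (-524288) (.void 3 ⟨0, 0, 0, 0, 0, 100000, 0, 0, 0, ⟨0, 0⟩, 0⟩ 0 0) (.cut .d (-262144) (.cut .d (-393216) (.void 3 ⟨0, 0, 0, 0, 0, 100000, 0, 0, 0, ⟨0, 0⟩, 0⟩ 0 0) (.cut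 .l 7092186 (.void 3 ⟨0, 0, 0, 0, 0, 100000, 0, 0, 0, ⟨0, 0⟩, 0⟩ 0 0) (.cut .v 12582912 (.cut .v 10485760 (.pos 69 .mm ⟨0, 0, 101939935, 0, 0, 1889740980, 0, 0, 0, ⟨0, 0⟩, 0⟩ 0 0) (.pos 70 .mm ⟨0, 0, 0, 0, 0, 2245633563, 0, 0, 0, ⟨0, 0⟩, 0⟩ 0 0)) (.cut .v 14680064 (.cut .d (-327680) (.pos 33 .mm ⟨0, 0, 0, 0, 0, 2957228575, 0, 0, 0, ⟨0, 0⟩, 0⟩ 0 0) (.pos 33 .mm ⟨0, 0, 0, 0, 0, 2599114797, 0, 0, 0, ⟨0, 0⟩, 0⟩ 0 0)) (.cut .l 9646899 (.pos 34 .mm ⟨285634268, 0, 0, 0, 0, 2900718187, 0, 0, 0, ⟨0, 0⟩, 0⟩ 0 0) (.cut .v 15728640 (.cut .d (-327680) (.cut .d (-360448) (.void 35 ⟨0, 0, 0, 0, 0, 100000, 0, 0, 0, ⟨0, 0⟩, 0⟩ 0 0) (.cut .s 15171584 (.cut .d (-344064) (.pos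 35 .mm ⟨310510421, 0, 0, 0, 0, 2611113496, 0, 0, 0, ⟨0, 0⟩, 0⟩ 0 0) (.cut .v 15204352 (.pos 58 .mm ⟨0, 0, 0, 0, 0, 2889538700, 0, 0, 0, ⟨0, 0⟩, 0⟩ 0 0) (.cut .v 15466496 (.pos 133 .mm ⟨0, 0, 0, 0, 0, 2940005933, 0, 0, 0, ⟨0, 0⟩, 0⟩ 0 0) (.cut .v 15597568 (.cut .d (-335872) (.cut .s 15122432 (.pos 135 .mm ⟨357803862, 0, 0, 0, 0, 2300813937, 0, 0, 0, ⟨0, 0⟩, 0⟩ 0 0) (.pos 135 .mm ⟨357803862, 0, 0, 0, 0, 2361905722, 0, 0, 0, ⟨0, 0⟩, 0⟩ 0 0)) (.pos 135 .mm ⟨323340948, 0, 0, 0, 0, 2347855657, 0, 0, 0, ⟨0, 0⟩, 0⟩ 0 0)) (.pos 136 .mm ⟨1274559887, 0, 0, 0, 0, 683884111, 0, 0, 0, ⟨0, 0⟩, 0⟩ 0 0))))) (.pos 35 .mm ⟨321530259, 0, 0, 0, 0, 2551689800, 0, 0, 0, ⟨0, 0⟩,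 0⟩ 0 0))) (.cut .d (-294912) (.cut .s 15171584 (.pos 35 .mm ⟨221997302, 0, 0, 0, 0, 2359750641, 0, 0, 0, ⟨0, 0⟩, 0⟩ 0 0) (.pos 35 .mm ⟨259550163, 0, 0, 0, 0, 2434321838, 0, 0, 0, ⟨0, 0⟩, 0⟩ 0 0)) (.pos 35 .mm ⟨5798713, 0, 0, 0, 0, 2724825369, 0, 0, 0, ⟨0, 0⟩, 0⟩ 0 0))) (.cut .d (-327680) (.pos 36 .mm ⟨1792461069, 0, 0, 0, 0, 0, 0, 0, 0, ⟨0, 0⟩, 0⟩ 0 0) (.cut .d (-294912) (.pos 36 .mm ⟨1694596946, 0, 0, 0, 0, 0, 0, 0, 0, ⟨0, 0⟩, 0⟩ 0 0) (.pos 36 .mm ⟨651978637, 0, 0, 0, 0, 1642235715, 0, 0, 0, ⟨0, 0⟩, 0⟩ 0 0))))))))) (.cut .v 12582912 (.cut .d (-131072) (.cut .l 7092186 (.cut .v 10485760 (.pos 69 .mm ⟨0, 0, 90304853, 0, 0, 1799194010, 0, 0, 0, ⟨0, 0⟩, 0⟩ 0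 0) (.pos 70 .mm ⟨0, 0, 0, 0, 0, 2130431320, 0, 0, 0, ⟨0, 0⟩, 0⟩ 0 0)) (.cut .v 10485760 (.pos 69 .mm ⟨0, 0, 167362460, 0, 0, 1604156965, 0, 0, 0, ⟨0, 0⟩, 0⟩ 0 0) (.pos 70 .mm ⟨0, 0, 0, 0, 0, 1853620514, 0, 0, 0, ⟨0, 0⟩, 0⟩ 0 0))) (.cut .l 7092186 (.cut .l 4537473 (.cut .v 10485760 (.cut .d (-65536) (.cut .v 9437184 (.pos 75 .mm ⟨0, 0, 85267560, 0, 0, 1571376481, 0, 0, 0, ⟨0, 0⟩, 0⟩ 0 0) (.pos 76 .mm ⟨0, 0, 0, 0, 0, 1625232058, 0, 0, 0, ⟨0, 0⟩, 0⟩ 0 0)) (.cut .d (-32768) (.cut .v 9437184 (.cut .v 8912896 (.void 145 ⟨0, 0, 100000, 0, 0, 0, 0, 0, 0, ⟨0, 0⟩, 0⟩ 0 0) (.cut .d (-49152) (.pos 146 .mm ⟨0, 0, 50385134, 0, 0, 1485594276, 0, 0, 0, ⟨0, 0⟩, 0⟩ 0 0) (.cut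 .s 15171584 (.pos 146 .mm ⟨0, 0, 46007187, 0, 0, 1226154238, 0, 0, 0, ⟨0, 0⟩, 0⟩ 0 0) (.pos 146 .mm ⟨0, 0, 57035017, 0, 0, 1331668395, 0, 0, 0, ⟨0, 0⟩, 0⟩ 0 0)))) (.pos 76 .mm ⟨0, 0, 0, 0, 0, 1428803687, 0, 0, 0, ⟨0, 0⟩, 0⟩ 0 0)) (.pos 69 .mm ⟨0, 0, 66055520, 0, 0, 0, 0, 0, 0, ⟨0, 0⟩, 0⟩ 0 0))) (.cut .d (-65536) (.pos 70 .mm ⟨0, 0, 0, 0, 0, 1880786293, 0, 0, 0, ⟨0, 0⟩, 0⟩ 0 0) (.pos 70 .mm ⟨0, 0, 0, 0, 0, 1470251416, 0, 0, 0, ⟨0, 0⟩, 0⟩ 0 0))) (.pos 6 .mm ⟨0, 0, 25728352, 0, 0, 1207472349, 0, 0, 0, ⟨0, 0⟩, 0⟩ 0 0)) (.pos 6 .mm ⟨0, 0, 91633862, 0, 0, 0, 0, 0, 0, ⟨0, 0⟩, 0⟩ 0 0))) (.cut .d (-131072) (.cut .l 7092186 (.cut .v 14680064 (.pos 33 .mm ⟨0, 0, 0, 0,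 0, 2564335746, 0, 0, 0, ⟨0, 0⟩, 0⟩ 0 0) (.cut .d (-196608) (.void 34 ⟨0, 0, 0, 0, 0, 100000, 0, 0, 0, ⟨0, 0⟩, 0⟩ 0 0) (.pos 34 .mm ⟨5863710, 0, 0, 0, 0, 2894282396, 0, 0, 0, ⟨0, 0⟩, 0⟩ 0 0))) (.cut .d (-196608) (.cut .v 14680064 (.pos 33 .mm ⟨0, 0, 0, 0, 0, 2344861196, 0, 0, 0, ⟨0, 0⟩, 0⟩ 0 0) (.cut .v 15728640 (.pos 35 .mm ⟨0, 0, 0, 0, 0, 2638281196, 0, 0, 0, ⟨0, 0⟩, 0⟩ 0 0) (.pos 36 .mm ⟨766716594, 0, 0, 0, 0, 1423034928, 0, 0, 0, ⟨0, 0⟩, 0⟩ 0 0))) (.pos 7 .mm ⟨155127195, 0, 0, 0, 0, 1816613132, 0, 0, 0, ⟨0, 0⟩, 0⟩ 0 0))) (.cut .l 7092186 (.cut .v 14680064 (.pos 33 .mm ⟨0, 0, 0, 0, 0, 2125792066, 0, 0, 0, ⟨0, 0⟩, 0⟩ 0 0) (.cut .v 15728640 (.pos 35 .mm ⟨0,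 0, 0, 0, 0, 2433171866, 0, 0, 0, ⟨0, 0⟩, 0⟩ 0 0) (.cut .d (-65536) (.pos 36 .mm ⟨0, 0, 0, 0, 0, 2691017228, 0, 0, 0, ⟨0, 0⟩, 0⟩ 0 0) (.pos 36 .mm ⟨0, 0, 0, 0, 0, 2594656373, 0, 0, 0, ⟨0, 0⟩, 0⟩ 0 0)))) (.pos 7 .mm ⟨0, 0, 0, 0, 0, 0, 0, 0, 0, ⟨0, 0⟩, 0⟩ 0 0))))))))))) (.cut .v 268435456 (.cut .v 67108864 (.cut .d (-8388608) (.void 8 ⟨100000, 0, 0, 0, 0, 0, 0, 0, 0, ⟨0, 0⟩, 0⟩ 0 0) (.cut .v 33554432 (.cut .d (-4194304) (.void 9 ⟨100000, 0, 0, 0, 0, 0, 0, 0, 0, ⟨0, 0⟩, 0⟩ 0 0) (.cut .d (-2097152) (.void 9 ⟨100000, 0, 0, 0, 0, 0, 0, 0, 0, ⟨0, 0⟩, 0⟩ 0 0) (.cut .d (-1048576) (.void 9 ⟨100000, 0, 0, 0, 0, 0, 0, 0, 0, ⟨0, 0⟩, 0⟩ 0 0) (.cut .v 25165824 (.cut .d (-524288)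 (.void 11 ⟨100000, 0, 0, 0, 0, 0, 0, 0, 0, ⟨0, 0⟩, 0⟩ 0 0) (.cut .v 20971520 (.cut .d (-262144) (.pos 13 .mp ⟨2283937274, 0, 0, 0, 0, 0, 0, 0, 0, ⟨0, 0⟩, 0⟩ 0 0) (.cut .d (-131072) (.pos 13 .mp ⟨1846770829, 0, 0, 0, 0, 0, 0, 0, 0, ⟨0, 0⟩, 0⟩ 0 0) (.cut .d (-65536) (.pos 13 .mp ⟨925520992, 0, 0, 0, 0, 1334875862, 0, 0, 0, ⟨0, 0⟩, 0⟩ 0 0) (.cut .v 18874368 (.cut .v 17825792 (.cut .d (-32768) (.cut .v 17301504 (.pos 19 .mp ⟨259334532, 0, 0, 0, 0, 2261940199, 0, 0, 0, ⟨0, 0⟩, 0⟩ 0 0) (.pos 20 .mp ⟨1521852208, 0, 0, 0, 0, 0, 0, 0, 0, ⟨0, 0⟩, 0⟩ 0 0)) (.pos 17 .mp ⟨288111224, 0, 0, 0, 0, 0, 0, 0, 0, ⟨0, 0⟩, 0⟩ 0 0)) (.pos 18 .mp ⟨1564650660, 0, 0, 0, 0, 0, 0, 0,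 0, ⟨0, 0⟩, 0⟩ 0 0)) (.pos 16 .mp ⟨1685736258, 0, 0, 0, 0, 0, 0, 0, 0, ⟨0, 0⟩, 0⟩ 0 0))))) (.pos 14 .mp ⟨2757885610, 0, 0, 0, 0, 0, 0, 0, 0, ⟨0, 0⟩, 0⟩ 0 0))) (.pos 12 .mp ⟨4846872448, 0, 0, 0, 0, 0, 0, 0, 0, ⟨0, 0⟩, 0⟩ 0 0))))) (.pos 10 .mp ⟨39551524625, 0, 0, 0, 0, 0, 0, 0, 0, ⟨0, 0⟩, 0⟩ 0 0))) (.void 49 ⟨100000, 0, 0, 0, 0, 0, 0, 0, 0, ⟨0, 0⟩, 0⟩ 0 0)) (.void 64 ⟨92950, 0, 0, 7050, 0, 0, 0, 0, 0, ⟨0, 0⟩, 0⟩ 0 0))) (.cut .v 16777216 (.cut .v 8388608 (.cut .v 4194304 (.cut .v 2097152 (.cut .v 1048576 (.cut .v 524288 (.cut .v 262144 (.pos 147 .pm ⟨0, 0, 9377546, 0, 0, 0, 0, 0, 0, ⟨0, 0⟩, 0⟩ 0 0) (.pos 148 .pm ⟨0, 0, 13966134, 0, 0, 0, 0, 0, 0, ⟨0, 0⟩, 0⟩ 0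 0)) (.pos 122 .pm ⟨0, 0, 22127666, 0, 0, 0, 0, 0, 0, ⟨0, 0⟩, 0⟩ 0 0)) (.pos 96 .pm ⟨0, 0, 35650749, 0, 0, 0, 0, 0, 0, ⟨0, 0⟩, 0⟩ 0 0)) (.pos 72 .pm ⟨0, 0, 53108837, 0, 0, 0, 0, 0, 0, ⟨0, 0⟩, 0⟩ 0 0)) (.pos 5 .pm ⟨0, 0, 116460844, 0, 0, 0, 0, 0, 0, ⟨0, 0⟩, 0⟩ 0 0)) (.pos 3 .pm ⟨0, 0, 40083540, 0, 0, 0, 0, 0, 0, ⟨0, 0⟩, 0⟩ 0 0)) (.cut .v 268435456 (.cut .d 948278 (.cut .v 67108864 (.cut .d 474139 (.cut .v 33554432 (.cut .v 25165824 (.pos 11 .pp ⟨606284064, 0, 0, 0, 0, 0, 0, 0, 0, ⟨0, 0⟩, 0⟩ 0 0) (.pos 12 .pp ⟨2187602986, 0, 0, 0, 0, 0, 0, 0, 0, ⟨0, 0⟩, 0⟩ 0 0)) (.cut .v 50331648 (.pos 29 .pp ⟨4333655798, 0, 0, 0, 0, 0, 0, 0, 0, ⟨0, 0⟩, 0⟩ 0 0) (.cut .v 58720256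 (.pos 93 .pp ⟨7188797491, 0, 0, 0, 0, 0, 0, 0, 0, ⟨0, 0⟩, 0⟩ 0 0) (.pos 94 .pp ⟨9227680550, 0, 0, 0, 0, 0, 0, 0, 0, ⟨0, 0⟩, 0⟩ 0 0)))) (.pos 8 .pp ⟨0, 0, 0, 0, 0, 0, 0, 0, 0, ⟨0, 0⟩, 0⟩ 0 0)) (.cut .v 134217728 (.cut .v 100663296 (.cut .v 83886080 (.cut .d 474139 (.cut .d 237069 (.pos 103 .pp ⟨19655922830, 0, 0, 0, 0, 0, 0, 0, 0, ⟨0, 0⟩, 0⟩ 0 0) (.pos 103 .pp ⟨11989404593, 0, 0, 0, 0, 0, 0, 0, 0, ⟨0, 0⟩, 0⟩ 0 0)) (.pos 103 .pp ⟨0, 5169094154, 0, 0, 0, 0, 0, 0, 0, ⟨0, 0⟩, 0⟩ 0 0)) (.void 104 ⟨34822, 65178, 0, 0, 0, 0, 0, 0, 0, ⟨0, 0⟩, 0⟩ 0 0)) (.void 78 ⟨86507, 0, 0, 13493, 0, 0, 0, 0, 0, ⟨0, 0⟩, 0⟩ 0 0)) (.void 66 ⟨0, 0, 0, 100000, 0, 0, 0, 0, 0, ⟨0, 0⟩, 0⟩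 0 0))) (.pos 48 .pp ⟨0, 418595752, 0, 0, 0, 0, 0, 0, 0, ⟨0, 0⟩, 0⟩ 0 0)) (.void 64 ⟨0, 0, 0, 100000, 0, 0, 0, 0, 0, ⟨0, 0⟩, 0⟩ 0 0)))),
    by decide +kernel⟩

def covers26 : cell.Covers table row26.1 :=
  ⟨(.cut .d 0 (.cut .v 16777216 (.cut .d (-8388608) (.void 1 ⟨0, 0, 0, 0, 0, 100000, 0, 0, 0, ⟨0, 0⟩, 0⟩ 0 0) (.cut .v 8388608 (.void 2 ⟨0, 0, 100000, 0, 0, 0, 0, 0, 0, ⟨0, 0⟩, 0⟩ 0 0) (.cut .d (-4194304) (.void 3 ⟨100000, 0, 0, 0, 0, 0, 0, 0, 0, ⟨0, 0⟩, 0⟩ 0 0) (.cut .d (-2097152) (.void 3 ⟨100000, 0, 0, 0, 0, 0, 0, 0, 0, ⟨0, 0⟩, 0⟩ 0 0) (.cut .d (-1048576) (.void 3 ⟨74283, 0, 25717, 0, 0, 0, 0, 0, 0, ⟨0, 0⟩, 0⟩ 0 0) (.cut .d (-524288) (.void 3 ⟨0, 0, 0,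 0, 0, 100000, 0, 0, 0, ⟨0, 0⟩, 0⟩ 0 0) (.cut .d (-262144) (.cut .d (-393216) (.void 3 ⟨0, 0, 0, 0, 0, 100000, 0, 0, 0, ⟨0, 0⟩, 0⟩ 0 0) (.cut .d (-327680) (.void 3 ⟨0, 0, 0, 0, 0, 100000, 0, 0, 0, ⟨0, 0⟩, 0⟩ 0 0) (.cut .l 7092186 (.void 3 ⟨0, 0, 0, 0, 0, 100000, 0, 0, 0, ⟨0, 0⟩, 0⟩ 0 0) (.cut .l 9646899 (.void 3 ⟨0, 0, 0, 0, 0, 100000, 0, 0, 0, ⟨0, 0⟩, 0⟩ 0 0) (.cut .v 12582912 (.cut .v 10485760 (.pos 69 .mm ⟨0, 0, 277043431, 0, 0, 2195793161, 0, 0, 0, ⟨0, 0⟩, 0⟩ 0 0) (.cut .s 15400960 (.pos 70 .mm ⟨0, 0, 0, 0, 0, 2577933383, 0, 0, 0, ⟨0, 0⟩, 0⟩ 0 0) (.pos 70 .mm ⟨0, 0, 0, 0, 0, 2863603566, 0, 0, 0, ⟨0, 0⟩, 0⟩ 0 0))) (.cut .l 10924255 (.pos 7 .mm ⟨142749485,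 0, 0, 0, 0, 3813621331, 0, 0, 0, ⟨0, 0⟩, 0⟩ 0 0) (.cut .v 14680064 (.cut .s 15400960 (.pos 33 .mm ⟨0, 0, 0, 0, 0, 3259437209, 0, 0, 0, ⟨0, 0⟩, 0⟩ 0 0) (.pos 33 .mm ⟨0, 0, 0, 0, 0, 3508375038, 0, 0, 0, ⟨0, 0⟩, 0⟩ 0 0)) (.cut .v 15728640 (.cut .d (-294912) (.pos 35 .mm ⟨231069484, 0, 0, 0, 0, 3612515313, 0, 0, 0, ⟨0, 0⟩, 0⟩ 0 0) (.cut .l 11562933 (.pos 35 .mm ⟨229799743, 0, 0, 0, 0, 3153329860, 0, 0, 0, ⟨0, 0⟩, 0⟩ 0 0) (.cut .s 15400960 (.cut .s 15335424 (.pos 35 .mm ⟨299206777, 0, 0, 0, 0, 2598840134, 0, 0, 0, ⟨0, 0⟩, 0⟩ 0 0) (.cut .v 15204352 (.pos 58 .mm ⟨0, 0, 0, 0, 0, 3402060854, 0, 0, 0, ⟨0, 0⟩, 0⟩ 0 0) (.cut .l 11882272 (.pos 59 .mm ⟨178777882, 0, 0,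 0, 0, 3217946953, 0, 0, 0, ⟨0, 0⟩, 0⟩ 0 0) (.cut .d (-278528) (.cut .d (-286720) (.pos 59 .mm ⟨285145670, 0, 0, 0, 0, 3238719301, 0, 0, 0, ⟨0, 0⟩, 0⟩ 0 0) (.cut .v 15466496 (.pos 133 .mm ⟨0, 0, 0, 0, 0, 3485654710, 0, 0, 0, ⟨0, 0⟩, 0⟩ 0 0) (.cut .s 15368192 (.pos 134 .mm ⟨334914449, 0, 0, 0, 0, 2840487321, 0, 0, 0, ⟨0, 0⟩, 0⟩ 0 0) (.cut .d (-282624) (.pos 134 .mm ⟨310022534, 0, 0, 0, 0, 3046617273, 0, 0, 0, ⟨0, 0⟩, 0⟩ 0 0) (.cut .v 15597568 (.cut .s 15384576 (.cut .v 15532032 (.pos 149 .mm ⟨280555045, 0, 0, 0, 0, 2988252083, 0, 0, 0, ⟨0, 0⟩, 0⟩ 0 0) (.pos 150 .mm ⟨1261312674, 0, 0, 0, 0, 1207514331, 0, 0, 0, ⟨0, 0⟩, 0⟩ 0 0)) (.pos 135 .mm ⟨292210204, 0, 0,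 0, 0, 3000131557, 0, 0, 0, ⟨0, 0⟩, 0⟩ 0 0)) (.pos 136 .mm ⟨1943378025, 0, 0, 0, 0, 0, 0, 0, 0, ⟨0, 0⟩, 0⟩ 0 0)))))) (.cut .v 15466496 (.pos 133 .mm ⟨0, 0, 0, 0, 0, 3415054737, 0, 0, 0, ⟨0, 0⟩, 0⟩ 0 0) (.pos 134 .mm ⟨315834094, 0, 0, 0, 0, 2836208608, 0, 0, 0, ⟨0, 0⟩, 0⟩ 0 0)))))) (.cut .d (-278528) (.void 35 ⟨0, 0, 0, 0, 0, 100000, 0, 0, 0, ⟨0, 0⟩, 0⟩ 0 0) (.cut .v 15204352 (.pos 58 .mm ⟨0, 0, 0, 0, 0, 3444219612, 0, 0, 0, ⟨0, 0⟩, 0⟩ 0 0) (.cut .v 15466496 (.pos 133 .mm ⟨0, 0, 0, 0, 0, 3515767982, 0, 0, 0, ⟨0, 0⟩, 0⟩ 0 0) (.pos 134 .mm ⟨315834094, 0, 0, 0, 0, 2945259638, 0, 0, 0, ⟨0, 0⟩, 0⟩ 0 0))))))) (.pos 36 .mm ⟨2033412373, 0, 0, 0, 0, 0, 0, 0, 0, ⟨0, 0⟩,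 0⟩ 0 0))))))))) (.cut .d (-131072) (.cut .v 12582912 (.cut .v 10485760 (.cut .l 7092186 (.pos 69 .mm ⟨0, 0, 103187280, 0, 0, 2185848602, 0, 0, 0, ⟨0, 0⟩, 0⟩ 0 0) (.cut .v 9437184 (.void 75 ⟨0, 0, 100000, 0, 0, 0, 0, 0, 0, ⟨0, 0⟩, 0⟩ 0 0) (.cut .d (-196608) (.cut .d (-229376) (.pos 76 .mm ⟨0, 0, 107269823, 0, 0, 2169289798, 0, 0, 0, ⟨0, 0⟩, 0⟩ 0 0) (.pos 76 .mm ⟨0, 0, 154032722, 0, 0, 2084084762, 0, 0, 0, ⟨0, 0⟩, 0⟩ 0 0)) (.pos 76 .mm ⟨0, 0, 9441692, 0, 0, 1852190003, 0, 0, 0, ⟨0, 0⟩, 0⟩ 0 0)))) (.cut .l 7092186 (.pos 70 .mm ⟨0, 0, 0, 0, 0, 2588519644, 0, 0, 0, ⟨0, 0⟩, 0⟩ 0 0) (.cut .d (-196608) (.cut .v 11534336 (.cut .d (-229376) (.pos 119 .mm ⟨0, 0, 0, 0,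 0, 2322803733, 0, 0, 0, ⟨0, 0⟩, 0⟩ 0 0) (.pos 119 .mm ⟨0, 0, 0, 0, 0, 2200494797, 0, 0, 0, ⟨0, 0⟩, 0⟩ 0 0)) (.pos 120 .mm ⟨0, 0, 0, 0, 0, 2509984772, 0, 0, 0, ⟨0, 0⟩, 0⟩ 0 0)) (.pos 70 .mm ⟨0, 0, 0, 0, 0, 2061098313, 0, 0, 0, ⟨0, 0⟩, 0⟩ 0 0)))) (.cut .l 7092186 (.pos 7 .mm ⟨0, 0, 0, 0, 0, 3545256518, 0, 0, 0, ⟨0, 0⟩, 0⟩ 0 0) (.cut .d (-196608) (.cut .v 14680064 (.cut .v 13631488 (.pos 60 .mm ⟨0, 0, 0, 0, 0, 2730481039, 0, 0, 0, ⟨0, 0⟩, 0⟩ 0 0) (.pos 61 .mm ⟨0, 0, 0, 0, 0, 2952999691, 0, 0, 0, ⟨0, 0⟩, 0⟩ 0 0)) (.cut .v 15728640 (.cut .s 15400960 (.pos 35 .mm ⟨105203125, 0, 0, 0, 0, 2847859144, 0, 0, 0, ⟨0, 0⟩, 0⟩ 0 0) (.pos 35 .mm ⟨114579318, 0, 0, 0, 0, 3045715349,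 0, 0, 0, ⟨0, 0⟩, 0⟩ 0 0)) (.pos 36 .mm ⟨1075245820, 0, 0, 0, 0, 1398264569, 0, 0, 0, ⟨0, 0⟩, 0⟩ 0 0))) (.cut .v 14680064 (.pos 33 .mm ⟨0, 0, 0, 0, 0, 2489998061, 0, 0, 0, ⟨0, 0⟩, 0⟩ 0 0) (.pos 34 .mm ⟨427371893, 0, 0, 0, 0, 2043993009, 0, 0, 0, ⟨0, 0⟩, 0⟩ 0 0))))) (.cut .l 7092186 (.cut .v 12582912 (.cut .v 10485760 (.cut .d (-65536) (.cut .v 9437184 (.pos 75 .mm ⟨0, 0, 196347727, 0, 0, 1756266038, 0, 0, 0, ⟨0, 0⟩, 0⟩ 0 0) (.cut .l 4537473 (.pos 76 .mm ⟨0, 0, 0, 0, 0, 1940391969, 0, 0, 0, ⟨0, 0⟩, 0⟩ 0 0) (.pos 76 .mm ⟨0, 0, 42860548, 0, 0, 1772985113, 0, 0, 0, ⟨0, 0⟩, 0⟩ 0 0))) (.cut .l 4537473 (.cut .l 3260117 (.cut .v 9437184 (.cut .v 8912896 (.pos 145 .mm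 ⟨0, 0, 1502095439, 0, 0, 0, 0, 0, 0, ⟨0, 0⟩, 0⟩ 0 0) (.cut .d (-32768) (.cut .s 15400960 (.cut .s 15335424 (.pos 146 .mm ⟨0, 0, 73330156, 0, 0, 1485884846, 0, 0, 0, ⟨0, 0⟩, 0⟩ 0 0) (.pos 146 .mm ⟨0, 0, 84277735, 0, 0, 1562320895, 0, 0, 0, ⟨0, 0⟩, 0⟩ 0 0)) (.pos 146 .mm ⟨0, 0, 98268263, 0, 0, 1718066241, 0, 0, 0, ⟨0, 0⟩, 0⟩ 0 0)) (.cut .s 15400960 (.pos 146 .mm ⟨0, 0, 94955347, 0, 0, 915758075, 0, 0, 0, ⟨0, 0⟩, 0⟩ 0 0) (.cut .v 9175040 (.cut .s 15466496 (.pos 151 .mm ⟨0, 0, 106473286, 0, 0, 1435201381, 0, 0, 0, ⟨0, 0⟩, 0⟩ 0 0) (.pos 151 .mm ⟨0, 0, 122255206, 0, 0, 1507435263, 0, 0, 0, ⟨0, 0⟩, 0⟩ 0 0)) (.pos 152 .mm ⟨0, 0, 0, 0, 0, 1593733728, 0, 0, 0, ⟨0, 0⟩,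 0⟩ 0 0))))) (.cut .d (-32768) (.pos 76 .mm ⟨0, 0, 0, 0, 0, 1763777320, 0, 0, 0, ⟨0, 0⟩, 0⟩ 0 0) (.pos 76 .mm ⟨0, 0, 0, 0, 0, 1418893749, 0, 0, 0, ⟨0, 0⟩, 0⟩ 0 0))) (.pos 69 .mm ⟨0, 0, 101820433, 0, 0, 1377327350, 0, 0, 0, ⟨0, 0⟩, 0⟩ 0 0)) (.pos 69 .mm ⟨0, 0, 150085407, 0, 0, 0, 0, 0, 0, ⟨0, 0⟩, 0⟩ 0 0))) (.cut .d (-65536) (.pos 70 .mm ⟨0, 0, 0, 0, 0, 2107053056, 0, 0, 0, ⟨0, 0⟩, 0⟩ 0 0) (.pos 70 .mm ⟨0, 0, 0, 0, 0, 1762454062, 0, 0, 0, ⟨0, 0⟩, 0⟩ 0 0))) (.cut .v 14680064 (.pos 33 .mm ⟨0, 0, 0, 0, 0, 2421522128, 0, 0, 0, ⟨0, 0⟩, 0⟩ 0 0) (.pos 34 .mm ⟨0, 0, 0, 0, 0, 2853512140, 0, 0, 0, ⟨0, 0⟩, 0⟩ 0 0))) (.pos 3 .mm ⟨0, 0, 76757228, 0, 0, 0, 0, 0, 0, ⟨0, 0⟩,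 0⟩ 0 0)))))))))) (.cut .v 268435456 (.cut .v 67108864 (.cut .d (-8388608) (.void 8 ⟨100000, 0, 0, 0, 0, 0, 0, 0, 0, ⟨0, 0⟩, 0⟩ 0 0) (.cut .v 33554432 (.cut .d (-4194304) (.void 9 ⟨100000, 0, 0, 0, 0, 0, 0, 0, 0, ⟨0, 0⟩, 0⟩ 0 0) (.cut .d (-2097152) (.void 9 ⟨100000, 0, 0, 0, 0, 0, 0, 0, 0, ⟨0, 0⟩, 0⟩ 0 0) (.cut .d (-1048576) (.void 9 ⟨100000, 0, 0, 0, 0, 0, 0, 0, 0, ⟨0, 0⟩, 0⟩ 0 0) (.cut .v 25165824 (.cut .d (-524288) (.void 11 ⟨100000, 0, 0, 0, 0, 0, 0, 0, 0, ⟨0, 0⟩, 0⟩ 0 0) (.cut .d (-262144) (.pos 11 .mp ⟨3291642475, 0, 0, 0, 0, 0, 0, 0, 0, ⟨0, 0⟩, 0⟩ 0 0) (.cut .v 20971520 (.cut .d (-131072) (.pos 13 .mp ⟨2148932883, 0, 0, 0, 0, 0, 0, 0, 0, ⟨0, 0⟩, 0⟩ 0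 0) (.pos 13 .mp ⟨1153713784, 0, 0, 0, 0, 969362477, 0, 0, 0, ⟨0, 0⟩, 0⟩ 0 0)) (.pos 14 .mp ⟨2793462720, 0, 0, 0, 0, 0, 0, 0, 0, ⟨0, 0⟩, 0⟩ 0 0)))) (.pos 12 .mp ⟨5973091489, 0, 0, 0, 0, 0, 0, 0, 0, ⟨0, 0⟩, 0⟩ 0 0))))) (.pos 10 .mp ⟨51584417247, 0, 0, 0, 0, 0, 0, 0, 0, ⟨0, 0⟩, 0⟩ 0 0))) (.void 49 ⟨100000, 0, 0, 0, 0, 0, 0, 0, 0, ⟨0, 0⟩, 0⟩ 0 0)) (.void 64 ⟨92838, 0, 0, 7162, 0, 0, 0, 0, 0, ⟨0, 0⟩, 0⟩ 0 0))) (.cut .v 16777216 (.cut .v 8388608 (.cut .v 4194304 (.cut .v 2097152 (.cut .d 828061 (.void 71 ⟨0, 0, 100000, 0, 0, 0, 0, 0, 0, ⟨0, 0⟩, 0⟩ 0 0) (.cut .v 1048576 (.cut .v 524288 (.cut .v 262144 (.pos 147 .pm ⟨0, 950303, 0, 0, 0, 0, 0, 0, 0, ⟨0, 0⟩, 0⟩ 0 0)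 (.pos 148 .pm ⟨0, 18797325, 0, 0, 0, 0, 0, 0, 0, ⟨0, 0⟩, 0⟩ 0 0)) (.pos 122 .pm ⟨0, 30965360, 0, 0, 0, 0, 0, 0, 0, ⟨0, 0⟩, 0⟩ 0 0)) (.pos 96 .pm ⟨0, 42998694, 0, 0, 0, 0, 0, 0, 0, ⟨0, 0⟩, 0⟩ 0 0))) (.cut .d 828061 (.pos 72 .pm ⟨0, 0, 664780975, 0, 0, 0, 0, 0, 0, ⟨0, 0⟩, 0⟩ 0 0) (.pos 72 .pm ⟨0, 65863939, 0, 0, 0, 0, 0, 0, 0, ⟨0, 0⟩, 0⟩ 0 0))) (.pos 5 .pm ⟨0, 0, 148301003, 0, 0, 0, 0, 0, 0, ⟨0, 0⟩, 0⟩ 0 0)) (.pos 3 .pm ⟨0, 0, 74485824, 0, 0, 0, 0, 0, 0, ⟨0, 0⟩, 0⟩ 0 0)) (.cut .v 268435456 (.cut .d 828061 (.cut .v 67108864 (.cut .v 33554432 (.pos 9 .pp ⟨1155565175, 0, 0, 0, 0, 0, 0, 0, 0, ⟨0, 0⟩, 0⟩ 0 0) (.cut .d 414030 (.cut .v 50331648 (.pos 29 .pp ⟨4719236031,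 0, 0, 0, 0, 0, 0, 0, 0, ⟨0, 0⟩, 0⟩ 0 0) (.pos 30 .pp ⟨9093914831, 0, 0, 0, 0, 0, 0, 0, 0, ⟨0, 0⟩, 0⟩ 0 0)) (.pos 10 .pp ⟨0, 0, 0, 0, 0, 0, 0, 0, 0, ⟨0, 0⟩, 0⟩ 0 0))) (.cut .v 134217728 (.cut .v 100663296 (.cut .v 83886080 (.cut .d 414030 (.pos 103 .pp ⟨14667460385, 0, 0, 0, 0, 0, 0, 0, 0, ⟨0, 0⟩, 0⟩ 0 0) (.pos 103 .pp ⟨0, 5546920672, 0, 0, 0, 0, 0, 0, 0, ⟨0, 0⟩, 0⟩ 0 0)) (.void 104 ⟨34515, 65485, 0, 0, 0, 0, 0, 0, 0, ⟨0, 0⟩, 0⟩ 0 0)) (.void 78 ⟨86348, 0, 0, 13652, 0, 0, 0, 0, 0, ⟨0, 0⟩, 0⟩ 0 0)) (.void 66 ⟨0, 0, 0, 100000, 0, 0, 0, 0, 0, ⟨0, 0⟩, 0⟩ 0 0))) (.pos 48 .pp ⟨0, 1231237961, 0, 0, 0, 0, 0, 0, 0, ⟨0, 0⟩, 0⟩ 0 0)) (.void 64 ⟨0, 0, 0, 100000, 0, 0, 0,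 0, 0, ⟨0, 0⟩, 0⟩ 0 0)))),
    by decide +kernel⟩

def covers27 : cell.Covers table row27.1 :=
  ⟨(.cut .d 0 (.cut .v 16777216 (.cut .d (-8388608) (.void 1 ⟨0, 0, 0, 0, 0, 100000, 0, 0, 0, ⟨0, 0⟩, 0⟩ 0 0) (.cut .v 8388608 (.void 2 ⟨0, 0, 100000, 0, 0, 0, 0, 0, 0, ⟨0, 0⟩, 0⟩ 0 0) (.cut .d (-4194304) (.void 3 ⟨100000, 0, 0, 0, 0, 0, 0, 0, 0, ⟨0, 0⟩, 0⟩ 0 0) (.cut .d (-2097152) (.void 3 ⟨100000, 0, 0, 0, 0, 0, 0, 0, 0, ⟨0, 0⟩, 0⟩ 0 0) (.cut .d (-1048576) (.void 3 ⟨74010, 0, 25990, 0, 0, 0, 0, 0, 0, ⟨0, 0⟩, 0⟩ 0 0) (.cut .d (-524288) (.void 3 ⟨0, 0, 0, 0, 0, 100000, 0, 0, 0, ⟨0, 0⟩, 0⟩ 0 0) (.cut .d (-262144) (.void 3 ⟨0, 0, 0, 0, 0, 100000, 0, 0, 0, ⟨0, 0⟩, 0⟩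 0 0) (.cut .d (-131072) (.cut .l 7092186 (.cut .v 12582912 (.pos 6 .mm ⟨0, 0, 110584095, 0, 0, 3315368181, 0, 0, 0, ⟨0, 0⟩, 0⟩ 0 0) (.pos 7 .mm ⟨0, 0, 0, 0, 0, 4467027648, 0, 0, 0, ⟨0, 0⟩, 0⟩ 0 0)) (.cut .v 12582912 (.cut .v 10485760 (.cut .v 9437184 (.void 75 ⟨0, 0, 100000, 0, 0, 0, 0, 0, 0, ⟨0, 0⟩, 0⟩ 0 0) (.cut .v 9961472 (.pos 153 .mm ⟨0, 0, 664807745, 0, 0, 2084946228, 0, 0, 0, ⟨0, 0⟩, 0⟩ 0 0) (.cut .d (-196608) (.cut .d (-229376) (.pos 154 .mm ⟨0, 0, 588577705, 0, 0, 2487035139, 0, 0, 0, ⟨0, 0⟩, 0⟩ 0 0) (.cut .s 15654912 (.pos 154 .mm ⟨0, 0, 248314398, 0, 0, 2348940113, 0, 0, 0, ⟨0, 0⟩, 0⟩ 0 0) (.cut .s 15716352 (.pos 154 .mm ⟨0, 0, 242318665, 0, 0,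 2475496878, 0, 0, 0, ⟨0, 0⟩, 0⟩ 0 0) (.pos 154 .mm ⟨0, 0, 684338626, 0, 0, 2488996182, 0, 0, 0, ⟨0, 0⟩, 0⟩ 0 0)))) (.cut .s 15654912 (.pos 154 .mm ⟨0, 0, 26143140, 0, 0, 2257884355, 0, 0, 0, ⟨0, 0⟩, 0⟩ 0 0) (.cut .l 9646899 (.pos 154 .mm ⟨0, 0, 0, 0, 0, 2533748194, 0, 0, 0, ⟨0, 0⟩, 0⟩ 0 0) (.pos 154 .mm ⟨0, 0, 120704248, 0, 0, 2357078366, 0, 0, 0, ⟨0, 0⟩, 0⟩ 0 0)))))) (.cut .d (-196608) (.cut .l 9646899 (.void 70 ⟨0, 0, 0, 0, 0, 100000, 0, 0, 0, ⟨0, 0⟩, 0⟩ 0 0) (.cut .l 10924255 (.pos 70 .mm ⟨0, 0, 0, 0, 0, 3125277562, 0, 0, 0, ⟨0, 0⟩, 0⟩ 0 0) (.cut .d (-229376) (.cut .s 15654912 (.cut .s 15593472 (.pos 70 .mm ⟨0, 0, 0, 0, 0, 2649268697, 0, 0, 0, ⟨0, 0⟩, 0⟩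 0 0) (.pos 70 .mm ⟨0, 0, 7145312, 0, 0, 2939402911, 0, 0, 0, ⟨0, 0⟩, 0⟩ 0 0)) (.void 70 ⟨0, 0, 0, 0, 0, 100000, 0, 0, 0, ⟨0, 0⟩, 0⟩ 0 0)) (.cut .v 11534336 (.cut .s 15654912 (.cut .d (-212992) (.cut .d (-221184) (.cut .s 15593472 (.pos 119 .mm ⟨0, 0, 38745613, 0, 0, 2253053023, 0, 0, 0, ⟨0, 0⟩, 0⟩ 0 0) (.cut .s 15624192 (.pos 119 .mm ⟨0, 0, 72578543, 0, 0, 2585624519, 0, 0, 0, ⟨0, 0⟩, 0⟩ 0 0) (.cut .d (-225280) (.pos 119 .mm ⟨0, 0, 71861317, 0, 0, 2718869599, 0, 0, 0, ⟨0, 0⟩, 0⟩ 0 0) (.cut .s 15639552 (.pos 119 .mm ⟨0, 0, 79178381, 0, 0, 2613834598, 0, 0, 0, ⟨0, 0⟩, 0⟩ 0 0) (.pos 119 .mm ⟨0, 0, 77544052, 0, 0, 2630457181, 0, 0, 0, ⟨0, 0⟩, 0⟩ 0 0))))) (.pos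 119 .mm ⟨0, 0, 76606613, 0, 0, 2526779409, 0, 0, 0, ⟨0, 0⟩, 0⟩ 0 0)) (.pos 119 .mm ⟨0, 0, 64184424, 0, 0, 2348940113, 0, 0, 0, ⟨0, 0⟩, 0⟩ 0 0)) (.cut .d (-212992) (.cut .d (-221184) (.void 119 ⟨0, 0, 0, 0, 0, 100000, 0, 0, 0, ⟨0, 0⟩, 0⟩ 0 0) (.pos 119 .mm ⟨0, 0, 76533579, 0, 0, 2648238282, 0, 0, 0, ⟨0, 0⟩, 0⟩ 0 0)) (.pos 119 .mm ⟨0, 0, 57827408, 0, 0, 2472334209, 0, 0, 0, ⟨0, 0⟩, 0⟩ 0 0))) (.pos 120 .mm ⟨0, 0, 0, 0, 0, 2980987310, 0, 0, 0, ⟨0, 0⟩, 0⟩ 0 0))))) (.cut .l 9646899 (.pos 70 .mm ⟨0, 0, 0, 0, 0, 2649917142, 0, 0, 0, ⟨0, 0⟩, 0⟩ 0 0) (.pos 70 .mm ⟨0, 0, 0, 0, 0, 2356342822, 0, 0, 0, ⟨0, 0⟩, 0⟩ 0 0)))) (.cut .d (-196608) (.cut .d (-229376) (.pos 7 .mm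 ⟨0, 0, 0, 0, 0, 4393776363, 0, 0, 0, ⟨0, 0⟩, 0⟩ 0 0) (.cut .v 14680064 (.pos 33 .mm ⟨0, 0, 0, 0, 0, 3372778210, 0, 0, 0, ⟨0, 0⟩, 0⟩ 0 0) (.pos 34 .mm ⟨29876591, 0, 0, 0, 0, 3841993130, 0, 0, 0, ⟨0, 0⟩, 0⟩ 0 0))) (.cut .v 14680064 (.pos 33 .mm ⟨0, 0, 0, 0, 0, 3022645903, 0, 0, 0, ⟨0, 0⟩, 0⟩ 0 0) (.pos 34 .mm ⟨0, 0, 0, 0, 0, 3530743378, 0, 0, 0, ⟨0, 0⟩, 0⟩ 0 0))))) (.cut .v 12582912 (.cut .l 7092186 (.cut .v 10485760 (.cut .d (-65536) (.cut .l 4537473 (.pos 69 .mm ⟨0, 0, 149988668, 0, 0, 2435878372, 0, 0, 0, ⟨0, 0⟩, 0⟩ 0 0) (.cut .d (-98304) (.pos 69 .mm ⟨0, 0, 173957190, 0, 0, 2318087408, 0, 0, 0, ⟨0, 0⟩, 0⟩ 0 0) (.pos 69 .mm ⟨0, 0, 146698654, 0, 0, 1901763204,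 0, 0, 0, ⟨0, 0⟩, 0⟩ 0 0))) (.cut .l 4537473 (.cut .v 9437184 (.cut .v 8912896 (.pos 145 .mm ⟨0, 0, 1986509999, 0, 0, 0, 0, 0, 0, ⟨0, 0⟩, 0⟩ 0 0) (.cut .l 3260117 (.cut .d (-32768) (.cut .s 15654912 (.pos 146 .mm ⟨0, 0, 137081584, 0, 0, 1904008251, 0, 0, 0, ⟨0, 0⟩, 0⟩ 0 0) (.pos 146 .mm ⟨0, 0, 194062198, 0, 0, 2096664716, 0, 0, 0, ⟨0, 0⟩, 0⟩ 0 0)) (.cut .s 15654912 (.cut .s 15593472 (.cut .s 15562752 (.pos 146 .mm ⟨0, 0, 129012719, 0, 0, 1588577978, 0, 0, 0, ⟨0, 0⟩, 0⟩ 0 0) (.pos 146 .mm ⟨0, 0, 137203414, 0, 0, 1625983086, 0, 0, 0, ⟨0, 0⟩, 0⟩ 0 0)) (.pos 146 .mm ⟨0, 0, 151901593, 0, 0, 1673173932, 0, 0, 0, ⟨0, 0⟩, 0⟩ 0 0)) (.pos 146 .mm ⟨0, 0, 185685175, 0,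 0, 1774281592, 0, 0, 0, ⟨0, 0⟩, 0⟩ 0 0))) (.pos 146 .mm ⟨0, 0, 208846787, 0, 0, 1711200115, 0, 0, 0, ⟨0, 0⟩, 0⟩ 0 0))) (.cut .s 15654912 (.pos 76 .mm ⟨0, 0, 0, 0, 0, 1953900070, 0, 0, 0, ⟨0, 0⟩, 0⟩ 0 0) (.pos 76 .mm ⟨0, 0, 0, 0, 0, 2158667387, 0, 0, 0, ⟨0, 0⟩, 0⟩ 0 0))) (.pos 69 .mm ⟨0, 0, 228113786, 0, 0, 353157371, 0, 0, 0, ⟨0, 0⟩, 0⟩ 0 0))) (.cut .s 15654912 (.pos 70 .mm ⟨0, 0, 0, 0, 0, 2313355437, 0, 0, 0, ⟨0, 0⟩, 0⟩ 0 0) (.pos 70 .mm ⟨0, 0, 0, 0, 0, 2543971601, 0, 0, 0, ⟨0, 0⟩, 0⟩ 0 0))) (.cut .v 10485760 (.pos 69 .mm ⟨0, 0, 155097427, 0, 0, 1684760765, 0, 0, 0, ⟨0, 0⟩, 0⟩ 0 0) (.pos 70 .mm ⟨0, 0, 0, 0, 0, 2205138353, 0, 0, 0, ⟨0, 0⟩, 0⟩ 0 0))) (.cut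 .v 14680064 (.pos 33 .mm ⟨0, 0, 0, 0, 0, 2816291242, 0, 0, 0, ⟨0, 0⟩, 0⟩ 0 0) (.pos 34 .mm ⟨0, 0, 0, 0, 0, 3298584166, 0, 0, 0, ⟨0, 0⟩, 0⟩ 0 0))))))))))) (.cut .v 268435456 (.cut .v 67108864 (.cut .d (-8388608) (.void 8 ⟨100000, 0, 0, 0, 0, 0, 0, 0, 0, ⟨0, 0⟩, 0⟩ 0 0) (.cut .v 33554432 (.cut .d (-4194304) (.void 9 ⟨100000, 0, 0, 0, 0, 0, 0, 0, 0, ⟨0, 0⟩, 0⟩ 0 0) (.cut .d (-2097152) (.void 9 ⟨100000, 0, 0, 0, 0, 0, 0, 0, 0, ⟨0, 0⟩, 0⟩ 0 0) (.cut .d (-1048576) (.void 9 ⟨100000, 0, 0, 0, 0, 0, 0, 0, 0, ⟨0, 0⟩, 0⟩ 0 0) (.cut .d (-524288) (.void 9 ⟨100000, 0, 0, 0, 0, 0, 0, 0, 0, ⟨0, 0⟩, 0⟩ 0 0) (.cut .d (-262144) (.void 9 ⟨100000, 0, 0, 0, 0, 0, 0, 0, 0, ⟨0, 0⟩,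 0⟩ 0 0) (.cut .v 25165824 (.cut .d (-131072) (.pos 11 .mp ⟨2898309619, 0, 0, 0, 0, 0, 0, 0, 0, ⟨0, 0⟩, 0⟩ 0 0) (.pos 11 .mp ⟨1773123860, 0, 0, 0, 0, 557337025, 0, 0, 0, ⟨0, 0⟩, 0⟩ 0 0)) (.pos 12 .mp ⟨4746497094, 0, 0, 0, 0, 0, 0, 0, 0, ⟨0, 0⟩, 0⟩ 0 0))))))) (.pos 10 .mp ⟨68844331408, 0, 0, 0, 0, 0, 0, 0, 0, ⟨0, 0⟩, 0⟩ 0 0))) (.void 49 ⟨100000, 0, 0, 0, 0, 0, 0, 0, 0, ⟨0, 0⟩, 0⟩ 0 0)) (.void 64 ⟨53108, 0, 0, 4539, 0, 76051, 0, 0, 0, ⟨0, 0⟩, 0⟩ 0 0))) (.cut .v 16777216 (.cut .v 8388608 (.cut .v 4194304 (.cut .v 2097152 (.cut .d 672505 (.void 71 ⟨0, 0, 100000, 0, 0, 0, 0, 0, 0, ⟨0, 0⟩, 0⟩ 0 0) (.cut .v 1048576 (.cut .v 524288 (.cut .v 262144 (.cut .v 131072 (.pos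 161 .pm ⟨0, 0, 3949550, 0, 0, 0, 0, 0, 0, ⟨0, 0⟩, 0⟩ 0 0) (.pos 162 .pm ⟨0, 3594144, 0, 0, 0, 0, 0, 0, 0, ⟨0, 0⟩, 0⟩ 0 0)) (.pos 148 .pm ⟨0, 14331065, 0, 0, 0, 0, 0, 0, 0, ⟨0, 0⟩, 0⟩ 0 0)) (.pos 122 .pm ⟨0, 21641223, 0, 0, 0, 0, 0, 0, 0, ⟨0, 0⟩, 0⟩ 0 0)) (.pos 96 .pm ⟨0, 32658383, 0, 0, 0, 0, 0, 0, 0, ⟨0, 0⟩, 0⟩ 0 0))) (.cut .d 672505 (.pos 72 .pm ⟨0, 0, 916539145, 0, 0, 0, 0, 0, 0, ⟨0, 0⟩, 0⟩ 0 0) (.pos 72 .pm ⟨0, 44900159, 0, 0, 0, 0, 0, 0, 0, ⟨0, 0⟩, 0⟩ 0 0))) (.pos 5 .pm ⟨0, 0, 252819491, 0, 0, 0, 0, 0, 0, ⟨0, 0⟩, 0⟩ 0 0)) (.pos 3 .pm ⟨0, 0, 144181059, 0, 0, 0, 0, 0, 0, ⟨0, 0⟩, 0⟩ 0 0)) (.cut .v 268435456 (.cut .d 672505 (.cut .v 67108864 (.cut .v 33554432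 (.pos 9 .pp ⟨914220211, 0, 0, 0, 0, 0, 0, 0, 0, ⟨0, 0⟩, 0⟩ 0 0) (.cut .v 50331648 (.pos 29 .pp ⟨4376192276, 0, 0, 0, 0, 0, 0, 0, 0, ⟨0, 0⟩, 0⟩ 0 0) (.pos 30 .pp ⟨8605818606, 0, 0, 0, 0, 0, 0, 0, 0, ⟨0, 0⟩, 0⟩ 0 0))) (.cut .v 134217728 (.cut .v 100663296 (.cut .v 83886080 (.cut .d 336252 (.pos 103 .pp ⟨16474961075, 0, 0, 0, 0, 0, 0, 0, 0, ⟨0, 0⟩, 0⟩ 0 0) (.pos 103 .pp ⟨0, 5977358435, 0, 0, 0, 0, 0, 0, 0, ⟨0, 0⟩, 0⟩ 0 0)) (.void 104 ⟨34264, 65736, 0, 0, 0, 0, 0, 0, 0, ⟨0, 0⟩, 0⟩ 0 0)) (.void 78 ⟨86216, 0, 0, 13784, 0, 0, 0, 0, 0, ⟨0, 0⟩, 0⟩ 0 0)) (.void 66 ⟨0, 0, 0, 100000, 0, 0, 0, 0, 0, ⟨0, 0⟩, 0⟩ 0 0))) (.pos 48 .pp ⟨0, 2956662638, 0, 0, 0, 0, 0, 0, 0, ⟨0,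 0⟩, 0⟩ 0 0)) (.void 64 ⟨0, 0, 0, 100000, 0, 0, 0, 0, 0, ⟨0, 0⟩, 0⟩ 0 0)))),
    by decide +kernel⟩

def covers28 : cell.Covers table row28.1 :=
  ⟨(.cut .d 0 (.cut .v 16777216 (.cut .d (-8388608) (.void 1 ⟨0, 0, 0, 0, 0, 100000, 0, 0, 0, ⟨0, 0⟩, 0⟩ 0 0) (.cut .v 8388608 (.void 2 ⟨0, 0, 100000, 0, 0, 0, 0, 0, 0, ⟨0, 0⟩, 0⟩ 0 0) (.cut .d (-4194304) (.void 3 ⟨100000, 0, 0, 0, 0, 0, 0, 0, 0, ⟨0, 0⟩, 0⟩ 0 0) (.cut .d (-2097152) (.void 3 ⟨100000, 0, 0, 0, 0, 0, 0, 0, 0, ⟨0, 0⟩, 0⟩ 0 0) (.cut .d (-1048576) (.void 3 ⟨100000, 0, 0, 0, 0, 0, 0, 0, 0, ⟨0, 0⟩, 0⟩ 0 0) (.cut .d (-524288) (.void 3 ⟨73756, 0, 26244, 0, 0, 0, 0, 0, 0, ⟨0, 0⟩, 0⟩ 0 0) (.cut .d (-262144) (.void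 3 ⟨0, 0, 0, 0, 0, 100000, 0, 0, 0, ⟨0, 0⟩, 0⟩ 0 0) (.cut .d (-131072) (.cut .d (-196608) (.void 3 ⟨0, 0, 0, 0, 0, 100000, 0, 0, 0, ⟨0, 0⟩, 0⟩ 0 0) (.cut .l 7092186 (.void 3 ⟨0, 0, 0, 0, 0, 100000, 0, 0, 0, ⟨0, 0⟩, 0⟩ 0 0) (.cut .v 12582912 (.cut .v 10485760 (.cut .s 15876096 (.pos 69 .mm ⟨0, 0, 413087538, 0, 0, 2824268375, 0, 0, 0, ⟨0, 0⟩, 0⟩ 0 0) (.cut .s 15925248 (.cut .d (-163840) (.void 69 ⟨0, 0, 100000, 0, 0, 0, 0, 0, 0, ⟨0, 0⟩, 0⟩ 0 0) (.pos 69 .mm ⟨0, 0, 352044643, 0, 0, 2945134571, 0, 0, 0, ⟨0, 0⟩, 0⟩ 0 0)) (.pos 69 .mm ⟨0, 0, 367783876, 0, 0, 3183517326, 0, 0, 0, ⟨0, 0⟩, 0⟩ 0 0))) (.cut .l 9646899 (.pos 70 .mm ⟨0, 0, 0, 0, 0, 3650266210, 0, 0, 0,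 ⟨0, 0⟩, 0⟩ 0 0) (.cut .v 11534336 (.cut .v 11010048 (.cut .s 15876096 (.cut .d (-163840) (.pos 155 .mm ⟨0, 0, 123168674, 0, 0, 3241434641, 0, 0, 0, ⟨0, 0⟩, 0⟩ 0 0) (.pos 155 .mm ⟨0, 0, 137614305, 0, 0, 2824268375, 0, 0, 0, ⟨0, 0⟩, 0⟩ 0 0)) (.cut .d (-163840) (.cut .d (-180224) (.void 155 ⟨0, 0, 0, 0, 0, 100000, 0, 0, 0, ⟨0, 0⟩, 0⟩ 0 0) (.cut .d (-172032) (.pos 155 .mm ⟨0, 0, 206988359, 0, 0, 3419933612, 0, 0, 0, ⟨0, 0⟩, 0⟩ 0 0) (.pos 155 .mm ⟨0, 0, 204189287, 0, 0, 3223905881, 0, 0, 0, ⟨0, 0⟩, 0⟩ 0 0))) (.pos 155 .mm ⟨0, 0, 199437870, 0, 0, 3088420213, 0, 0, 0, ⟨0, 0⟩, 0⟩ 0 0))) (.pos 156 .mm ⟨0, 0, 0, 0, 0, 3467626455, 0, 0, 0, ⟨0, 0⟩, 0⟩ 0 0)) (.pos 120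 .mm ⟨0, 0, 0, 0, 0, 3642220361, 0, 0, 0, ⟨0, 0⟩, 0⟩ 0 0)))) (.pos 7 .mm ⟨0, 0, 0, 0, 0, 4350161479, 0, 0, 0, ⟨0, 0⟩, 0⟩ 0 0)))) (.cut .v 12582912 (.cut .v 10485760 (.cut .d (-65536) (.cut .v 9437184 (.void 75 ⟨0, 0, 100000, 0, 0, 0, 0, 0, 0, ⟨0, 0⟩, 0⟩ 0 0) (.cut .l 7092186 (.cut .s 15876096 (.pos 76 .mm ⟨0, 0, 319522408, 0, 0, 2755862779, 0, 0, 0, ⟨0, 0⟩, 0⟩ 0 0) (.cut .v 9961472 (.pos 153 .mm ⟨0, 0, 357647444, 0, 0, 2877031091, 0, 0, 0, ⟨0, 0⟩, 0⟩ 0 0) (.pos 154 .mm ⟨0, 0, 0, 0, 0, 3106615989, 0, 0, 0, ⟨0, 0⟩, 0⟩ 0 0))) (.cut .v 9961472 (.pos 153 .mm ⟨0, 0, 481026163, 0, 0, 2533391443, 0, 0, 0, ⟨0, 0⟩, 0⟩ 0 0) (.cut .s 15876096 (.pos 154 .mm ⟨0, 0, 152103803,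 0, 0, 2640738571, 0, 0, 0, ⟨0, 0⟩, 0⟩ 0 0) (.pos 154 .mm ⟨0, 0, 165826390, 0, 0, 2809411037, 0, 0, 0, ⟨0, 0⟩, 0⟩ 0 0))))) (.cut .l 7092186 (.cut .l 4537473 (.cut .d (-32768) (.cut .v 9437184 (.cut .s 15876096 (.pos 75 .mm ⟨0, 0, 318346874, 0, 0, 2442658304, 0, 0, 0, ⟨0, 0⟩, 0⟩ 0 0) (.pos 75 .mm ⟨0, 0, 355482106, 0, 0, 2593722795, 0, 0, 0, ⟨0, 0⟩, 0⟩ 0 0)) (.pos 76 .mm ⟨0, 0, 0, 0, 0, 2745772501, 0, 0, 0, ⟨0, 0⟩, 0⟩ 0 0)) (.cut .v 9437184 (.cut .d (-16384) (.cut .s 15876096 (.pos 75 .mm ⟨0, 0, 281581427, 0, 0, 2166938056, 0, 0, 0, ⟨0, 0⟩, 0⟩ 0 0) (.pos 75 .mm ⟨0, 0, 336672540, 0, 0, 2336595884, 0, 0, 0, ⟨0, 0⟩, 0⟩ 0 0)) (.pos 75 .mm ⟨0, 0, 384120355, 0, 0,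 0, 0, 0, 0, ⟨0, 0⟩, 0⟩ 0 0)) (.pos 76 .mm ⟨0, 0, 0, 0, 0, 2463335641, 0, 0, 0, ⟨0, 0⟩, 0⟩ 0 0))) (.pos 69 .mm ⟨0, 0, 295592737, 0, 0, 2089090445, 0, 0, 0, ⟨0, 0⟩, 0⟩ 0 0)) (.pos 69 .mm ⟨0, 0, 431596992, 0, 0, 0, 0, 0, 0, ⟨0, 0⟩, 0⟩ 0 0))) (.cut .s 15876096 (.pos 70 .mm ⟨0, 0, 0, 0, 0, 2836994176, 0, 0, 0, ⟨0, 0⟩, 0⟩ 0 0) (.cut .s 15925248 (.pos 70 .mm ⟨0, 0, 0, 0, 0, 3022151893, 0, 0, 0, ⟨0, 0⟩, 0⟩ 0 0) (.pos 70 .mm ⟨0, 0, 0, 0, 0, 3201178074, 0, 0, 0, ⟨0, 0⟩, 0⟩ 0 0)))) (.pos 7 .mm ⟨0, 0, 0, 0, 0, 3645964420, 0, 0, 0, ⟨0, 0⟩, 0⟩ 0 0)))))))))) (.cut .v 268435456 (.cut .v 67108864 (.cut .d (-8388608) (.void 8 ⟨100000, 0, 0, 0, 0, 0, 0, 0, 0, ⟨0, 0⟩, 0⟩ 0 0)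 (.cut .v 33554432 (.cut .d (-4194304) (.void 9 ⟨100000, 0, 0, 0, 0, 0, 0, 0, 0, ⟨0, 0⟩, 0⟩ 0 0) (.cut .d (-2097152) (.void 9 ⟨100000, 0, 0, 0, 0, 0, 0, 0, 0, ⟨0, 0⟩, 0⟩ 0 0) (.cut .d (-1048576) (.void 9 ⟨100000, 0, 0, 0, 0, 0, 0, 0, 0, ⟨0, 0⟩, 0⟩ 0 0) (.cut .d (-524288) (.void 9 ⟨100000, 0, 0, 0, 0, 0, 0, 0, 0, ⟨0, 0⟩, 0⟩ 0 0) (.cut .d (-262144) (.void 9 ⟨100000, 0, 0, 0, 0, 0, 0, 0, 0, ⟨0, 0⟩, 0⟩ 0 0) (.cut .d (-131072) (.pos 9 .mp ⟨4841756930, 0, 0, 0, 0, 0, 0, 0, 0, ⟨0, 0⟩, 0⟩ 0 0) (.pos 9 .mp ⟨2987551057, 0, 0, 0, 0, 0, 0, 0, 0, ⟨0, 0⟩, 0⟩ 0 0))))))) (.pos 10 .mp ⟨90645686533, 0, 0, 0, 0, 0, 0, 0, 0, ⟨0, 0⟩, 0⟩ 0 0))) (.void 49 ⟨100000, 0, 0, 0, 0, 0,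 0, 0, 0, ⟨0, 0⟩, 0⟩ 0 0)) (.void 64 ⟨92649, 0, 0, 7351, 0, 0, 0, 0, 0, ⟨0, 0⟩, 0⟩ 0 0))) (.cut .v 16777216 (.cut .v 8388608 (.cut .v 4194304 (.cut .v 2097152 (.cut .d 531367 (.void 71 ⟨0, 0, 100000, 0, 0, 0, 0, 0, 0, ⟨0, 0⟩, 0⟩ 0 0) (.cut .v 1048576 (.cut .v 524288 (.cut .v 262144 (.cut .v 131072 (.pos 161 .pm ⟨0, 0, 6206107, 0, 0, 0, 0, 0, 0, ⟨0, 0⟩, 0⟩ 0 0) (.pos 162 .pm ⟨0, 0, 4327139, 0, 0, 0, 0, 0, 0, ⟨0, 0⟩, 0⟩ 0 0)) (.pos 148 .pm ⟨0, 0, 1931046, 0, 0, 0, 0, 0, 0, ⟨0, 0⟩, 0⟩ 0 0)) (.pos 122 .pm ⟨0, 0, 506926, 0, 0, 0, 0, 0, 0, ⟨0, 0⟩, 0⟩ 0 0)) (.pos 96 .pm ⟨0, 1301658, 0, 0, 0, 0, 0, 0, 0, ⟨0, 0⟩, 0⟩ 0 0))) (.cut .d 531367 (.pos 72 .pm ⟨0, 0, 1241122096,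 0, 0, 0, 0, 0, 0, ⟨0, 0⟩, 0⟩ 0 0) (.pos 72 .pm ⟨0, 0, 13977983, 0, 0, 0, 0, 0, 0, ⟨0, 0⟩, 0⟩ 0 0))) (.pos 5 .pm ⟨0, 0, 452748080, 0, 0, 0, 0, 0, 0, ⟨0, 0⟩, 0⟩ 0 0)) (.pos 3 .pm ⟨0, 0, 252809895, 0, 0, 0, 0, 0, 0, ⟨0, 0⟩, 0⟩ 0 0)) (.cut .v 268435456 (.cut .v 67108864 (.cut .v 33554432 (.pos 9 .pp ⟨118772514, 0, 0, 0, 0, 0, 0, 0, 0, ⟨0, 0⟩, 0⟩ 0 0) (.cut .v 50331648 (.pos 29 .pp ⟨3659899247, 0, 0, 0, 0, 0, 0, 0, 0, ⟨0, 0⟩, 0⟩ 0 0) (.cut .v 58720256 (.pos 93 .pp ⟨6872044098, 0, 0, 0, 0, 0, 0, 0, 0, ⟨0, 0⟩, 0⟩ 0 0) (.pos 94 .pp ⟨9006479262, 0, 0, 0, 0, 0, 0, 0, 0, ⟨0, 0⟩, 0⟩ 0 0)))) (.cut .v 134217728 (.cut .v 100663296 (.cut .v 83886080 (.cut .d 531367 (.pos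 103 .pp ⟨15994519030, 0, 0, 0, 0, 0, 0, 0, 0, ⟨0, 0⟩, 0⟩ 0 0) (.void 103 ⟨0, 0, 0, 100000, 0, 0, 0, 0, 0, ⟨0, 0⟩, 0⟩ 0 0)) (.void 104 ⟨33731, 66269, 0, 0, 0, 0, 0, 0, 0, ⟨0, 0⟩, 0⟩ 0 0)) (.void 78 ⟨85932, 0, 0, 14068, 0, 0, 0, 0, 0, ⟨0, 0⟩, 0⟩ 0 0)) (.void 66 ⟨0, 0, 0, 100000, 0, 0, 0, 0, 0, ⟨0, 0⟩, 0⟩ 0 0))) (.void 64 ⟨0, 0, 0, 100000, 0, 0, 0, 0, 0, ⟨0, 0⟩, 0⟩ 0 0)))),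
    by decide +kernel⟩

def covers29 : cell.Covers table row29.1 :=
  ⟨(.cut .d 0 (.cut .v 16777216 (.cut .d (-8388608) (.void 1 ⟨0, 0, 0, 0, 0, 100000, 0, 0, 0, ⟨0, 0⟩, 0⟩ 0 0) (.cut .v 8388608 (.void 2 ⟨0, 0, 100000, 0, 0, 0, 0, 0, 0, ⟨0, 0⟩, 0⟩ 0 0) (.cut .d (-4194304) (.void 3 ⟨100000, 0, 0, 0, 0, 0, 0, 0, 0, ⟨0, 0⟩, 0⟩ 0 0) (.cut .d (-2097152) (.void 3 ⟨100000, 0, 0, 0, 0, 0, 0, 0, 0, ⟨0, 0⟩, 0⟩ 0 0) (.cut .d (-1048576) (.void 3 ⟨100000, 0, 0, 0, 0, 0, 0, 0, 0, ⟨0, 0⟩, 0⟩ 0 0) (.cut .d (-524288) (.void 3 ⟨73553, 0, 26447, 0, 0, 0, 0, 0, 0, ⟨0, 0⟩, 0⟩ 0 0) (.cut .d (-262144) (.void 3 ⟨0, 0, 0, 0, 0, 100000, 0, 0, 0, ⟨0, 0⟩, 0⟩ 0 0) (.cut .d (-131072) (.cut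 .v 12582912 (.cut .d (-196608) (.void 6 ⟨0, 0, 0, 0, 0, 100000, 0, 0, 0, ⟨0, 0⟩, 0⟩ 0 0) (.cut .d (-163840) (.void 6 ⟨0, 0, 0, 0, 0, 100000, 0, 0, 0, ⟨0, 0⟩, 0⟩ 0 0) (.cut .d (-147456) (.pos 6 .mm ⟨0, 0, 312394779, 0, 0, 4879180089, 0, 0, 0, ⟨0, 0⟩, 0⟩ 0 0) (.cut .l 7092186 (.void 6 ⟨0, 0, 0, 0, 0, 100000, 0, 0, 0, ⟨0, 0⟩, 0⟩ 0 0) (.cut .v 10485760 (.pos 69 .mm ⟨0, 0, 1559803407, 0, 0, 3277821185, 0, 0, 0, ⟨0, 0⟩, 0⟩ 0 0) (.cut .l 9646899 (.void 70 ⟨0, 0, 0, 0, 0, 100000, 0, 0, 0, ⟨0, 0⟩, 0⟩ 0 0) (.cut .v 11534336 (.cut .s 16056320 (.cut .d (-139264) (.pos 119 .mm ⟨0, 0, 305113652, 0, 0, 3793413518, 0, 0, 0, ⟨0, 0⟩, 0⟩ 0 0) (.pos 119 .mm ⟨0, 0, 314250608,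 0, 0, 3632564561, 0, 0, 0, ⟨0, 0⟩, 0⟩ 0 0)) (.pos 119 .mm ⟨0, 0, 335053269, 0, 0, 3973857629, 0, 0, 0, ⟨0, 0⟩, 0⟩ 0 0)) (.pos 120 .mm ⟨0, 0, 0, 0, 0, 4527039915, 0, 0, 0, ⟨0, 0⟩, 0⟩ 0 0)))))))) (.pos 7 .mm ⟨0, 0, 0, 0, 0, 6869141658, 0, 0, 0, ⟨0, 0⟩, 0⟩ 0 0)) (.cut .v 12582912 (.cut .v 10485760 (.cut .d (-65536) (.cut .v 9437184 (.void 75 ⟨0, 0, 100000, 0, 0, 0, 0, 0, 0, ⟨0, 0⟩, 0⟩ 0 0) (.cut .l 7092186 (.cut .s 16056320 (.pos 76 .mm ⟨0, 0, 436269755, 0, 0, 3418448841, 0, 0, 0, ⟨0, 0⟩, 0⟩ 0 0) (.pos 76 .mm ⟨0, 0, 487071006, 0, 0, 3809491446, 0, 0, 0, ⟨0, 0⟩, 0⟩ 0 0)) (.cut .d (-98304) (.cut .s 16056320 (.pos 76 .mm ⟨0, 0, 530614423, 0, 0, 3334160928, 0, 0,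 0, ⟨0, 0⟩, 0⟩ 0 0) (.pos 76 .mm ⟨0, 0, 559444198, 0, 0, 3587906922, 0, 0, 0, ⟨0, 0⟩, 0⟩ 0 0)) (.pos 76 .mm ⟨0, 0, 397200005, 0, 0, 3039979096, 0, 0, 0, ⟨0, 0⟩, 0⟩ 0 0)))) (.cut .l 7092186 (.cut .d (-32768) (.cut .l 4537473 (.cut .v 9437184 (.pos 75 .mm ⟨0, 0, 876405924, 0, 0, 2876453121, 0, 0, 0, ⟨0, 0⟩, 0⟩ 0 0) (.pos 76 .mm ⟨0, 0, 292406876, 0, 0, 3244226388, 0, 0, 0, ⟨0, 0⟩, 0⟩ 0 0)) (.pos 69 .mm ⟨0, 0, 426588912, 0, 0, 2739003866, 0, 0, 0, ⟨0, 0⟩, 0⟩ 0 0)) (.cut .v 9437184 (.cut .d (-16384) (.cut .s 16056320 (.pos 75 .mm ⟨0, 0, 410415797, 0, 0, 2592168223, 0, 0, 0, ⟨0, 0⟩, 0⟩ 0 0) (.pos 75 .mm ⟨0, 0, 520714463, 0, 0, 2804451695, 0, 0, 0, ⟨0, 0⟩, 0⟩ 0 0))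 (.pos 75 .mm ⟨0, 0, 536622643, 0, 0, 387460156, 0, 0, 0, ⟨0, 0⟩, 0⟩ 0 0)) (.pos 76 .mm ⟨0, 0, 0, 0, 0, 2947091618, 0, 0, 0, ⟨0, 0⟩, 0⟩ 0 0))) (.pos 69 .mm ⟨0, 0, 585334031, 0, 0, 0, 0, 0, 0, ⟨0, 0⟩, 0⟩ 0 0))) (.cut .s 16056320 (.pos 70 .mm ⟨0, 0, 0, 0, 0, 3506269738, 0, 0, 0, ⟨0, 0⟩, 0⟩ 0 0) (.cut .l 7092186 (.pos 70 .mm ⟨0, 0, 0, 0, 0, 4065876174, 0, 0, 0, ⟨0, 0⟩, 0⟩ 0 0) (.pos 70 .mm ⟨0, 0, 91921880, 0, 0, 3745099685, 0, 0, 0, ⟨0, 0⟩, 0⟩ 0 0)))) (.pos 7 .mm ⟨0, 0, 0, 0, 0, 4562504817, 0, 0, 0, ⟨0, 0⟩, 0⟩ 0 0)))))))))) (.cut .v 268435456 (.cut .v 67108864 (.cut .d (-8388608) (.void 8 ⟨100000, 0, 0, 0, 0, 0, 0, 0, 0, ⟨0, 0⟩, 0⟩ 0 0) (.cut .v 33554432 (.cut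 .d (-4194304) (.void 9 ⟨100000, 0, 0, 0, 0, 0, 0, 0, 0, ⟨0, 0⟩, 0⟩ 0 0) (.cut .d (-2097152) (.void 9 ⟨100000, 0, 0, 0, 0, 0, 0, 0, 0, ⟨0, 0⟩, 0⟩ 0 0) (.cut .d (-1048576) (.void 9 ⟨100000, 0, 0, 0, 0, 0, 0, 0, 0, ⟨0, 0⟩, 0⟩ 0 0) (.cut .d (-524288) (.void 9 ⟨100000, 0, 0, 0, 0, 0, 0, 0, 0, ⟨0, 0⟩, 0⟩ 0 0) (.cut .d (-262144) (.void 9 ⟨100000, 0, 0, 0, 0, 0, 0, 0, 0, ⟨0, 0⟩, 0⟩ 0 0) (.cut .d (-131072) (.pos 9 .mp ⟨6306047301, 0, 0, 0, 0, 0, 0, 0, 0, ⟨0, 0⟩, 0⟩ 0 0) (.pos 9 .mp ⟨3616348486, 0, 0, 0, 0, 0, 0, 0, 0, ⟨0, 0⟩, 0⟩ 0 0))))))) (.pos 10 .mp ⟨119658178626, 0, 0, 0, 0, 0, 0, 0, 0, ⟨0, 0⟩, 0⟩ 0 0))) (.void 49 ⟨100000, 0, 0, 0, 0, 0, 0, 0, 0, ⟨0, 0⟩, 0⟩ 0 0))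 (.void 64 ⟨19700, 0, 0, 1669, 0, 75106, 0, 0, 0, ⟨0, 0⟩, 0⟩ 0 0))) (.cut .v 16777216 (.cut .v 8388608 (.cut .v 4194304 (.cut .v 2097152 (.cut .d 421582 (.void 71 ⟨0, 0, 100000, 0, 0, 0, 0, 0, 0, ⟨0, 0⟩, 0⟩ 0 0) (.cut .v 1048576 (.cut .v 524288 (.cut .v 262144 (.cut .v 131072 (.pos 161 .pm ⟨0, 0, 10614913, 0, 0, 0, 0, 0, 0, ⟨0, 0⟩, 0⟩ 0 0) (.pos 162 .pm ⟨0, 0, 18464426, 0, 0, 0, 0, 0, 0, ⟨0, 0⟩, 0⟩ 0 0)) (.pos 148 .pm ⟨0, 0, 25197210, 0, 0, 0, 0, 0, 0, ⟨0, 0⟩, 0⟩ 0 0)) (.pos 122 .pm ⟨0, 0, 34300237, 0, 0, 0, 0, 0, 0, ⟨0, 0⟩, 0⟩ 0 0)) (.pos 96 .pm ⟨0, 0, 55387172, 0, 0, 0, 0, 0, 0, ⟨0, 0⟩, 0⟩ 0 0))) (.pos 72 .pm ⟨0, 0, 390145026, 0, 0, 0, 0, 0, 0, ⟨0, 0⟩, 0⟩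 0 0)) (.pos 5 .pm ⟨0, 0, 751376034, 0, 0, 0, 0, 0, 0, ⟨0, 0⟩, 0⟩ 0 0)) (.pos 3 .pm ⟨0, 0, 363101805, 0, 0, 0, 0, 0, 0, ⟨0, 0⟩, 0⟩ 0 0)) (.cut .v 268435456 (.cut .v 67108864 (.cut .v 33554432 (.pos 9 .pp ⟨0, 0, 0, 0, 0, 0, 0, 0, 0, ⟨0, 0⟩, 0⟩ 0 0) (.cut .v 50331648 (.pos 29 .pp ⟨4436133176, 0, 0, 0, 0, 0, 0, 0, 0, ⟨0, 0⟩, 0⟩ 0 0) (.pos 30 .pp ⟨8907190553, 0, 0, 0, 0, 0, 0, 0, 0, ⟨0, 0⟩, 0⟩ 0 0))) (.cut .v 134217728 (.cut .v 100663296 (.cut .v 83886080 (.pos 103 .pp ⟨20274027641, 14687491008, 0, 0, 0, 0, 0, 0, 0, ⟨0, 0⟩, 0⟩ 0 0) (.void 104 ⟨33645, 66355, 0, 0, 0, 0, 0, 0, 0, ⟨0, 0⟩, 0⟩ 0 0)) (.void 78 ⟨85885, 0, 0, 14115, 0, 0, 0, 0, 0, ⟨0, 0⟩, 0⟩ 0 0)) (.void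 66 ⟨0, 0, 0, 100000, 0, 0, 0, 0, 0, ⟨0, 0⟩, 0⟩ 0 0))) (.void 64 ⟨0, 0, 0, 100000, 0, 0, 0, 0, 0, ⟨0, 0⟩, 0⟩ 0 0)))),
    by decide +kernel⟩

def covers30 : cell.Covers table row30.1 :=
  ⟨(.cut .d 0 (.cut .v 16777216 (.cut .d (-8388608) (.void 1 ⟨0, 0, 0, 0, 0, 100000, 0, 0, 0, ⟨0, 0⟩, 0⟩ 0 0) (.cut .v 8388608 (.pos 2 .mm ⟨0, 0, 167772160000, 0, 0, 0, 0, 0, 0, ⟨0, 0⟩, 0⟩ 0 0) (.cut .d (-4194304) (.void 3 ⟨100000, 0, 0, 0, 0, 0, 0, 0, 0, ⟨0, 0⟩, 0⟩ 0 0) (.cut .d (-2097152) (.void 3 ⟨100000, 0, 0, 0, 0, 0, 0, 0, 0, ⟨0, 0⟩, 0⟩ 0 0) (.cut .d (-1048576) (.void 3 ⟨100000, 0, 0, 0, 0, 0, 0, 0, 0, ⟨0, 0⟩, 0⟩ 0 0) (.cut .d (-524288) (.void 3 ⟨73385, 0, 26615, 0, 0,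 0, 0, 0, 0, ⟨0, 0⟩, 0⟩ 0 0) (.cut .d (-262144) (.void 3 ⟨0, 0, 0, 0, 0, 100000, 0, 0, 0, ⟨0, 0⟩, 0⟩ 0 0) (.cut .d (-131072) (.void 3 ⟨0, 0, 0, 0, 0, 100000, 0, 0, 0, ⟨0, 0⟩, 0⟩ 0 0) (.cut .v 12582912 (.cut .d (-65536) (.cut .l 7092186 (.pos 6 .mm ⟨0, 0, 619380164, 0, 0, 6536028177, 0, 0, 0, ⟨0, 0⟩, 0⟩ 0 0) (.cut .v 10485760 (.cut .d (-98304) (.pos 69 .mm ⟨0, 0, 2804121321, 0, 0, 4015275225, 0, 0, 0, ⟨0, 0⟩, 0⟩ 0 0) (.cut .s 16203776 (.pos 69 .mm ⟨0, 0, 879017416, 0, 0, 4071706373, 0, 0, 0, ⟨0, 0⟩, 0⟩ 0 0) (.cut .l 9646899 (.pos 69 .mm ⟨0, 0, 785402985, 0, 0, 4614596147, 0, 0, 0, ⟨0, 0⟩, 0⟩ 0 0) (.pos 69 .mm ⟨0, 0, 929732832, 0, 0, 4266793569, 0, 0, 0, ⟨0,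 0⟩, 0⟩ 0 0)))) (.cut .l 9646899 (.pos 70 .mm ⟨0, 0, 0, 0, 0, 5501054336, 0, 0, 0, ⟨0, 0⟩, 0⟩ 0 0) (.cut .v 11534336 (.cut .d (-98304) (.cut .d (-114688) (.pos 119 .mm ⟨0, 0, 524647492, 0, 0, 6902778652, 0, 0, 0, ⟨0, 0⟩, 0⟩ 0 0) (.cut .s 16203776 (.pos 119 .mm ⟨0, 0, 529478519, 0, 0, 4660509388, 0, 0, 0, ⟨0, 0⟩, 0⟩ 0 0) (.cut .d (-106496) (.pos 119 .mm ⟨0, 0, 597066283, 0, 0, 5239859549, 0, 0, 0, ⟨0, 0⟩, 0⟩ 0 0) (.pos 119 .mm ⟨0, 0, 563034601, 0, 0, 4802358712, 0, 0, 0, ⟨0, 0⟩, 0⟩ 0 0)))) (.cut .s 16203776 (.pos 119 .mm ⟨0, 0, 519763512, 0, 0, 4204611131, 0, 0, 0, ⟨0, 0⟩, 0⟩ 0 0) (.pos 119 .mm ⟨0, 0, 562430705, 0, 0, 4519758011, 0, 0, 0, ⟨0, 0⟩, 0⟩ 0 0))) (.pos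 120 .mm ⟨0, 0, 0, 0, 0, 5695956051, 0, 0, 0, ⟨0, 0⟩, 0⟩ 0 0))))) (.cut .v 10485760 (.cut .l 7092186 (.cut .d (-32768) (.cut .l 4537473 (.pos 69 .mm ⟨0, 0, 719273051, 0, 0, 4598878359, 0, 0, 0, ⟨0, 0⟩, 0⟩ 0 0) (.cut .d (-49152) (.pos 69 .mm ⟨0, 0, 751588492, 0, 0, 4341507120, 0, 0, 0, ⟨0, 0⟩, 0⟩ 0 0) (.pos 69 .mm ⟨0, 0, 777994683, 0, 0, 3755780962, 0, 0, 0, ⟨0, 0⟩, 0⟩ 0 0))) (.cut .l 4537473 (.cut .d (-16384) (.cut .l 3260117 (.cut .v 9437184 (.pos 75 .mm ⟨0, 0, 764316551, 0, 0, 3950830437, 0, 0, 0, ⟨0, 0⟩, 0⟩ 0 0) (.pos 76 .mm ⟨0, 0, 0, 0, 0, 4470360881, 0, 0, 0, ⟨0, 0⟩, 0⟩ 0 0)) (.pos 69 .mm ⟨0, 0, 756525117, 0, 0, 3595012920, 0, 0, 0, ⟨0, 0⟩, 0⟩ 0 0)) (.cut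 .v 9437184 (.cut .s 16203776 (.pos 75 .mm ⟨0, 0, 738806980, 0, 0, 3178830592, 0, 0, 0, ⟨0, 0⟩, 0⟩ 0 0) (.pos 75 .mm ⟨0, 0, 843089833, 0, 0, 3429131442, 0, 0, 0, ⟨0, 0⟩, 0⟩ 0 0)) (.pos 76 .mm ⟨0, 0, 0, 0, 0, 3787115349, 0, 0, 0, ⟨0, 0⟩, 0⟩ 0 0))) (.pos 69 .mm ⟨0, 0, 883980609, 0, 0, 278670446, 0, 0, 0, ⟨0, 0⟩, 0⟩ 0 0))) (.pos 69 .mm ⟨0, 0, 729281253, 0, 0, 3215968251, 0, 0, 0, ⟨0, 0⟩, 0⟩ 0 0)) (.pos 70 .mm ⟨0, 0, 0, 0, 0, 4448677140, 0, 0, 0, ⟨0, 0⟩, 0⟩ 0 0))) (.cut .d (-65536) (.pos 7 .mm ⟨0, 0, 0, 0, 0, 6538473387, 0, 0, 0, ⟨0, 0⟩, 0⟩ 0 0) (.pos 7 .mm ⟨0, 0, 0, 0, 0, 5248318772, 0, 0, 0, ⟨0, 0⟩, 0⟩ 0 0))))))))))) (.cut .v 268435456 (.cut .v 67108864 (.cut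 .d (-8388608) (.void 8 ⟨100000, 0, 0, 0, 0, 0, 0, 0, 0, ⟨0, 0⟩, 0⟩ 0 0) (.cut .v 33554432 (.cut .d (-4194304) (.void 9 ⟨100000, 0, 0, 0, 0, 0, 0, 0, 0, ⟨0, 0⟩, 0⟩ 0 0) (.cut .d (-2097152) (.void 9 ⟨100000, 0, 0, 0, 0, 0, 0, 0, 0, ⟨0, 0⟩, 0⟩ 0 0) (.cut .d (-1048576) (.void 9 ⟨100000, 0, 0, 0, 0, 0, 0, 0, 0, ⟨0, 0⟩, 0⟩ 0 0) (.cut .d (-524288) (.void 9 ⟨100000, 0, 0, 0, 0, 0, 0, 0, 0, ⟨0, 0⟩, 0⟩ 0 0) (.cut .d (-262144) (.void 9 ⟨100000, 0, 0, 0, 0, 0, 0, 0, 0, ⟨0, 0⟩, 0⟩ 0 0) (.cut .d (-131072) (.void 9 ⟨100000, 0, 0, 0, 0, 0, 0, 0, 0, ⟨0, 0⟩, 0⟩ 0 0) (.pos 9 .mp ⟨4826954880, 0, 0, 0, 0, 0, 0, 0, 0, ⟨0, 0⟩, 0⟩ 0 0))))))) (.pos 10 .mp ⟨157281792119, 0, 0, 0, 0,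 0, 0, 0, 0, ⟨0, 0⟩, 0⟩ 0 0))) (.void 49 ⟨100000, 0, 0, 0, 0, 0, 0, 0, 0, ⟨0, 0⟩, 0⟩ 0 0)) (.void 64 ⟨1003, 0, 0, 5918, 0, 115117, 0, 0, 0, ⟨0, 0⟩, 0⟩ 0 0))) (.cut .v 16777216 (.cut .v 8388608 (.cut .v 4194304 (.cut .v 2097152 (.cut .d 332139 (.pos 71 .pm ⟨0, 0, 167772160000, 0, 0, 0, 0, 0, 0, ⟨0, 0⟩, 0⟩ 0 0) (.cut .v 1048576 (.cut .v 524288 (.cut .v 262144 (.cut .v 131072 (.cut .v 65536 (.pos 165 .pm ⟨0, 0, 12582732, 0, 0, 0, 0, 0, 0, ⟨0, 0⟩, 0⟩ 0 0) (.pos 166 .pm ⟨0, 0, 24963998, 0, 0, 0, 0, 0, 0, ⟨0, 0⟩, 0⟩ 0 0)) (.pos 162 .pm ⟨0, 0, 43654312, 0, 0, 0, 0, 0, 0, ⟨0, 0⟩, 0⟩ 0 0)) (.pos 148 .pm ⟨0, 0, 60230325, 0, 0, 0, 0, 0, 0, ⟨0, 0⟩, 0⟩ 0 0)) (.pos 122 .pm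 ⟨0, 0, 86943393, 0, 0, 0, 0, 0, 0, ⟨0, 0⟩, 0⟩ 0 0)) (.pos 96 .pm ⟨0, 0, 132518992, 0, 0, 0, 0, 0, 0, ⟨0, 0⟩, 0⟩ 0 0))) (.pos 72 .pm ⟨0, 0, 640435179, 0, 0, 0, 0, 0, 0, ⟨0, 0⟩, 0⟩ 0 0)) (.pos 5 .pm ⟨0, 0, 1219191413, 0, 0, 0, 0, 0, 0, ⟨0, 0⟩, 0⟩ 0 0)) (.pos 3 .pm ⟨0, 0, 618326785, 0, 0, 0, 0, 0, 0, ⟨0, 0⟩, 0⟩ 0 0)) (.cut .v 268435456 (.cut .v 67108864 (.cut .v 33554432 (.pos 9 .pp ⟨0, 0, 0, 0, 0, 0, 0, 0, 0, ⟨0, 0⟩, 0⟩ 0 0) (.pos 10 .pp ⟨6659845297, 0, 0, 0, 0, 0, 0, 0, 0, ⟨0, 0⟩, 0⟩ 0 0)) (.cut .v 134217728 (.cut .v 100663296 (.cut .d 332139 (.pos 77 .pp ⟨32200220104, 26632710806, 0, 0, 0, 0, 0, 0, 0, ⟨0, 0⟩, 0⟩ 0 0) (.void 77 ⟨0, 0, 0, 100000, 0, 0, 0, 0,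 0, ⟨0, 0⟩, 0⟩ 0 0)) (.void 78 ⟨85850, 0, 0, 14150, 0, 0, 0, 0, 0, ⟨0, 0⟩, 0⟩ 0 0)) (.void 66 ⟨0, 0, 0, 100000, 0, 0, 0, 0, 0, ⟨0, 0⟩, 0⟩ 0 0))) (.void 64 ⟨0, 0, 0, 100000, 0, 0, 0, 0, 0, ⟨0, 0⟩, 0⟩ 0 0)))),
    by decide +kernel⟩

def covers31 : cell.Covers table row31.1 :=
  ⟨(.cut .d 0 (.cut .v 16777216 (.cut .d (-8388608) (.pos 1 .mm ⟨0, 0, 0, 0, 0, 167772160000, 0, 0, 0, ⟨0, 0⟩, 0⟩ 0 0) (.cut .v 8388608 (.pos 2 .mm ⟨0, 0, 167772160000, 0, 0, 0, 0, 0, 0, ⟨0, 0⟩, 0⟩ 0 0) (.cut .d (-4194304) (.void 3 ⟨100000, 0, 0, 0, 0, 0, 0, 0, 0, ⟨0, 0⟩, 0⟩ 0 0) (.cut .d (-2097152) (.void 3 ⟨100000, 0, 0, 0, 0, 0, 0, 0, 0, ⟨0, 0⟩, 0⟩ 0 0) (.cut .d (-1048576) (.void 3 ⟨100000,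 0, 0, 0, 0, 0, 0, 0, 0, ⟨0, 0⟩, 0⟩ 0 0) (.cut .d (-524288) (.void 3 ⟨100000, 0, 0, 0, 0, 0, 0, 0, 0, ⟨0, 0⟩, 0⟩ 0 0) (.cut .d (-262144) (.void 3 ⟨73252, 0, 26748, 0, 0, 0, 0, 0, 0, ⟨0, 0⟩, 0⟩ 0 0) (.cut .d (-131072) (.void 3 ⟨0, 0, 0, 0, 0, 100000, 0, 0, 0, ⟨0, 0⟩, 0⟩ 0 0) (.cut .v 12582912 (.cut .v 10485760 (.cut .d (-65536) (.pos 69 .mm ⟨0, 0, 1077648532, 0, 0, 4971552265, 0, 0, 0, ⟨0, 0⟩, 0⟩ 0 0) (.cut .v 9437184 (.pos 75 .mm ⟨0, 0, 998182546, 0, 0, 3952736733, 0, 0, 0, ⟨0, 0⟩, 0⟩ 0 0) (.pos 76 .mm ⟨0, 0, 435356485, 0, 0, 4515562794, 0, 0, 0, ⟨0, 0⟩, 0⟩ 0 0))) (.pos 70 .mm ⟨0, 0, 150424694, 0, 0, 5617700258, 0, 0, 0, ⟨0, 0⟩, 0⟩ 0 0)) (.pos 7 .mm ⟨0, 0,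 0, 0, 0, 7032757256, 0, 0, 0, ⟨0, 0⟩, 0⟩ 0 0)))))))))) (.cut .d (-8388608) (.void 63 ⟨100000, 0, 0, 0, 0, 0, 0, 0, 0, ⟨0, 0⟩, 0⟩ 0 0) (.cut .v 268435456 (.cut .v 67108864 (.cut .d (-4194304) (.void 8 ⟨100000, 0, 0, 0, 0, 0, 0, 0, 0, ⟨0, 0⟩, 0⟩ 0 0) (.cut .v 33554432 (.cut .d (-2097152) (.void 9 ⟨100000, 0, 0, 0, 0, 0, 0, 0, 0, ⟨0, 0⟩, 0⟩ 0 0) (.cut .d (-1048576) (.void 9 ⟨100000, 0, 0, 0, 0, 0, 0, 0, 0, ⟨0, 0⟩, 0⟩ 0 0) (.cut .d (-524288) (.void 9 ⟨100000, 0, 0, 0, 0, 0, 0, 0, 0, ⟨0, 0⟩, 0⟩ 0 0) (.cut .d (-262144) (.void 9 ⟨100000, 0, 0, 0, 0, 0, 0, 0, 0, ⟨0, 0⟩, 0⟩ 0 0) (.cut .d (-131072) (.void 9 ⟨100000, 0, 0, 0, 0, 0, 0, 0, 0, ⟨0, 0⟩, 0⟩ 0 0) (.pos 9 .mp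 ⟨5333529299, 0, 0, 0, 0, 0, 0, 0, 0, ⟨0, 0⟩, 0⟩ 0 0)))))) (.pos 10 .mp ⟨102398902291, 0, 0, 0, 0, 0, 0, 0, 0, ⟨0, 0⟩, 0⟩ 0 0))) (.void 49 ⟨100000, 0, 0, 0, 0, 0, 0, 0, 0, ⟨0, 0⟩, 0⟩ 0 0)) (.void 64 ⟨89131, 0, 0, 10869, 0, 0, 0, 0, 0, ⟨0, 0⟩, 0⟩ 0 0)))) (.cut .v 16777216 (.cut .v 8388608 (.cut .v 4194304 (.cut .v 2097152 (.cut .v 1048576 (.cut .v 524288 (.cut .v 262144 (.cut .v 131072 (.cut .v 65536 (.pos 165 .pm ⟨0, 0, 23254855, 0, 0, 0, 0, 0, 0, ⟨0, 0⟩, 0⟩ 0 0) (.pos 166 .pm ⟨0, 0, 44647603, 0, 0, 0, 0, 0, 0, ⟨0, 0⟩, 0⟩ 0 0)) (.pos 162 .pm ⟨0, 0, 82727693, 0, 0, 0, 0, 0, 0, ⟨0, 0⟩, 0⟩ 0 0)) (.pos 148 .pm ⟨0, 0, 152611009, 0, 0, 0, 0, 0, 0, ⟨0, 0⟩, 0⟩ 0 0))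 (.pos 122 .pm ⟨0, 0, 268060722, 0, 0, 0, 0, 0, 0, ⟨0, 0⟩, 0⟩ 0 0)) (.pos 96 .pm ⟨0, 0, 459134362, 0, 0, 0, 0, 0, 0, ⟨0, 0⟩, 0⟩ 0 0)) (.pos 72 .pm ⟨0, 0, 821574473, 0, 0, 0, 0, 0, 0, ⟨0, 0⟩, 0⟩ 0 0)) (.pos 5 .pm ⟨0, 0, 1832045629, 0, 0, 0, 0, 0, 0, ⟨0, 0⟩, 0⟩ 0 0)) (.pos 3 .pm ⟨0, 0, 785392275, 0, 0, 0, 0, 0, 0, ⟨0, 0⟩, 0⟩ 0 0)) (.cut .v 268435456 (.cut .v 67108864 (.cut .v 33554432 (.pos 9 .pp ⟨0, 0, 0, 0, 0, 0, 0, 0, 0, ⟨0, 0⟩, 0⟩ 0 0) (.pos 10 .pp ⟨8486370588, 0, 0, 0, 0, 0, 0, 0, 0, ⟨0, 0⟩, 0⟩ 0 0)) (.cut .v 134217728 (.cut .v 100663296 (.pos 77 .pp ⟨34371812683, 28940578332, 0, 0, 0, 0, 0, 0, 0, ⟨0, 0⟩, 0⟩ 0 0) (.void 78 ⟨85827, 0, 0, 14173, 0, 0, 0, 0,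 0, ⟨0, 0⟩, 0⟩ 0 0)) (.void 66 ⟨0, 0, 0, 100000, 0, 0, 0, 0, 0, ⟨0, 0⟩, 0⟩ 0 0))) (.void 64 ⟨0, 0, 0, 100000, 0, 0, 0, 0, 0, ⟨0, 0⟩, 0⟩ 0 0)))),
    by decide +kernel⟩

def covers32 : cell.Covers table row32.1 :=
  ⟨(.cut .d 0 (.cut .v 16777216 (.cut .v 8388608 (.pos 2 .mm ⟨0, 0, 167772160000, 0, 0, 0, 0, 0, 0, ⟨0, 0⟩, 0⟩ 0 0) (.cut .d (-8388608) (.cut .s 16408576 (.pos 3 .mm ⟨0, 0, 0, 0, 0, 167772160000, 0, 0, 0, ⟨0, 0⟩, 0⟩ 0 0) (.void 3 ⟨99642, 0, 0, 0, 0, 0, 0, 0, 0, ⟨0, 0⟩, 0⟩ 0 0)) (.cut .d (-4194304) (.void 3 ⟨100000, 0, 0, 0, 0, 0, 0, 0, 0, ⟨0, 0⟩, 0⟩ 0 0) (.cut .v 12582912 (.pos 6 .mm ⟨0, 0, 4312889006, 0, 0, 36358303308, 0, 0, 0, ⟨0, 0⟩, 0⟩ 0 0) (.pos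 7 .mm ⟨0, 0, 0, 0, 0, 54366338664, 0, 0, 0, ⟨0, 0⟩, 0⟩ 0 0))))) (.cut .v 4294967296 (.cut .v 268435456 (.cut .v 67108864 (.cut .d (-8388608) (.void 8 ⟨100000, 0, 0, 0, 0, 0, 0, 0, 0, ⟨0, 0⟩, 0⟩ 0 0) (.cut .d (-4194304) (.void 8 ⟨100000, 0, 0, 0, 0, 0, 0, 0, 0, ⟨0, 0⟩, 0⟩ 0 0) (.cut .v 33554432 (.cut .v 25165824 (.pos 11 .mp ⟨47637024229, 0, 0, 0, 0, 0, 0, 0, 0, ⟨0, 0⟩, 0⟩ 0 0) (.pos 12 .mp ⟨68641410896, 0, 0, 0, 0, 0, 0, 0, 0, ⟨0, 0⟩, 0⟩ 0 0)) (.pos 10 .mp ⟨134486465802, 0, 0, 0, 0, 0, 0, 0, 0, ⟨0, 0⟩, 0⟩ 0 0)))) (.void 49 ⟨100000, 0, 0, 0, 0, 0, 0, 0, 0, ⟨0, 0⟩, 0⟩ 0 0)) (.void 64 ⟨46269, 0, 0, 4267, 0, 11891, 0, 0, 0, ⟨0, 0⟩, 0⟩ 0 0)) (.void 169 ⟨92447,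 0, 0, 7553, 0, 0, 0, 0, 0, ⟨0, 0⟩, 0⟩ 0 0))) (.cut .v 16777216 (.cut .v 8388608 (.cut .v 4194304 (.cut .v 2097152 (.cut .v 1048576 (.cut .v 524288 (.cut .v 262144 (.cut .v 131072 (.cut .v 65536 (.pos 165 .pm ⟨0, 0, 33235786, 0, 0, 0, 0, 0, 0, ⟨0, 0⟩, 0⟩ 0 0) (.pos 166 .pm ⟨0, 0, 74367990, 0, 0, 0, 0, 0, 0, ⟨0, 0⟩, 0⟩ 0 0)) (.pos 162 .pm ⟨0, 0, 127427969, 0, 0, 0, 0, 0, 0, ⟨0, 0⟩, 0⟩ 0 0)) (.pos 148 .pm ⟨0, 0, 214731278, 0, 0, 0, 0, 0, 0, ⟨0, 0⟩, 0⟩ 0 0)) (.pos 122 .pm ⟨0, 0, 343723834, 0, 0, 0, 0, 0, 0, ⟨0, 0⟩, 0⟩ 0 0)) (.pos 96 .pm ⟨0, 0, 613477615, 0, 0, 0, 0, 0, 0, ⟨0, 0⟩, 0⟩ 0 0)) (.pos 72 .pm ⟨0, 0, 1132255533, 0, 0, 0, 0, 0, 0, ⟨0, 0⟩, 0⟩ 0 0)) (.pos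 5 .pm ⟨0, 0, 2105555953, 0, 0, 0, 0, 0, 0, ⟨0, 0⟩, 0⟩ 0 0)) (.pos 3 .pm ⟨0, 0, 3184505196, 0, 0, 0, 0, 0, 0, ⟨0, 0⟩, 0⟩ 0 0)) (.cut .v 4294967296 (.cut .v 268435456 (.cut .v 67108864 (.pos 8 .pp ⟨0, 0, 0, 0, 0, 0, 0, 0, 0, ⟨0, 0⟩, 0⟩ 0 0) (.pos 49 .pp ⟨129707518155, 22748783183, 0, 15315858662, 0, 0, 0, 0, 0, ⟨0, 0⟩, 0⟩ 0 0)) (.void 64 ⟨0, 0, 0, 100000, 0, 0, 0, 0, 0, ⟨0, 0⟩, 0⟩ 0 0)) (.void 169 ⟨0, 0, 0, 100000, 0, 0, 0, 0, 0, ⟨0, 0⟩, 0⟩ 0 0)))),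
    by decide +kernel⟩

def covers33 : cell.Covers table row33.1 :=
  ⟨(.cut .d 0 (.cut .v 16777216 (.cut .v 8388608 (.void 2 ⟨0, 0, 100000, 0, 0, 0, 0, 0, 0, ⟨0, 0⟩, 0⟩ 0 0) (.cut .d (-8388608) (.cut .d (-12582912) (.void 3 ⟨68355, 0, 0, 658, 0, 0, 0, 0, 0, ⟨0, 0⟩, 0⟩ 0 0) (.void 3 ⟨100000, 0, 0, 0, 0, 0, 0, 0, 0, ⟨0, 0⟩, 0⟩ 0 0)) (.cut .d (-4194304) (.void 3 ⟨100000, 0, 0, 0, 0, 0, 0, 0, 0, ⟨0, 0⟩, 0⟩ 0 0) (.cut .v 12582912 (.pos 6 .mm ⟨0, 0, 4706665161, 0, 0, 49177332789, 0, 0, 0, ⟨0, 0⟩, 0⟩ 0 0) (.pos 7 .mm ⟨0, 0, 0, 0, 0, 72030554675, 0, 0, 0, ⟨0, 0⟩, 0⟩ 0 0))))) (.cut .v 4294967296 (.cut .d (-8388608) (.void 63 ⟨100000, 0, 0, 0, 0, 0, 0, 0, 0, ⟨0, 0⟩,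 0⟩ 0 0) (.cut .v 268435456 (.cut .v 67108864 (.cut .d (-4194304) (.void 8 ⟨100000, 0, 0, 0, 0, 0, 0, 0, 0, ⟨0, 0⟩, 0⟩ 0 0) (.cut .d (-2097152) (.void 8 ⟨100000, 0, 0, 0, 0, 0, 0, 0, 0, ⟨0, 0⟩, 0⟩ 0 0) (.cut .v 33554432 (.pos 9 .mp ⟨0, 0, 0, 0, 0, 95246445534, 0, 0, 0, ⟨0, 0⟩, 0⟩ 0 0) (.pos 10 .mp ⟨159651894026, 0, 0, 0, 0, 0, 0, 0, 0, ⟨0, 0⟩, 0⟩ 0 0)))) (.void 49 ⟨100000, 0, 0, 0, 0, 0, 0, 0, 0, ⟨0, 0⟩, 0⟩ 0 0)) (.void 64 ⟨89043, 0, 0, 10957, 0, 0, 0, 0, 0, ⟨0, 0⟩, 0⟩ 0 0))) (.void 169 ⟨92419, 0, 0, 7581, 0, 0, 0, 0, 0, ⟨0, 0⟩, 0⟩ 0 0))) (.cut .v 16777216 (.cut .v 8388608 (.cut .v 4194304 (.cut .v 2097152 (.cut .v 1048576 (.cut .v 524288 (.cut .v 262144 (.cut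 .v 131072 (.cut .v 65536 (.cut .v 32768 (.pos 170 .pm ⟨0, 0, 27118528, 0, 0, 0, 0, 0, 0, ⟨0, 0⟩, 0⟩ 0 0) (.pos 171 .pm ⟨0, 0, 61783441, 0, 0, 0, 0, 0, 0, ⟨0, 0⟩, 0⟩ 0 0)) (.pos 166 .pm ⟨0, 0, 107630075, 0, 0, 0, 0, 0, 0, ⟨0, 0⟩, 0⟩ 0 0)) (.pos 162 .pm ⟨0, 0, 187864551, 0, 0, 0, 0, 0, 0, ⟨0, 0⟩, 0⟩ 0 0)) (.pos 148 .pm ⟨0, 0, 313800522, 0, 0, 0, 0, 0, 0, ⟨0, 0⟩, 0⟩ 0 0)) (.pos 122 .pm ⟨0, 0, 514724179, 0, 0, 0, 0, 0, 0, ⟨0, 0⟩, 0⟩ 0 0)) (.pos 96 .pm ⟨0, 0, 916299717, 0, 0, 0, 0, 0, 0, ⟨0, 0⟩, 0⟩ 0 0)) (.pos 72 .pm ⟨0, 0, 1705720075, 0, 0, 0, 0, 0, 0, ⟨0, 0⟩, 0⟩ 0 0)) (.pos 5 .pm ⟨0, 0, 3169822916, 0, 0, 0, 0, 0, 0, ⟨0, 0⟩, 0⟩ 0 0)) (.pos 3 .pm ⟨0, 0, 4530656131,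 0, 0, 0, 0, 0, 0, ⟨0, 0⟩, 0⟩ 0 0)) (.cut .v 4294967296 (.cut .v 268435456 (.cut .v 67108864 (.pos 8 .pp ⟨0, 0, 0, 0, 0, 0, 0, 0, 0, ⟨0, 0⟩, 0⟩ 0 0) (.cut .v 134217728 (.pos 65 .pp ⟨79031707083, 88605462281, 0, 134990635, 0, 0, 0, 0, 0, ⟨0, 0⟩, 0⟩ 0 0) (.void 66 ⟨0, 0, 0, 100000, 0, 0, 0, 0, 0, ⟨0, 0⟩, 0⟩ 0 0))) (.void 64 ⟨0, 0, 0, 100000, 0, 0, 0, 0, 0, ⟨0, 0⟩, 0⟩ 0 0)) (.void 169 ⟨0, 0, 0, 100000, 0, 0, 0, 0, 0, ⟨0, 0⟩, 0⟩ 0 0)))),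
    by decide +kernel⟩

def covers34 : cell.Covers table row34.1 :=
  ⟨(.cut .d 0 (.cut .v 16777216 (.cut .d (-8388608) (.void 1 ⟨0, 0, 0, 0, 0, 100024, 0, 0, 0, ⟨0, 0⟩, 0⟩ 0 0) (.cut .v 8388608 (.pos 2 .mm ⟨0, 0, 167772160000, 0, 0, 0, 0, 0, 0, ⟨0, 0⟩, 0⟩ 0 0) (.cut .d (-4194304) (.void 3 ⟨100000, 0, 0, 0, 0, 0, 0, 0, 0, ⟨0, 0⟩, 0⟩ 0 0) (.pos 3 .mm ⟨0, 0, 9184037171, 0, 0, 84567724672, 0, 0, 0, ⟨0, 0⟩, 0⟩ 0 0)))) (.cut .v 4294967296 (.cut .v 268435456 (.cut .v 67108864 (.cut .d (-8388608) (.void 8 ⟨100000, 0, 0, 0, 0, 0, 0, 0, 0, ⟨0, 0⟩, 0⟩ 0 0) (.cut .d (-4194304) (.void 8 ⟨100000, 0, 0, 0, 0, 0, 0, 0, 0, ⟨0, 0⟩, 0⟩ 0 0) (.cut .d (-2097152) (.void 8 ⟨100000,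 0, 0, 0, 0, 0, 0, 0, 0, ⟨0, 0⟩, 0⟩ 0 0) (.cut .v 33554432 (.pos 9 .mp ⟨0, 0, 0, 0, 0, 125081605110, 0, 0, 0, ⟨0, 0⟩, 0⟩ 0 0) (.pos 10 .mp ⟨167772160000, 0, 0, 0, 0, 0, 0, 0, 0, ⟨0, 0⟩, 0⟩ 0 0))))) (.void 49 ⟨100000, 0, 0, 0, 0, 0, 0, 0, 0, ⟨0, 0⟩, 0⟩ 0 0)) (.void 64 ⟨92398, 0, 0, 7602, 0, 0, 0, 0, 0, ⟨0, 0⟩, 0⟩ 0 0)) (.void 169 ⟨92398, 0, 0, 7602, 0, 0, 0, 0, 0, ⟨0, 0⟩, 0⟩ 0 0))) (.cut .v 16777216 (.cut .v 8388608 (.cut .v 4194304 (.cut .v 2097152 (.cut .v 1048576 (.cut .v 524288 (.cut .v 262144 (.cut .v 131072 (.cut .v 65536 (.cut .v 32768 (.pos 170 .pm ⟨0, 0, 36713810, 0, 0, 0, 0, 0, 0, ⟨0, 0⟩, 0⟩ 0 0) (.pos 171 .pm ⟨0, 0, 86469601, 0, 0, 0, 0, 0, 0, ⟨0,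 0⟩, 0⟩ 0 0)) (.pos 166 .pm ⟨0, 0, 153055709, 0, 0, 0, 0, 0, 0, ⟨0, 0⟩, 0⟩ 0 0)) (.pos 162 .pm ⟨0, 0, 268060766, 0, 0, 0, 0, 0, 0, ⟨0, 0⟩, 0⟩ 0 0)) (.pos 148 .pm ⟨0, 0, 452025260, 0, 0, 0, 0, 0, 0, ⟨0, 0⟩, 0⟩ 0 0)) (.pos 122 .pm ⟨0, 0, 754013540, 0, 0, 0, 0, 0, 0, ⟨0, 0⟩, 0⟩ 0 0)) (.pos 96 .pm ⟨0, 0, 1353504456, 0, 0, 0, 0, 0, 0, ⟨0, 0⟩, 0⟩ 0 0)) (.pos 72 .pm ⟨0, 0, 2547661122, 0, 0, 0, 0, 0, 0, ⟨0, 0⟩, 0⟩ 0 0)) (.pos 5 .pm ⟨0, 0, 4762367669, 0, 0, 0, 0, 0, 0, ⟨0, 0⟩, 0⟩ 0 0)) (.pos 3 .pm ⟨0, 0, 6448051128, 0, 0, 0, 0, 0, 0, ⟨0, 0⟩, 0⟩ 0 0)) (.cut .v 4294967296 (.cut .v 268435456 (.cut .v 67108864 (.pos 8 .pp ⟨0, 0, 0, 0, 0, 0, 0, 0, 0, ⟨0, 0⟩, 0⟩ 0 0) (.cut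 .v 134217728 (.pos 65 .pp ⟨111627391708, 49369633269, 0, 6775135023, 0, 0, 0, 0, 0, ⟨0, 0⟩, 0⟩ 0 0) (.void 66 ⟨0, 0, 0, 100000, 0, 0, 0, 0, 0, ⟨0, 0⟩, 0⟩ 0 0))) (.void 64 ⟨0, 0, 0, 100000, 0, 0, 0, 0, 0, ⟨0, 0⟩, 0⟩ 0 0)) (.void 169 ⟨0, 0, 0, 100000, 0, 0, 0, 0, 0, ⟨0, 0⟩, 0⟩ 0 0)))),
    by decide +kernel⟩

def covers35 : cell.Covers table row35.1 :=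
  ⟨(.cut .d 0 (.cut .v 16777216 (.cut .d (-8388608) (.void 1 ⟨0, 0, 0, 0, 0, 72357, 0, 0, 0, ⟨0, 0⟩, 0⟩ 0 0) (.cut .d (-4194304) (.void 1 ⟨0, 0, 0, 0, 0, 100026, 0, 0, 0, ⟨0, 0⟩, 0⟩ 0 0) (.cut .v 8388608 (.void 2 ⟨0, 0, 100000, 0, 0, 0, 0, 0, 0, ⟨0, 0⟩, 0⟩ 0 0) (.pos 3 .mm ⟨0, 0, 12526026543, 0, 0, 118434086844, 0, 0, 0, ⟨0, 0⟩, 0⟩ 0 0)))) (.cut .v 4294967296 (.cut .v 268435456 (.cut .v 67108864 (.cut .d (-8388608) (.void 8 ⟨100000, 0, 0, 0, 0, 0, 0, 0, 0, ⟨0, 0⟩, 0⟩ 0 0) (.cut .d (-4194304) (.void 8 ⟨100000, 0, 0, 0, 0, 0, 0, 0, 0, ⟨0, 0⟩, 0⟩ 0 0) (.cut .d (-2097152) (.void 8 ⟨100000, 0, 0, 0, 0, 0, 0, 0, 0, ⟨0, 0⟩, 0⟩ 0 0) (.cut .d (-1048576) (.void 8 ⟨100000,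 0, 0, 0, 0, 0, 0, 0, 0, ⟨0, 0⟩, 0⟩ 0 0) (.pos 8 .mp ⟨139933493541, 0, 0, 0, 0, 0, 0, 0, 0, ⟨0, 0⟩, 0⟩ 0 0))))) (.void 49 ⟨100000, 0, 0, 0, 0, 0, 0, 0, 0, ⟨0, 0⟩, 0⟩ 0 0)) (.void 64 ⟨159646, 0, 0, 89120, 0, 943864, 0, 0, 0, ⟨0, 0⟩, 0⟩ 0 0)) (.void 169 ⟨92377, 0, 0, 7623, 0, 0, 0, 0, 0, ⟨0, 0⟩, 0⟩ 0 0))) (.cut .v 16777216 (.cut .v 8388608 (.cut .v 4194304 (.cut .v 2097152 (.cut .v 1048576 (.cut .v 524288 (.cut .v 262144 (.cut .v 131072 (.cut .v 65536 (.cut .v 32768 (.cut .v 16384 (.pos 172 .pm ⟨0, 0, 30260906, 0, 0, 0, 0, 0, 0, ⟨0, 0⟩, 0⟩ 0 0) (.pos 173 .pm ⟨0, 0, 71680149, 0, 0, 0, 0, 0, 0, ⟨0, 0⟩, 0⟩ 0 0)) (.pos 171 .pm ⟨0, 0, 128430520, 0, 0, 0, 0, 0, 0,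 ⟨0, 0⟩, 0⟩ 0 0)) (.pos 166 .pm ⟨0, 0, 230799985, 0, 0, 0, 0, 0, 0, ⟨0, 0⟩, 0⟩ 0 0)) (.pos 162 .pm ⟨0, 0, 397926112, 0, 0, 0, 0, 0, 0, ⟨0, 0⟩, 0⟩ 0 0)) (.pos 148 .pm ⟨0, 0, 676700915, 0, 0, 0, 0, 0, 0, ⟨0, 0⟩, 0⟩ 0 0)) (.pos 122 .pm ⟨0, 0, 1148908795, 0, 0, 0, 0, 0, 0, ⟨0, 0⟩, 0⟩ 0 0)) (.pos 96 .pm ⟨0, 0, 2054218240, 0, 0, 0, 0, 0, 0, ⟨0, 0⟩, 0⟩ 0 0)) (.pos 72 .pm ⟨0, 0, 3844210860, 0, 0, 0, 0, 0, 0, ⟨0, 0⟩, 0⟩ 0 0)) (.pos 5 .pm ⟨0, 0, 7042906490, 0, 0, 0, 0, 0, 0, ⟨0, 0⟩, 0⟩ 0 0)) (.pos 3 .pm ⟨0, 0, 8934758462, 0, 0, 0, 0, 0, 0, ⟨0, 0⟩, 0⟩ 0 0)) (.cut .v 4294967296 (.cut .v 268435456 (.cut .v 67108864 (.pos 8 .pp ⟨0, 0, 0, 0, 0, 0, 0, 0, 0, ⟨0, 0⟩, 0⟩ 0 0)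 (.cut .v 134217728 (.pos 65 .pp ⟨149960248541, 0, 0, 17811911459, 0, 0, 0, 0, 0, ⟨0, 0⟩, 0⟩ 0 0) (.void 66 ⟨0, 0, 0, 100000, 0, 0, 0, 0, 0, ⟨0, 0⟩, 0⟩ 0 0))) (.void 64 ⟨0, 0, 0, 100000, 0, 0, 0, 0, 0, ⟨0, 0⟩, 0⟩ 0 0)) (.void 169 ⟨0, 0, 0, 100000, 0, 0, 0, 0, 0, ⟨0, 0⟩, 0⟩ 0 0)))),
    by decide +kernel⟩

def covers36 : cell.Covers table row36.1 :=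
  ⟨(.cut .d 0 (.cut .v 16777216 (.cut .d (-8388608) (.void 1 ⟨0, 0, 0, 0, 0, 100000, 0, 0, 0, ⟨0, 0⟩, 0⟩ 0 0) (.cut .d (-4194304) (.void 1 ⟨0, 0, 0, 0, 0, 100000, 0, 0, 0, ⟨0, 0⟩, 0⟩ 0 0) (.cut .v 8388608 (.pos 2 .mm ⟨0, 0, 167772160000, 0, 0, 0, 0, 0, 0, ⟨0, 0⟩, 0⟩ 0 0) (.pos 3 .mm ⟨8959642769, 0, 16509966750, 0, 0, 142302550482, 0, 0, 0, ⟨0, 0⟩, 0⟩ 0 0)))) (.cut .v 4294967296 (.cut .v 268435456 (.cut .v 67108864 (.cut .d (-8388608) (.void 8 ⟨100000, 0, 0, 0, 0, 0, 0, 0, 0, ⟨0, 0⟩, 0⟩ 0 0) (.cut .d (-4194304) (.void 8 ⟨100000, 0, 0, 0, 0, 0, 0, 0, 0, ⟨0, 0⟩, 0⟩ 0 0) (.cut .d (-2097152) (.void 8 ⟨100000, 0, 0, 0, 0, 0, 0, 0, 0, ⟨0, 0⟩, 0⟩ 0 0) (.cut .d (-1048576)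 (.void 8 ⟨100000, 0, 0, 0, 0, 0, 0, 0, 0, ⟨0, 0⟩, 0⟩ 0 0) (.cut .d (-524288) (.void 8 ⟨100000, 0, 0, 0, 0, 0, 0, 0, 0, ⟨0, 0⟩, 0⟩ 0 0) (.pos 8 .mp ⟨145543310145, 0, 0, 0, 0, 22228849855, 0, 0, 0, ⟨0, 0⟩, 0⟩ 0 0)))))) (.void 49 ⟨100000, 0, 0, 0, 0, 0, 0, 0, 0, ⟨0, 0⟩, 0⟩ 0 0)) (.void 64 ⟨92363, 0, 0, 7637, 0, 0, 0, 0, 0, ⟨0, 0⟩, 0⟩ 0 0)) (.void 169 ⟨92363, 0, 0, 7637, 0, 0, 0, 0, 0, ⟨0, 0⟩, 0⟩ 0 0))) (.cut .v 16777216 (.cut .v 8388608 (.cut .v 4194304 (.cut .v 2097152 (.cut .v 1048576 (.cut .v 524288 (.cut .v 262144 (.cut .v 131072 (.cut .v 65536 (.cut .v 32768 (.cut .v 16384 (.pos 172 .pm ⟨0, 0, 41987768, 0, 0, 0, 0, 0, 0, ⟨0, 0⟩, 0⟩ 0 0) (.pos 173 .pm ⟨0,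 0, 103129635, 0, 0, 0, 0, 0, 0, ⟨0, 0⟩, 0⟩ 0 0)) (.pos 171 .pm ⟨0, 0, 187033930, 0, 0, 0, 0, 0, 0, ⟨0, 0⟩, 0⟩ 0 0)) (.pos 166 .pm ⟨0, 0, 336195516, 0, 0, 0, 0, 0, 0, ⟨0, 0⟩, 0⟩ 0 0)) (.pos 162 .pm ⟨0, 0, 588584919, 0, 0, 0, 0, 0, 0, ⟨0, 0⟩, 0⟩ 0 0)) (.pos 148 .pm ⟨0, 0, 1015825334, 0, 0, 0, 0, 0, 0, ⟨0, 0⟩, 0⟩ 0 0)) (.pos 122 .pm ⟨0, 0, 1741075986, 0, 0, 0, 0, 0, 0, ⟨0, 0⟩, 0⟩ 0 0)) (.pos 96 .pm ⟨0, 0, 3172499288, 0, 0, 0, 0, 0, 0, ⟨0, 0⟩, 0⟩ 0 0)) (.pos 72 .pm ⟨0, 0, 6026090142, 0, 0, 0, 0, 0, 0, ⟨0, 0⟩, 0⟩ 0 0)) (.pos 5 .pm ⟨0, 0, 11210075593, 0, 0, 0, 0, 0, 0, ⟨0, 0⟩, 0⟩ 0 0)) (.pos 3 .pm ⟨0, 0, 13460575993, 0, 0, 0, 0, 0, 0, ⟨0, 0⟩, 0⟩ 0 0)) (.cut .v 4294967296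 (.cut .v 268435456 (.cut .v 67108864 (.pos 8 .pp ⟨0, 0, 0, 0, 0, 0, 0, 0, 0, ⟨0, 0⟩, 0⟩ 0 0) (.cut .v 134217728 (.pos 65 .pp ⟨139729889747, 0, 0, 28042270253, 0, 0, 0, 0, 0, ⟨0, 0⟩, 0⟩ 0 0) (.void 66 ⟨0, 0, 0, 100000, 0, 0, 0, 0, 0, ⟨0, 0⟩, 0⟩ 0 0))) (.void 64 ⟨0, 0, 0, 100000, 0, 0, 0, 0, 0, ⟨0, 0⟩, 0⟩ 0 0)) (.void 169 ⟨0, 0, 0, 100000, 0, 0, 0, 0, 0, ⟨0, 0⟩, 0⟩ 0 0)))),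
    by decide +kernel⟩

def covers37 : cell.Covers table row37.1 :=
  ⟨(.cut .d 0 (.cut .v 16777216 (.cut .d (-8388608) (.void 1 ⟨0, 0, 98573, 7874, 0, 0, 0, 0, 0, ⟨0, 0⟩, 0⟩ 0 0) (.cut .v 8388608 (.void 2 ⟨0, 0, 100000, 0, 0, 0, 0, 0, 0, ⟨0, 0⟩, 0⟩ 0 0) (.cut .d (-4194304) (.void 3 ⟨100000, 0, 0, 0, 0, 0, 0, 0, 0, ⟨0, 0⟩, 0⟩ 0 0) (.cut .v 12582912 (.pos 6 .mm ⟨0, 0, 19735434430, 0, 0, 135478701015, 0, 0, 0, ⟨0, 0⟩, 0⟩ 0 0) (.pos 7 .mm ⟨52944312797, 0, 0, 0, 0, 114827847203, 0, 0, 0, ⟨0, 0⟩, 0⟩ 0 0))))) (.cut .v 4294967296 (.cut .v 268435456 (.cut .v 67108864 (.cut .d (-8388608) (.void 8 ⟨100000, 0, 0, 0, 0, 0, 0, 0, 0, ⟨0, 0⟩, 0⟩ 0 0) (.cut .d (-4194304)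 (.void 8 ⟨100000, 0, 0, 0, 0, 0, 0, 0, 0, ⟨0, 0⟩, 0⟩ 0 0) (.cut .d (-2097152) (.void 8 ⟨100000, 0, 0, 0, 0, 0, 0, 0, 0, ⟨0, 0⟩, 0⟩ 0 0) (.cut .d (-1048576) (.void 8 ⟨100000, 0, 0, 0, 0, 0, 0, 0, 0, ⟨0, 0⟩, 0⟩ 0 0) (.cut .d (-524288) (.void 8 ⟨100000, 0, 0, 0, 0, 0, 0, 0, 0, ⟨0, 0⟩, 0⟩ 0 0) (.cut .d (-262144) (.void 8 ⟨100000, 0, 0, 0, 0, 0, 0, 0, 0, ⟨0, 0⟩, 0⟩ 0 0) (.pos 8 .mp ⟨158324252964, 0, 0, 0, 0, 9447907036, 0, 0, 0, ⟨0, 0⟩, 0⟩ 0 0))))))) (.void 49 ⟨100000, 0, 0, 0, 0, 0, 0, 0, 0, ⟨0, 0⟩, 0⟩ 0 0)) (.void 64 ⟨92356, 0, 0, 7644, 0, 0, 0, 0, 0, ⟨0, 0⟩, 0⟩ 0 0)) (.void 169 ⟨92356, 0, 0, 7644, 0, 0, 0, 0, 0, ⟨0, 0⟩, 0⟩ 0 0))) (.cut .v 16777216 (.cut .v 8388608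 (.cut .v 4194304 (.cut .v 2097152 (.cut .v 1048576 (.cut .v 524288 (.cut .v 262144 (.cut .v 131072 (.cut .v 65536 (.cut .v 32768 (.cut .v 16384 (.pos 172 .pm ⟨0, 0, 52946341, 0, 0, 0, 0, 0, 0, ⟨0, 0⟩, 0⟩ 0 0) (.pos 173 .pm ⟨0, 0, 131924507, 0, 0, 0, 0, 0, 0, ⟨0, 0⟩, 0⟩ 0 0)) (.pos 171 .pm ⟨0, 0, 239966086, 0, 0, 0, 0, 0, 0, ⟨0, 0⟩, 0⟩ 0 0)) (.pos 166 .pm ⟨0, 0, 434896190, 0, 0, 0, 0, 0, 0, ⟨0, 0⟩, 0⟩ 0 0)) (.pos 162 .pm ⟨0, 0, 770286544, 0, 0, 0, 0, 0, 0, ⟨0, 0⟩, 0⟩ 0 0)) (.pos 148 .pm ⟨0, 0, 1337298325, 0, 0, 0, 0, 0, 0, ⟨0, 0⟩, 0⟩ 0 0)) (.pos 122 .pm ⟨0, 0, 2335263837, 0, 0, 0, 0, 0, 0, ⟨0, 0⟩, 0⟩ 0 0)) (.pos 96 .pm ⟨0, 0, 4362525408, 0, 0, 0, 0, 0, 0, ⟨0,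 0⟩, 0⟩ 0 0)) (.pos 72 .pm ⟨0, 0, 8463720267, 0, 0, 0, 0, 0, 0, ⟨0, 0⟩, 0⟩ 0 0)) (.pos 5 .pm ⟨0, 0, 16244568631, 0, 0, 0, 0, 0, 0, ⟨0, 0⟩, 0⟩ 0 0)) (.pos 3 .pm ⟨0, 0, 19039228373, 0, 0, 0, 0, 0, 0, ⟨0, 0⟩, 0⟩ 0 0)) (.cut .v 4294967296 (.cut .v 268435456 (.cut .v 67108864 (.pos 8 .pp ⟨0, 0, 0, 0, 0, 0, 0, 0, 0, ⟨0, 0⟩, 0⟩ 0 0) (.cut .v 134217728 (.cut .v 100663296 (.pos 77 .pp ⟨167772160000, 0, 0, 0, 0, 0, 0, 0, 0, ⟨0, 0⟩, 0⟩ 0 0) (.void 78 ⟨85750, 0, 0, 14250, 0, 0, 0, 0, 0, ⟨0, 0⟩, 0⟩ 0 0)) (.void 66 ⟨0, 0, 0, 100000, 0, 0, 0, 0, 0, ⟨0, 0⟩, 0⟩ 0 0))) (.void 64 ⟨0, 0, 0, 100000, 0, 0, 0, 0, 0, ⟨0, 0⟩, 0⟩ 0 0)) (.void 169 ⟨0, 0, 0, 100000, 0, 0, 0, 0, 0, ⟨0,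 0⟩, 0⟩ 0 0)))),
    by decide +kernel⟩

def covers38 : cell.Covers table row38.1 :=
  ⟨(.cut .d 0 (.cut .v 16777216 (.cut .d (-8388608) (.void 1 ⟨0, 0, 53171, 0, 0, 46880, 0, 0, 0, ⟨0, 0⟩, 0⟩ 0 0) (.cut .d (-4194304) (.void 1 ⟨0, 0, 0, 0, 0, 100000, 0, 0, 0, ⟨0, 0⟩, 0⟩ 0 0) (.cut .v 8388608 (.void 2 ⟨0, 0, 86329, 0, 0, 0, 0, 0, 0, ⟨0, 0⟩, 0⟩ 0 0) (.cut .d (-2097152) (.void 3 ⟨100000, 0, 0, 0, 0, 0, 0, 0, 0, ⟨0, 0⟩, 0⟩ 0 0) (.cut .v 12582912 (.pos 6 .mm ⟨7950234876, 0, 27473825000, 0, 0, 132348100124, 0, 0, 0, ⟨0, 0⟩, 0⟩ 0 0) (.pos 7 .mm ⟨74555528196, 0, 0, 0, 0, 93216631804, 0, 0, 0, ⟨0, 0⟩, 0⟩ 0 0)))))) (.cut .v 4294967296 (.cut .d (-8388608) (.void 63 ⟨100000,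 0, 0, 0, 0, 0, 0, 0, 0, ⟨0, 0⟩, 0⟩ 0 0) (.cut .v 268435456 (.cut .v 67108864 (.cut .d (-4194304) (.void 8 ⟨100000, 0, 0, 0, 0, 0, 0, 0, 0, ⟨0, 0⟩, 0⟩ 0 0) (.cut .d (-2097152) (.void 8 ⟨100000, 0, 0, 0, 0, 0, 0, 0, 0, ⟨0, 0⟩, 0⟩ 0 0) (.cut .d (-1048576) (.void 8 ⟨100000, 0, 0, 0, 0, 0, 0, 0, 0, ⟨0, 0⟩, 0⟩ 0 0) (.cut .d (-524288) (.void 8 ⟨100000, 0, 0, 0, 0, 0, 0, 0, 0, ⟨0, 0⟩, 0⟩ 0 0) (.cut .d (-262144) (.void 8 ⟨100000, 0, 0, 0, 0, 0, 0, 0, 0, ⟨0, 0⟩, 0⟩ 0 0) (.cut .d (-131072) (.void 8 ⟨100000, 0, 0, 0, 0, 0, 0, 0, 0, ⟨0, 0⟩, 0⟩ 0 0) (.cut .d (-65536) (.void 8 ⟨100000, 0, 0, 0, 0, 0, 0, 0, 0, ⟨0, 0⟩, 0⟩ 0 0) (.cut .d (-32768) (.void 8 ⟨100000, 0, 0, 0, 0,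 0, 0, 0, 0, ⟨0, 0⟩, 0⟩ 0 0) (.pos 8 .mp ⟨125841292101, 0, 0, 0, 0, 0, 0, 0, 0, ⟨0, 0⟩, 0⟩ 0 0))))))))) (.void 49 ⟨100000, 0, 0, 0, 0, 0, 0, 0, 0, ⟨0, 0⟩, 0⟩ 0 0)) (.void 64 ⟨88937, 0, 0, 11063, 0, 0, 0, 0, 0, ⟨0, 0⟩, 0⟩ 0 0))) (.void 169 ⟨92342, 0, 0, 7658, 0, 0, 0, 0, 0, ⟨0, 0⟩, 0⟩ 0 0))) (.cut .v 16777216 (.cut .v 8388608 (.cut .v 4194304 (.cut .v 2097152 (.cut .v 1048576 (.cut .v 524288 (.cut .v 262144 (.cut .v 131072 (.cut .v 65536 (.cut .v 32768 (.cut .v 16384 (.cut .v 8192 (.pos 174 .pm ⟨0, 0, 44185802, 0, 0, 0, 0, 0, 0, ⟨0, 0⟩, 0⟩ 0 0) (.pos 175 .pm ⟨0, 0, 111770645, 0, 0, 0, 0, 0, 0, ⟨0, 0⟩, 0⟩ 0 0)) (.pos 173 .pm ⟨0, 0, 206478796, 0, 0, 0, 0, 0, 0,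 ⟨0, 0⟩, 0⟩ 0 0)) (.pos 171 .pm ⟨0, 0, 371296064, 0, 0, 0, 0, 0, 0, ⟨0, 0⟩, 0⟩ 0 0)) (.pos 166 .pm ⟨0, 0, 660853558, 0, 0, 0, 0, 0, 0, ⟨0, 0⟩, 0⟩ 0 0)) (.pos 162 .pm ⟨0, 0, 1165062678, 0, 0, 0, 0, 0, 0, ⟨0, 0⟩, 0⟩ 0 0)) (.pos 148 .pm ⟨0, 0, 2020838112, 0, 0, 0, 0, 0, 0, ⟨0, 0⟩, 0⟩ 0 0)) (.pos 122 .pm ⟨0, 0, 3582643960, 0, 0, 0, 0, 0, 0, ⟨0, 0⟩, 0⟩ 0 0)) (.pos 96 .pm ⟨0, 0, 6494799120, 0, 0, 0, 0, 0, 0, ⟨0, 0⟩, 0⟩ 0 0)) (.pos 72 .pm ⟨0, 0, 12043381836, 0, 0, 0, 0, 0, 0, ⟨0, 0⟩, 0⟩ 0 0)) (.pos 5 .pm ⟨0, 0, 21552955995, 0, 0, 0, 0, 0, 0, ⟨0, 0⟩, 0⟩ 0 0)) (.pos 3 .pm ⟨0, 0, 23404008983, 0, 0, 0, 0, 0, 0, ⟨0, 0⟩, 0⟩ 0 0)) (.cut .v 4294967296 (.cut .v 268435456 (.cut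 .v 67108864 (.pos 8 .pp ⟨0, 0, 0, 0, 0, 0, 0, 0, 0, ⟨0, 0⟩, 0⟩ 0 0) (.cut .v 134217728 (.cut .v 100663296 (.pos 77 .pp ⟨167772160000, 0, 0, 0, 0, 0, 0, 0, 0, ⟨0, 0⟩, 0⟩ 0 0) (.void 78 ⟨85732, 0, 0, 14268, 0, 0, 0, 0, 0, ⟨0, 0⟩, 0⟩ 0 0)) (.void 66 ⟨0, 0, 0, 100000, 0, 0, 0, 0, 0, ⟨0, 0⟩, 0⟩ 0 0))) (.void 64 ⟨0, 0, 0, 100000, 0, 0, 0, 0, 0, ⟨0, 0⟩, 0⟩ 0 0)) (.void 169 ⟨0, 0, 0, 100000, 0, 0, 0, 0, 0, ⟨0, 0⟩, 0⟩ 0 0)))),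
    by decide +kernel⟩

def covers39 : cell.Covers table row39.1 :=
  ⟨(.cut .d 0 (.cut .v 16777216 (.cut .d (-8388608) (.void 1 ⟨0, 0, 0, 0, 0, 100000, 0, 0, 0, ⟨0, 0⟩, 0⟩ 0 0) (.cut .d (-4194304) (.void 1 ⟨0, 0, 0, 0, 0, 72915, 0, 0, 0, ⟨0, 0⟩, 0⟩ 0 0) (.cut .d (-2097152) (.void 1 ⟨0, 0, 0, 0, 0, 99954, 0, 0, 0, ⟨0, 0⟩, 0⟩ 0 0) (.cut .d (-1048576) (.void 1 ⟨0, 0, 0, 0, 0, 100000, 0, 0, 0, ⟨0, 0⟩, 0⟩ 0 0) (.cut .v 8388608 (.void 2 ⟨0, 0, 100000, 0, 0, 0, 0, 0, 0, ⟨0, 0⟩, 0⟩ 0 0) (.cut .v 12582912 (.pos 6 .mm ⟨31853291690, 0, 53649626309, 0, 0, 82269242001, 0, 0, 0, ⟨0, 0⟩, 0⟩ 0 0) (.pos 7 .mm ⟨100887103987, 0, 0, 0, 0, 66885056013, 0, 0, 0, ⟨0, 0⟩, 0⟩ 0 0)))))))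 (.cut .v 4294967296 (.cut .v 268435456 (.cut .v 67108864 (.cut .d (-8388608) (.void 8 ⟨100000, 0, 0, 0, 0, 0, 0, 0, 0, ⟨0, 0⟩, 0⟩ 0 0) (.cut .d (-4194304) (.void 8 ⟨100000, 0, 0, 0, 0, 0, 0, 0, 0, ⟨0, 0⟩, 0⟩ 0 0) (.cut .d (-2097152) (.void 8 ⟨100000, 0, 0, 0, 0, 0, 0, 0, 0, ⟨0, 0⟩, 0⟩ 0 0) (.cut .d (-1048576) (.void 8 ⟨100000, 0, 0, 0, 0, 0, 0, 0, 0, ⟨0, 0⟩, 0⟩ 0 0) (.cut .d (-524288) (.void 8 ⟨100000, 0, 0, 0, 0, 0, 0, 0, 0, ⟨0, 0⟩, 0⟩ 0 0) (.cut .d (-262144) (.void 8 ⟨100000, 0, 0, 0, 0, 0, 0, 0, 0, ⟨0, 0⟩, 0⟩ 0 0) (.cut .d (-131072) (.void 8 ⟨100000, 0, 0, 0, 0, 0, 0, 0, 0, ⟨0, 0⟩, 0⟩ 0 0) (.cut .d (-65536) (.void 8 ⟨100000, 0, 0, 0, 0, 0, 0, 0, 0, ⟨0,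 0⟩, 0⟩ 0 0) (.cut .d (-32768) (.void 8 ⟨100000, 0, 0, 0, 0, 0, 0, 0, 0, ⟨0, 0⟩, 0⟩ 0 0) (.cut .d (-16384) (.void 8 ⟨100000, 0, 0, 0, 0, 0, 0, 0, 0, ⟨0, 0⟩, 0⟩ 0 0) (.pos 8 .mp ⟨126595659887, 0, 0, 0, 0, 0, 0, 0, 0, ⟨0, 0⟩, 0⟩ 0 0))))))))))) (.void 49 ⟨100000, 0, 0, 0, 0, 0, 0, 0, 0, ⟨0, 0⟩, 0⟩ 0 0)) (.void 64 ⟨92335, 0, 0, 7665, 0, 0, 0, 0, 0, ⟨0, 0⟩, 0⟩ 0 0)) (.void 169 ⟨92335, 0, 0, 7665, 0, 0, 0, 0, 0, ⟨0, 0⟩, 0⟩ 0 0))) (.cut .v 16777216 (.cut .v 8388608 (.cut .v 4194304 (.cut .v 2097152 (.cut .v 1048576 (.cut .v 524288 (.cut .v 262144 (.cut .v 131072 (.cut .v 65536 (.cut .v 32768 (.cut .v 16384 (.cut .v 8192 (.cut .v 4096 (.pos 176 .pm ⟨0, 0, 35762617,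 0, 0, 0, 0, 0, 0, ⟨0, 0⟩, 0⟩ 0 0) (.pos 177 .pm ⟨0, 0, 89416469, 0, 0, 0, 0, 0, 0, ⟨0, 0⟩, 0⟩ 0 0)) (.pos 175 .pm ⟨0, 0, 164988276, 0, 0, 0, 0, 0, 0, ⟨0, 0⟩, 0⟩ 0 0)) (.pos 173 .pm ⟨0, 0, 306232738, 0, 0, 0, 0, 0, 0, ⟨0, 0⟩, 0⟩ 0 0)) (.pos 171 .pm ⟨0, 0, 562221244, 0, 0, 0, 0, 0, 0, ⟨0, 0⟩, 0⟩ 0 0)) (.pos 166 .pm ⟨0, 0, 1015516197, 0, 0, 0, 0, 0, 0, ⟨0, 0⟩, 0⟩ 0 0)) (.pos 162 .pm ⟨0, 0, 1815140534, 0, 0, 0, 0, 0, 0, ⟨0, 0⟩, 0⟩ 0 0)) (.pos 148 .pm ⟨0, 0, 3190325680, 0, 0, 0, 0, 0, 0, ⟨0, 0⟩, 0⟩ 0 0)) (.pos 122 .pm ⟨0, 0, 5671078071, 0, 0, 0, 0, 0, 0, ⟨0, 0⟩, 0⟩ 0 0)) (.pos 96 .pm ⟨0, 0, 10581586577, 0, 0, 0, 0, 0, 0, ⟨0, 0⟩, 0⟩ 0 0)) (.pos 72 .pm ⟨0, 0, 20202074865,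 0, 0, 0, 0, 0, 0, ⟨0, 0⟩, 0⟩ 0 0)) (.pos 5 .pm ⟨0, 0, 37659379170, 0, 0, 0, 0, 0, 0, ⟨0, 0⟩, 0⟩ 0 0)) (.pos 3 .pm ⟨0, 0, 39327416750, 0, 0, 0, 0, 0, 0, ⟨0, 0⟩, 0⟩ 0 0)) (.cut .v 4294967296 (.cut .v 268435456 (.cut .v 67108864 (.pos 8 .pp ⟨0, 0, 0, 0, 0, 0, 0, 0, 0, ⟨0, 0⟩, 0⟩ 0 0) (.cut .v 134217728 (.cut .v 100663296 (.cut .d 41162 (.cut .d 20581 (.cut .d 10290 (.cut .d 5145 (.void 77 ⟨100000, 0, 0, 0, 0, 0, 0, 0, 0, ⟨0, 0⟩, 0⟩ 0 0) (.pos 77 .pp ⟨117884602672, 0, 0, 49887557328, 0, 0, 0, 0, 0, ⟨0, 0⟩, 0⟩ 0 0)) (.pos 77 .pp ⟨128794263963, 0, 0, 38977896037, 0, 0, 0, 0, 0, ⟨0, 0⟩, 0⟩ 0 0)) (.pos 77 .pp ⟨0, 148413149303, 0, 19359010697, 0, 0, 0, 0, 0, ⟨0, 0⟩,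 0⟩ 0 0)) (.void 77 ⟨0, 0, 0, 100000, 0, 0, 0, 0, 0, ⟨0, 0⟩, 0⟩ 0 0)) (.void 78 ⟨85732, 0, 0, 14268, 0, 0, 0, 0, 0, ⟨0, 0⟩, 0⟩ 0 0)) (.void 66 ⟨0, 0, 0, 100000, 0, 0, 0, 0, 0, ⟨0, 0⟩, 0⟩ 0 0))) (.void 64 ⟨0, 0, 0, 100000, 0, 0, 0, 0, 0, ⟨0, 0⟩, 0⟩ 0 0)) (.void 169 ⟨0, 0, 0, 100000, 0, 0, 0, 0, 0, ⟨0, 0⟩, 0⟩ 0 0)))),
    by decide +kernel⟩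

def covers40 : cell.Covers table row40.1 :=
  ⟨(.cut .d 0 (.cut .v 16777216 (.cut .d (-8388608) (.void 1 ⟨0, 0, 0, 0, 0, 99998, 0, 0, 0, ⟨0, 0⟩, 0⟩ 0 0) (.cut .v 8388608 (.void 2 ⟨0, 0, 100000, 0, 0, 0, 0, 0, 0, ⟨0, 0⟩, 0⟩ 0 0) (.cut .d (-4194304) (.void 3 ⟨100000, 0, 0, 0, 0, 0, 0, 0, 0, ⟨0, 0⟩, 0⟩ 0 0) (.cut .d (-2097152) (.void 3 ⟨100000, 0, 0, 0, 0, 0, 0, 0, 0, ⟨0, 0⟩, 0⟩ 0 0) (.cut .d (-1048576) (.void 3 ⟨100000, 0, 0, 0, 0, 0, 0, 0, 0, ⟨0, 0⟩, 0⟩ 0 0) (.cut .d (-524288) (.void 3 ⟨100000, 0, 0, 0, 0, 0, 0, 0, 0, ⟨0, 0⟩, 0⟩ 0 0) (.cut .d (-262144) (.void 3 ⟨100000, 0, 0, 0, 0, 0, 0, 0, 0, ⟨0, 0⟩, 0⟩ 0 0) (.cut .v 12582912 (.pos 6 .mm ⟨91432102705, 0,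 76340057295, 0, 0, 0, 0, 0, 0, ⟨0, 0⟩, 0⟩ 0 0) (.pos 7 .mm ⟨167772160000, 0, 0, 0, 0, 0, 0, 0, 0, ⟨0, 0⟩, 0⟩ 0 0))))))))) (.cut .v 4294967296 (.cut .v 268435456 (.cut .v 67108864 (.cut .d (-8388608) (.void 8 ⟨100000, 0, 0, 0, 0, 0, 0, 0, 0, ⟨0, 0⟩, 0⟩ 0 0) (.cut .d (-4194304) (.void 8 ⟨100000, 0, 0, 0, 0, 0, 0, 0, 0, ⟨0, 0⟩, 0⟩ 0 0) (.cut .d (-2097152) (.void 8 ⟨100000, 0, 0, 0, 0, 0, 0, 0, 0, ⟨0, 0⟩, 0⟩ 0 0) (.cut .d (-1048576) (.void 8 ⟨100000, 0, 0, 0, 0, 0, 0, 0, 0, ⟨0, 0⟩, 0⟩ 0 0) (.cut .d (-524288) (.void 8 ⟨100000, 0, 0, 0, 0, 0, 0, 0, 0, ⟨0, 0⟩, 0⟩ 0 0) (.cut .d (-262144) (.void 8 ⟨100000, 0, 0, 0, 0, 0, 0, 0, 0, ⟨0, 0⟩, 0⟩ 0 0) (.cut .d (-131072)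 (.void 8 ⟨100000, 0, 0, 0, 0, 0, 0, 0, 0, ⟨0, 0⟩, 0⟩ 0 0) (.cut .d (-65536) (.void 8 ⟨100000, 0, 0, 0, 0, 0, 0, 0, 0, ⟨0, 0⟩, 0⟩ 0 0) (.cut .d (-32768) (.void 8 ⟨100000, 0, 0, 0, 0, 0, 0, 0, 0, ⟨0, 0⟩, 0⟩ 0 0) (.cut .d (-16384) (.void 8 ⟨100000, 0, 0, 0, 0, 0, 0, 0, 0, ⟨0, 0⟩, 0⟩ 0 0) (.cut .s 16719872 (.pos 8 .mp ⟨167772160000, 0, 0, 0, 0, 0, 0, 0, 0, ⟨0, 0⟩, 0⟩ 0 0) (.cut .s 16723968 (.pos 8 .mp ⟨167772160000, 0, 0, 0, 0, 0, 0, 0, 0, ⟨0, 0⟩, 0⟩ 0 0) (.cut .d (-8192) (.cut .d (-12288) (.void 8 ⟨100000, 0, 0, 0, 0, 0, 0, 0, 0, ⟨0, 0⟩, 0⟩ 0 0) (.pos 8 .mp ⟨167772160000, 0, 0, 0, 0, 0, 0, 0, 0, ⟨0, 0⟩, 0⟩ 0 0)) (.pos 8 .mp ⟨159384791143, 0, 0, 0, 0, 0, 0, 0,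 0, ⟨0, 0⟩, 0⟩ 0 0)))))))))))))) (.void 49 ⟨100000, 0, 0, 0, 0, 0, 0, 0, 0, ⟨0, 0⟩, 0⟩ 0 0)) (.void 64 ⟨92329, 0, 0, 7671, 0, 0, 0, 0, 0, ⟨0, 0⟩, 0⟩ 0 0)) (.void 169 ⟨92328, 0, 0, 7672, 0, 0, 0, 0, 0, ⟨0, 0⟩, 0⟩ 0 0))) (.cut .v 16777216 (.cut .v 8388608 (.cut .v 4194304 (.cut .v 2097152 (.cut .v 1048576 (.cut .v 524288 (.cut .v 262144 (.cut .v 131072 (.cut .v 65536 (.cut .v 32768 (.cut .v 16384 (.cut .v 8192 (.cut .v 4096 (.pos 176 .pm ⟨0, 0, 51909395, 0, 0, 0, 0, 0, 0, ⟨0, 0⟩, 0⟩ 0 0) (.pos 177 .pm ⟨0, 0, 134491879, 0, 0, 0, 0, 0, 0, ⟨0, 0⟩, 0⟩ 0 0)) (.pos 175 .pm ⟨0, 0, 251281353, 0, 0, 0, 0, 0, 0, ⟨0, 0⟩, 0⟩ 0 0)) (.pos 173 .pm ⟨0, 0, 466331984, 0, 0, 0,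 0, 0, 0, ⟨0, 0⟩, 0⟩ 0 0)) (.pos 171 .pm ⟨0, 0, 850129460, 0, 0, 0, 0, 0, 0, ⟨0, 0⟩, 0⟩ 0 0)) (.pos 166 .pm ⟨0, 0, 1539515163, 0, 0, 0, 0, 0, 0, ⟨0, 0⟩, 0⟩ 0 0)) (.pos 162 .pm ⟨0, 0, 2756290946, 0, 0, 0, 0, 0, 0, ⟨0, 0⟩, 0⟩ 0 0)) (.pos 148 .pm ⟨0, 0, 4862850699, 0, 0, 0, 0, 0, 0, ⟨0, 0⟩, 0⟩ 0 0)) (.pos 122 .pm ⟨0, 0, 8745946441, 0, 0, 0, 0, 0, 0, ⟨0, 0⟩, 0⟩ 0 0)) (.pos 96 .pm ⟨0, 0, 16253768578, 0, 0, 0, 0, 0, 0, ⟨0, 0⟩, 0⟩ 0 0)) (.pos 72 .pm ⟨0, 0, 30612481804, 0, 0, 0, 0, 0, 0, ⟨0, 0⟩, 0⟩ 0 0)) (.pos 5 .pm ⟨0, 0, 55882942690, 0, 0, 0, 0, 0, 0, ⟨0, 0⟩, 0⟩ 0 0)) (.pos 3 .pm ⟨0, 0, 55392115233, 0, 0, 0, 0, 0, 0, ⟨0, 0⟩, 0⟩ 0 0)) (.cut .v 4294967296 (.cut .v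 268435456 (.cut .v 67108864 (.pos 8 .pp ⟨0, 0, 0, 0, 0, 0, 0, 0, 0, ⟨0, 0⟩, 0⟩ 0 0) (.cut .v 134217728 (.cut .v 100663296 (.cut .d 32898 (.cut .d 16449 (.cut .d 8224 (.cut .l 7092186 (.void 77 ⟨100000, 0, 0, 0, 0, 0, 0, 0, 0, ⟨0, 0⟩, 0⟩ 0 0) (.pos 77 .pp ⟨167772160000, 0, 0, 0, 0, 0, 0, 0, 0, ⟨0, 0⟩, 0⟩ 0 0)) (.pos 77 .pp ⟨106516971125, 0, 0, 61255188875, 0, 0, 0, 0, 0, ⟨0, 0⟩, 0⟩ 0 0)) (.pos 77 .pp ⟨0, 0, 0, 50288053956, 0, 0, 0, 0, 0, ⟨0, 0⟩, 0⟩ 0 0)) (.void 77 ⟨0, 0, 0, 100000, 0, 0, 0, 0, 0, ⟨0, 0⟩, 0⟩ 0 0)) (.void 78 ⟨85726, 0, 0, 14274, 0, 0, 0, 0, 0, ⟨0, 0⟩, 0⟩ 0 0)) (.void 66 ⟨0, 0, 0, 100000, 0, 0, 0, 0, 0, ⟨0, 0⟩, 0⟩ 0 0))) (.void 64 ⟨0, 0, 0, 100000,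 0, 0, 0, 0, 0, ⟨0, 0⟩, 0⟩ 0 0)) (.void 169 ⟨0, 0, 0, 100000, 0, 0, 0, 0, 0, ⟨0, 0⟩, 0⟩ 0 0)))),
    by decide +kernel⟩

def covers41 : cell.Covers table row41.1 :=
  ⟨(.cut .d 0 (.cut .v 16777216 (.cut .d (-8388608) (.void 1 ⟨0, 0, 0, 0, 0, 106758, 0, 0, 0, ⟨0, 0⟩, 0⟩ 0 0) (.cut .v 8388608 (.void 2 ⟨0, 0, 100000, 0, 0, 0, 0, 0, 0, ⟨0, 0⟩, 0⟩ 0 0) (.cut .d (-4194304) (.void 3 ⟨100000, 0, 0, 0, 0, 0, 0, 0, 0, ⟨0, 0⟩, 0⟩ 0 0) (.cut .d (-2097152) (.void 3 ⟨100000, 0, 0, 0, 0, 0, 0, 0, 0, ⟨0, 0⟩, 0⟩ 0 0) (.cut .d (-1048576) (.void 3 ⟨100000, 0, 0, 0, 0, 0, 0, 0, 0, ⟨0, 0⟩, 0⟩ 0 0) (.cut .d (-524288) (.void 3 ⟨100000, 0, 0, 0, 0, 0, 0, 0, 0, ⟨0, 0⟩, 0⟩ 0 0) (.cut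 .d (-262144) (.void 3 ⟨100000, 0, 0, 0, 0, 0, 0, 0, 0, ⟨0, 0⟩, 0⟩ 0 0) (.cut .d (-131072) (.void 3 ⟨100000, 0, 0, 0, 0, 0, 0, 0, 0, ⟨0, 0⟩, 0⟩ 0 0) (.cut .d (-65536) (.void 3 ⟨100000, 0, 0, 0, 0, 0, 0, 0, 0, ⟨0, 0⟩, 0⟩ 0 0) (.cut .d (-32768) (.void 3 ⟨100000, 0, 0, 0, 0, 0, 0, 0, 0, ⟨0, 0⟩, 0⟩ 0 0) (.pos 3 .mm ⟨31686033428, 0, 0, 0, 0, 136086126572, 0, 0, 0, ⟨0, 0⟩, 0⟩ 0 0))))))))))) (.cut .v 4294967296 (.cut .d (-8388608) (.void 63 ⟨100000, 0, 0, 0, 0, 0, 0, 0, 0, ⟨0, 0⟩, 0⟩ 0 0) (.cut .v 268435456 (.cut .v 67108864 (.cut .d (-4194304) (.void 8 ⟨100000, 0, 0, 0, 0, 0, 0, 0, 0, ⟨0, 0⟩, 0⟩ 0 0) (.cut .d (-2097152) (.void 8 ⟨100000, 0, 0, 0, 0, 0, 0, 0, 0, ⟨0,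 0⟩, 0⟩ 0 0) (.cut .d (-1048576) (.void 8 ⟨100000, 0, 0, 0, 0, 0, 0, 0, 0, ⟨0, 0⟩, 0⟩ 0 0) (.cut .d (-524288) (.void 8 ⟨100000, 0, 0, 0, 0, 0, 0, 0, 0, ⟨0, 0⟩, 0⟩ 0 0) (.cut .d (-262144) (.void 8 ⟨1000000000, 0, 0, 0, 0, 0, 0, 0, 0, ⟨0, 0⟩, 0⟩ 0 0) (.cut .d (-131072) (.void 8 ⟨1000000000, 0, 0, 0, 0, 0, 0, 0, 0, ⟨0, 0⟩, 0⟩ 0 0) (.cut .d (-65536) (.void 8 ⟨1000000000, 0, 0, 0, 0, 0, 0, 0, 0, ⟨0, 0⟩, 0⟩ 0 0) (.cut .d (-32768) (.void 8 ⟨1000000000, 0, 0, 0, 0, 0, 0, 0, 0, ⟨0, 0⟩, 0⟩ 0 0) (.cut .d (-16384) (.void 8 ⟨100000, 0, 0, 0, 0, 0, 0, 0, 0, ⟨0, 0⟩, 0⟩ 0 0) (.cut .d (-8192) (.void 8 ⟨100000, 0, 0, 0, 0, 0, 0, 0, 0, ⟨0, 0⟩, 0⟩ 0 0) (.pos 8 .mp ⟨167772160000,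 0, 0, 0, 0, 0, 0, 0, 0, ⟨0, 0⟩, 0⟩ 0 0))))))))))) (.void 49 ⟨100000, 0, 0, 0, 0, 0, 0, 0, 0, ⟨0, 0⟩, 0⟩ 0 0)) (.void 64 ⟨88893, 0, 0, 11107, 0, 0, 0, 0, 0, ⟨0, 0⟩, 0⟩ 0 0))) (.void 169 ⟨92468, 0, 0, 7532, 0, 0, 0, 0, 0, ⟨0, 0⟩, 0⟩ 0 0))) (.cut .v 16777216 (.cut .v 8388608 (.cut .v 4194304 (.cut .v 2097152 (.cut .v 1048576 (.cut .v 524288 (.cut .v 262144 (.cut .v 131072 (.cut .v 65536 (.cut .v 32768 (.cut .v 16384 (.cut .v 8192 (.cut .v 4096 (.pos 176 .pm ⟨0, 0, 71740196, 0, 0, 0, 0, 0, 0, ⟨0, 0⟩, 0⟩ 0 0) (.pos 177 .pm ⟨0, 0, 150502953, 0, 0, 0, 0, 0, 0, ⟨0, 0⟩, 0⟩ 0 0)) (.pos 175 .pm ⟨0, 0, 279097790, 0, 0, 0, 0, 0, 0, ⟨0, 0⟩, 0⟩ 0 0)) (.pos 173 .pm ⟨0, 0,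 517229978, 0, 0, 0, 0, 0, 0, ⟨0, 0⟩, 0⟩ 0 0)) (.pos 171 .pm ⟨0, 0, 953266494, 0, 0, 0, 0, 0, 0, ⟨0, 0⟩, 0⟩ 0 0)) (.pos 166 .pm ⟨0, 0, 1741377963, 0, 0, 0, 0, 0, 0, ⟨0, 0⟩, 0⟩ 0 0)) (.pos 162 .pm ⟨0, 0, 3145818002, 0, 0, 0, 0, 0, 0, ⟨0, 0⟩, 0⟩ 0 0)) (.pos 148 .pm ⟨0, 0, 5615975317, 0, 0, 0, 0, 0, 0, ⟨0, 0⟩, 0⟩ 0 0)) (.pos 122 .pm ⟨0, 0, 10434011657, 0, 0, 0, 0, 0, 0, ⟨0, 0⟩, 0⟩ 0 0)) (.pos 96 .pm ⟨0, 0, 20253232960, 0, 0, 0, 0, 0, 0, ⟨0, 0⟩, 0⟩ 0 0)) (.pos 72 .pm ⟨0, 0, 40512549970, 0, 0, 0, 0, 0, 0, ⟨0, 0⟩, 0⟩ 0 0)) (.pos 5 .pm ⟨0, 0, 82943225557, 0, 0, 0, 0, 0, 0, ⟨0, 0⟩, 0⟩ 0 0)) (.pos 3 .pm ⟨0, 0, 86001109141, 0, 0, 0, 0, 0, 0, ⟨0, 0⟩, 0⟩ 0 0)) (.cut .v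 4294967296 (.cut .v 268435456 (.cut .v 67108864 (.pos 8 .pp ⟨0, 0, 0, 0, 0, 0, 0, 0, 0, ⟨0, 0⟩, 0⟩ 0 0) (.cut .v 134217728 (.cut .v 100663296 (.cut .s 16736256 (.cut .s 16732160 (.cut .d 24649 (.cut .d 12324 (.cut .d 6162 (.cut .v 83886080 (.pos 103 .pp ⟨167772160000, 0, 0, 0, 0, 0, 0, 0, 0, ⟨0, 0⟩, 0⟩ 0 0) (.void 104 ⟨100000, 0, 0, 0, 0, 0, 0, 0, 0, ⟨0, 0⟩, 0⟩ 0 0)) (.pos 77 .pp ⟨59430068280, 0, 0, 108342091720, 0, 0, 0, 0, 0, ⟨0, 0⟩, 0⟩ 0 0)) (.pos 77 .pp ⟨0, 0, 0, 88835525676, 0, 0, 0, 0, 0, ⟨0, 0⟩, 0⟩ 0 0)) (.void 77 ⟨0, 0, 0, 100000, 0, 0, 0, 0, 0, ⟨0, 0⟩, 0⟩ 0 0)) (.pos 77 .pp ⟨167772160000, 0, 0, 0, 0, 0, 0, 0, 0, ⟨0, 0⟩, 0⟩ 0 0)) (.pos 77 .pp ⟨167772160000,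 0, 0, 0, 0, 0, 0, 0, 0, ⟨0, 0⟩, 0⟩ 0 0)) (.void 78 ⟨85720, 0, 0, 14280, 0, 0, 0, 0, 0, ⟨0, 0⟩, 0⟩ 0 0)) (.void 66 ⟨85720, 0, 0, 14280, 0, 0, 0, 0, 0, ⟨0, 0⟩, 0⟩ 0 0))) (.void 64 ⟨0, 0, 0, 91912, 0, 0, 0, 0, 0, ⟨0, 0⟩, 0⟩ 0 0)) (.cut .s 16736256 (.void 169 ⟨0, 0, 23169, 23548, 0, 49372, 0, 0, 0, ⟨0, 0⟩, 0⟩ 0 0) (.void 169 ⟨0, 0, 0, 100000, 0, 0, 0, 0, 0, ⟨0, 0⟩, 0⟩ 0 0))))),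
    by decide +kernel⟩

def covers42 : cell.Covers table row42.1 :=
  ⟨(.cut .d 0 (.cut .v 16777216 (.cut .d (-8388608) (.void 1 ⟨0, 0, 0, 0, 0, 100000, 0, 0, 0, ⟨0, 0⟩, 0⟩ 0 0) (.cut .d (-4194304) (.void 1 ⟨0, 0, 100000, 0, 0, 0, 0, 0, 0, ⟨0, 0⟩, 0⟩ 0 0) (.cut .d (-2097152) (.void 1 ⟨0, 0, 0, 0, 0, 100000, 0, 0, 0, ⟨0, 0⟩, 0⟩ 0 0) (.cut .d (-1048576) (.void 1 ⟨0, 0, 0, 0, 0, 100000, 0, 0, 0, ⟨0, 0⟩, 0⟩ 0 0) (.cut .d (-524288) (.void 1 ⟨0, 0, 0, 0, 0, 100000, 0, 0, 0, ⟨0, 0⟩, 0⟩ 0 0) (.cut .d (-262144) (.void 1 ⟨0, 0, 0, 0, 0, 100000, 0, 0, 0, ⟨0, 0⟩, 0⟩ 0 0) (.cut .d (-131072) (.void 1 ⟨0, 0, 0, 0, 0, 100000, 0, 0, 0, ⟨0, 0⟩, 0⟩ 0 0) (.cut .d (-65536) (.void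 1 ⟨0, 0, 1239, 0, 0, 98890, 0, 0, 0, ⟨0, 0⟩, 0⟩ 0 0) (.cut .v 8388608 (.void 2 ⟨0, 0, 100000, 0, 0, 0, 0, 0, 0, ⟨0, 0⟩, 0⟩ 0 0) (.cut .d (-32768) (.void 3 ⟨1000000000, 0, 0, 0, 0, 0, 0, 0, 0, ⟨0, 0⟩, 0⟩ 0 0) (.cut .d (-16384) (.void 3 ⟨973642390, 0, 26357610, 0, 0, 0, 0, 0, 0, ⟨0, 0⟩, 0⟩ 0 0) (.pos 3 .mm ⟨162288324903, 0, 5483835097, 0, 0, 0, 0, 0, 0, ⟨0, 0⟩, 0⟩ 0 0)))))))))))) (.cut .v 4294967296 (.cut .d (-8388608) (.void 63 ⟨1000000000, 0, 0, 0, 0, 0, 0, 0, 0, ⟨0, 0⟩, 0⟩ 0 0) (.cut .v 268435456 (.cut .d (-4194304) (.void 48 ⟨1000000000, 0, 0, 0, 0, 0, 0, 0, 0, ⟨0, 0⟩, 0⟩ 0 0) (.cut .v 67108864 (.cut .d (-2097152) (.void 8 ⟨1000000000, 0, 0, 0, 0, 0, 0,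 0, 0, ⟨0, 0⟩, 0⟩ 0 0) (.cut .d (-1048576) (.void 8 ⟨1000000000, 0, 0, 0, 0, 0, 0, 0, 0, ⟨0, 0⟩, 0⟩ 0 0) (.cut .d (-524288) (.void 8 ⟨1000000000, 0, 0, 0, 0, 0, 0, 0, 0, ⟨0, 0⟩, 0⟩ 0 0) (.cut .d (-262144) (.void 8 ⟨1000000000, 0, 0, 0, 0, 0, 0, 0, 0, ⟨0, 0⟩, 0⟩ 0 0) (.cut .d (-131072) (.void 8 ⟨1000000000, 0, 0, 0, 0, 0, 0, 0, 0, ⟨0, 0⟩, 0⟩ 0 0) (.cut .d (-65536) (.void 8 ⟨1000000000, 0, 0, 0, 0, 0, 0, 0, 0, ⟨0, 0⟩, 0⟩ 0 0) (.cut .d (-32768) (.void 8 ⟨1000000000, 0, 0, 0, 0, 0, 0, 0, 0, ⟨0, 0⟩, 0⟩ 0 0) (.cut .d (-16384) (.void 8 ⟨1000000000, 0, 0, 0, 0, 0, 0, 0, 0, ⟨0, 0⟩, 0⟩ 0 0) (.pos 8 .mp ⟨167772160000, 0, 0, 0, 0, 0, 0, 0, 0, ⟨0, 0⟩, 0⟩ 0 0))))))))) (.void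 49 ⟨100000, 0, 0, 0, 0, 0, 0, 0, 0, ⟨0, 0⟩, 0⟩ 0 0))) (.void 64 ⟨100000, 0, 0, 0, 0, 0, 0, 0, 0, ⟨0, 0⟩, 0⟩ 0 0))) (.void 169 ⟨100000, 0, 0, 0, 0, 0, 0, 0, 0, ⟨0, 0⟩, 0⟩ 0 0))) (.cut .v 16777216 (.cut .v 8388608 (.cut .v 4194304 (.cut .v 2097152 (.cut .v 1048576 (.cut .v 524288 (.cut .v 262144 (.cut .v 131072 (.cut .v 65536 (.cut .v 32768 (.cut .v 16384 (.cut .v 8192 (.cut .v 4096 (.pos 176 .pm ⟨0, 0, 70807856, 0, 0, 0, 0, 0, 0, ⟨0, 0⟩, 0⟩ 0 0) (.pos 177 .pm ⟨0, 0, 198905311, 0, 0, 0, 0, 0, 0, ⟨0, 0⟩, 0⟩ 0 0)) (.pos 175 .pm ⟨0, 0, 361726636, 0, 0, 0, 0, 0, 0, ⟨0, 0⟩, 0⟩ 0 0)) (.pos 173 .pm ⟨0, 0, 652150621, 0, 0, 0, 0, 0, 0, ⟨0, 0⟩, 0⟩ 0 0)) (.pos 171 .pm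 ⟨0, 0, 1234931077, 0, 0, 0, 0, 0, 0, ⟨0, 0⟩, 0⟩ 0 0)) (.pos 166 .pm ⟨0, 0, 2441253386, 0, 0, 0, 0, 0, 0, ⟨0, 0⟩, 0⟩ 0 0)) (.pos 162 .pm ⟨0, 0, 4877532109, 0, 0, 0, 0, 0, 0, ⟨0, 0⟩, 0⟩ 0 0)) (.pos 148 .pm ⟨0, 0, 9750220738, 0, 0, 0, 0, 0, 0, ⟨0, 0⟩, 0⟩ 0 0)) (.pos 122 .pm ⟨0, 0, 19496122731, 0, 0, 0, 0, 0, 0, ⟨0, 0⟩, 0⟩ 0 0)) (.pos 96 .pm ⟨0, 0, 38990025659, 0, 0, 0, 0, 0, 0, ⟨0, 0⟩, 0⟩ 0 0)) (.pos 72 .pm ⟨0, 0, 77986227278, 0, 0, 0, 0, 0, 0, ⟨0, 0⟩, 0⟩ 0 0)) (.pos 5 .pm ⟨0, 0, 156012213574, 0, 0, 0, 0, 0, 0, ⟨0, 0⟩, 0⟩ 0 0)) (.pos 3 .pm ⟨0, 0, 167772160000, 0, 0, 0, 0, 0, 0, ⟨0, 0⟩, 0⟩ 0 0)) (.cut .v 4294967296 (.cut .v 268435456 (.cut .v 67108864 (.pos 8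 .pp ⟨0, 0, 0, 0, 0, 0, 0, 0, 0, ⟨0, 0⟩, 0⟩ 0 0) (.cut .d 16417 (.cut .v 134217728 (.pos 65 .pp ⟨0, 0, 0, 167772160000, 0, 0, 0, 0, 0, ⟨0, 0⟩, 0⟩ 0 0) (.cut .s 16750592 (.void 66 ⟨0, 0, 0, 1000000000, 0, 0, 0, 0, 0, ⟨0, 0⟩, 0⟩ 0 0) (.void 66 ⟨0, 0, 0, 100000, 0, 0, 0, 0, 0, ⟨0, 0⟩, 0⟩ 0 0))) (.void 49 ⟨0, 0, 0, 100000, 0, 0, 0, 0, 0, ⟨0, 0⟩, 0⟩ 0 0))) (.void 64 ⟨656409, 0, 0, 203208, 0, 0, 0, 0, 0, ⟨0, 0⟩, 0⟩ 0 0)) (.void 169 ⟨656409, 0, 0, 203208, 0, 0, 0, 0, 0, ⟨0, 0⟩, 0⟩ 0 0)))),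
    by decide +kernel⟩

def covers43 : cell.Covers table row43.1 :=
  ⟨(.cut .d 0 (.cut .v 16777216 (.cut .d (-8388608) (.void 1 ⟨0, 0, 106656, 0, 0, 0, 0, 0, 0, ⟨0, 0⟩, 0⟩ 0 0) (.cut .d (-4194304) (.void 1 ⟨0, 0, 93727, 0, 0, 0, 0, 0, 0, ⟨0, 0⟩, 0⟩ 0 0) (.cut .d (-2097152) (.void 1 ⟨0, 0, 0, 0, 0, 1000000000, 0, 0, 0, ⟨0, 0⟩, 0⟩ 0 0) (.cut .d (-1048576) (.void 1 ⟨0, 0, 0, 0, 0, 1000000000, 0, 0, 0, ⟨0, 0⟩, 0⟩ 0 0) (.cut .d (-524288) (.void 1 ⟨0, 0, 0, 0, 0, 1000000000, 0, 0, 0, ⟨0, 0⟩, 0⟩ 0 0) (.cut .d (-262144) (.void 1 ⟨0, 0, 0, 0, 0, 1000000000, 0, 0, 0, ⟨0, 0⟩, 0⟩ 0 0) (.cut .d (-131072) (.void 1 ⟨0, 0, 0, 0, 0, 1000000000, 0, 0, 0, ⟨0, 0⟩, 0⟩ 0 0) (.cut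 .d (-65536) (.void 1 ⟨0, 0, 0, 0, 0, 1000000000, 0, 0, 0, ⟨0, 0⟩, 0⟩ 0 0) (.cut .d (-32768) (.void 1 ⟨0, 0, 0, 0, 0, 1000000000, 0, 0, 0, ⟨0, 0⟩, 0⟩ 0 0) (.cut .v 8388608 (.void 2 ⟨0, 0, 98194, 0, 0, 0, 0, 0, 0, ⟨0, 0⟩, 0⟩ 0 0) (.cut .d (-16384) (.void 3 ⟨1000000000, 0, 0, 0, 0, 0, 0, 0, 0, ⟨0, 0⟩, 0⟩ 0 0) (.pos 3 .mm ⟨167772160000, 0, 0, 0, 0, 0, 0, 0, 0, ⟨0, 0⟩, 0⟩ 0 0)))))))))))) (.cut .v 4294967296 (.cut .d (-8388608) (.void 63 ⟨1000000000, 0, 0, 0, 0, 0, 0, 0, 0, ⟨0, 0⟩, 0⟩ 0 0) (.cut .v 268435456 (.cut .d (-4194304) (.void 48 ⟨1000000000, 0, 0, 0, 0, 0, 0, 0, 0, ⟨0, 0⟩, 0⟩ 0 0) (.cut .v 67108864 (.cut .d (-2097152) (.void 8 ⟨1000000000, 0, 0, 0, 0, 0,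 0, 0, 0, ⟨0, 0⟩, 0⟩ 0 0) (.cut .d (-1048576) (.void 8 ⟨1000000000, 0, 0, 0, 0, 0, 0, 0, 0, ⟨0, 0⟩, 0⟩ 0 0) (.cut .d (-524288) (.void 8 ⟨1000000000, 0, 0, 0, 0, 0, 0, 0, 0, ⟨0, 0⟩, 0⟩ 0 0) (.cut .d (-262144) (.void 8 ⟨1000000000, 0, 0, 0, 0, 0, 0, 0, 0, ⟨0, 0⟩, 0⟩ 0 0) (.cut .d (-131072) (.void 8 ⟨1000000000, 0, 0, 0, 0, 0, 0, 0, 0, ⟨0, 0⟩, 0⟩ 0 0) (.cut .d (-65536) (.void 8 ⟨1000000000, 0, 0, 0, 0, 0, 0, 0, 0, ⟨0, 0⟩, 0⟩ 0 0) (.cut .d (-32768) (.void 8 ⟨1000000000, 0, 0, 0, 0, 0, 0, 0, 0, ⟨0, 0⟩, 0⟩ 0 0) (.cut .d (-16384) (.void 8 ⟨1000000000, 0, 0, 0, 0, 0, 0, 0, 0, ⟨0, 0⟩, 0⟩ 0 0) (.pos 8 .mp ⟨167772160000, 0, 0, 0, 0, 0, 0, 0, 0, ⟨0, 0⟩, 0⟩ 0 0)))))))))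 (.void 49 ⟨1000000000, 0, 0, 0, 0, 0, 0, 0, 0, ⟨0, 0⟩, 0⟩ 0 0))) (.void 64 ⟨88896, 0, 0, 11104, 0, 0, 0, 0, 0, ⟨0, 0⟩, 0⟩ 0 0))) (.cut .d (-8388608) (.void 169 ⟨100000, 0, 0, 0, 0, 0, 0, 0, 0, ⟨0, 0⟩, 0⟩ 0 0) (.void 169 ⟨100000, 0, 0, 0, 0, 0, 0, 0, 0, ⟨0, 0⟩, 0⟩ 0 0)))) (.cut .v 16777216 (.cut .v 8388608 (.cut .v 4194304 (.cut .d 10254 (.pos 4 .pm ⟨0, 0, 167772160000, 0, 0, 0, 0, 0, 0, ⟨0, 0⟩, 0⟩ 0 0) (.pos 4 .pm ⟨0, 0, 5004183, 0, 0, 0, 0, 0, 0, ⟨0, 0⟩, 0⟩ 0 0)) (.pos 5 .pm ⟨0, 0, 167772160000, 0, 0, 0, 0, 0, 0, ⟨0, 0⟩, 0⟩ 0 0)) (.pos 3 .pm ⟨0, 0, 167772160000, 0, 0, 0, 0, 0, 0, ⟨0, 0⟩, 0⟩ 0 0)) (.cut .v 4294967296 (.cut .v 268435456 (.cut .d 10254 (.cut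 .v 67108864 (.pos 8 .pp ⟨0, 0, 0, 0, 0, 0, 0, 0, 0, ⟨0, 0⟩, 0⟩ 0 0) (.cut .v 134217728 (.pos 65 .pp ⟨167772160000, 0, 0, 0, 0, 0, 0, 0, 0, ⟨0, 0⟩, 0⟩ 0 0) (.cut .s 16760832 (.void 66 ⟨0, 0, 0, 100000, 0, 38229, 0, 0, 0, ⟨0, 0⟩, 0⟩ 0 0) (.void 66 ⟨0, 0, 0, 100000, 0, 0, 0, 0, 0, ⟨0, 0⟩, 0⟩ 0 0)))) (.pos 48 .pp ⟨0, 0, 0, 0, 0, 0, 0, 0, 0, ⟨0, 0⟩, 0⟩ 0 0)) (.cut .s 16760832 (.void 64 ⟨0, 0, 0, 100000, 0, 0, 0, 0, 0, ⟨0, 0⟩, 0⟩ 0 0) (.void 64 ⟨0, 0, 0, 100000, 0, 0, 0, 0, 0, ⟨0, 0⟩, 0⟩ 0 0))) (.void 169 ⟨63767, 0, 18389, 17844, 0, 0, 0, 0, 0, ⟨0, 0⟩, 0⟩ 0 0)))),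
    by decide +kernel⟩

def covers44 : cell.Covers table row44.1 :=
  ⟨(.cut .d 0 (.cut .v 16777216 (.cut .d (-8388608) (.void 1 ⟨0, 0, 0, 0, 0, 1000000000, 0, 0, 0, ⟨0, 0⟩, 0⟩ 0 0) (.cut .d (-4194304) (.void 1 ⟨0, 0, 0, 0, 0, 1000000000, 0, 0, 0, ⟨0, 0⟩, 0⟩ 0 0) (.cut .d (-2097152) (.void 1 ⟨0, 0, 0, 0, 0, 1000000000, 0, 0, 0, ⟨0, 0⟩, 0⟩ 0 0) (.cut .d (-1048576) (.void 1 ⟨0, 0, 0, 0, 0, 1000000000, 0, 0, 0, ⟨0, 0⟩, 0⟩ 0 0) (.cut .d (-524288) (.void 1 ⟨0, 0, 0, 0, 0, 1000000000, 0, 0, 0, ⟨0, 0⟩, 0⟩ 0 0) (.cut .d (-262144) (.void 1 ⟨0, 0, 0, 0, 0, 1000000000, 0, 0, 0, ⟨0, 0⟩, 0⟩ 0 0) (.cut .d (-131072) (.void 1 ⟨0, 0, 0, 0, 0, 1000000000, 0, 0, 0, ⟨0, 0⟩, 0⟩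 0 0) (.cut .d (-65536) (.void 1 ⟨0, 0, 0, 0, 0, 1000000000, 0, 0, 0, ⟨0, 0⟩, 0⟩ 0 0) (.cut .d (-32768) (.void 1 ⟨0, 0, 0, 0, 0, 1000000000, 0, 0, 0, ⟨0, 0⟩, 0⟩ 0 0) (.cut .v 8388608 (.cut .s 16766976 (.void 2 ⟨0, 0, 1000000000, 0, 0, 0, 0, 0, 0, ⟨0, 0⟩, 0⟩ 0 0) (.void 2 ⟨0, 0, 100000, 0, 0, 0, 0, 0, 0, ⟨0, 0⟩, 0⟩ 0 0)) (.cut .d (-16384) (.void 3 ⟨1000000000, 0, 0, 0, 0, 0, 0, 0, 0, ⟨0, 0⟩, 0⟩ 0 0) (.pos 3 .mm ⟨167772160000, 0, 0, 0, 0, 0, 0, 0, 0, ⟨0, 0⟩, 0⟩ 0 0)))))))))))) (.cut .v 4294967296 (.cut .v 268435456 (.cut .d (-8388608) (.void 48 ⟨0, 0, 0, 0, 0, 1000000000, 0, 0, 0, ⟨0, 0⟩, 0⟩ 0 0) (.cut .v 67108864 (.cut .d (-4194304) (.void 8 ⟨1000000000, 0,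 0, 0, 0, 0, 0, 0, 0, ⟨0, 0⟩, 0⟩ 0 0) (.cut .d (-2097152) (.void 8 ⟨1000000000, 0, 0, 0, 0, 0, 0, 0, 0, ⟨0, 0⟩, 0⟩ 0 0) (.cut .d (-1048576) (.void 8 ⟨1000000000, 0, 0, 0, 0, 0, 0, 0, 0, ⟨0, 0⟩, 0⟩ 0 0) (.cut .d (-524288) (.void 8 ⟨1000000000, 0, 0, 0, 0, 0, 0, 0, 0, ⟨0, 0⟩, 0⟩ 0 0) (.cut .d (-262144) (.void 8 ⟨100000, 0, 0, 0, 0, 0, 0, 0, 0, ⟨0, 0⟩, 0⟩ 0 0) (.cut .d (-131072) (.void 8 ⟨1000000000, 0, 0, 0, 0, 0, 0, 0, 0, ⟨0, 0⟩, 0⟩ 0 0) (.cut .d (-65536) (.void 8 ⟨1000000000, 0, 0, 0, 0, 0, 0, 0, 0, ⟨0, 0⟩, 0⟩ 0 0) (.cut .d (-32768) (.void 8 ⟨1000000000, 0, 0, 0, 0, 0, 0, 0, 0, ⟨0, 0⟩, 0⟩ 0 0) (.cut .d (-16384) (.void 8 ⟨1000000000, 0, 0, 0, 0, 0, 0, 0, 0,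 ⟨0, 0⟩, 0⟩ 0 0) (.cut .d (-8192) (.void 8 ⟨1000000000, 0, 0, 0, 0, 0, 0, 0, 0, ⟨0, 0⟩, 0⟩ 0 0) (.pos 8 .mp ⟨167772160000, 0, 0, 0, 0, 0, 0, 0, 0, ⟨0, 0⟩, 0⟩ 0 0))))))))))) (.void 49 ⟨1000000000, 0, 0, 0, 0, 0, 0, 0, 0, ⟨0, 0⟩, 0⟩ 0 0))) (.void 64 ⟨92313, 0, 0, 7687, 0, 0, 0, 0, 0, ⟨0, 0⟩, 0⟩ 0 0)) (.void 169 ⟨92313, 0, 0, 7687, 0, 0, 0, 0, 0, ⟨0, 0⟩, 0⟩ 0 0))) (.cut .v 16777216 (.cut .v 8388608 (.cut .v 4194304 (.cut .d 6150 (.pos 4 .pm ⟨0, 0, 167772160000, 0, 0, 0, 0, 0, 0, ⟨0, 0⟩, 0⟩ 0 0) (.pos 4 .pm ⟨0, 0, 4991854, 0, 0, 0, 0, 0, 0, ⟨0, 0⟩, 0⟩ 0 0)) (.pos 5 .pm ⟨0, 0, 167772160000, 0, 0, 0, 0, 0, 0, ⟨0, 0⟩, 0⟩ 0 0)) (.pos 3 .pm ⟨0, 0, 167772160000, 0, 0,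 0, 0, 0, 0, ⟨0, 0⟩, 0⟩ 0 0)) (.cut .v 4294967296 (.cut .v 268435456 (.cut .v 67108864 (.pos 8 .pp ⟨0, 0, 0, 0, 0, 0, 0, 0, 0, ⟨0, 0⟩, 0⟩ 0 0) (.cut .d 6150 (.cut .v 134217728 (.pos 65 .pp ⟨167772160000, 0, 0, 0, 0, 0, 0, 0, 0, ⟨0, 0⟩, 0⟩ 0 0) (.cut .s 16766976 (.void 66 ⟨0, 0, 0, 100000, 0, 0, 0, 0, 0, ⟨0, 0⟩, 0⟩ 0 0) (.void 66 ⟨0, 0, 0, 100000, 0, 0, 0, 0, 0, ⟨0, 0⟩, 0⟩ 0 0))) (.void 49 ⟨0, 0, 0, 100000, 0, 0, 0, 0, 0, ⟨0, 0⟩, 0⟩ 0 0))) (.void 64 ⟨0, 0, 0, 100000, 0, 0, 0, 0, 0, ⟨0, 0⟩, 0⟩ 0 0)) (.void 169 ⟨0, 0, 0, 100000, 0, 0, 0, 0, 0, ⟨0, 0⟩, 0⟩ 0 0)))),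
    by decide +kernel⟩

def covers45 : cell.Covers table row45.1 :=
  ⟨(.cut .d 0 (.cut .v 16777216 (.cut .d (-8388608) (.void 1 ⟨0, 0, 0, 0, 0, 100000, 0, 0, 0, ⟨0, 0⟩, 0⟩ 0 0) (.cut .d (-4194304) (.void 1 ⟨0, 0, 0, 0, 0, 100000, 0, 0, 0, ⟨0, 0⟩, 0⟩ 0 0) (.cut .d (-2097152) (.void 1 ⟨0, 0, 0, 0, 0, 100000, 0, 0, 0, ⟨0, 0⟩, 0⟩ 0 0) (.cut .d (-1048576) (.void 1 ⟨0, 0, 0, 0, 0, 100000, 0, 0, 0, ⟨0, 0⟩, 0⟩ 0 0) (.cut .d (-524288) (.void 1 ⟨0, 0, 0, 0, 0, 100000, 0, 0, 0, ⟨0, 0⟩, 0⟩ 0 0) (.cut .d (-262144) (.void 1 ⟨0, 0, 0, 0, 0, 100000, 0, 0, 0, ⟨0, 0⟩, 0⟩ 0 0) (.cut .d (-131072) (.void 1 ⟨0, 0, 0, 0, 0, 100000, 0, 0, 0, ⟨0, 0⟩, 0⟩ 0 0) (.cut .d (-65536) (.void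 1 ⟨0, 0, 1299, 0, 0, 98701, 0, 0, 0, ⟨0, 0⟩, 0⟩ 0 0) (.cut .d (-32768) (.void 1 ⟨0, 0, 0, 0, 0, 100000, 0, 0, 0, ⟨0, 0⟩, 0⟩ 0 0) (.cut .d (-16384) (.void 1 ⟨0, 0, 1278, 0, 0, 98722, 0, 0, 0, ⟨0, 0⟩, 0⟩ 0 0) (.cut .d (-8192) (.void 1 ⟨0, 0, 1275, 0, 0, 98725, 0, 0, 0, ⟨0, 0⟩, 0⟩ 0 0) (.cut .v 8388608 (.void 2 ⟨0, 0, 100000, 0, 0, 0, 0, 0, 0, ⟨0, 0⟩, 0⟩ 0 0) (.cut .d (-4096) (.void 3 ⟨72814, 0, 27186, 0, 0, 0, 0, 0, 0, ⟨0, 0⟩, 0⟩ 0 0) (.pos 3 .mm ⟨167772160000, 0, 0, 0, 0, 0, 0, 0, 0, ⟨0, 0⟩, 0⟩ 0 0)))))))))))))) (.cut .v 4294967296 (.cut .d (-8388608) (.void 63 ⟨92420, 0, 0, 3551, 0, 0, 0, 4029, 0, ⟨(-1), 11544164⟩, 0⟩ 0 128) (.cut .v 268435456 (.cut .v 67108864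 (.cut .d (-4194304) (.void 8 ⟨100000, 0, 0, 0, 0, 0, 0, 0, 0, ⟨0, 0⟩, 0⟩ 0 0) (.cut .d (-2097152) (.void 8 ⟨100000, 0, 0, 0, 0, 0, 0, 0, 0, ⟨0, 0⟩, 0⟩ 0 0) (.cut .d (-1048576) (.void 8 ⟨100000, 0, 0, 0, 0, 0, 0, 0, 0, ⟨0, 0⟩, 0⟩ 0 0) (.cut .d (-524288) (.void 8 ⟨100000, 0, 0, 0, 0, 0, 0, 0, 0, ⟨0, 0⟩, 0⟩ 0 0) (.cut .d (-262144) (.void 8 ⟨100000, 0, 0, 0, 0, 0, 0, 0, 0, ⟨0, 0⟩, 0⟩ 0 0) (.cut .d (-131072) (.void 8 ⟨100000, 0, 0, 0, 0, 0, 0, 0, 0, ⟨0, 0⟩, 0⟩ 0 0) (.cut .d (-65536) (.void 8 ⟨100000, 0, 0, 0, 0, 0, 0, 0, 0, ⟨0, 0⟩, 0⟩ 0 0) (.cut .d (-32768) (.void 8 ⟨100000, 0, 0, 0, 0, 0, 0, 0, 0, ⟨0, 0⟩, 0⟩ 0 0) (.cut .d (-16384) (.void 8 ⟨100000, 0, 0, 0, 0,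 0, 0, 0, 0, ⟨0, 0⟩, 0⟩ 0 0) (.cut .d (-8192) (.void 8 ⟨100000, 0, 0, 0, 0, 0, 0, 0, 0, ⟨0, 0⟩, 0⟩ 0 0) (.cut .d (-4096) (.void 8 ⟨100000, 0, 0, 0, 0, 0, 0, 0, 0, ⟨0, 0⟩, 0⟩ 0 0) (.pos 8 .mp ⟨167772160000, 0, 0, 0, 0, 0, 0, 0, 0, ⟨0, 0⟩, 0⟩ 0 0)))))))))))) (.void 49 ⟨100000, 0, 0, 0, 0, 0, 0, 0, 0, ⟨0, 0⟩, 0⟩ 0 0)) (.void 64 ⟨88893, 0, 0, 11107, 0, 0, 0, 0, 0, ⟨0, 0⟩, 0⟩ 0 0))) (.void 169 ⟨92372, 0, 0, 7692, 0, 0, 0, 0, 0, ⟨0, 0⟩, 0⟩ 0 0))) (.cut .v 16777216 (.cut .v 8388608 (.cut .v 4194304 (.cut .v 2097152 (.cut .v 1048576 (.cut .d 4099 (.cut .d 2049 (.void 95 ⟨0, 0, 6657, 263, 0, 0, 0, 0, 0, ⟨0, 0⟩, 0⟩ 0 0) (.pos 95 .pm ⟨0, 0, 47174374483, 0, 0, 0, 0, 0,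 0, ⟨0, 0⟩, 0⟩ 0 0)) (.pos 95 .pm ⟨0, 0, 0, 3787180, 0, 0, 0, 0, 0, ⟨0, 0⟩, 0⟩ 0 0)) (.pos 96 .pm ⟨0, 0, 167772160000, 0, 0, 0, 0, 0, 0, ⟨0, 0⟩, 0⟩ 0 0)) (.pos 72 .pm ⟨0, 0, 167772160000, 0, 0, 0, 0, 0, 0, ⟨0, 0⟩, 0⟩ 0 0)) (.pos 5 .pm ⟨0, 0, 167772160000, 0, 0, 0, 0, 0, 0, ⟨0, 0⟩, 0⟩ 0 0)) (.pos 3 .pm ⟨0, 0, 167772160000, 0, 0, 0, 0, 0, 0, ⟨0, 0⟩, 0⟩ 0 0)) (.cut .v 4294967296 (.cut .v 268435456 (.cut .v 67108864 (.pos 8 .pp ⟨0, 0, 0, 0, 0, 0, 0, 0, 0, ⟨0, 0⟩, 0⟩ 0 0) (.cut .v 134217728 (.pos 65 .pp ⟨0, 0, 0, 167772160000, 0, 0, 0, 0, 0, ⟨0, 0⟩, 0⟩ 0 0) (.void 66 ⟨0, 0, 0, 100000, 0, 0, 0, 0, 0, ⟨0, 0⟩, 0⟩ 0 0))) (.void 64 ⟨0, 0, 0, 100000, 0, 0, 0, 0, 0, ⟨0,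 0⟩, 0⟩ 0 0)) (.void 169 ⟨5389, 0, 45565, 43602, 0, 5445, 0, 0, 0, ⟨0, 0⟩, 0⟩ 0 0)))),
    by decide +kernel⟩

end Vale.Agent.P237.Petty.Cor.Grid.N11.Mid
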